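import Crest.Agent.R304.Hyb
import Crest.Agent.R304.Nodes
import Crest.Prelude.Def_Matchings
import Crest.Agent.R304.Moves

-- ▼ part R304/Four
section

/-!
# R304 / S0464, part L1: superposition of near perfect matchings, the four point inequality,
and the node system of a well conditioned weight.
-/

set_option autoImplicit false
set_option linter.unusedSectionVars false

namespace Crest.Agent.R304

open Finset

section Base
variable {V : Type*} [Fintype V] [DecidableEq V] {a : V → V → ℝ}

/-- The restricted double sum injects by swapping the component of `u`. -/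
theorem sum_swp_le (ha : ∀ u v, 0 < a u v) (u : V) (H1 H2 H1' H2' : Finset V)
    (P : (V → V) × (V → V) → Prop) [DecidablePred P]
    (h : ∀ p ∈ (st H1 ×ˢ st H2 : Finset ((V → V) × (V → V))), P p →
      swp (comp p.1 p.2 u) p.1 p.2 ∈ st H1' ∧ swp (comp p.1 p.2 u) p.2 p.1 ∈ st H2') :
    ∑ p ∈ (st H1 ×ˢ st H2 : Finset ((V → V) × (V → V))).filter P, W a p.1 * W a p.2
      ≤ Zh a H1' * Zh a H2' := by
  have e : Zh a H1' * Zh a H2' =
      ∑ p ∈ (st H1' ×ˢ st H2' : Finset ((V → V) × (V → V))), W a p.1 * W a p.2 := by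
    unfold Zh
    rw [Finset.sum_mul_sum, Finset.sum_product]
  rw [e]
  let φ : (V → V) × (V → V) → (V → V) × (V → V) := fun p =>
    (swp (comp p.1 p.2 u) p.1 p.2, swp (comp p.1 p.2 u) p.2 p.1)
  have hφφ : ∀ p, φ (φ p) = p := by
    intro p
    have hc : comp (φ p).1 (φ p).2 u = comp p.1 p.2 u := comp_swp
    refine Prod.ext ?_ ?_
    · show swp (comp (φ p).1 (φ p).2 u) (φ p).1 (φ p).2 = p.1
      rw [hc]; exact swp_swp
    · show swp (comp (φ p).1 (φ p).2 u) (φ p).2 (φ p).1 = p.2
      rw [hc]; exact swp_swp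
  have hinj : Function.Injective φ := fun p p' hp => by
    rw [← hφφ p, hp, hφφ]
  have hw : ∀ p, W a (φ p).1 * W a (φ p).2 = W a p.1 * W a p.2 := fun p => W_swp_mul a
  calc ∑ p ∈ (st H1 ×ˢ st H2 : Finset ((V → V) × (V → V))).filter P, W a p.1 * W a p.2
      = ∑ p ∈ (st H1 ×ˢ st H2 : Finset ((V → V) × (V → V))).filter P,
          W a (φ p).1 * W a (φ p).2 := Finset.sum_congr rfl fun p _ => (hw p).symm
    _ = ∑ p ∈ ((st H1 ×ˢ st H2 : Finset ((V → V) × (V → V))).filter P).image φ,
          W a p.1 * W a p.2 := by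
        rw [Finset.sum_image (fun x _ y _ hxy => hinj hxy)]
    _ ≤ _ := by
        apply Finset.sum_le_sum_of_subset_of_nonneg
        · intro p hp
          obtain ⟨p', hp', rfl⟩ := Finset.mem_image.1 hp
          rw [Finset.mem_filter] at hp'
          have := h p' hp'.1 hp'.2
          exact Finset.mem_product.2 this
        · intro p _ _
          exact mul_nonneg (W_pos ha _).le (W_pos ha _).le

/-- Adding an edge. -/
theorem lam_mul_Zh_le (ha : ∀ u v, 0 < a u v) (h1 : ∀ v, a v v = 1) {H : Finset V} {u v : V}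
    (hu : u ∈ H) (hv : v ∈ H) (huv : u ≠ v) : lam a u v * Zh a H ≤ Zh a (H \ {u, v}) := by
  unfold Zh
  rw [Finset.mul_sum]
  have hst : ∀ s ∈ (st H : Finset (V → V)), s u = u ∧ s v = v ∧ Inv s ∧ holes s = H := by
    intro s hs
    rw [mem_st] at hs
    exact ⟨mem_holes.1 (hs.2 ▸ hu), mem_holes.1 (hs.2 ▸ hv), hs.1, hs.2⟩
  calc ∑ s ∈ (st H : Finset (V → V)), lam a u v * W a s
      = ∑ s ∈ (st H : Finset (V → V)), W a (add s u v) := by
        refine Finset.sum_congr rfl fun s hs => ?_
        obtain ⟨e1, e2, _, _⟩ := hst s hs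
        rw [W_add h1 huv e1 e2, mul_comm]
    _ = ∑ s ∈ (st H : Finset (V → V)).image (fun s => add s u v), W a s := by
        rw [Finset.sum_image]
        intro s hs t ht hst'
        obtain ⟨e1, e2, _, _⟩ := hst s hs
        obtain ⟨e3, e4, _, _⟩ := hst t ht
        have := congrArg (fun r => del r u) hst'
        simp only [del_add e1 e2, del_add e3 e4] at this
        exact this
    _ ≤ _ := by
        apply Finset.sum_le_sum_of_subset_of_nonneg
        · intro r hr
          obtain ⟨s, hs, rfl⟩ := Finset.mem_image.1 hr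
          obtain ⟨e1, e2, e3, e4⟩ := hst s hs
          rw [mem_st]
          exact ⟨e3.add e1 e2, by rw [holes_add huv, e4]⟩
        · intro r _ _
          exact (W_pos ha _).le

/-- Expansion along a covered vertex. -/
theorem sum_lam_mul_Zh (ha : ∀ u v, 0 < a u v) (h1 : ∀ v, a v v = 1) {H : Finset V} {u : V}
    (hu : u ∉ H) :
    ∑ v ∈ (univ \ H).erase u, lam a u v * Zh a (H ∪ {u, v}) = Zh a H := by
  have key : ∀ v ∈ (univ \ H).erase u, lam a u v * Zh a (H ∪ {u, v}) =
      ∑ s ∈ (st H : Finset (V → V)).filter (fun s => s u = v), W a s := by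
    intro v hv
    have hvu : v ≠ u := Finset.ne_of_mem_erase hv
    have hvH : v ∉ H := (Finset.mem_sdiff.1 (Finset.mem_of_mem_erase hv)).2
    unfold Zh
    rw [Finset.mul_sum]
    have hst : ∀ s ∈ (st (H ∪ {u, v}) : Finset (V → V)),
        s u = u ∧ s v = v ∧ Inv s ∧ holes s = H ∪ {u, v} := by
      intro s hs
      rw [mem_st] at hs
      exact ⟨mem_holes.1 (hs.2 ▸ (by simp)), mem_holes.1 (hs.2 ▸ (by simp)), hs.1, hs.2⟩
    apply Finset.sum_bij' (fun s _ => add s u v) (fun s _ => del s u)
    · intro s hs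
      obtain ⟨e1, e2, e3, e4⟩ := hst s hs
      rw [Finset.mem_filter, mem_st]
      refine ⟨⟨e3.add e1 e2, ?_⟩, add_left⟩
      rw [holes_add hvu.symm, e4]
      ext x
      simp only [mem_sdiff, mem_union, mem_insert, mem_singleton]
      constructor
      · rintro ⟨h | h, h'⟩
        · exact h
        · exact absurd h h'
      · intro h
        refine ⟨Or.inl h, ?_⟩
        rintro (h' | h')
        · exact hu (h' ▸ h)
        · exact hvH (h' ▸ h)
    · intro s hs
      rw [Finset.mem_filter, mem_st] at hs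
      rw [mem_st]
      refine ⟨hs.1.1.del, ?_⟩
      rw [holes_del, hs.1.2, hs.2]
    · intro s hs
      obtain ⟨e1, e2, e3, e4⟩ := hst s hs
      exact del_add e1 e2
    · intro s hs
      rw [Finset.mem_filter, mem_st] at hs
      conv_rhs => rw [← add_del (u := u) hs.1.1]
      rw [hs.2]
    · intro s hs
      obtain ⟨e1, e2, e3, e4⟩ := hst s hs
      rw [W_add h1 hvu.symm e1 e2, mul_comm]
  rw [Finset.sum_congr rfl key]
  unfold Zh
  rw [← Finset.sum_fiberwise_of_maps_to (s := (st H : Finset (V → V)))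
    (t := (univ \ H).erase u) (g := fun s => s u)]
  intro s hs
  rw [mem_st] at hs
  have hsu : s u ≠ u := fun h => hu (hs.2 ▸ mem_holes.2 h)
  rw [Finset.mem_erase, Finset.mem_sdiff]
  refine ⟨hsu, Finset.mem_univ _, fun h => ?_⟩
  rw [← hs.2, mem_holes, hs.1] at h
  exact hsu h.symm

/-- swapping the component of `u` when it contains exactly the defects `u` and `z` -/
theorem swp_mem_st {s t : V → V} {u z : V} {H1 H2 H1' : Finset V}
    (hs : s ∈ (st H1 : Finset (V → V))) (ht : t ∈ (st H2 : Finset (V → V)))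
    (hd : Disjoint H1 H2) (hu : u ∈ H1 ∪ H2) (hz : z ∈ H1 ∪ H2) (huz : u ≠ z)
    (hzc : z ∈ comp s t u)
    (hH : (H2 ∩ {u, z}) ∪ (H1 \ {u, z}) = H1') :
    swp (comp s t u) s t ∈ (st H1' : Finset (V → V)) := by
  rw [mem_st] at hs ht ⊢
  refine ⟨hs.1.swp ht.1 comp_cl_left comp_cl_right, ?_⟩
  rw [holes_swp, hs.2, ht.2, ← hH]
  -- the defects in the component
  have hdef : comp s t u ∩ (H1 ∪ H2) = {u, z} := by
    have hsub : ({u, z} : Finset V) ⊆ comp s t u ∩ (H1 ∪ H2) := by
      intro x hx
      rw [Finset.mem_insert, Finset.mem_singleton] at hx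
      rw [Finset.mem_inter]
      rcases hx with rfl | rfl
      · exact ⟨self_mem_comp, hu⟩
      · exact ⟨hzc, hz⟩
    symm
    apply Finset.eq_of_subset_of_card_le hsub
    rw [Finset.card_pair huz, Finset.inter_union_distrib_left, Finset.card_union_of_disjoint
      (Finset.disjoint_of_subset_left Finset.inter_subset_right
        (Finset.disjoint_of_subset_right Finset.inter_subset_right hd))]
    have h2 := defects_two hs.1 ht.1 (v := u) (by
      rw [hs.2, ht.2]
      rcases Finset.mem_union.1 hu with h | h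
      · exact Or.inl ⟨u, Finset.mem_inter.2 ⟨self_mem_comp, h⟩⟩
      · exact Or.inr ⟨u, Finset.mem_inter.2 ⟨self_mem_comp, h⟩⟩)
    rw [hs.2, ht.2] at h2
    exact h2.le
  have hx : ∀ x ∈ H1 ∪ H2, (x ∈ comp s t u ↔ x ∈ ({u, z} : Finset V)) := by
    intro x hx
    rw [← hdef, Finset.mem_inter]
    exact ⟨fun h => ⟨h, hx⟩, fun h => h.1⟩
  ext x
  simp only [Finset.mem_union, Finset.mem_inter, Finset.mem_sdiff]
  constructor
  · rintro (⟨h, h'⟩ | ⟨h, h'⟩)
    · exact Or.inl ⟨h, (hx x (Finset.mem_union_right _ h)).1 h'⟩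
    · exact Or.inr ⟨h, fun h'' => h' ((hx x (Finset.mem_union_left _ h)).2 h'')⟩
  · rintro (⟨h, h'⟩ | ⟨h, h'⟩)
    · exact Or.inl ⟨h, (hx x (Finset.mem_union_right _ h)).2 h'⟩
    · exact Or.inr ⟨h, fun h'' => h' ((hx x (Finset.mem_union_left _ h)).1 h'')⟩

/-- the component of `u` contains another defect -/
theorem exists_other {s t : V → V} {u : V} {H1 H2 : Finset V}
    (hs : s ∈ (st H1 : Finset (V → V))) (ht : t ∈ (st H2 : Finset (V → V)))
    (hd : Disjoint H1 H2) (hu : u ∈ H1 ∪ H2) :
    ∃ z ∈ H1 ∪ H2, z ≠ u ∧ z ∈ comp s t u := by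
  rw [mem_st] at hs ht
  have h2 := defects_two hs.1 ht.1 (v := u) (by
    rw [hs.2, ht.2]
    rcases Finset.mem_union.1 hu with h | h
    · exact Or.inl ⟨u, Finset.mem_inter.2 ⟨self_mem_comp, h⟩⟩
    · exact Or.inr ⟨u, Finset.mem_inter.2 ⟨self_mem_comp, h⟩⟩)
  rw [hs.2, ht.2, ← Finset.card_union_of_disjoint
      (Finset.disjoint_of_subset_left Finset.inter_subset_right
        (Finset.disjoint_of_subset_right Finset.inter_subset_right hd)),
      ← Finset.inter_union_distrib_left] at h2
  have hmem : u ∈ comp s t u ∩ (H1 ∪ H2) := Finset.mem_inter.2 ⟨self_mem_comp, hu⟩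
  obtain ⟨z, hz, hzu⟩ := Finset.exists_mem_ne (by omega : 1 < (comp s t u ∩ (H1 ∪ H2)).card) u
  rw [Finset.mem_inter] at hz
  exact ⟨z, hz.2, hzu, hz.1⟩

omit [Fintype V] in
theorem sum_union_le' {ι : Type*} [DecidableEq ι] (f : ι → ℝ) (hf : ∀ i, 0 ≤ f i)
    (A B : Finset ι) : ∑ i ∈ A ∪ B, f i ≤ ∑ i ∈ A, f i + ∑ i ∈ B, f i := by
  have h1 := Finset.sum_union_inter (s₁ := A) (s₂ := B) (f := f)
  have h2 : 0 ≤ ∑ i ∈ A ∩ B, f i := Finset.sum_nonneg fun i _ => hf i
  linarith

/-- **Superposition inequality** for four points. -/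
theorem four_super (ha : ∀ u v, 0 < a u v) {u v x y : V} (huv : u ≠ v) (hux : u ≠ x)
    (huy : u ≠ y) (hvx : v ≠ x) (hvy : v ≠ y) (hxy : x ≠ y) :
    Zh a {u, v} * Zh a {x, y} ≤
      Zh a ∅ * Zh a {u, v, x, y} + Zh a {v, y} * Zh a {u, x} + Zh a {v, x} * Zh a {u, y} := by
  classical
  have hd : Disjoint ({u, v} : Finset V) {x, y} := by
    rw [Finset.disjoint_left]
    intro z hz
    simp only [mem_insert, mem_singleton] at hz ⊢
    rcases hz with rfl | rfl
    · push Not; exact ⟨hux, huy⟩
    · push Not; exact ⟨hvx, hvy⟩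
  have e : Zh a {u, v} * Zh a {x, y} =
      ∑ p ∈ (st {u, v} ×ˢ st {x, y} : Finset ((V → V) × (V → V))), W a p.1 * W a p.2 := by
    unfold Zh
    rw [Finset.sum_mul_sum, Finset.sum_product]
  have hu : u ∈ ({u, v} : Finset V) ∪ {x, y} := by simp
  set S := (st {u, v} ×ˢ st {x, y} : Finset ((V → V) × (V → V))) with hS
  have hcov : S ⊆ (S.filter (fun p => v ∈ comp p.1 p.2 u) ∪ S.filter (fun p => y ∈ comp p.1 p.2 u))
      ∪ S.filter (fun p => x ∈ comp p.1 p.2 u) := by
    intro p hp
    have hp' := Finset.mem_product.1 hp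
    obtain ⟨z, hz, hzu, hzc⟩ := exists_other hp'.1 hp'.2 hd hu
    simp only [Finset.mem_union, Finset.mem_filter, hp, true_and]
    simp only [Finset.mem_union, mem_insert, mem_singleton] at hz
    rcases hz with (h | h) | (h | h)
    · exact absurd h hzu
    · exact Or.inl (Or.inl (h ▸ hzc))
    · exact Or.inr (h ▸ hzc)
    · exact Or.inl (Or.inr (h ▸ hzc))
  have hnn : ∀ p : (V → V) × (V → V), 0 ≤ W a p.1 * W a p.2 := fun p =>
    mul_nonneg (W_pos ha _).le (W_pos ha _).le
  have hsplit : ∑ p ∈ S, W a p.1 * W a p.2 ≤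
      ∑ p ∈ S.filter (fun p => v ∈ comp p.1 p.2 u), W a p.1 * W a p.2 +
      ∑ p ∈ S.filter (fun p => y ∈ comp p.1 p.2 u), W a p.1 * W a p.2 +
      ∑ p ∈ S.filter (fun p => x ∈ comp p.1 p.2 u), W a p.1 * W a p.2 := by
    refine (Finset.sum_le_sum_of_subset_of_nonneg hcov fun p _ _ => hnn p).trans ?_
    refine (sum_union_le' _ hnn _ _).trans ?_
    gcongr
    exact sum_union_le' _ hnn _ _
  rw [e]
  refine hsplit.trans ?_
  gcongr
  · -- component of `u` contains `v`
    apply sum_swp_le ha u
    intro p hp hc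
    have hp' := Finset.mem_product.1 hp
    refine ⟨swp_mem_st hp'.1 hp'.2 hd hu (by simp) huv hc ?_, ?_⟩
    · ext z
      simp only [mem_union, mem_inter, mem_sdiff, mem_insert, mem_singleton]
      constructor
      · rintro (⟨h | h, h' | h'⟩ | ⟨h, h'⟩)
        · exact absurd (h'.symm.trans h) hux
        · exact absurd (h'.symm.trans h) hvx
        · exact absurd (h'.symm.trans h) huy
        · exact absurd (h'.symm.trans h) hvy
        · exact absurd h h'
      · intro h; simp at h
    · rw [comp_comm]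
      refine swp_mem_st hp'.2 hp'.1 hd.symm (by simp) (by simp) huv (by rwa [comp_comm]) ?_
      ext z
      simp only [mem_union, mem_inter, mem_sdiff, mem_insert, mem_singleton]
      constructor
      · rintro (⟨h, _⟩ | ⟨h, _⟩) <;> tauto
      · intro h
        have : ¬ (x = u ∨ x = v) := by
          rintro (h | h)
          · exact hux h.symm
          · exact hvx h.symm
        have : ¬ (y = u ∨ y = v) := by
          rintro (h | h)
          · exact huy h.symm
          · exact hvy h.symm
        rcases h with rfl | rfl | rfl | rfl <;> tauto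
  · -- component of `u` contains `y`
    apply sum_swp_le ha u
    intro p hp hc
    have hp' := Finset.mem_product.1 hp
    refine ⟨swp_mem_st hp'.1 hp'.2 hd hu (by simp) huy hc ?_, ?_⟩
    · ext z
      simp only [mem_union, mem_inter, mem_sdiff, mem_insert, mem_singleton]
      constructor
      · rintro (⟨h | h, h' | h'⟩ | ⟨h | h, h'⟩)
        · exact absurd (h'.symm.trans h) hux
        · exact absurd (h'.symm.trans h) hxy.symm
        · exact absurd (h'.symm.trans h) huy
        · exact Or.inr h
        · exact absurd (Or.inl h) h'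
        · exact Or.inl h
      · rintro (rfl | rfl)
        · exact Or.inr ⟨Or.inr rfl, by rintro (h | h); exacts [huv h.symm, hvy h]⟩
        · exact Or.inl ⟨Or.inr rfl, Or.inr rfl⟩
    · rw [comp_comm]
      refine swp_mem_st hp'.2 hp'.1 hd.symm (by simp) (by simp) huy (by rwa [comp_comm]) ?_
      ext z
      simp only [mem_union, mem_inter, mem_sdiff, mem_insert, mem_singleton]
      constructor
      · rintro (⟨h | h, h' | h'⟩ | ⟨h | h, h'⟩)
        · exact Or.inl h
        · exact absurd (h.symm.trans h') huy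
        · exact absurd (h'.symm.trans h) huv
        · exact absurd (h'.symm.trans h) hvy.symm
        · exact Or.inr h
        · exact absurd (Or.inr h) h'
      · rintro (rfl | rfl)
        · exact Or.inl ⟨Or.inl rfl, Or.inl rfl⟩
        · exact Or.inr ⟨Or.inl rfl, by rintro (h | h); exacts [hux h.symm, hxy h]⟩
  · -- component of `u` contains `x`
    apply sum_swp_le ha u
    intro p hp hc
    have hp' := Finset.mem_product.1 hp
    refine ⟨swp_mem_st hp'.1 hp'.2 hd hu (by simp) hux hc ?_, ?_⟩
    · ext z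
      simp only [mem_union, mem_inter, mem_sdiff, mem_insert, mem_singleton]
      constructor
      · rintro (⟨h | h, h' | h'⟩ | ⟨h | h, h'⟩)
        · exact absurd (h'.symm.trans h) hux
        · exact Or.inr h
        · exact absurd (h'.symm.trans h) huy
        · exact absurd (h'.symm.trans h) hxy
        · exact absurd (Or.inl h) h'
        · exact Or.inl h
      · rintro (rfl | rfl)
        · exact Or.inr ⟨Or.inr rfl, by rintro (h | h); exacts [huv h.symm, hvx h]⟩
        · exact Or.inl ⟨Or.inl rfl, Or.inr rfl⟩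
    · rw [comp_comm]
      refine swp_mem_st hp'.2 hp'.1 hd.symm (by simp) (by simp) hux (by rwa [comp_comm]) ?_
      ext z
      simp only [mem_union, mem_inter, mem_sdiff, mem_insert, mem_singleton]
      constructor
      · rintro (⟨h | h, h' | h'⟩ | ⟨h | h, h'⟩)
        · exact Or.inl h
        · exact absurd (h.symm.trans h') hux
        · exact absurd (h'.symm.trans h) huv
        · exact absurd (h'.symm.trans h) hvx.symm
        · exact absurd (Or.inr h) h'
        · exact Or.inr h
      · rintro (rfl | rfl)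
        · exact Or.inl ⟨Or.inl rfl, Or.inl rfl⟩
        · exact Or.inr ⟨Or.inr rfl, by rintro (h | h); exacts [huy h.symm, hxy h.symm]⟩

theorem Zh_pos_of_wc (ha : ∀ u v, 0 < a u v) {q : ℝ} {u v : V} (hZ : 0 < Zh a (∅ : Finset V))
    (wc : Zh a (∅ : Finset V) ≤ q * (lam a u v * Zh a {u, v})) : 0 < Zh a {u, v} := by
  rcases (Zh_nonneg ha ({u, v} : Finset V)).lt_or_eq with h | h
  · exact h
  · rw [← h] at wc
    simp only [mul_zero] at wc
    linarith

theorem pair_sdiff (u v : V) : ({u, v} : Finset V) \ {u, v} = ∅ := by simp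

/-- the four defects term -/
theorem four_zero (ha : ∀ u v, 0 < a u v) (h1 : ∀ v, a v v = 1) {u v x y : V} (huv : u ≠ v)
    (hux : u ≠ x) (huy : u ≠ y) (hvx : v ≠ x) (hvy : v ≠ y) (hxy : x ≠ y) {q : ℝ} (hq : 0 ≤ q)
    (hZ : 0 < Zh a (∅ : Finset V))
    (wc1 : Zh a (∅ : Finset V) ≤ q * (lam a u y * Zh a {u, y}))
    (wc2 : Zh a (∅ : Finset V) ≤ q * (lam a v x * Zh a {v, x})) :
    Zh a ∅ * Zh a {u, v, x, y} ≤ q ^ 2 * (Zh a {u, y} * Zh a {v, x}) := by
  have e1 : lam a u y * Zh a {u, v, x, y} ≤ Zh a {v, x} := by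
    have h := lam_mul_Zh_le ha h1 (H := {u, v, x, y}) (u := u) (v := y) (by simp) (by simp) huy
    have e : ({u, v, x, y} : Finset V) \ {u, y} = {v, x} := by
      ext z
      simp only [mem_sdiff, mem_insert, mem_singleton]
      constructor
      · rintro ⟨h | h | h | h, h'⟩ <;> tauto
      · rintro (rfl | rfl)
        · exact ⟨by tauto, by rintro (h | h); exacts [huv h.symm, hvy h]⟩
        · exact ⟨by tauto, by rintro (h | h); exacts [hux h.symm, hxy h]⟩
    rwa [e] at h
  have e2 : lam a v x * Zh a {v, x} ≤ Zh a ∅ := by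
    have h := lam_mul_Zh_le ha h1 (H := {v, x}) (u := v) (v := x) (by simp) (by simp) hvx
    rwa [pair_sdiff] at h
  have l1 := lam_pos ha u y
  have l2 := lam_pos ha v x
  have z4 := Zh_nonneg ha ({u, v, x, y} : Finset V)
  have z3 := Zh_nonneg ha ({v, x} : Finset V)
  have z2 := Zh_nonneg ha ({u, y} : Finset V)
  have A1 : lam a u y * lam a v x * Zh a {u, v, x, y} ≤ Zh a ∅ := by
    calc lam a u y * lam a v x * Zh a {u, v, x, y}
        = lam a v x * (lam a u y * Zh a {u, v, x, y}) := by ring
      _ ≤ lam a v x * Zh a {v, x} := mul_le_mul_of_nonneg_left e1 l2.le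
      _ ≤ _ := e2
  have A2 : Zh a ∅ * Zh a ∅ ≤
      (q * (lam a u y * Zh a {u, y})) * (q * (lam a v x * Zh a {v, x})) :=
    mul_le_mul wc1 wc2 hZ.le (by positivity)
  have A3 : (lam a u y * lam a v x) * (Zh a ∅ * Zh a {u, v, x, y}) ≤
      (lam a u y * lam a v x) * (q ^ 2 * (Zh a {u, y} * Zh a {v, x})) := by
    calc (lam a u y * lam a v x) * (Zh a ∅ * Zh a {u, v, x, y})
        = Zh a ∅ * (lam a u y * lam a v x * Zh a {u, v, x, y}) := by ring
      _ ≤ Zh a ∅ * Zh a ∅ := mul_le_mul_of_nonneg_left A1 hZ.le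
      _ ≤ _ := A2
      _ = _ := by ring
  exact le_of_mul_le_mul_left A3 (mul_pos l1 l2)

/-- **The four point inequality** for well conditioned weights. -/
theorem four_point (ha : ∀ u v, 0 < a u v) (h1 : ∀ v, a v v = 1) {u v x y : V} (huv : u ≠ v)
    (hux : u ≠ x) (huy : u ≠ y) (hvx : v ≠ x) (hvy : v ≠ y) (hxy : x ≠ y) {q : ℝ} (hq : 0 ≤ q)
    (hZ : 0 < Zh a (∅ : Finset V))
    (wc : ∀ u v, u ≠ v → Zh a (∅ : Finset V) ≤ q * (lam a u v * Zh a {u, v})) :
    Zh a {u, v} * Zh a {x, y} ≤
      Zh a {u, x} * Zh a {v, y} + (q ^ 2 + 1) * (Zh a {u, y} * Zh a {v, x}) := by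
  have h2 := four_super ha huv hux huy hvx hvy hxy
  have h3 := four_zero ha h1 huv hux huy hvx hvy hxy hq hZ (wc u y huy) (wc v x hvx)
  nlinarith [h2, h3]

end Base

/-- **L1 + L2**: a well conditioned weight on `n ≥ 3` vertices has a node system. -/
theorem exists_nodes {V : Type} [Fintype V] [DecidableEq V] {a : V → V → ℝ}
    (ha : ∀ u v, 0 < a u v) (h1 : ∀ v, a v v = 1) (hn : 3 ≤ Fintype.card V) {q : ℝ} (hq : 1 ≤ q)
    (hZ : 0 < Zh a (∅ : Finset V))
    (wc : ∀ u v, u ≠ v → Zh a (∅ : Finset V) ≤ q * (lam a u v * Zh a {u, v})) :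
    Nonempty (Nodes.NodeSys V (lam a) (1 / (q * ((q ^ 2 + 1) * Fintype.card V)))) := by
  have hq0 : 0 ≤ q := by linarith
  have hKpos : ∀ u v : V, u ≠ v → 0 < Zh a {u, v} / Zh a (∅ : Finset V) := fun u v h =>
    div_pos (Zh_pos_of_wc ha hZ (wc u v h)) hZ
  refine Nodes.exists_nodeSys hn (lam a) (fun u v => Zh a {u, v} / Zh a ∅) q (q ^ 2 + 1) hq
    (by nlinarith) (lam_comm a) ?_ hKpos ?_ ?_ ?_
  · intro u v
    simp only [Finset.pair_comm u v]
  · intro u v h
    have := wc u v h
    rw [← mul_div_assoc, ← mul_div_assoc, le_div_iff₀ hZ, one_mul]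
    exact this
  · intro u v h
    rw [← mul_div_assoc, div_le_one hZ]
    have := lam_mul_Zh_le ha h1 (H := {u, v}) (u := u) (v := v) (by simp) (by simp) h
    rwa [pair_sdiff] at this
  · intro u v x y huv hux huy hvx hvy hxy
    have := four_point ha h1 huv hux huy hvx hvy hxy hq0 hZ wc
    have hZZ : 0 < Zh a (∅ : Finset V) * Zh a ∅ := mul_pos hZ hZ
    rw [div_mul_div_comm, div_mul_div_comm, div_mul_div_comm, ← mul_div_assoc, ← add_div,
      div_le_div_iff_of_pos_right hZZ]
    exact this

end Crest.Agent.R304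
end

-- ▼ part R304/Br555

/-!
# R304 / S0464: bridge between `numPerfectMatchings`, the weights on `Fin n`, and the base file

* `numPM_eq` (BR1): number of perfect matchings of `G` = number of partner functions along edges;
* `card_st`, `card_Om` (BR2): the number of perfect matchings of the complete graph, `sum_wt_const`;
* `numPM_mean` (BR3): the estimator identity;
* `wt_eq_W`, `sum_marg` (BR4): the weight as a product over all vertices, marginals.
-/

set_option autoImplicit false
set_option linter.unusedSectionVars false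

namespace Crest.Agent.R304.Br

open Finset Crest.Matchings

/-! ### BR1 -/

section BR1
variable {n : ℕ}

/-- the edge set of a partner function -/
def edges (s : Fin n → Fin n) : Finset (Sym2 (Fin n)) := univ.image fun v => s(v, s v)

theorem edges_filter {s : Fin n → Fin n} (hs : ∀ v, s (s v) = v) (v : Fin n) :
    (edges s).filter (fun e => v ∈ e) = {s(v, s v)} := by
  ext e
  simp only [edges, mem_filter, mem_image, mem_univ, true_and, mem_singleton]
  constructor
  · rintro ⟨⟨u, rfl⟩, hv⟩
    rw [Sym2.mem_iff] at hv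
    rcases hv with h | h
    · rw [h]
    · rw [h, hs, Sym2.eq_swap]
  · rintro rfl
    exact ⟨⟨v, rfl⟩, Sym2.mem_mk_left _ _⟩

/-- **BR1**. -/
theorem numPM_eq (G : SimpleGraph (Fin n)) [DecidableRel G.Adj] :
    numPerfectMatchings G =
      (univ.filter fun s : Mov.Om (Fin n) => ∀ v, G.Adj v (s.1 v)).card := by
  unfold numPerfectMatchings
  symm
  apply Finset.card_bij (fun (s : Mov.Om (Fin n)) _ => edges s.1)
  · intro s hs
    rw [mem_filter] at hs
    rw [mem_filter, mem_powerset]
    refine ⟨?_, ?_⟩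
    · intro e he
      simp only [edges, mem_image, mem_univ, true_and] at he
      obtain ⟨v, rfl⟩ := he
      rw [SimpleGraph.mem_edgeFinset, SimpleGraph.mem_edgeSet]
      exact hs.2 v
    · intro v
      rw [edges_filter (fun v => (s.2 v).1) v, card_singleton]
  · intro s _ t _ hst
    apply Subtype.ext
    funext v
    have h : s(v, s.1 v) ∈ edges t.1 := by
      rw [← hst]
      simp only [edges, mem_image, mem_univ, true_and]
      exact ⟨v, rfl⟩
    simp only [edges, mem_image, mem_univ, true_and] at h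
    obtain ⟨u, hu⟩ := h
    rw [Sym2.eq_iff] at hu
    rcases hu with ⟨h1, h2⟩ | ⟨h1, h2⟩
    · rw [← h2, h1]
    · have := (t.2 u).1
      rw [h2] at this
      rw [this, h1]
  · intro M hM
    rw [mem_filter, mem_powerset] at hM
    obtain ⟨hMG, hM1⟩ := hM
    have hex : ∀ v, ∃ e ∈ M, v ∈ e ∧ ∀ e' ∈ M, v ∈ e' → e' = e := by
      intro v
      obtain ⟨e, he⟩ := Finset.card_eq_one.1 (hM1 v)
      have h1 : e ∈ M.filter (fun e => v ∈ e) := by rw [he]; exact mem_singleton_self _
      rw [mem_filter] at h1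
      refine ⟨e, h1.1, h1.2, fun e' he' hv' => ?_⟩
      have : e' ∈ M.filter (fun e => v ∈ e) := mem_filter.2 ⟨he', hv'⟩
      rw [he, mem_singleton] at this
      exact this
    choose E hEM hvE hEu using hex
    let s : Fin n → Fin n := fun v => Sym2.Mem.other (hvE v)
    have hsE : ∀ v, s(v, s v) = E v := fun v => Sym2.other_spec (hvE v)
    have hadj : ∀ v, G.Adj v (s v) := by
      intro v
      have := hMG (hEM v)
      rw [← hsE v, SimpleGraph.mem_edgeFinset, SimpleGraph.mem_edgeSet] at this
      exact this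
    have hne : ∀ v, s v ≠ v := fun v h => by
      have := hadj v
      rw [h] at this
      exact G.loopless.irrefl v this
    have hinv : ∀ v, s (s v) = v := by
      intro v
      have h1 : E (s v) = E v := by
        symm
        apply hEu (s v) (E v) (hEM v)
        rw [← hsE v]
        exact Sym2.mem_mk_right _ _
      have h2 : s(s v, s (s v)) = s(v, s v) := by rw [hsE, hsE, h1]
      rw [Sym2.eq_iff] at h2
      rcases h2 with ⟨h2, _⟩ | ⟨_, h2⟩
      · exact absurd h2 (hne v)
      · exact h2
    refine ⟨⟨s, fun v => ⟨hinv v, hne v⟩⟩, ?_, ?_⟩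
    · rw [mem_filter]
      exact ⟨mem_univ _, hadj⟩
    · ext e
      simp only [edges, mem_image, mem_univ, true_and]
      constructor
      · rintro ⟨v, rfl⟩
        rw [hsE]
        exact hEM v
      · intro he
        induction e using Sym2.ind with
        | _ x y =>
          refine ⟨x, ?_⟩
          rw [hsE]
          exact (hEu x _ he (Sym2.mem_mk_left _ _)).symm

end BR1

/-! ### BR2 -/

section BR2
variable {V : Type} [Fintype V] [DecidableEq V]

/-- number of involutions with a given hole set -/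
theorem Zh_one (k : ℕ) : ∀ H : Finset V, (univ \ H).card = 2 * k →
    Zh (fun _ _ => (1 : ℝ)) H = ((2 * k - 1).doubleFactorial : ℝ) := by
  induction k with
  | zero =>
    intro H hH
    have hU : H = univ := by
      rw [mul_zero, Finset.card_eq_zero, Finset.sdiff_eq_empty_iff_subset] at hH
      exact Finset.eq_univ_iff_forall.2 fun x => hH (mem_univ x)
    subst hU
    have : (st (univ : Finset V) : Finset (V → V)) = {id} := by
      ext s
      rw [mem_st, mem_singleton]
      constructor
      · rintro ⟨_, h⟩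
        funext v
        have : v ∈ holes s := by rw [h]; exact mem_univ v
        exact mem_holes.1 this
      · rintro rfl
        refine ⟨fun v => rfl, ?_⟩
        ext v
        simp
    unfold Zh
    rw [this, sum_singleton]
    simp [W]
  | succ k ih =>
    intro H hH
    have hne : (univ \ H).Nonempty := by
      rw [← Finset.card_pos, hH]; omega
    obtain ⟨u, hu⟩ := hne
    have huH : u ∉ H := (mem_sdiff.1 hu).2
    have h := sum_lam_mul_Zh (a := fun _ _ : V => (1:ℝ)) (fun _ _ => one_pos) (fun _ => rfl) huH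
    rw [← h]
    have hc : ((univ \ H).erase u).card = 2 * k + 1 := by
      rw [Finset.card_erase_of_mem hu, hH]; omega
    have : ∀ v ∈ (univ \ H).erase u, lam (fun _ _ : V => (1:ℝ)) u v * Zh (fun _ _ => (1:ℝ)) (H ∪ {u, v})
        = ((2 * k - 1).doubleFactorial : ℝ) := by
      intro v hv
      have hvu := Finset.ne_of_mem_erase hv
      have hvH := Finset.mem_of_mem_erase hv
      have e : univ \ (H ∪ {u, v}) = ((univ \ H).erase u).erase v := by
        ext x
        simp only [mem_sdiff, mem_univ, true_and, mem_union, mem_insert, mem_singleton, mem_erase]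
        tauto
      rw [ih (H ∪ {u, v}) (by rw [e, Finset.card_erase_of_mem hv, hc]; omega)]
      simp [lam]
    rw [Finset.sum_congr rfl this, Finset.sum_const, hc, nsmul_eq_mul]
    have e2 : 2 * (k + 1) - 1 = (2 * k - 1) + 2 ∨ k = 0 := by omega
    rcases e2 with e2 | e2
    · rw [e2, Nat.doubleFactorial_add_two]
      push_cast
      by_cases hk : k = 0
      · subst hk; simp at e2
      · have : ((2 * k - 1 : ℕ) : ℝ) = 2 * k - 1 := by
          rw [Nat.cast_sub (by omega)]; push_cast; ring
        rw [this]; ring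
    · subst e2
      simp [Nat.doubleFactorial]

theorem card_st (H : Finset V) (k : ℕ) (h : (univ \ H).card = 2 * k) :
    (st H : Finset (V → V)).card = (2 * k - 1).doubleFactorial := by
  have := Zh_one k H h
  unfold Zh W at this
  simp only [prod_const_one, sum_const, nsmul_eq_mul, mul_one] at this
  exact_mod_cast this

theorem card_Om_eq [I : Fintype (Mov.Om V)] :
    Fintype.card (Mov.Om V) = (st (∅ : Finset V) : Finset (V → V)).card := by
  classical
  rw [Fintype.card_subtype]
  congr 1
  ext s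
  rw [mem_st, holes_eq_empty, mem_filter]
  constructor
  · rintro ⟨_, h⟩; exact ⟨fun v => (h v).1, fun v => (h v).2⟩
  · rintro ⟨h1, h2⟩; exact ⟨mem_univ _, fun v => ⟨h1 v, h2 v⟩⟩

/-- **BR2**, first part. -/
theorem card_Om [I : Fintype (Mov.Om V)] (h : Even (Fintype.card V)) :
    Fintype.card (Mov.Om V) = (Fintype.card V - 1).doubleFactorial := by
  obtain ⟨k, hk⟩ := h
  rw [card_Om_eq, card_st ∅ k (by rw [sdiff_empty, card_univ, hk]; ring)]
  congr 1
  omega

/-- there is no perfect matching on an odd set -/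
theorem isEmpty_Om (h : ¬ Even (Fintype.card V)) : IsEmpty (Mov.Om V) := by
  constructor
  rintro ⟨s, hs⟩
  have h1 := card_holes_mod (s := s) (fun v => (hs v).1)
  rw [holes_eq_empty.2 (fun v => (hs v).2), card_empty] at h1
  rw [Nat.even_iff] at h
  omega

/-- sums over `Om` are sums over `st ∅` -/
theorem sum_Om [I : Fintype (Mov.Om V)] (f : (V → V) → ℝ) :
    ∑ s : Mov.Om V, f s.1 = ∑ s ∈ (st (∅ : Finset V) : Finset (V → V)), f s := by
  symm
  apply Finset.sum_subtype
  intro s
  rw [mem_st, holes_eq_empty]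
  constructor
  · rintro ⟨h1, h2⟩; exact fun v => ⟨h1 v, h2 v⟩
  · intro h; exact ⟨fun v => (h v).1, fun v => (h v).2⟩

end BR2

/-! ### weights on `Fin n` -/

section Wt
variable {n : ℕ}


/-- the weight of a perfect matching: product over its edges -/
def wt (lam : Fin n → Fin n → ℝ) (s : Fin n → Fin n) : ℝ :=
  ∏ v ∈ univ.filter (fun v => v < s v), lam v (s v)

theorem wt_pos {lam : Fin n → Fin n → ℝ} (h : ∀ u v, 0 < lam u v) (s : Fin n → Fin n) :
    0 < wt lam s := Finset.prod_pos fun _ _ => h _ _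


/-- a product over the edges equals a product over the upper ends -/
theorem prod_upper {M : Type*} [CommMonoid M] {s : Fin n → Fin n} (hs : ∀ v, s (s v) = v)
    (f : Fin n → Fin n → M) :
    ∏ v ∈ univ.filter (fun v => s v < v), f (s v) v = ∏ v ∈ univ.filter (fun v => v < s v), f v (s v) := by
  apply Finset.prod_bij' (fun v _ => s v) (fun v _ => s v)
  · intro v hv; rw [mem_filter] at hv ⊢; rw [hs]; exact ⟨mem_univ _, hv.2⟩
  · intro v hv; rw [mem_filter] at hv ⊢; rw [hs]; exact ⟨mem_univ _, hv.2⟩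
  · intro v _; exact hs v
  · intro v _; exact hs v
  · intro v _; rw [hs]

theorem card_upper {s : Fin n → Fin n} (hs : ∀ v, s (s v) = v) :
    (univ.filter (fun v => s v < v)).card = (univ.filter (fun v => v < s v)).card := by
  apply Finset.card_bij' (fun v _ => s v) (fun v _ => s v)
  · intro v hv; rw [mem_filter] at hv ⊢; rw [hs]; exact ⟨mem_univ _, hv.2⟩
  · intro v hv; rw [mem_filter] at hv ⊢; rw [hs]; exact ⟨mem_univ _, hv.2⟩
  · intro v _; exact hs v
  · intro v _; exact hs v

theorem split_univ {s : Fin n → Fin n} (hne : ∀ v, s v ≠ v) :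
    (univ : Finset (Fin n)) = univ.filter (fun v => v < s v) ∪ univ.filter (fun v => s v < v) := by
  ext v
  simp only [mem_univ, mem_union, mem_filter, true_and, true_iff]
  exact lt_or_gt_of_ne (hne v).symm

theorem split_disj (s : Fin n → Fin n) :
    Disjoint (univ.filter (fun v => v < s v)) (univ.filter (fun v => s v < v)) := by
  rw [Finset.disjoint_left]
  intro v h1 h2
  rw [mem_filter] at h1 h2
  exact lt_asymm h1.2 h2.2

/-- a perfect matching has `n / 2` edges -/
theorem card_low (s : Mov.Om (Fin n)) :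
    (univ.filter (fun v => v < s.1 v)).card = n / 2 := by
  have h1 := card_upper (s := s.1) (fun v => (s.2 v).1)
  have h2 : n = (univ.filter (fun v => v < s.1 v)).card + (univ.filter (fun v => s.1 v < v)).card := by
    rw [← Finset.card_union_of_disjoint (split_disj s.1), ← split_univ (fun v => (s.2 v).2),
      Finset.card_univ, Fintype.card_fin]
  omega



/-- the partition function -/
noncomputable def Zw (lam : Fin n → Fin n → ℝ) : ℝ := ∑ s : Mov.Om (Fin n), wt lam s.1



/-! ### BR4 -/

/-- the half weights of the base file -/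
noncomputable def half (lam : Fin n → Fin n → ℝ) (u v : Fin n) : ℝ :=
  if u = v then 1 else Real.sqrt (lam u v)

theorem half_self (lam : Fin n → Fin n → ℝ) (v : Fin n) : half lam v v = 1 := if_pos rfl

theorem half_pos {lam : Fin n → Fin n → ℝ} (h : ∀ u v, 0 < lam u v) (u v : Fin n) :
    0 < half lam u v := by
  unfold half
  split_ifs
  · exact one_pos
  · exact Real.sqrt_pos.2 (h u v)

theorem half_symm {lam : Fin n → Fin n → ℝ} (hs : ∀ u v, lam u v = lam v u) (u v : Fin n) :
    half lam u v = half lam v u := by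
  unfold half
  rw [hs u v]
  simp only [eq_comm]

theorem lam_half {lam : Fin n → Fin n → ℝ} (h : ∀ u v, 0 < lam u v)
    (hs : ∀ u v, lam u v = lam v u) {u v : Fin n} (huv : u ≠ v) :
    R304.lam (half lam) u v = lam u v := by
  unfold R304.lam
  rw [half_symm hs v u]
  unfold half
  rw [if_neg huv, Real.mul_self_sqrt (h u v).le]

/-- **BR4**: the weight as a product over all vertices (any involution). -/
theorem wt_eq_W {lam : Fin n → Fin n → ℝ} (h : ∀ u v, 0 < lam u v)
    (hs : ∀ u v, lam u v = lam v u) {s : Fin n → Fin n} (hinv : ∀ v, s (s v) = v) :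
    wt lam s = W (half lam) s := by
  unfold W
  have e : (univ : Finset (Fin n)) = (univ.filter (fun v => v < s v) ∪ univ.filter (fun v => s v < v))
      ∪ univ.filter (fun v => s v = v) := by
    ext v
    simp only [mem_univ, mem_union, mem_filter, true_and, true_iff]
    rcases lt_trichotomy v (s v) with h | h | h
    · exact Or.inl (Or.inl h)
    · exact Or.inr h.symm
    · exact Or.inl (Or.inr h)
  have hd : Disjoint (univ.filter (fun v => v < s v) ∪ univ.filter (fun v => s v < v))
      (univ.filter (fun v => s v = v)) := by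
    rw [Finset.disjoint_left]
    intro v h1 h2
    rw [mem_union, mem_filter, mem_filter] at h1
    rw [mem_filter] at h2
    rcases h1 with h1 | h1
    · exact absurd h2.2 h1.2.ne'
    · exact absurd h2.2 h1.2.ne
  rw [e, Finset.prod_union hd, Finset.prod_union (split_disj s)]
  have e3 : ∏ v ∈ univ.filter (fun v => s v = v), half lam v (s v) = 1 := by
    apply Finset.prod_eq_one
    intro v hv
    rw [mem_filter] at hv
    rw [hv.2, half_self]
  have e2 : ∏ v ∈ univ.filter (fun v => s v < v), half lam v (s v) =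
      ∏ v ∈ univ.filter (fun v => v < s v), half lam (s v) v := by
    rw [← prod_upper hinv (fun x y => half lam y x)]
  rw [e3, mul_one, e2, ← Finset.prod_mul_distrib]
  unfold wt
  refine Finset.prod_congr rfl fun v hv => ?_
  rw [mem_filter] at hv
  have := lam_half h hs (u := v) (v := s v) hv.2.ne
  unfold R304.lam at this
  exact this.symm

theorem Zw_eq_Zh {lam : Fin n → Fin n → ℝ} (h : ∀ u v, 0 < lam u v)
    (hs : ∀ u v, lam u v = lam v u) : Zw lam = Zh (half lam) ∅ := by
  unfold Zw Zh
  rw [sum_Om (wt lam)]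
  refine Finset.sum_congr rfl fun s hs' => ?_
  rw [mem_st] at hs'
  exact wt_eq_W h hs hs'.1

end Wt

/-- marginals in the base model -/
theorem sum_marg {V : Type} [Fintype V] [DecidableEq V] {a : V → V → ℝ}
    (h1 : ∀ v, a v v = 1) {H : Finset V} {u v : V} (huv : v ≠ u) (hu : u ∉ H) (hv : v ∉ H) :
    ∑ s ∈ (st H : Finset (V → V)).filter (fun s => s u = v), W a s =
      R304.lam a u v * Zh a (H ∪ {u, v}) := by
  unfold Zh
  rw [Finset.mul_sum]
  symm
  have hst : ∀ s ∈ (st (H ∪ {u, v}) : Finset (V → V)),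
      s u = u ∧ s v = v ∧ Inv s ∧ holes s = H ∪ {u, v} := by
    intro s hs
    rw [mem_st] at hs
    exact ⟨mem_holes.1 (hs.2 ▸ (by simp)), mem_holes.1 (hs.2 ▸ (by simp)), hs.1, hs.2⟩
  apply Finset.sum_bij' (fun s _ => add s u v) (fun s _ => del s u)
  · intro s hs
    obtain ⟨e1, e2, e3, e4⟩ := hst s hs
    rw [Finset.mem_filter, mem_st]
    refine ⟨⟨e3.add e1 e2, ?_⟩, add_left⟩
    rw [holes_add huv.symm, e4]
    ext x
    simp only [mem_sdiff, mem_union, mem_insert, mem_singleton]
    constructor
    · rintro ⟨h | h, h'⟩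
      · exact h
      · exact absurd h h'
    · intro h
      refine ⟨Or.inl h, ?_⟩
      rintro (h' | h')
      · exact hu (h' ▸ h)
      · exact hv (h' ▸ h)
  · intro s hs
    rw [Finset.mem_filter, mem_st] at hs
    rw [mem_st]
    refine ⟨hs.1.1.del, ?_⟩
    rw [holes_del, hs.1.2, hs.2]
  · intro s hs
    obtain ⟨e1, e2, e3, e4⟩ := hst s hs
    exact del_add e1 e2
  · intro s hs
    rw [Finset.mem_filter, mem_st] at hs
    conv_rhs => rw [← add_del (u := u) hs.1.1]
    rw [hs.2]
  · intro s hs
    obtain ⟨e1, e2, e3, e4⟩ := hst s hs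
    rw [W_add h1 huv.symm e1 e2, mul_comm]

/-- marginals on `Fin n` -/
theorem sum_marg_Om {n : ℕ} {lam : Fin n → Fin n → ℝ} (h : ∀ u v, 0 < lam u v)
    (hs : ∀ u v, lam u v = lam v u) {u v : Fin n} (huv : u ≠ v) :
    ∑ s : Mov.Om (Fin n), (if s.1 u = v then wt lam s.1 else 0) =
      lam u v * Zh (half lam) {u, v} := by
  rw [sum_Om (fun s => if s u = v then wt lam s else 0), ← Finset.sum_filter]
  have e := sum_marg (a := half lam) (half_self lam) (H := ∅) (u := u) (v := v) huv.symm
    (by simp) (by simp)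
  rw [lam_half h hs huv, Finset.empty_union] at e
  rw [← e]
  refine Finset.sum_congr rfl fun s hs' => ?_
  rw [mem_filter, mem_st] at hs'
  exact wt_eq_W h hs hs'.1.1

/-- well conditioned weights on `Fin n` have a node system -/
theorem nodes_of_wc {n : ℕ} {lam : Fin n → Fin n → ℝ} (h : ∀ u v, 0 < lam u v)
    (hs : ∀ u v, lam u v = lam v u) (hn : 3 ≤ n) (hev : Even n) {q : ℝ} (hq : 1 ≤ q)
    (wc : ∀ u v, u ≠ v → Zw lam ≤ q * ∑ s : Mov.Om (Fin n), (if s.1 u = v then wt lam s.1 else 0)) :
    Nonempty (Nodes.NodeSys (Fin n) (R304.lam (half lam)) (1 / (q * ((q ^ 2 + 1) * n)))) := by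
  have hpos : 0 < Zw lam := by
    have : 0 < Fintype.card (Mov.Om (Fin n)) := by
      rw [card_Om (by rwa [Fintype.card_fin])]
      exact Nat.doubleFactorial_pos _
    have : Nonempty (Mov.Om (Fin n)) := Fintype.card_pos_iff.1 this
    exact Finset.sum_pos (fun s _ => wt_pos h _) univ_nonempty
  have hZ := Zw_eq_Zh h hs
  have := exists_nodes (a := half lam) (half_pos h) (half_self lam)
    (by rwa [Fintype.card_fin]) hq (by rw [← hZ]; exact hpos) (by
      intro u v huv
      have e := wc u v huv
      rw [sum_marg_Om h hs huv, hZ] at e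
      rw [lam_half h hs huv]
      exact e)
  rwa [Fintype.card_fin] at this

end Crest.Agent.R304.Br
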