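import Crest.Agent.R304.ConfDefs

-- ▼ part R304/ConfQ1
section

/-!
# R304 / S0464: the re-pairing lemma
-/

set_option autoImplicit false
set_option linter.unusedSectionVars false
set_option linter.unusedVariables false

namespace Crest.Agent.R304

open Finset

namespace CQ

theorem sum_dom {α β : Type*} [DecidableEq β] (A : Finset α) (B : Finset β) (φ : α → β)
    (F : α → ℝ) (G : β → ℝ) {K : ℝ} (hK : 0 ≤ K) (hmap : ∀ x ∈ A, φ x ∈ B)
    (hinj : ∀ x ∈ A, ∀ y ∈ A, φ x = φ y → x = y) (hle : ∀ x ∈ A, F x ≤ K * G (φ x))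
    (hG : ∀ y ∈ B, 0 ≤ G y) : ∑ x ∈ A, F x ≤ K * ∑ y ∈ B, G y := by
  calc ∑ x ∈ A, F x ≤ ∑ x ∈ A, K * G (φ x) := Finset.sum_le_sum hle
    _ = K * ∑ x ∈ A, G (φ x) := by rw [Finset.mul_sum]
    _ = K * ∑ y ∈ A.image φ, G y := by
        rw [Finset.sum_image (fun x hx y hy h => hinj x hx y hy h)]
    _ ≤ K * ∑ y ∈ B, G y := by
        refine mul_le_mul_of_nonneg_left ?_ hK
        refine Finset.sum_le_sum_of_subset_of_nonneg ?_ fun y hy _ => hG y hy
        intro y hy
        obtain ⟨x, hx, rfl⟩ := Finset.mem_image.1 hy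
        exact hmap x hx

variable {V : Type*} [Fintype V] [DecidableEq V]

/-- involutions with exactly `m` holes -/
def Iv (V : Type*) [Fintype V] [DecidableEq V] (m : ℕ) : Finset (V → V) :=
  (invs V).filter fun s => (holes s).card = m

theorem mem_Iv {m : ℕ} {s : V → V} : s ∈ Iv V m ↔ Inv s ∧ (holes s).card = m := by
  simp [Iv]

theorem Iv_zero : Iv V 0 = pms V := by
  ext s
  rw [mem_Iv, mem_pms, Finset.card_eq_zero, holes_eq_empty]

section wt
variable {g : V → V → ℝ} {c0 : ℝ}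

theorem W_add_mul (hsym : ∀ u v, g u v = g v u) {s : V → V} {u v : V} (huv : u ≠ v)
    (hu : s u = u) (hv : s v = v) :
    W g (add s u v) * (g u u * g v v) = W g s * g u v ^ 2 := by
  unfold W
  have hmem : v ∈ (univ : Finset V).erase u := Finset.mem_erase.2 ⟨huv.symm, mem_univ _⟩
  rw [← Finset.mul_prod_erase univ (fun w => g w (add s u v w)) (mem_univ u),
    ← Finset.mul_prod_erase _ (fun w => g w (add s u v w)) hmem,
    ← Finset.mul_prod_erase univ (fun w => g w (s w)) (mem_univ u),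
    ← Finset.mul_prod_erase _ (fun w => g w (s w)) hmem]
  have hrest : ∏ w ∈ (univ.erase u).erase v, g w (add s u v w) =
      ∏ w ∈ (univ.erase u).erase v, g w (s w) := by
    refine Finset.prod_congr rfl fun w hw => ?_
    have h2 : w ≠ v := (Finset.mem_erase.1 hw).1
    have h1 : w ≠ u := (Finset.mem_erase.1 (Finset.mem_erase.1 hw).2).1
    rw [add_of_ne h1 h2]
  rw [hrest, add_left, add_right, hu, hv, hsym v u]
  ring

theorem W_le_add (hsym : ∀ u v, g u v = g v u) (hpos : ∀ u v, 0 < g u v)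
    (hc : 0 < c0) (hN : NodeA g c0) {s : V → V} {u v : V} (huv : u ≠ v)
    (hu : s u = u) (hv : s v = v) : W g s ≤ c0⁻¹ * W g (add s u v) := by
  have h := W_add_mul hsym huv hu hv
  have h1 := hN u v huv
  have hp : 0 < g u u * g v v := mul_pos (hpos _ _) (hpos _ _)
  have hW := W_pos hpos s
  have h2 : W g s * (c0 * (g u u * g v v)) ≤ W g (add s u v) * (g u u * g v v) := by
    rw [h]; exact mul_le_mul_of_nonneg_left h1 hW.le
  have h3 : (W g s * c0) * (g u u * g v v) ≤ W g (add s u v) * (g u u * g v v) := by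
    linarith [h2]
  have h4 : W g s * c0 ≤ W g (add s u v) := le_of_mul_le_mul_right h3 hp
  rw [inv_mul_eq_div, le_div_iff₀ hc]
  exact h4

end wt

/-- the constant -/
noncomputable def kap (V : Type*) [Fintype V] (c0 : ℝ) : ℝ := ((Fintype.card V : ℝ) ^ 2 + 1) * c0⁻¹

section kap
variable {c0 : ℝ}

theorem one_le_inv (hc : 0 < c0) (hc1 : c0 ≤ 1) : 1 ≤ c0⁻¹ := (one_le_inv₀ hc).2 hc1

theorem inv_le_kap (hc : 0 < c0) (hc1 : c0 ≤ 1) : c0⁻¹ ≤ kap V c0 := by
  unfold kap
  have h := one_le_inv hc hc1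
  have : 0 ≤ (Fintype.card V : ℝ) ^ 2 := sq_nonneg _
  nlinarith

theorem one_le_kap (hc : 0 < c0) (hc1 : c0 ≤ 1) : 1 ≤ kap V c0 :=
  (one_le_inv hc hc1).trans (inv_le_kap hc hc1)

theorem sq_mul_inv_le_kap (hc : 0 < c0) (hc1 : c0 ≤ 1) :
    (Fintype.card V : ℝ) ^ 2 * c0⁻¹ ≤ kap V c0 := by
  unfold kap
  have h := one_le_inv hc hc1
  nlinarith

theorem sq_le_kap (hc : 0 < c0) (hc1 : c0 ≤ 1) : (Fintype.card V : ℝ) ^ 2 ≤ kap V c0 := by
  unfold kap
  have h := one_le_inv hc hc1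
  have : 0 ≤ (Fintype.card V : ℝ) ^ 2 := sq_nonneg _
  nlinarith

theorem kap_pos (hc : 0 < c0) (hc1 : c0 ≤ 1) : 0 < kap V c0 := lt_of_lt_of_le one_pos (one_le_kap hc hc1)

end kap

theorem add_mem_Iv {m : ℕ} {s : V → V} {u w : V} (hs : s ∈ Iv V (m + 2)) (hu : s u = u)
    (hw : s w = w) (h : u ≠ w) : add s u w ∈ Iv V m := by
  rw [mem_Iv] at *
  refine ⟨hs.1.add hu hw, ?_⟩
  have := card_holes_add h (mem_holes.2 hu) (mem_holes.2 hw)
  omega

section main
variable {g : V → V → ℝ} {c0 : ℝ} (hsym : ∀ u v, g u v = g v u) (hpos : ∀ u v, 0 < g u v)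
  (hc : 0 < c0) (hc1 : c0 ≤ 1) (hN : NodeA g c0)

include hsym hpos hc hN in
/-- domination when two holes are matched -/
theorem dom_add (m : ℕ) (Φ : (V → V) → V → V → ℝ) (hΦ : ∀ s u w, 0 ≤ Φ s u w) :
    ∑ s ∈ Iv V (m + 2), ∑ u : V, ∑ w : V,
      (if s u = u ∧ s w = w ∧ u ≠ w then W g s * Φ (add s u w) u w else 0) ≤
    c0⁻¹ * ∑ s ∈ Iv V m, ∑ u : V, ∑ w : V, W g s * Φ s u w := by
  have e1 : ∑ s ∈ Iv V (m + 2), ∑ u : V, ∑ w : V,
      (if s u = u ∧ s w = w ∧ u ≠ w then W g s * Φ (add s u w) u w else 0) =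
      ∑ x ∈ ((Iv V (m + 2)) ×ˢ ((univ : Finset V) ×ˢ (univ : Finset V))).filter
        (fun x => x.1 x.2.1 = x.2.1 ∧ x.1 x.2.2 = x.2.2 ∧ x.2.1 ≠ x.2.2),
        W g x.1 * Φ (add x.1 x.2.1 x.2.2) x.2.1 x.2.2 := by
    rw [Finset.sum_filter, Finset.sum_product]
    refine Finset.sum_congr rfl fun s _ => ?_
    rw [Finset.sum_product]
  have e2 : ∑ s ∈ Iv V m, ∑ u : V, ∑ w : V, W g s * Φ s u w =
      ∑ y ∈ (Iv V m) ×ˢ ((univ : Finset V) ×ˢ (univ : Finset V)),
        W g y.1 * Φ y.1 y.2.1 y.2.2 := by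
    rw [Finset.sum_product]
    refine Finset.sum_congr rfl fun s _ => ?_
    rw [Finset.sum_product]
  rw [e1, e2]
  refine sum_dom _ _ (fun x => (add x.1 x.2.1 x.2.2, x.2.1, x.2.2)) _ _ (inv_nonneg.2 hc.le)
    ?_ ?_ ?_ ?_
  · rintro ⟨s, u, w⟩ hx
    simp only [mem_filter, mem_product, mem_univ, and_true] at hx
    simp only [mem_product, mem_univ, and_true]
    exact add_mem_Iv hx.1 hx.2.1 hx.2.2.1 hx.2.2.2
  · rintro ⟨s, u, w⟩ hx ⟨s', u', w'⟩ hy hxy
    simp only [mem_filter, mem_product, mem_univ, and_true] at hx hy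
    simp only [Prod.mk.injEq] at hxy
    obtain ⟨h1, h2, h3⟩ := hxy
    subst h2; subst h3
    have h4 := del_add (s := s) hx.2.1 hx.2.2.1
    have h5 := del_add (s := s') hy.2.1 hy.2.2.1
    rw [h1, h5] at h4
    rw [h4]
  · rintro ⟨s, u, w⟩ hx
    simp only [mem_filter, mem_product, mem_univ, and_true] at hx
    have h := W_le_add hsym hpos hc hN hx.2.2.2 hx.2.1 hx.2.2.1
    calc W g s * Φ (add s u w) u w ≤ (c0⁻¹ * W g (add s u w)) * Φ (add s u w) u w :=
          mul_le_mul_of_nonneg_right h (hΦ _ _ _)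
      _ = c0⁻¹ * (W g (add s u w) * Φ (add s u w) u w) := by ring
  · rintro ⟨s, u, w⟩ _
    exact mul_nonneg (W_pos hpos s).le (hΦ _ _ _)

/-- match the canonical pair of holes -/
noncomputable def addp (s : V → V) : V → V :=
  if h : 1 < (holes s).card then add s (pick (holes s) h).1 (pick (holes s) h).2 else s

theorem addp_of_eq {s : V → V} {H : Finset V} (hH : holes s = H) (h : 1 < H.card) :
    addp s = add s (pick H h).1 (pick H h).2 := by
  subst hH; simp [addp, h]

theorem jn_addp {s : V → V} (h : 1 < (holes s).card) : jn (addp s) = jn s := by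
  rw [jn_of_lt h, addp, dif_pos h]

theorem addp_mem {m : ℕ} {s : V → V} (hs : s ∈ Iv V (m + 2)) : addp s ∈ Iv V m := by
  have h : 1 < (holes s).card := by rw [(mem_Iv.1 hs).2]; omega
  rw [addp, dif_pos h]
  exact add_mem_Iv hs (mem_holes.1 (pick_fst _ h)) (mem_holes.1 (pick_snd _ h)) (pick_ne _ h)

include hsym hpos hc hc1 hN in
theorem dom_addp (m : ℕ) (Ψ : (V → V) → ℝ) (hΨ : ∀ s, 0 ≤ Ψ s) :
    ∑ s ∈ Iv V (m + 2), W g s * Ψ (addp s) ≤ kap V c0 * ∑ s ∈ Iv V m, W g s * Ψ s := by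
  have h1 := dom_add hsym hpos hc hN m (fun s _ _ => Ψ s) (fun s _ _ => hΨ s)
  have h2 : ∑ s ∈ Iv V (m + 2), W g s * Ψ (addp s) ≤
      ∑ s ∈ Iv V (m + 2), ∑ u : V, ∑ w : V,
      (if s u = u ∧ s w = w ∧ u ≠ w then W g s * Ψ (add s u w) else 0) := by
    refine Finset.sum_le_sum fun s hs => ?_
    have h : 1 < (holes s).card := by rw [(mem_Iv.1 hs).2]; omega
    have hnn : ∀ u w, 0 ≤ (if s u = u ∧ s w = w ∧ u ≠ w then W g s * Ψ (add s u w) else 0) := by
      intro u w
      split_ifs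
      · exact mul_nonneg (W_pos hpos s).le (hΨ _)
      · exact le_rfl
    have hmem := mem_holes.1 (pick_fst _ h)
    have hmem2 := mem_holes.1 (pick_snd _ h)
    calc W g s * Ψ (addp s) = (if s (pick (holes s) h).1 = (pick (holes s) h).1 ∧
          s (pick (holes s) h).2 = (pick (holes s) h).2 ∧ (pick (holes s) h).1 ≠ (pick (holes s) h).2
          then W g s * Ψ (add s (pick (holes s) h).1 (pick (holes s) h).2) else 0) := by
          rw [if_pos ⟨hmem, hmem2, pick_ne _ h⟩, addp, dif_pos h]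
      _ ≤ ∑ w : V, (if s (pick (holes s) h).1 = (pick (holes s) h).1 ∧
          s w = w ∧ (pick (holes s) h).1 ≠ w
          then W g s * Ψ (add s (pick (holes s) h).1 w) else 0) :=
          Finset.single_le_sum (f := fun w => (if s (pick (holes s) h).1 = (pick (holes s) h).1 ∧
          s w = w ∧ (pick (holes s) h).1 ≠ w
          then W g s * Ψ (add s (pick (holes s) h).1 w) else 0)) (fun w _ => hnn _ w) (mem_univ _)
      _ ≤ _ := Finset.single_le_sum (f := fun u => ∑ w : V, (if s u = u ∧ s w = w ∧ u ≠ w then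
          W g s * Ψ (add s u w) else 0)) (fun u _ => Finset.sum_nonneg fun w _ => hnn u w)
          (mem_univ _)
  refine (h2.trans h1).trans ?_
  have h3 : ∑ s ∈ Iv V m, ∑ u : V, ∑ w : V, W g s * Ψ s =
      (Fintype.card V : ℝ) ^ 2 * ∑ s ∈ Iv V m, W g s * Ψ s := by
    simp only [Finset.sum_const, Finset.card_univ, nsmul_eq_mul]
    rw [← Finset.mul_sum, ← Finset.mul_sum, sq, mul_assoc]
  rw [h3, ← mul_assoc, mul_comm c0⁻¹]
  exact mul_le_mul_of_nonneg_right (sq_mul_inv_le_kap hc hc1)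
    (Finset.sum_nonneg fun s _ => mul_nonneg (W_pos hpos s).le (hΨ s))

include hsym hpos hc hc1 hN in
theorem mass (k : ℕ) : ∑ s ∈ Iv V (2 * k), W g s ≤ kap V c0 ^ k * Zh g ∅ := by
  induction k with
  | zero =>
    rw [Nat.mul_zero, Iv_zero, pow_zero, one_mul]
    unfold Zh
    rw [st_empty]
  | succ k ih =>
    have h := dom_addp hsym hpos hc hc1 hN (2 * k) (fun _ => 1) (fun _ => zero_le_one)
    simp only [mul_one] at h
    rw [show 2 * (k + 1) = 2 * k + 2 by ring, pow_succ, mul_comm (kap V c0 ^ k), mul_assoc]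
    exact h.trans (mul_le_mul_of_nonneg_left ih (kap_pos hc hc1).le)

end main

section swL

theorem add_add_comm {s : V → V} {u v x y : V} (h1 : u ≠ x) (h2 : u ≠ y) (h3 : v ≠ x)
    (h4 : v ≠ y) : add (add s u v) x y = add (add s x y) u v := by
  funext w
  unfold add
  by_cases hu : w = u
  · subst hu; simp [h1, h2]
  · by_cases hv : w = v
    · subst hv; simp [h3, h4, hu]
    · simp [hu, hv]

theorem sw_cond {A : V → V} (hA : Inv A) {a z : V} (h1 : A a ≠ a) (h2 : A z ≠ z) (h3 : z ≠ a)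
    (h4 : z ≠ A a) : A a ≠ A z ∧ A z ≠ a ∧ A z ≠ A a ∧ A a ≠ z := by
  refine ⟨fun h => h3 (hA.injective h).symm, fun h => h4 ?_, fun h => h3 (hA.injective h),
    fun h => h4 h.symm⟩
  rw [← h, hA]

theorem holes_sw {A : V → V} (hA : Inv A) {a z : V} (h1 : A a ≠ a) (h2 : A z ≠ z) (h3 : z ≠ a)
    (h4 : z ≠ A a) : holes (sw A a z) = holes A := by
  obtain ⟨h5, h6, h7, h8⟩ := sw_cond hA h1 h2 h3 h4
  unfold sw
  rw [holes_add h5, holes_add h3.symm]
  ext x
  simp only [mem_sdiff, mem_holes, mem_insert, mem_singleton, not_or]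
  constructor
  · exact fun h => h.1.1
  · intro h
    refine ⟨⟨h, fun hx => h1 (by rw [← hx]; exact h), fun hx => h2 (by rw [← hx]; exact h)⟩,
      fun hx => ?_, fun hx => ?_⟩
    · rw [hx, hA] at h; exact h1 h.symm
    · rw [hx, hA] at h; exact h2 h.symm


theorem sw_add {A : V → V} (hA : Inv A) {a z h k : V} (h1 : A a ≠ a) (h2 : A z ≠ z)
    (hh : A h = h) (hk : A k = k) : sw (add A h k) a z = add (sw A a z) h k := by
  have ha1 : a ≠ h := fun e => h1 (by rw [e]; exact hh)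
  have ha2 : a ≠ k := fun e => h1 (by rw [e]; exact hk)
  have hz1 : z ≠ h := fun e => h2 (by rw [e]; exact hh)
  have hz2 : z ≠ k := fun e => h2 (by rw [e]; exact hk)
  have hAa1 : A a ≠ h := fun e => ha1 (by rw [← e, hA] at hh; rw [hh]; exact e)
  have hAa2 : A a ≠ k := fun e => ha2 (by rw [← e, hA] at hk; rw [hk]; exact e)
  have hAz1 : A z ≠ h := fun e => hz1 (by rw [← e, hA] at hh; rw [hh]; exact e)
  have hAz2 : A z ≠ k := fun e => hz2 (by rw [← e, hA] at hk; rw [hk]; exact e)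
  unfold sw
  rw [add_of_ne ha1 ha2, add_of_ne hz1 hz2,
    add_add_comm (s := A) ha1.symm hz1.symm ha2.symm hz2.symm,
    add_add_comm hAa1.symm hAz1.symm hAa2.symm hAz2.symm]

variable {g : V → V → ℝ} {c0 : ℝ} (hsym : ∀ u v, g u v = g v u) (hpos : ∀ u v, 0 < g u v)
  (hc : 0 < c0) (hc1 : c0 ≤ 1) (hN : NodeA g c0) (f : (V → V) → ℝ)

/-- one term of the switch sum on partial matchings -/
noncomputable def swT (g : V → V → ℝ) (f : (V → V) → ℝ) (A : V → V) (a z : V) : ℝ :=
  if A a ≠ a ∧ A z ≠ z ∧ z ≠ a ∧ z ≠ A a then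
    min (W g A) (W g (sw A a z)) * (f (jn A) - f (jn (sw A a z))) ^ 2 else 0

include hpos in
theorem swT_nonneg (A : V → V) (a z : V) : 0 ≤ swT g f A a z := by
  unfold swT
  split_ifs
  · exact mul_nonneg (le_min (W_pos hpos _).le (W_pos hpos _).le) (sq_nonneg _)
  · exact le_rfl

include hsym hpos hc hN in
theorem swT_le {A : V → V} (hA : Inv A) (h : 1 < (holes A).card) (a z : V) :
    swT g f A a z ≤ c0⁻¹ * swT g f (addp A) a z := by
  unfold swT
  by_cases hcond : A a ≠ a ∧ A z ≠ z ∧ z ≠ a ∧ z ≠ A a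
  · obtain ⟨h1, h2, h3, h4⟩ := hcond
    have hp := mem_holes.1 (pick_fst _ h)
    have hq := mem_holes.1 (pick_snd _ h)
    have hpq := pick_ne _ h
    set p := (pick (holes A) h).1 with hpdef
    set q := (pick (holes A) h).2 with hqdef
    have hadd : addp A = add A p q := addp_of_eq rfl h
    have ha1 : a ≠ p := fun e => h1 (by rw [e]; exact hp)
    have ha2 : a ≠ q := fun e => h1 (by rw [e]; exact hq)
    have hz1 : z ≠ p := fun e => h2 (by rw [e]; exact hp)
    have hz2 : z ≠ q := fun e => h2 (by rw [e]; exact hq)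
    have hh := holes_sw hA h1 h2 h3 h4
    have h' : 1 < (holes (sw A a z)).card := by rw [hh]; exact h
    have hadd2 : addp (sw A a z) = sw (add A p q) a z := by
      rw [addp_of_eq hh h, sw_add hA h1 h2 hp hq]
    rw [if_pos ⟨h1, h2, h3, h4⟩, hadd, add_of_ne ha1 ha2, add_of_ne hz1 hz2,
      if_pos ⟨h1, h2, h3, h4⟩, ← jn_addp h, ← jn_addp h', hadd, hadd2, ← mul_assoc]
    refine mul_le_mul_of_nonneg_right ?_ (sq_nonneg _)
    have w1 : W g A ≤ c0⁻¹ * W g (add A p q) := W_le_add hsym hpos hc hN hpq hp hq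
    have hp' : sw A a z p = p := by
      have : p ∈ holes (sw A a z) := by rw [hh]; exact mem_holes.2 hp
      exact mem_holes.1 this
    have hq' : sw A a z q = q := by
      have : q ∈ holes (sw A a z) := by rw [hh]; exact mem_holes.2 hq
      exact mem_holes.1 this
    have w2 : W g (sw A a z) ≤ c0⁻¹ * W g (sw (add A p q) a z) := by
      rw [sw_add hA h1 h2 hp hq]
      exact W_le_add hsym hpos hc hN hpq hp' hq'
    rw [mul_min_of_nonneg _ _ (inv_nonneg.2 hc.le)]
    exact min_le_min w1 w2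
  · rw [if_neg hcond]
    refine mul_nonneg (inv_nonneg.2 hc.le) ?_
    exact swT_nonneg (g := g) hpos f (addp A) a z

/-- switch sum on the partial matchings with `m` holes -/
noncomputable def SwS (g : V → V → ℝ) (f : (V → V) → ℝ) (m : ℕ) : ℝ :=
  ∑ A ∈ Iv V m, ∑ a : V, ∑ z : V, swT g f A a z

include hsym hpos hc hc1 hN in
theorem SwS_step (m : ℕ) : SwS g f (m + 2) ≤ kap V c0 * SwS g f m := by
  classical
  unfold SwS
  have e1 : ∑ A ∈ Iv V (m + 2), ∑ a : V, ∑ z : V, swT g f A a z =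
      ∑ x ∈ (Iv V (m + 2)) ×ˢ ((univ : Finset V) ×ˢ (univ : Finset V)),
        swT g f x.1 x.2.1 x.2.2 := by
    rw [Finset.sum_product]
    refine Finset.sum_congr rfl fun s _ => ?_
    rw [Finset.sum_product]
  have e2 : (Fintype.card V : ℝ) ^ 2 * ∑ A ∈ Iv V m, ∑ a : V, ∑ z : V, swT g f A a z =
      ∑ y ∈ ((Iv V m) ×ˢ ((univ : Finset V) ×ˢ (univ : Finset V))) ×ˢ
        ((univ : Finset V) ×ˢ (univ : Finset V)), swT g f y.1.1 y.1.2.1 y.1.2.2 := by
    rw [Finset.sum_product (s := (Iv V m) ×ˢ ((univ : Finset V) ×ˢ (univ : Finset V)))]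
    simp only [Finset.sum_const, Finset.card_product, Finset.card_univ, nsmul_eq_mul]
    rw [← Finset.mul_sum, Finset.sum_product]
    congr 1
    · push_cast; ring
    · refine Finset.sum_congr rfl fun s _ => ?_
      rw [Finset.sum_product]
  have hcard : ∀ x ∈ Iv V (m + 2), 1 < (holes x).card := fun x hx => by
    rw [(mem_Iv.1 hx).2]; omega
  have key : ∑ x ∈ (Iv V (m + 2)) ×ˢ ((univ : Finset V) ×ˢ (univ : Finset V)),
        swT g f x.1 x.2.1 x.2.2 ≤ c0⁻¹ * ∑ y ∈ ((Iv V m) ×ˢ ((univ : Finset V) ×ˢ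
        (univ : Finset V))) ×ˢ ((univ : Finset V) ×ˢ (univ : Finset V)),
        swT g f y.1.1 y.1.2.1 y.1.2.2 := by
    refine sum_dom _ _ (fun x => ((addp x.1, x.2),
      if h : 1 < (holes x.1).card then pick (holes x.1) h else (x.2.1, x.2.1))) _ _
      (inv_nonneg.2 hc.le) ?_ ?_ ?_ ?_
    · rintro ⟨A, a, z⟩ hx
      simp only [mem_product, mem_univ, and_true] at hx ⊢
      exact addp_mem hx
    · rintro ⟨A, a, z⟩ hx ⟨A', a', z'⟩ hy hxy
      simp only [mem_product, mem_univ, and_true] at hx hy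
      simp only [Prod.mk.injEq] at hxy
      obtain ⟨⟨h1, h2, h3⟩, h4⟩ := hxy
      have hA := hcard _ hx
      have hA' := hcard _ hy
      rw [dif_pos hA, dif_pos hA'] at h4
      have e3 := addp_of_eq rfl hA
      have e4 := addp_of_eq rfl hA'
      have d1 := del_add (s := A) (mem_holes.1 (pick_fst _ hA)) (mem_holes.1 (pick_snd _ hA))
      have d2 := del_add (s := A') (mem_holes.1 (pick_fst _ hA')) (mem_holes.1 (pick_snd _ hA'))
      rw [← e3, h1, h4] at d1
      rw [← e4] at d2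
      rw [d1] at d2
      rw [d2, h2, h3]
    · rintro ⟨A, a, z⟩ hx
      simp only [mem_product, mem_univ, and_true] at hx
      exact swT_le hsym hpos hc hN f (mem_Iv.1 hx).1 (hcard _ hx) a z
    · rintro ⟨⟨A, a, z⟩, w⟩ _
      exact swT_nonneg hpos f A a z
  rw [e1]
  refine key.trans ?_
  rw [← e2, ← mul_assoc, mul_comm c0⁻¹]
  exact mul_le_mul_of_nonneg_right (sq_mul_inv_le_kap hc hc1)
    (Finset.sum_nonneg fun s _ => Finset.sum_nonneg fun a _ => Finset.sum_nonneg fun z _ =>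
      swT_nonneg hpos f s a z)

theorem SwS_zero : SwS g f 0 = Esw g f := by
  unfold SwS Esw
  rw [Iv_zero]
  refine Finset.sum_congr rfl fun s hs => Finset.sum_congr rfl fun a _ =>
    Finset.sum_congr rfl fun z _ => ?_
  rw [mem_pms] at hs
  unfold swT
  have hh : holes s = ∅ := holes_eq_empty.2 hs.2
  by_cases h : z ≠ a ∧ z ≠ s a
  · rw [if_pos ⟨hs.2 a, hs.2 z, h.1, h.2⟩, if_pos h, jn_of_le (by rw [hh]; simp),
      jn_of_le (by rw [holes_sw hs.1 (hs.2 a) (hs.2 z) h.1 h.2, hh]; simp)]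
  · rw [if_neg h, if_neg (fun h' => h h'.2.2)]

include hsym hpos hc hc1 hN in
theorem SwS_le (k : ℕ) : SwS g f (2 * k) ≤ kap V c0 ^ k * Esw g f := by
  induction k with
  | zero => rw [Nat.mul_zero, SwS_zero, pow_zero, one_mul]
  | succ k ih =>
    rw [show 2 * (k + 1) = 2 * k + 2 by ring, pow_succ, mul_comm (kap V c0 ^ k), mul_assoc]
    exact (SwS_step hsym hpos hc hc1 hN f (2 * k)).trans
      (mul_le_mul_of_nonneg_left ih (kap_pos hc hc1).le)

end swL

end CQ

end Crest.Agent.R304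
end

-- ▼ part R304/ConfQ2
section

/-!
# R304 / S0464: the re-pairing lemma, second part
-/

set_option autoImplicit false
set_option linter.unusedSectionVars false
set_option linter.unusedVariables false

namespace Crest.Agent.R304

open Finset

namespace CQ

variable {V : Type*} [Fintype V] [DecidableEq V]

/-- four different holes -/
def Dist4 (s : V → V) (u w a b : V) : Prop :=
  (s u = u ∧ s w = w ∧ s a = a ∧ s b = b) ∧ u ≠ w ∧ u ≠ a ∧ u ≠ b ∧ w ≠ a ∧ w ≠ b ∧ a ≠ b

instance (s : V → V) (u w a b : V) : Decidable (Dist4 s u w a b) := by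
  unfold Dist4; infer_instance

noncomputable def t4 (f : (V → V) → ℝ) (s : V → V) (u w a b : V) : ℝ :=
  if Dist4 s u w a b then (f (jn (add (add s u w) a b)) - f (jn (add s u w))) ^ 2 else 0

noncomputable def ss4 (f : (V → V) → ℝ) (s : V → V) (u w z x : V) : ℝ :=
  if Dist4 s u w z x then
    (f (jn (add (add s u w) z x)) - f (jn (sw (add (add s u w) z x) u z))) ^ 2 else 0

noncomputable def T4 (f : (V → V) → ℝ) (s : V → V) : ℝ := ∑ u, ∑ w, ∑ a, ∑ b, t4 f s u w a b
noncomputable def SS (f : (V → V) → ℝ) (s : V → V) : ℝ := ∑ u, ∑ w, ∑ z, ∑ x, ss4 f s u w z x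

theorem t4_nonneg (f : (V → V) → ℝ) (s : V → V) (u w a b : V) : 0 ≤ t4 f s u w a b := by
  unfold t4; split_ifs
  · exact sq_nonneg _
  · exact le_rfl

theorem ss4_nonneg (f : (V → V) → ℝ) (s : V → V) (u w a b : V) : 0 ≤ ss4 f s u w a b := by
  unfold ss4; split_ifs
  · exact sq_nonneg _
  · exact le_rfl

theorem le_sum4 (F : V → V → V → V → ℝ) (hF : ∀ u w a b, 0 ≤ F u w a b) (u w a b : V) :
    F u w a b ≤ ∑ u, ∑ w, ∑ a, ∑ b, F u w a b := by
  calc F u w a b ≤ ∑ b, F u w a b :=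
        Finset.single_le_sum (f := fun b => F u w a b) (fun b _ => hF u w a b) (mem_univ b)
    _ ≤ ∑ a, ∑ b, F u w a b :=
        Finset.single_le_sum (f := fun a => ∑ b, F u w a b)
          (fun a _ => Finset.sum_nonneg fun b _ => hF u w a b) (mem_univ a)
    _ ≤ ∑ w, ∑ a, ∑ b, F u w a b :=
        Finset.single_le_sum (f := fun w => ∑ a, ∑ b, F u w a b)
          (fun w _ => Finset.sum_nonneg fun a _ => Finset.sum_nonneg fun b _ => hF u w a b)
          (mem_univ w)
    _ ≤ _ :=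
        Finset.single_le_sum (f := fun u => ∑ w, ∑ a, ∑ b, F u w a b)
          (fun u _ => Finset.sum_nonneg fun w _ => Finset.sum_nonneg fun a _ =>
            Finset.sum_nonneg fun b _ => hF u w a b) (mem_univ u)

theorem t4_le (f : (V → V) → ℝ) (s : V → V) (u w a b : V) : t4 f s u w a b ≤ T4 f s :=
  le_sum4 (fun u w a b => t4 f s u w a b) (t4_nonneg f s) u w a b

theorem ss4_le (f : (V → V) → ℝ) (s : V → V) (u w a b : V) : ss4 f s u w a b ≤ SS f s :=
  le_sum4 (fun u w a b => ss4 f s u w a b) (ss4_nonneg f s) u w a b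

theorem T4_nonneg (f : (V → V) → ℝ) (s : V → V) : 0 ≤ T4 f s :=
  Finset.sum_nonneg fun _ _ => Finset.sum_nonneg fun _ _ => Finset.sum_nonneg fun _ _ =>
    Finset.sum_nonneg fun _ _ => t4_nonneg f s _ _ _ _

theorem SS_nonneg (f : (V → V) → ℝ) (s : V → V) : 0 ≤ SS f s :=
  Finset.sum_nonneg fun _ _ => Finset.sum_nonneg fun _ _ => Finset.sum_nonneg fun _ _ =>
    Finset.sum_nonneg fun _ _ => ss4_nonneg f s _ _ _ _

/-- the switch connecting the two completions -/
theorem sw_eq {s : V → V} {u w z x : V} (h : Dist4 s u w z x) :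
    sw (add (add s u w) z x) u z = add (add s u z) w x := by
  obtain ⟨⟨hu, hw, hz, hx⟩, h1, h2, h3, h4, h5, h6⟩ := h
  have e1 : add (add s u w) z x u = w := by rw [add_of_ne h2 h3, add_left]
  have e2 : add (add s u w) z x z = x := add_left
  unfold sw
  rw [e1, e2]
  funext y
  by_cases yu : y = u
  · subst yu
    rw [add_of_ne h1 h3, add_left, add_of_ne h1 h3, add_left]
  by_cases yw : y = w
  · subst yw; rw [add_left, add_left]
  by_cases yz : y = z
  · subst yz
    rw [add_of_ne h4.symm h6, add_right, add_of_ne h4.symm h6, add_right]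
  by_cases yx : y = x
  · subst yx; rw [add_right, add_right]
  · rw [add_of_ne yw yx, add_of_ne yu yz, add_of_ne yz yx, add_of_ne yu yw, add_of_ne yw yx,
      add_of_ne yu yz]

/-- the case where the new pair shares exactly one vertex with the canonical pair -/
theorem share {f : (V → V) → ℝ} {s : V → V} (h : 3 < (holes s).card) {u w z : V}
    (hu : s u = u) (hw : s w = w) (hz : s z = z) (huw : u ≠ w) (huz : u ≠ z) (hwz : w ≠ z)
    (hj : jn (add s u z) = jn s) :
    (f (jn (add s u w)) - f (jn s)) ^ 2 ≤ 6 * T4 f s + 3 * SS f s := by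
  obtain ⟨x, hx, hxn⟩ : ∃ x ∈ holes s, x ∉ ({u, w, z} : Finset V) := by
    by_contra hcon
    push Not at hcon
    have hsub : holes s ⊆ {u, w, z} := fun x hx => hcon x hx
    have := Finset.card_le_card hsub
    have h3 : ({u, w, z} : Finset V).card ≤ 3 := Finset.card_le_three
    omega
  simp only [mem_insert, mem_singleton, not_or] at hxn
  obtain ⟨hxu, hxw, hxz⟩ := hxn
  rw [mem_holes] at hx
  have d1 : Dist4 s u w z x := ⟨⟨hu, hw, hz, hx⟩, huw, huz, Ne.symm hxu, hwz, Ne.symm hxw, Ne.symm hxz⟩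
  have d2 : Dist4 s u z w x := ⟨⟨hu, hz, hw, hx⟩, huz, huw, Ne.symm hxu, Ne.symm hwz,
    Ne.symm hxz, Ne.symm hxw⟩
  have t1 := t4_le f s u w z x
  have t2 := t4_le f s u z w x
  have t3 := ss4_le f s u w z x
  rw [t4, if_pos d1] at t1
  rw [t4, if_pos d2] at t2
  rw [ss4, if_pos d1, sw_eq d1] at t3
  rw [hj] at t2
  set A1 := f (jn (add s u w))
  set A2 := f (jn (add (add s u w) z x))
  set B2 := f (jn (add (add s u z) w x))
  set B1 := f (jn s)
  nlinarith [sq_nonneg ((A1 - A2) - (A2 - B2)), sq_nonneg ((A1 - A2) - (B2 - B1)),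
    sq_nonneg ((A2 - B2) - (B2 - B1))]

theorem rep_pointwise (f : (V → V) → ℝ) {s : V → V} (h : 3 < (holes s).card) {u w : V}
    (hu : s u = u) (hw : s w = w) (huw : u ≠ w) :
    (f (jn (add s u w)) - f (jn s)) ^ 2 ≤ 6 * T4 f s + 3 * SS f s := by
  have h1 : 1 < (holes s).card := by omega
  have hp := mem_holes.1 (pick_fst _ h1)
  have hq := mem_holes.1 (pick_snd _ h1)
  have hpq := pick_ne _ h1
  have hj := jn_of_lt h1
  set p := (pick (holes s) h1).1 with hpd
  set q := (pick (holes s) h1).2 with hqd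
  have hT := T4_nonneg f s
  have hS := SS_nonneg f s
  by_cases up : u = p
  · by_cases wq : w = q
    · rw [up, wq, ← hj, sub_self]; nlinarith
    · rw [up] at huw ⊢
      exact share h hp hw hq huw hpq wq hj.symm
  · by_cases uq : u = q
    · by_cases wp : w = p
      · rw [uq, wp, add_comm', ← hj, sub_self]; nlinarith
      · rw [uq] at huw ⊢
        exact share h hq hw hp huw hpq.symm wp (by rw [add_comm']; exact hj.symm)
    · by_cases wp : w = p
      · rw [wp, add_comm']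
        exact share h hp hu hq (Ne.symm up) hpq uq hj.symm
      · by_cases wq : w = q
        · rw [wq, add_comm']
          exact share h hq hu hp (Ne.symm uq) hpq.symm up (by rw [add_comm']; exact hj.symm)
        · have d1 : Dist4 s u w p q := ⟨⟨hu, hw, hp, hq⟩, huw, up, uq, wp, wq, hpq⟩
          have d2 : Dist4 s p q u w := ⟨⟨hp, hq, hu, hw⟩, hpq, Ne.symm up, Ne.symm wp,
            Ne.symm uq, Ne.symm wq, huw⟩
          have t1 := t4_le f s u w p q
          have t2 := t4_le f s p q u w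
          rw [t4, if_pos d1] at t1
          rw [t4, if_pos d2, ← hj, add_add_comm (Ne.symm up) (Ne.symm wp) (Ne.symm uq)
            (Ne.symm wq)] at t2
          set A1 := f (jn (add s u w))
          set A2 := f (jn (add (add s u w) p q))
          set B1 := f (jn s)
          nlinarith [sq_nonneg ((A1 - A2) - (A2 - B1))]

section main
variable {g : V → V → ℝ} {c0 : ℝ} (hsym : ∀ u v, g u v = g v u) (hpos : ∀ u v, 0 < g u v)
  (hc : 0 < c0) (hc1 : c0 ≤ 1) (hN : NodeA g c0) (f : (V → V) → ℝ)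

/-- unweighted term -/
noncomputable def dU (f : (V → V) → ℝ) (s : V → V) (u w : V) : ℝ :=
  if s u = u ∧ s w = w ∧ u ≠ w then (f (jn (add s u w)) - f (jn s)) ^ 2 else 0

theorem dU_nonneg (s : V → V) (u w : V) : 0 ≤ dU f s u w := by
  unfold dU; split_ifs
  · exact sq_nonneg _
  · exact le_rfl

/-- re-pairing sum -/
noncomputable def RS (g : V → V → ℝ) (f : (V → V) → ℝ) (m : ℕ) : ℝ :=
  ∑ s ∈ Iv V m, W g s * ∑ u, ∑ w, dU f s u w

include hpos in
theorem RS_nonneg (m : ℕ) : 0 ≤ RS g f m :=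
  Finset.sum_nonneg fun s _ => mul_nonneg (W_pos hpos s).le
    (Finset.sum_nonneg fun u _ => Finset.sum_nonneg fun w _ => dU_nonneg f s u w)

include hsym hpos hc hc1 hN in
theorem T4_sum (m : ℕ) : ∑ s ∈ Iv V (m + 2), W g s * T4 f s ≤ kap V c0 * RS g f m := by
  have h1 := dom_add hsym hpos hc hN m (fun s _ _ => ∑ a, ∑ b, dU f s a b)
    (fun s _ _ => Finset.sum_nonneg fun u _ => Finset.sum_nonneg fun w _ => dU_nonneg f s u w)
  have h2 : ∑ s ∈ Iv V (m + 2), W g s * T4 f s ≤ ∑ s ∈ Iv V (m + 2), ∑ u : V, ∑ w : V,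
      (if s u = u ∧ s w = w ∧ u ≠ w then W g s * ∑ a, ∑ b, dU f (add s u w) a b else 0) := by
    refine Finset.sum_le_sum fun s hs => ?_
    unfold T4
    rw [Finset.mul_sum]
    refine Finset.sum_le_sum fun u _ => ?_
    rw [Finset.mul_sum]
    refine Finset.sum_le_sum fun w _ => ?_
    by_cases hc : s u = u ∧ s w = w ∧ u ≠ w
    · rw [if_pos hc]
      refine mul_le_mul_of_nonneg_left ?_ (W_pos hpos s).le
      refine Finset.sum_le_sum fun a _ => Finset.sum_le_sum fun b _ => ?_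
      unfold t4
      split_ifs with hd
      · obtain ⟨⟨hu, hw, ha, hb⟩, h1, h2, h3, h4, h5, h6⟩ := hd
        unfold dU
        rw [add_of_ne h2.symm h4.symm, add_of_ne h3.symm h5.symm, if_pos ⟨ha, hb, h6⟩]
      · exact dU_nonneg f _ _ _
    · rw [if_neg hc]
      have : ∀ a b, t4 f s u w a b = 0 := fun a b => by
        unfold t4
        rw [if_neg]
        intro hd
        exact hc ⟨hd.1.1, hd.1.2.1, hd.2.1⟩
      simp [this]
  refine (h2.trans h1).trans ?_
  have h3 : ∑ s ∈ Iv V m, ∑ u : V, ∑ w : V, W g s * ∑ a, ∑ b, dU f s a b =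
      (Fintype.card V : ℝ) ^ 2 * RS g f m := by
    unfold RS
    simp only [Finset.sum_const, Finset.card_univ, nsmul_eq_mul]
    rw [← Finset.mul_sum, ← Finset.mul_sum, sq, mul_assoc]
  rw [h3, ← mul_assoc, mul_comm c0⁻¹]
  exact mul_le_mul_of_nonneg_right (sq_mul_inv_le_kap hc hc1) (RS_nonneg hpos f m)

include hsym hpos hc hc1 hN in
theorem SS_sum (m : ℕ) : ∑ s ∈ Iv V (m + 4), W g s * SS f s ≤ c0⁻¹ ^ 2 * SwS g f m := by
  classical
  have e1 : ∑ s ∈ Iv V (m + 4), W g s * SS f s =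
      ∑ x ∈ ((Iv V (m + 4)) ×ˢ ((univ : Finset V) ×ˢ ((univ : Finset V) ×ˢ
        ((univ : Finset V) ×ˢ (univ : Finset V))))).filter
        (fun x => Dist4 x.1 x.2.1 x.2.2.1 x.2.2.2.1 x.2.2.2.2),
        W g x.1 * ss4 f x.1 x.2.1 x.2.2.1 x.2.2.2.1 x.2.2.2.2 := by
    rw [Finset.sum_filter, Finset.sum_product]
    refine Finset.sum_congr rfl fun s _ => ?_
    unfold SS
    rw [Finset.mul_sum, Finset.sum_product]
    refine Finset.sum_congr rfl fun u _ => ?_
    rw [Finset.mul_sum, Finset.sum_product]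
    refine Finset.sum_congr rfl fun w _ => ?_
    rw [Finset.mul_sum, Finset.sum_product]
    refine Finset.sum_congr rfl fun z _ => ?_
    rw [Finset.mul_sum]
    refine Finset.sum_congr rfl fun x _ => ?_
    split_ifs with hd
    · rfl
    · rw [ss4, if_neg hd, mul_zero]
  have e2 : SwS g f m = ∑ y ∈ (Iv V m) ×ˢ ((univ : Finset V) ×ˢ (univ : Finset V)),
      swT g f y.1 y.2.1 y.2.2 := by
    unfold SwS
    rw [Finset.sum_product]
    refine Finset.sum_congr rfl fun s _ => ?_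
    rw [Finset.sum_product]
  rw [e1, e2]
  refine sum_dom _ _ (fun x => (add (add x.1 x.2.1 x.2.2.1) x.2.2.2.1 x.2.2.2.2, x.2.1,
    x.2.2.2.1)) _ _ (by positivity) ?_ ?_ ?_ ?_
  · rintro ⟨s, u, w, z, x⟩ hx
    simp only [mem_filter, mem_product, mem_univ, and_true] at hx
    obtain ⟨hs, ⟨hu, hw, hz, hx⟩, h1, h2, h3, h4, h5, h6⟩ := hx
    simp only [mem_product, mem_univ, and_true]
    have a1 := add_mem_Iv (m := m + 2) hs hu hw h1
    exact add_mem_Iv a1 (by rw [add_of_ne h2.symm h4.symm, hz])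
      (by rw [add_of_ne h3.symm h5.symm, hx]) h6
  · rintro ⟨s, u, w, z, x⟩ hx ⟨s', u', w', z', x'⟩ hy hxy
    simp only [mem_filter, mem_product, mem_univ, and_true] at hx hy
    simp only [Prod.mk.injEq] at hxy
    obtain ⟨e, hu', hz'⟩ := hxy
    subst hu'; subst hz'
    obtain ⟨hs, ⟨hu, hw, hz, hx⟩, h1, h2, h3, h4, h5, h6⟩ := hx
    obtain ⟨hs', ⟨_, hw', _, hx'⟩, h1', h2', h3', h4', h5', h6'⟩ := hy
    have ew : w = w' := by
      have := congrFun e u
      rwa [add_of_ne h2 h3, add_left, add_of_ne h2' h3', add_left] at this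
    have ex : x = x' := by
      have := congrFun e z
      rwa [add_left, add_left] at this
    subst ew; subst ex
    have d1 := del_add (s := add s u w) (u := z) (v := x) (by rw [add_of_ne h2.symm h4.symm, hz])
      (by rw [add_of_ne h3.symm h5.symm, hx])
    have d2 := del_add (s := add s' u w) (u := z) (v := x)
      (by rw [add_of_ne h2.symm h4.symm]; assumption)
      (by rw [add_of_ne h3.symm h5.symm]; assumption)
    rw [e, d2] at d1
    have d3 := del_add (s := s) hu hw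
    have d4 := del_add (s := s') (u := u) (v := w) (by assumption) (by assumption)
    rw [← d1, d4] at d3
    rw [d3]
  · rintro ⟨s, u, w, z, x⟩ hx
    simp only [mem_filter, mem_product, mem_univ, and_true] at hx
    obtain ⟨hs, hd⟩ := hx
    have hd' := hd
    obtain ⟨⟨hu, hw, hz, hx⟩, h1, h2, h3, h4, h5, h6⟩ := hd
    have a1 : add (add s u w) z x u = w := by rw [add_of_ne h2 h3, add_left]
    have a2 : add (add s u w) z x z = x := add_left
    have hcond : add (add s u w) z x u ≠ u ∧ add (add s u w) z x z ≠ z ∧ z ≠ u ∧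
        z ≠ add (add s u w) z x u := by
      rw [a1, a2]; exact ⟨h1.symm, h6.symm, h2.symm, h4.symm⟩
    simp only
    rw [ss4, if_pos hd', swT, if_pos hcond, ← mul_assoc]
    refine mul_le_mul_of_nonneg_right ?_ (sq_nonneg _)
    rw [mul_min_of_nonneg _ _ (by positivity), sw_eq hd', le_min_iff]
    have i1 := W_le_add hsym hpos hc hN h1 hu hw
    have i2 := W_le_add hsym hpos hc hN (s := add s u w) h6 (by rw [add_of_ne h2.symm h4.symm, hz])
      (by rw [add_of_ne h3.symm h5.symm, hx])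
    have i3 := W_le_add hsym hpos hc hN h2 hu hz
    have i4 := W_le_add hsym hpos hc hN (s := add s u z) h5 (by rw [add_of_ne h1.symm h4, hw])
      (by rw [add_of_ne h3.symm h6.symm, hx])
    have hci : 0 ≤ c0⁻¹ := inv_nonneg.2 hc.le
    constructor
    · calc W g s ≤ c0⁻¹ * W g (add s u w) := i1
        _ ≤ c0⁻¹ * (c0⁻¹ * W g (add (add s u w) z x)) := mul_le_mul_of_nonneg_left i2 hci
        _ = _ := by ring
    · calc W g s ≤ c0⁻¹ * W g (add s u z) := i3
        _ ≤ c0⁻¹ * (c0⁻¹ * W g (add (add s u z) w x)) := mul_le_mul_of_nonneg_left i4 hci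
        _ = _ := by ring
  · rintro ⟨A, a, z⟩ _
    exact swT_nonneg hpos f A a z

include hsym hpos hc hc1 hN in
theorem RS_step (m : ℕ) : RS g f (m + 4) ≤
    6 * kap V c0 ^ 2 * RS g f (m + 2) + 3 * kap V c0 ^ 2 * SwS g f m := by
  have hk := one_le_kap (V := V) hc hc1
  have h1 : RS g f (m + 4) ≤ (Fintype.card V : ℝ) ^ 2 *
      ∑ s ∈ Iv V (m + 4), W g s * (6 * T4 f s + 3 * SS f s) := by
    unfold RS
    rw [Finset.mul_sum]
    refine Finset.sum_le_sum fun s hs => ?_
    have hcard : 3 < (holes s).card := by rw [(mem_Iv.1 hs).2]; omega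
    have hnn : 0 ≤ 6 * T4 f s + 3 * SS f s := by
      have := T4_nonneg f s
      have := SS_nonneg f s
      positivity
    calc W g s * ∑ u, ∑ w, dU f s u w
        ≤ W g s * ∑ u : V, ∑ w : V, (6 * T4 f s + 3 * SS f s) := by
          refine mul_le_mul_of_nonneg_left ?_ (W_pos hpos s).le
          refine Finset.sum_le_sum fun u _ => Finset.sum_le_sum fun w _ => ?_
          unfold dU
          split_ifs with hcond
          · exact rep_pointwise f hcard hcond.1 hcond.2.1 hcond.2.2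
          · exact hnn
      _ = (Fintype.card V : ℝ) ^ 2 * (W g s * (6 * T4 f s + 3 * SS f s)) := by
          simp only [Finset.sum_const, Finset.card_univ, nsmul_eq_mul]
          ring
  have h2 : ∑ s ∈ Iv V (m + 4), W g s * (6 * T4 f s + 3 * SS f s) =
      6 * ∑ s ∈ Iv V (m + 4), W g s * T4 f s + 3 * ∑ s ∈ Iv V (m + 4), W g s * SS f s := by
    rw [Finset.mul_sum, Finset.mul_sum, ← Finset.sum_add_distrib]
    exact Finset.sum_congr rfl fun s _ => by ring
  have h3 := T4_sum hsym hpos hc hc1 hN f (m + 2)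
  have h4 := SS_sum hsym hpos hc hc1 hN f m
  have hR := RS_nonneg (g := g) hpos f (m + 2)
  have hSw : 0 ≤ SwS g f m := Finset.sum_nonneg fun s _ => Finset.sum_nonneg fun a _ =>
    Finset.sum_nonneg fun z _ => swT_nonneg hpos f s a z
  have hn : (0 : ℝ) ≤ (Fintype.card V : ℝ) ^ 2 := sq_nonneg _
  have hn1 := sq_le_kap (V := V) hc hc1
  have hn2 := sq_mul_inv_le_kap (V := V) hc hc1
  have hn3 := inv_le_kap (V := V) hc hc1
  have hci : 0 ≤ c0⁻¹ := inv_nonneg.2 hc.le
  calc RS g f (m + 4) ≤ (Fintype.card V : ℝ) ^ 2 *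
        (6 * ∑ s ∈ Iv V (m + 4), W g s * T4 f s + 3 * ∑ s ∈ Iv V (m + 4), W g s * SS f s) := by
        rw [← h2]; exact h1
    _ ≤ (Fintype.card V : ℝ) ^ 2 * (6 * (kap V c0 * RS g f (m + 2)) +
        3 * (c0⁻¹ ^ 2 * SwS g f m)) := by
        refine mul_le_mul_of_nonneg_left ?_ hn
        linarith
    _ = 6 * ((Fintype.card V : ℝ) ^ 2 * kap V c0) * RS g f (m + 2) +
        3 * (((Fintype.card V : ℝ) ^ 2 * c0⁻¹) * c0⁻¹) * SwS g f m := by ring
    _ ≤ _ := by
        have k1 : (Fintype.card V : ℝ) ^ 2 * kap V c0 ≤ kap V c0 ^ 2 := by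
          rw [sq (kap V c0)]
          exact mul_le_mul_of_nonneg_right hn1 (by linarith)
        have k2 : ((Fintype.card V : ℝ) ^ 2 * c0⁻¹) * c0⁻¹ ≤ kap V c0 ^ 2 := by
          rw [sq (kap V c0)]
          exact mul_le_mul hn2 hn3 hci (by linarith)
        have := mul_le_mul_of_nonneg_right k1 hR
        have := mul_le_mul_of_nonneg_right k2 hSw
        linarith

theorem RS_zero : RS g f 0 = 0 := by
  unfold RS
  refine Finset.sum_eq_zero fun s hs => ?_
  have hh : holes s = ∅ := Finset.card_eq_zero.1 (mem_Iv.1 hs).2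
  have : ∀ u w, dU f s u w = 0 := fun u w => by
    unfold dU
    rw [if_neg]
    intro h
    have : u ∈ holes s := mem_holes.2 h.1
    rw [hh] at this
    exact absurd this (Finset.notMem_empty _)
  simp [this]

theorem RS_two : RS g f 2 = 0 := by
  unfold RS
  refine Finset.sum_eq_zero fun s hs => ?_
  have hcard := (mem_Iv.1 hs).2
  have h1 : 1 < (holes s).card := by omega
  have : ∀ u w, dU f s u w = 0 := fun u w => by
    unfold dU
    split_ifs with h
    · obtain ⟨hu, hw, huw⟩ := h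
      have hsub : ({u, w} : Finset V) ⊆ holes s := by
        intro x hx
        rcases Finset.mem_insert.1 hx with hx | hx
        · rw [hx]; exact mem_holes.2 hu
        · rw [Finset.mem_singleton.1 hx]; exact mem_holes.2 hw
      have heq : ({u, w} : Finset V) = holes s :=
        Finset.eq_of_subset_of_card_le hsub (by rw [hcard, Finset.card_pair huw])
      have hp := pick_fst _ h1
      have hq := pick_snd _ h1
      have hpq := pick_ne _ h1
      rw [jn_of_lt h1]
      set p := (pick (holes s) h1).1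
      set q := (pick (holes s) h1).2
      rw [← heq, mem_insert, mem_singleton] at hp hq
      rcases hp with hp | hp <;> rcases hq with hq | hq
      · exact absurd (hp.trans hq.symm) hpq
      · rw [hp, hq, sub_self]; simp
      · rw [hp, hq, add_comm', sub_self]; simp
      · exact absurd (hp.trans hq.symm) hpq
    · rfl
  simp [this]

include hpos in
theorem Esw_nonneg : 0 ≤ Esw g f := by
  rw [← SwS_zero]
  exact Finset.sum_nonneg fun s _ => Finset.sum_nonneg fun a _ =>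
    Finset.sum_nonneg fun z _ => swT_nonneg hpos f s a z

include hsym hpos hc hc1 hN in
theorem RS_le (j : ℕ) (hj : j ≤ 3) : RS g f (2 * j) ≤ 21 * kap V c0 ^ 4 * Esw g f := by
  have hk := one_le_kap (V := V) hc hc1
  have hE := Esw_nonneg (g := g) hpos f
  have h0 : 0 ≤ 21 * kap V c0 ^ 4 * Esw g f := by positivity
  have h4 : RS g f 4 ≤ 3 * kap V c0 ^ 2 * Esw g f := by
    have := RS_step hsym hpos hc hc1 hN f 0
    rw [Nat.zero_add, Nat.zero_add, RS_two, SwS_zero] at this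
    linarith
  interval_cases j
  · rw [Nat.mul_zero, RS_zero]; exact h0
  · rw [Nat.mul_one, RS_two]; exact h0
  · refine h4.trans (mul_le_mul_of_nonneg_right ?_ hE)
    have : kap V c0 ^ 2 ≤ kap V c0 ^ 4 := pow_le_pow_right₀ hk (by norm_num)
    nlinarith [pow_pos (lt_of_lt_of_le one_pos hk) 4]
  · have h6 := RS_step hsym hpos hc hc1 hN f 2
    have hS := SwS_le hsym hpos hc hc1 hN f 1
    rw [Nat.mul_one, pow_one] at hS
    have k2 : 0 ≤ kap V c0 ^ 2 := by positivity
    have a1 : 6 * kap V c0 ^ 2 * RS g f 4 ≤ 6 * kap V c0 ^ 2 * (3 * kap V c0 ^ 2 * Esw g f) :=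
      mul_le_mul_of_nonneg_left h4 (by positivity)
    have a2 : 3 * kap V c0 ^ 2 * SwS g f 2 ≤ 3 * kap V c0 ^ 2 * (kap V c0 * Esw g f) :=
      mul_le_mul_of_nonneg_left hS (by positivity)
    have a3 : 3 * kap V c0 ^ 2 * (kap V c0 * Esw g f) ≤ 3 * kap V c0 ^ 4 * Esw g f := by
      have : kap V c0 ^ 3 ≤ kap V c0 ^ 4 := pow_le_pow_right₀ hk (by norm_num)
      have := mul_le_mul_of_nonneg_right this hE
      nlinarith
    have : RS g f (2 * 3) ≤ 6 * kap V c0 ^ 2 * RS g f 4 + 3 * kap V c0 ^ 2 * SwS g f 2 := h6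
    nlinarith

end main

end CQ

end Crest.Agent.R304
end

-- ▼ part R304/ConfQ3

/-!
# R304 / S0464: the re-pairing lemma on configurations
-/

set_option autoImplicit false
set_option linter.unusedSectionVars false
set_option linter.unusedVariables false

namespace Crest.Agent.R304

open Finset

namespace CQ

variable {V : Type*} [Fintype V] [DecidableEq V]

/-- involutions with an even number `≤ 6` of holes -/
def Ie (V : Type*) [Fintype V] [DecidableEq V] : Finset (V → V) :=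
  (Finset.range 4).biUnion fun j => Iv V (2 * j)

theorem Conf_subset : Conf V ⊆ Ie V ×ˢ Ie V := by
  rintro ⟨s, t⟩ h
  simp only [Conf, mem_filter, mem_product, mem_invs] at h
  obtain ⟨⟨hs, ht⟩, ⟨j, hj⟩, ⟨k, hk⟩, hle⟩ := h
  simp only [Ie, mem_product, mem_biUnion, mem_range, mem_Iv]
  exact ⟨⟨j, by omega, hs, by omega⟩, ⟨k, by omega, ht, by omega⟩⟩

theorem sum_Ie_le (F : (V → V) → ℝ) (hF : ∀ s, 0 ≤ F s) :
    ∑ s ∈ Ie V, F s ≤ ∑ j ∈ Finset.range 4, ∑ s ∈ Iv V (2 * j), F s := by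
  unfold Ie
  rw [Finset.sum_biUnion]
  intro i _ j _ hij
  rw [Function.onFun, Finset.disjoint_left]
  intro s hs hs'
  rw [mem_Iv] at hs hs'
  exact hij (by omega)

section main
variable {g : V → V → ℝ} {c0 : ℝ} (hsym : ∀ u v, g u v = g v u) (hpos : ∀ u v, 0 < g u v)
  (hc : 0 < c0) (hc1 : c0 ≤ 1) (hN : NodeA g c0) (f : (V → V) → ℝ)

theorem Zh_nn (hpos : ∀ u v, 0 < g u v) : 0 ≤ Zh g ∅ := Zh_nonneg hpos _

theorem Eex_nonneg (hpos : ∀ u v, 0 < g u v) : 0 ≤ Eex g f :=
  Finset.sum_nonneg fun s _ => Finset.sum_nonneg fun t _ => Finset.sum_nonneg fun v _ =>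
    mul_nonneg (mul_nonneg (W_pos hpos s).le (W_pos hpos t).le) (sq_nonneg _)

theorem E2_nonneg (hpos : ∀ u v, 0 < g u v) : 0 ≤ E2 g f := by
  unfold E2
  refine Finset.sum_nonneg fun s _ => Finset.sum_nonneg fun t _ => Finset.sum_nonneg fun p _ =>
    Finset.sum_nonneg fun q _ => ?_
  split_ifs
  · exact mul_nonneg (le_min (mul_nonneg (W_pos hpos _).le (W_pos hpos _).le)
      (mul_nonneg (W_pos hpos _).le (W_pos hpos _).le)) (sq_nonneg _)
  · exact le_rfl

theorem En_nonneg (hpos : ∀ u v, 0 < g u v) : 0 ≤ En g f := by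
  unfold En
  have h1 := mul_nonneg (Zh_nn hpos) (Esw_nonneg hpos f)
  have h2 := Eex_nonneg f hpos
  have h3 := E2_nonneg f hpos
  linarith

theorem ZEsw_le_En (hpos : ∀ u v, 0 < g u v) : Zh g ∅ * Esw g f ≤ En g f := by
  unfold En
  have h2 := Eex_nonneg f hpos
  have h3 := E2_nonneg f hpos
  linarith

include hsym hpos hc hc1 hN in
theorem mass_Ie : ∑ s ∈ Ie V, W g s ≤ 4 * kap V c0 ^ 3 * Zh g ∅ := by
  have hk := one_le_kap (V := V) hc hc1
  have hZ := Zh_nn (g := g) hpos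
  refine (sum_Ie_le _ fun s => (W_pos hpos s).le).trans ?_
  calc ∑ j ∈ Finset.range 4, ∑ s ∈ Iv V (2 * j), W g s
      ≤ ∑ j ∈ Finset.range 4, kap V c0 ^ 3 * Zh g ∅ := by
        refine Finset.sum_le_sum fun j hj => (mass hsym hpos hc hc1 hN j).trans ?_
        refine mul_le_mul_of_nonneg_right ?_ hZ
        exact pow_le_pow_right₀ hk (by have := Finset.mem_range.1 hj; omega)
    _ = _ := by simp only [Finset.sum_const, Finset.card_range, nsmul_eq_mul]; push_cast; ring

/-- constant of the re-pairing lemma -/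
noncomputable def Krep (V : Type*) [Fintype V] (c0 : ℝ) : ℝ := 336 * kap V c0 ^ 7

include hsym hpos hc hc1 hN in
theorem rep_Ie : (∑ s ∈ Ie V, W g s * ∑ u, ∑ w, dU f s u w) * (∑ t ∈ Ie V, W g t) ≤
    Krep V c0 * (Zh g ∅ * Esw g f) := by
  have hk := one_le_kap (V := V) hc hc1
  have hZ := Zh_nn (g := g) hpos
  have hE := Esw_nonneg (g := g) hpos f
  have h1 : ∑ s ∈ Ie V, W g s * ∑ u, ∑ w, dU f s u w ≤ 84 * kap V c0 ^ 4 * Esw g f := by
    refine (sum_Ie_le _ fun s => mul_nonneg (W_pos hpos s).le (Finset.sum_nonneg fun u _ =>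
      Finset.sum_nonneg fun w _ => dU_nonneg f s u w)).trans ?_
    calc ∑ j ∈ Finset.range 4, ∑ s ∈ Iv V (2 * j), W g s * ∑ u, ∑ w, dU f s u w
        ≤ ∑ j ∈ Finset.range 4, 21 * kap V c0 ^ 4 * Esw g f := by
          refine Finset.sum_le_sum fun j hj => ?_
          exact RS_le hsym hpos hc hc1 hN f j (by have := Finset.mem_range.1 hj; omega)
      _ = _ := by simp only [Finset.sum_const, Finset.card_range, nsmul_eq_mul]; push_cast; ring
  have h2 := mass_Ie hsym hpos hc hc1 hN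
  have h3 : 0 ≤ ∑ t ∈ Ie V, W g t := Finset.sum_nonneg fun t _ => (W_pos hpos t).le
  calc _ ≤ (84 * kap V c0 ^ 4 * Esw g f) * (4 * kap V c0 ^ 3 * Zh g ∅) :=
        mul_le_mul h1 h2 h3 (by positivity)
    _ = _ := by unfold Krep; ring

/-- **Re-pairing lemma.** -/
theorem repair_aux (hsym : ∀ u v, g u v = g v u) (hpos : ∀ u v, 0 < g u v)
    (hc : 0 < c0) (hc1 : c0 ≤ 1) (hN : NodeA g c0) (f : (V → V) → ℝ) :
    ∑ N ∈ Conf V, W g N.1 * W g N.2 * ∑ u, ∑ w, dU f N.1 u w ≤
      Krep V c0 * (Zh g ∅ * Esw g f) := by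
  have hnn : ∀ s : V → V, 0 ≤ ∑ u, ∑ w, dU f s u w := fun s =>
    Finset.sum_nonneg fun u _ => Finset.sum_nonneg fun w _ => dU_nonneg f s u w
  calc ∑ N ∈ Conf V, W g N.1 * W g N.2 * ∑ u, ∑ w, dU f N.1 u w
      ≤ ∑ N ∈ Ie V ×ˢ Ie V, W g N.1 * W g N.2 * ∑ u, ∑ w, dU f N.1 u w :=
        Finset.sum_le_sum_of_subset_of_nonneg Conf_subset fun N _ _ =>
          mul_nonneg (mul_nonneg (W_pos hpos _).le (W_pos hpos _).le) (hnn _)
    _ = (∑ s ∈ Ie V, W g s * ∑ u, ∑ w, dU f s u w) * (∑ t ∈ Ie V, W g t) := by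
        rw [Finset.sum_product, Finset.sum_mul_sum]
        refine Finset.sum_congr rfl fun s _ => Finset.sum_congr rfl fun t _ => ?_
        ring
    _ ≤ _ := rep_Ie hsym hpos hc hc1 hN f

end main

end CQ

open CQ in
/-- **Re-pairing lemma.** -/
theorem repair {V : Type*} [Fintype V] [DecidableEq V] {g : V → V → ℝ} {c0 : ℝ}
    (hsym : ∀ u v, g u v = g v u) (hpos : ∀ u v, 0 < g u v)
    (hc : 0 < c0) (hc1 : c0 ≤ 1) (hN : NodeA g c0) (f : (V → V) → ℝ) :
    ∑ N ∈ Conf V, ∑ u, ∑ w, (if u ∈ holes N.1 ∧ w ∈ holes N.1 ∧ u ≠ w then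
      W g N.1 * W g N.2 * (f (jn (add N.1 u w)) - f (jn N.1)) ^ 2 else 0) ≤
      Krep V c0 * En g f := by
  have h := repair_aux hsym hpos hc hc1 hN f
  have hk := kap_pos (V := V) hc hc1
  have hK : 0 ≤ Krep V c0 := by unfold Krep; positivity
  refine le_trans (le_of_eq ?_) (h.trans (mul_le_mul_of_nonneg_left (ZEsw_le_En f hpos) hK))
  refine Finset.sum_congr rfl fun N _ => ?_
  rw [Finset.mul_sum]
  refine Finset.sum_congr rfl fun u _ => ?_
  rw [Finset.mul_sum]
  refine Finset.sum_congr rfl fun w _ => ?_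
  unfold dU
  simp only [mem_holes]
  split_ifs
  · rfl
  · simp

end Crest.Agent.R304
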