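import Crest.Agent.R304.ConfQ3

-- ▼ part R304/ConfQ4
section

/-!
# R304 / S0464: variance bound for the increments along a component
-/

set_option autoImplicit false
set_option linter.unusedSectionVars false
set_option linter.unusedVariables false

namespace Crest.Agent.R304

open Finset

namespace CQ

variable {V : Type*} [Fintype V] [DecidableEq V]

/-- Jensen -/
theorem jensen {ι : Type*} (E : Finset ι) (w Δ : ι → ℝ) (x : ℝ) (hw : ∀ e ∈ E, 0 ≤ w e)
    (hG : 0 < ∑ e ∈ E, w e) :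
    (∑ e ∈ E, w e) * (x - (∑ e ∈ E, w e * Δ e) / (∑ e ∈ E, w e)) ^ 2 ≤
      ∑ e ∈ E, w e * (x - Δ e) ^ 2 := by
  have h := Finset.sum_sq_le_sum_mul_sum_of_sq_eq_mul E (r := fun e => w e * (x - Δ e))
    (f := w) (g := fun e => w e * (x - Δ e) ^ 2) hw
    (fun e he => mul_nonneg (hw e he) (sq_nonneg _)) (fun e _ => by ring)
  have e1 : ∑ e ∈ E, w e * (x - Δ e) = (∑ e ∈ E, w e) * x - ∑ e ∈ E, w e * Δ e := by
    rw [Finset.sum_mul, ← Finset.sum_sub_distrib]
    exact Finset.sum_congr rfl fun e _ => by ring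
  rw [e1] at h
  have e2 : (∑ e ∈ E, w e) * (x - (∑ e ∈ E, w e * Δ e) / (∑ e ∈ E, w e)) ^ 2 =
      ((∑ e ∈ E, w e) * x - ∑ e ∈ E, w e * Δ e) ^ 2 / (∑ e ∈ E, w e) := by
    field_simp
  rw [e2, div_le_iff₀ hG, mul_comm (∑ e ∈ E, w e * (x - Δ e) ^ 2)]
  exact h

/-- increment of the first / second member when the component of `v` is swapped -/
noncomputable def Gf (f : (V → V) → ℝ) (s t : V → V) (v : V) : ℝ :=
  f (jn (swp (comp s t v) s t)) - f (jn s)
noncomputable def Hf (f : (V → V) → ℝ) (s t : V → V) (v : V) : ℝ :=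
  f (jn t) - f (jn (swp (comp s t v) t s))

/-- environments of `Y` with `r` holes -/
def ES (Y : Finset V) (r : ℕ) : Finset (V → V) :=
  (invs V).filter fun e => (∀ x ∈ Y, e x = x) ∧ (holes e \ Y).card = r

theorem mem_ES {Y : Finset V} {r : ℕ} {e : V → V} :
    e ∈ ES Y r ↔ Inv e ∧ (∀ x ∈ Y, e x = x) ∧ (holes e \ Y).card = r := by
  simp [ES]

/-- weights inside and outside `Y` -/
noncomputable def Won (g : V → V → ℝ) (Y : Finset V) (s : V → V) : ℝ := ∏ x ∈ Y, g x (s x)
noncomputable def Woff (g : V → V → ℝ) (Y : Finset V) (s : V → V) : ℝ := ∏ x ∈ Yᶜ, g x (s x)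

theorem W_eq (g : V → V → ℝ) (Y : Finset V) (s : V → V) : W g s = Won g Y s * Woff g Y s := by
  unfold W Won Woff
  exact (Finset.prod_mul_prod_compl Y _).symm

theorem Won_congr (g : V → V → ℝ) {Y : Finset V} {s t : V → V} (h : ∀ x ∈ Y, s x = t x) :
    Won g Y s = Won g Y t := Finset.prod_congr rfl fun x hx => by rw [h x hx]

theorem Woff_congr (g : V → V → ℝ) {Y : Finset V} {s t : V → V} (h : ∀ x, x ∉ Y → s x = t x) :
    Woff g Y s = Woff g Y t :=
  Finset.prod_congr rfl fun x hx => by rw [h x (Finset.mem_compl.1 hx)]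

theorem Woff_pos {g : V → V → ℝ} (hpos : ∀ u v, 0 < g u v) (Y : Finset V) (s : V → V) :
    0 < Woff g Y s := Finset.prod_pos fun x _ => hpos _ _


/-- parity of the number of holes inside the component -/
noncomputable def rr (s t : V → V) (v : V) : ℕ := (comp s t v ∩ holes s).card % 2

/-- mean increment -/
noncomputable def Db (g : V → V → ℝ) (f : (V → V) → ℝ) (s t : V → V) (v : V) : ℝ :=
  (∑ e ∈ ES (comp s t v) (rr s t v), Woff g (comp s t v) e *
    (f (jn (swp (comp s t v) e t)) - f (jn (swp (comp s t v) e s)))) /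
  (∑ e ∈ ES (comp s t v) (rr s t v), Woff g (comp s t v) e)

theorem inter_holes_congr {Y : Finset V} {s s' : V → V} (h : ∀ x ∈ Y, s' x = s x) :
    Y ∩ holes s' = Y ∩ holes s := by
  ext x
  simp only [mem_inter, mem_holes]
  constructor
  · rintro ⟨hx, h1⟩; exact ⟨hx, by rw [← h x hx]; exact h1⟩
  · rintro ⟨hx, h1⟩; exact ⟨hx, by rw [h x hx]; exact h1⟩

theorem holes_sdiff_congr {Y : Finset V} {s s' : V → V} (h : ∀ x, x ∉ Y → s' x = s x) :
    holes s' \ Y = holes s \ Y := by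
  ext x
  simp only [mem_sdiff, mem_holes]
  constructor
  · rintro ⟨h1, hx⟩; exact ⟨by rw [← h x hx]; exact h1, hx⟩
  · rintro ⟨h1, hx⟩; exact ⟨by rw [h x hx]; exact h1, hx⟩

theorem swp_congr {Y : Finset V} {s s' t t' : V → V} (h : ∀ x, x ∉ Y → s' x = s x)
    (h' : ∀ x ∈ Y, t' x = t x) : swp Y s' t' = swp Y s t := by
  funext x
  by_cases hx : x ∈ Y
  · rw [swp_of_mem hx, swp_of_mem hx, h' x hx]
  · rw [swp_of_not_mem hx, swp_of_not_mem hx, h x hx]

/-- the mean increment depends on the restrictions to the component only -/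
theorem Db_congr (g : V → V → ℝ) (f : (V → V) → ℝ) {s t s' t' : V → V} {v : V}
    (h : ∀ x ∈ comp s t v, s' x = s x ∧ t' x = t x) : Db g f s' t' v = Db g f s t v := by
  have hc : comp s' t' v = comp s t v := comp_congr h
  have hr : rr s' t' v = rr s t v := by
    unfold rr
    rw [hc, inter_holes_congr fun x hx => (h x hx).1]
  unfold Db
  rw [hc, hr]
  congr 1
  refine Finset.sum_congr rfl fun e _ => ?_
  rw [swp_congr (s := e) (s' := e) (fun _ _ => rfl) (fun x hx => (h x hx).2),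
    swp_congr (s := e) (s' := e) (fun _ _ => rfl) (fun x hx => (h x hx).1)]

/-- canonical configurations (relative to `v`) with given first member -/
def CanT (s : V → V) (v : V) : Set (V → V) :=
  {t | Inv t ∧ (s v = v ∨ t v = v) ∧ (holes s \ comp s t v).card = rr s t v ∧
    (holes t \ comp s t v).card = rr s t v}

section
variable {g : V → V → ℝ}

open Classical in
/-- **variance bound**, first member and `v` fixed -/
theorem var_le (hpos : ∀ u v, 0 < g u v) (f : (V → V) → ℝ) {s : V → V} (hs : Inv s) (v : V) :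
    ∑ t ∈ univ.filter (fun t => t ∈ CanT s v), W g t * (Gf f s t v - Db g f s t v) ^ 2 ≤
    ∑ t ∈ univ.filter (fun t => t ∈ CanT s v), W g t * (Gf f s t v - Hf f s t v) ^ 2 := by
  set T := univ.filter (fun t => t ∈ CanT s v) with hT
  -- notation
  have memT : ∀ t, t ∈ T ↔ t ∈ CanT s v := fun t => by simp [hT]
  have hES : ∀ t ∈ T, swp (comp s t v) t id ∈ ES (comp s t v) (rr s t v) := by
    intro t ht
    obtain ⟨h1, h2, h3, h4⟩ := (memT t).1 ht
    rw [mem_ES]
    refine ⟨h1.swp (fun _ => rfl) comp_cl_right (fun _ h => h), fun x hx => swp_of_mem hx, ?_⟩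
    rw [holes_sdiff_congr (s := t) (fun x hx => swp_of_not_mem hx)]
    exact h4
  have hGpos : ∀ t ∈ T, 0 < ∑ e ∈ ES (comp s t v) (rr s t v), Woff g (comp s t v) e :=
    fun t ht => Finset.sum_pos (fun e _ => Woff_pos hpos _ e) ⟨_, hES t ht⟩
  -- Step 1: pointwise Jensen
  have step1 : ∀ t ∈ T, W g t * (Gf f s t v - Db g f s t v) ^ 2 ≤
      ∑ e ∈ ES (comp s t v) (rr s t v), (W g t * Woff g (comp s t v) e) /
        (∑ e' ∈ ES (comp s t v) (rr s t v), Woff g (comp s t v) e') *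
        (Gf f s t v - (f (jn (swp (comp s t v) e t)) - f (jn (swp (comp s t v) e s)))) ^ 2 := by
    intro t ht
    have hj := jensen (ES (comp s t v) (rr s t v)) (fun e => Woff g (comp s t v) e)
      (fun e => f (jn (swp (comp s t v) e t)) - f (jn (swp (comp s t v) e s)))
      (Gf f s t v) (fun e _ => (Woff_pos hpos _ e).le) (hGpos t ht)
    have hG := hGpos t ht
    set Γ := ∑ e ∈ ES (comp s t v) (rr s t v), Woff g (comp s t v) e with hΓ
    have e1 : ∑ e ∈ ES (comp s t v) (rr s t v), (W g t * Woff g (comp s t v) e) / Γ *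
        (Gf f s t v - (f (jn (swp (comp s t v) e t)) - f (jn (swp (comp s t v) e s)))) ^ 2 =
        W g t * ((∑ e ∈ ES (comp s t v) (rr s t v), Woff g (comp s t v) e *
        (Gf f s t v - (f (jn (swp (comp s t v) e t)) - f (jn (swp (comp s t v) e s)))) ^ 2)
          / Γ) := by
      rw [Finset.sum_div, Finset.mul_sum]
      refine Finset.sum_congr rfl fun e _ => ?_
      ring
    rw [e1]
    refine mul_le_mul_of_nonneg_left ?_ (W_pos hpos t).le
    rw [le_div_iff₀ hG, mul_comm]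
    exact hj
  refine (Finset.sum_le_sum step1).trans (le_of_eq ?_)
  -- Step 2: reindex
  have e2 : ∑ t ∈ T, W g t * (Gf f s t v - Hf f s t v) ^ 2 =
      ∑ t ∈ T, ∑ e ∈ ES (comp s t v) (rr s t v), (W g t * Woff g (comp s t v) e) /
        (∑ e' ∈ ES (comp s t v) (rr s t v), Woff g (comp s t v) e') *
        (Gf f s t v - Hf f s t v) ^ 2 := by
    refine Finset.sum_congr rfl fun t ht => ?_
    have hG := hGpos t ht
    rw [← Finset.sum_mul, ← Finset.sum_div, ← Finset.mul_sum, mul_div_assoc,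
      div_self hG.ne', mul_one]
  rw [e2, Finset.sum_sigma', Finset.sum_sigma']
  have hmap : ∀ x ∈ T.sigma (fun t => ES (comp s t v) (rr s t v)),
      (∀ y ∈ comp s x.1 v, s y = s y ∧ swp (comp s x.1 v) x.2 x.1 y = x.1 y) := by
    intro x _ y hy
    exact ⟨rfl, swp_of_mem hy⟩
  have hcomp : ∀ x ∈ T.sigma (fun t => ES (comp s t v) (rr s t v)),
      comp s (swp (comp s x.1 v) x.2 x.1) v = comp s x.1 v :=
    fun x hx => comp_congr (hmap x hx)
  have hmem : ∀ x ∈ T.sigma (fun t => ES (comp s t v) (rr s t v)),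
      (⟨swp (comp s x.1 v) x.2 x.1, swp (comp s x.1 v) x.1 id⟩ : (_ : V → V) × (V → V)) ∈
        T.sigma (fun t => ES (comp s t v) (rr s t v)) := by
    intro x hx
    have hc := hcomp x hx
    rw [Finset.mem_sigma] at hx
    obtain ⟨hx1, hx2⟩ := hx
    obtain ⟨h1, h2, h3, h4⟩ := (memT _).1 hx1
    obtain ⟨k1, k2, k3⟩ := mem_ES.1 hx2
    have hr : rr s (swp (comp s x.1 v) x.2 x.1) v = rr s x.1 v := by unfold rr; rw [hc]
    rw [Finset.mem_sigma]
    refine ⟨(memT _).2 ⟨?_, ?_, ?_, ?_⟩, ?_⟩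
    · exact k1.swp h1 (fun y hy => by rw [k2 y hy]; exact hy) comp_cl_right
    · show s v = v ∨ swp (comp s x.1 v) x.2 x.1 v = v
      rw [swp_of_mem self_mem_comp]; exact h2
    · rw [hc, hr]; exact h3
    · rw [hc, hr, holes_sdiff_congr (s := x.2) (fun y hy => swp_of_not_mem hy)]
      exact k3
    · show swp (comp s x.1 v) x.1 id ∈ ES (comp s (swp (comp s x.1 v) x.2 x.1) v)
        (rr s (swp (comp s x.1 v) x.2 x.1) v)
      rw [hc, hr]
      exact hES x.1 hx1
  have hinv : ∀ x ∈ T.sigma (fun t => ES (comp s t v) (rr s t v)),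
      (⟨swp (comp s (swp (comp s x.1 v) x.2 x.1) v) (swp (comp s x.1 v) x.1 id)
          (swp (comp s x.1 v) x.2 x.1),
        swp (comp s (swp (comp s x.1 v) x.2 x.1) v) (swp (comp s x.1 v) x.2 x.1) id⟩ :
        (_ : V → V) × (V → V)) = x := by
    intro x hx
    have hc := hcomp x hx
    rw [Finset.mem_sigma] at hx
    obtain ⟨hx1, hx2⟩ := hx
    obtain ⟨k1, k2, k3⟩ := mem_ES.1 hx2
    have e3 : swp (comp s x.1 v) (swp (comp s x.1 v) x.1 id) (swp (comp s x.1 v) x.2 x.1) = x.1 := by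
      funext y
      by_cases hy : y ∈ comp s x.1 v
      · rw [swp_of_mem hy, swp_of_mem hy]
      · rw [swp_of_not_mem hy, swp_of_not_mem hy]
    have e4 : swp (comp s x.1 v) (swp (comp s x.1 v) x.2 x.1) id = x.2 := by
      funext y
      by_cases hy : y ∈ comp s x.1 v
      · rw [swp_of_mem hy, k2 y hy]; rfl
      · rw [swp_of_not_mem hy, swp_of_not_mem hy]
    rw [hc, e3, e4]
  refine Finset.sum_bij' (fun x _ => (⟨swp (comp s x.1 v) x.2 x.1, swp (comp s x.1 v) x.1 id⟩ :
    (_ : V → V) × (V → V))) (fun x _ => (⟨swp (comp s x.1 v) x.2 x.1, swp (comp s x.1 v) x.1 id⟩ :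
    (_ : V → V) × (V → V))) hmem hmem hinv hinv ?_
  intro x hx
  have hc := hcomp x hx
  rw [Finset.mem_sigma] at hx
  obtain ⟨hx1, hx2⟩ := hx
  obtain ⟨k1, k2, k3⟩ := mem_ES.1 hx2
  have hr : rr s (swp (comp s x.1 v) x.2 x.1) v = rr s x.1 v := by unfold rr; rw [hc]
  simp only
  rw [hc, hr]
  have w1 : W g x.1 * Woff g (comp s x.1 v) x.2 =
      W g (swp (comp s x.1 v) x.2 x.1) * Woff g (comp s x.1 v) (swp (comp s x.1 v) x.1 id) := by
    rw [W_eq g (comp s x.1 v) x.1, W_eq g (comp s x.1 v) (swp (comp s x.1 v) x.2 x.1),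
      Won_congr g (s := swp (comp s x.1 v) x.2 x.1) (t := x.1) (fun y hy => swp_of_mem hy),
      Woff_congr g (s := swp (comp s x.1 v) x.2 x.1) (t := x.2) (fun y hy => swp_of_not_mem hy),
      Woff_congr g (s := swp (comp s x.1 v) x.1 id) (t := x.1) (fun y hy => swp_of_not_mem hy)]
    ring
  have g1 : Gf f s (swp (comp s x.1 v) x.2 x.1) v = Gf f s x.1 v := by
    unfold Gf
    rw [hc, swp_congr (s := s) (s' := s) (fun _ _ => rfl) (fun y hy => swp_of_mem hy)]
  have h1 : Hf f s (swp (comp s x.1 v) x.2 x.1) v =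
      f (jn (swp (comp s x.1 v) x.2 x.1)) - f (jn (swp (comp s x.1 v) x.2 s)) := by
    unfold Hf
    rw [hc, swp_congr (t := s) (t' := s) (fun y hy => swp_of_not_mem hy) (fun _ _ => rfl)]
  rw [← w1, g1, h1]

end

end CQ

end Crest.Agent.R304
end

-- ▼ part R304/ConfQ5
section

/-!
# R304 / S0464: canonical swap energies
-/

set_option autoImplicit false
set_option linter.unusedSectionVars false
set_option linter.unusedVariables false

namespace Crest.Agent.R304

open Finset

namespace CQ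

variable {V : Type*} [Fintype V] [DecidableEq V]

theorem jn_two {s : V → V} {u w : V} (huw : u ≠ w) (h : holes s = {u, w}) :
    jn s = add s u w := by
  have hc : (holes s).card = 2 := by rw [h, Finset.card_pair huw]
  have h1 : 1 < (holes s).card := by omega
  have hp := pick_fst _ h1
  have hq := pick_snd _ h1
  have hpq := pick_ne _ h1
  rw [jn_of_lt h1]
  set p := (pick (holes s) h1).1
  set q := (pick (holes s) h1).2
  have hpq' : add s p q = add s u w := by
    rw [h, mem_insert, mem_singleton] at hp hq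
    rcases hp with hp | hp <;> rcases hq with hq | hq
    · exact absurd (hp.trans hq.symm) hpq
    · rw [hp, hq]
    · rw [hp, hq, add_comm']
    · exact absurd (hp.trans hq.symm) hpq
  rw [hpq', jn_of_le]
  rw [holes_add huw, h]; simp

theorem jn_zero {s : V → V} (h : holes s = ∅) : jn s = s := jn_of_le (by rw [h]; simp)

/-- adding edges does not shrink components -/
theorem comp_subset_add {s t : V → V} {u w v : V} (hu : s u = u) (hw : s w = w) :
    comp s t v ⊆ comp (add s u w) t v := by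
  refine comp_subset self_mem_comp ?_ comp_cl_right
  intro x hx
  by_cases h1 : x = u
  · have : s x = x := by rw [h1]; exact hu
    rw [this]; exact hx
  · by_cases h2 : x = w
    · have : s x = x := by rw [h2]; exact hw
      rw [this]; exact hx
    · rw [← add_of_ne (s := s) h1 h2]; exact comp_cl_left x hx

theorem comp_add_in {s t : V → V} {u w v : V} (hu : s u = u) (hw : s w = w)
    (hu' : u ∈ comp s t v) (hw' : w ∈ comp s t v) : comp (add s u w) t v = comp s t v := by
  refine Finset.Subset.antisymm (comp_subset self_mem_comp ?_ comp_cl_right)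
    (comp_subset_add hu hw)
  intro x hx
  by_cases h1 : x = u
  · rw [h1, add_left]; exact hw'
  · by_cases h2 : x = w
    · rw [h2, add_right]; exact hu'
    · rw [add_of_ne h1 h2]; exact comp_cl_left x hx

theorem swp_add_in {A : Finset V} {s t : V → V} {u w : V} (hu : u ∈ A) (hw : w ∈ A) :
    swp A t (add s u w) = add (swp A t s) u w := by
  funext x
  by_cases h1 : x = u
  · rw [h1, swp_of_mem hu, add_left, add_left]
  · by_cases h2 : x = w
    · rw [h2, swp_of_mem hw, add_right, add_right]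
    · rw [add_of_ne h1 h2]
      by_cases hx : x ∈ A
      · rw [swp_of_mem hx, swp_of_mem hx, add_of_ne h1 h2]
      · rw [swp_of_not_mem hx, swp_of_not_mem hx]

theorem swp_add_in' {A : Finset V} {s t : V → V} {u w : V} (hu : u ∈ A) (hw : w ∈ A) :
    swp A (add s u w) t = swp A s t := by
  refine swp_congr (fun x hx => ?_) (fun _ _ => rfl)
  exact add_of_ne (fun h => hx (h ▸ hu)) (fun h => hx (h ▸ hw))

theorem swp_add_out {A : Finset V} {s t : V → V} {u w : V} (hu : u ∉ A) (hw : w ∉ A) :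
    swp A (add s u w) t = add (swp A s t) u w := by
  funext x
  by_cases h1 : x = u
  · rw [h1, swp_of_not_mem hu, add_left, add_left]
  · by_cases h2 : x = w
    · rw [h2, swp_of_not_mem hw, add_right, add_right]
    · rw [add_of_ne h1 h2]
      by_cases hx : x ∈ A
      · rw [swp_of_mem hx, swp_of_mem hx]
      · rw [swp_of_not_mem hx, swp_of_not_mem hx, add_of_ne h1 h2]

theorem swp_add_out' {A : Finset V} {s t : V → V} {u w : V} (hu : u ∉ A) (hw : w ∉ A) :
    swp A t (add s u w) = swp A t s := by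
  refine swp_congr (fun _ _ => rfl) (fun x hx => ?_)
  exact add_of_ne (fun h => hu (h ▸ hx)) (fun h => hw (h ▸ hx))

theorem pms_of_holes {s : V → V} (hs : Inv s) (h : holes s = ∅) : s ∈ pms V :=
  mem_pms.2 ⟨hs, holes_eq_empty.1 h⟩

theorem add_pm {s : V → V} (hs : Inv s) {u w : V} (huw : u ≠ w) (h : holes s = {u, w}) :
    add s u w ∈ pms V := by
  have hu : s u = u := mem_holes.1 (by rw [h]; simp)
  have hw : s w = w := mem_holes.1 (by rw [h]; simp)
  refine pms_of_holes (hs.add hu hw) ?_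
  rw [holes_add huw, h]; simp

/-- structure of an odd canonical pair -/
theorem odd_struct {s : V → V} {Y : Finset V} (h1 : (Y ∩ holes s).card = 1)
    (h2 : (holes s \ Y).card = 1) : ∃ p z, p ∈ Y ∧ z ∉ Y ∧ p ≠ z ∧ holes s = {p, z} := by
  obtain ⟨p, hp⟩ := Finset.card_eq_one.1 h1
  obtain ⟨z, hz⟩ := Finset.card_eq_one.1 h2
  have hpY : p ∈ Y ∩ holes s := by rw [hp]; simp
  have hzY : z ∈ holes s \ Y := by rw [hz]; simp
  rw [mem_inter] at hpY
  rw [mem_sdiff] at hzY
  refine ⟨p, z, hpY.1, hzY.2, fun h => hzY.2 (h ▸ hpY.1), ?_⟩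
  ext x
  rw [mem_insert, mem_singleton]
  constructor
  · intro hx
    by_cases hxY : x ∈ Y
    · left
      have : x ∈ Y ∩ holes s := mem_inter.2 ⟨hxY, hx⟩
      rw [hp] at this; exact mem_singleton.1 this
    · right
      have : x ∈ holes s \ Y := mem_sdiff.2 ⟨hx, hxY⟩
      rw [hz] at this; exact mem_singleton.1 this
  · rintro (h | h)
    · rw [h]; exact hpY.2
    · rw [h]; exact hzY.1

/-- structure of an even canonical pair -/
theorem even_struct {s : V → V} {Y : Finset V} (h1 : (Y ∩ holes s).card = 2)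
    (h2 : (holes s \ Y).card = 0) : ∃ p z, p ∈ Y ∧ z ∈ Y ∧ p ≠ z ∧ holes s = {p, z} := by
  obtain ⟨p, z, hpz, hp⟩ := Finset.card_eq_two.1 h1
  have hpY : p ∈ Y ∩ holes s := by rw [hp]; simp
  have hzY : z ∈ Y ∩ holes s := by rw [hp]; simp
  rw [mem_inter] at hpY hzY
  refine ⟨p, z, hpY.1, hzY.1, hpz, ?_⟩
  rw [← hp]
  ext x
  rw [mem_inter]
  refine ⟨fun hx => ⟨?_, hx⟩, fun hx => hx.2⟩
  by_contra hxY
  have : x ∈ holes s \ Y := mem_sdiff.2 ⟨hx, hxY⟩
  rw [Finset.card_eq_zero.1 h2] at this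
  exact absurd this (Finset.notMem_empty _)

theorem empty_struct {s : V → V} {Y : Finset V} (h1 : (Y ∩ holes s).card = 0)
    (h2 : (holes s \ Y).card = 0) : holes s = ∅ := by
  have h := Finset.card_inter_add_card_sdiff (holes s) Y
  rw [Finset.inter_comm, h1, h2] at h
  exact Finset.card_eq_zero.1 h.symm

section main
variable {g : V → V → ℝ} {c0 : ℝ} (hsym : ∀ u v, g u v = g v u) (hpos : ∀ u v, 0 < g u v)
  (hc : 0 < c0) (hc1 : c0 ≤ 1) (hN : NodeA g c0) (f : (V → V) → ℝ)

/-- odd canonical pairs -/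
def OddC (V : Type*) [Fintype V] [DecidableEq V] (v : V) : Set ((V → V) × (V → V)) :=
  {N | Inv N.1 ∧ Inv N.2 ∧ (comp N.1 N.2 v ∩ holes N.1).card = 1 ∧
    (comp N.1 N.2 v ∩ holes N.2).card = 1 ∧ (holes N.1 \ comp N.1 N.2 v).card = 1 ∧
    (holes N.2 \ comp N.1 N.2 v).card = 1}

/-- even canonical pairs, first kind -/
def EvenC (V : Type*) [Fintype V] [DecidableEq V] (v : V) : Set ((V → V) × (V → V)) :=
  {N | Inv N.1 ∧ Inv N.2 ∧ (comp N.1 N.2 v ∩ holes N.1).card = 2 ∧
    (comp N.1 N.2 v ∩ holes N.2).card = 0 ∧ (holes N.1 \ comp N.1 N.2 v).card = 0 ∧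
    (holes N.2 \ comp N.1 N.2 v).card = 0}

/-- even canonical pairs, second kind -/
def EvenC' (V : Type*) [Fintype V] [DecidableEq V] (v : V) : Set ((V → V) × (V → V)) :=
  {N | Inv N.1 ∧ Inv N.2 ∧ (comp N.1 N.2 v ∩ holes N.1).card = 0 ∧
    (comp N.1 N.2 v ∩ holes N.2).card = 2 ∧ (holes N.1 \ comp N.1 N.2 v).card = 0 ∧
    (holes N.2 \ comp N.1 N.2 v).card = 0}

/-- the canonical term -/
noncomputable def cT (g : V → V → ℝ) (f : (V → V) → ℝ) (v : V) (N : (V → V) × (V → V)) : ℝ :=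
  W g N.1 * W g N.2 * (f (jn N.1) + f (jn N.2) - f (jn (swp (comp N.1 N.2 v) N.1 N.2)) -
    f (jn (swp (comp N.1 N.2 v) N.2 N.1))) ^ 2

theorem cT_eq (v : V) (s t : V → V) :
    W g s * W g t * (Gf f s t v - Hf f s t v) ^ 2 = cT g f v (s, t) := by
  unfold cT Gf Hf
  ring

include hpos in
theorem cT_nonneg (v : V) (N : (V → V) × (V → V)) : 0 ≤ cT g f v N :=
  mul_nonneg (mul_nonneg (W_pos hpos _).le (W_pos hpos _).le) (sq_nonneg _)

open Classical in
include hsym hpos hc hc1 hN in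
theorem odd_le (v : V) :
    ∑ N ∈ univ.filter (fun N => N ∈ OddC V v), cT g f v N ≤ c0⁻¹ ^ 2 * E2 g f := by
  have hst : ∀ N ∈ (univ.filter (fun N => N ∈ OddC V v) : Finset ((V → V) × (V → V))),
      ∃ x : (V × V) × (V × V), x.1.1 ∈ comp N.1 N.2 v ∧ x.1.2 ∉ comp N.1 N.2 v ∧ x.1.1 ≠ x.1.2 ∧
        holes N.1 = {x.1.1, x.1.2} ∧
        x.2.1 ∈ comp N.1 N.2 v ∧ x.2.2 ∉ comp N.1 N.2 v ∧ x.2.1 ≠ x.2.2 ∧
        holes N.2 = {x.2.1, x.2.2} := by
    intro N hN
    rw [mem_filter] at hN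
    obtain ⟨-, h1, h2, h3, h4, h5, h6⟩ := hN
    obtain ⟨p, z, a1, a2, a3, a4⟩ := odd_struct h3 h5
    obtain ⟨q, y, b1, b2, b3, b4⟩ := odd_struct h4 h6
    exact ⟨((p, z), (q, y)), a1, a2, a3, a4, b1, b2, b3, b4⟩
  have : Nonempty V := ⟨v⟩
  choose! X hX using hst
  have e2 : E2 g f = ∑ y ∈ (pms V) ×ˢ ((pms V) ×ˢ ((univ : Finset V) ×ˢ (univ : Finset V))),
      (if y.2.2.2 ∈ comp (del y.1 y.2.2.1) (del y.2.1 y.2.2.2) y.2.2.1 then
      min (W g y.1 * W g y.2.1) (W g (two1 y.1 y.2.1 y.2.2.1 y.2.2.2) *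
        W g (two2 y.1 y.2.1 y.2.2.1 y.2.2.2)) *
        (f y.1 + f y.2.1 - f (two1 y.1 y.2.1 y.2.2.1 y.2.2.2) -
          f (two2 y.1 y.2.1 y.2.2.1 y.2.2.2)) ^ 2
      else 0) := by
    unfold E2
    rw [Finset.sum_product]
    refine Finset.sum_congr rfl fun s _ => ?_
    rw [Finset.sum_product]
    refine Finset.sum_congr rfl fun t _ => ?_
    rw [Finset.sum_product]
  rw [e2]
  refine sum_dom _ _ (fun N => (add N.1 (X N).1.1 (X N).1.2, add N.2 (X N).2.1 (X N).2.2,
    (X N).1.1, (X N).2.1)) _ _ (by positivity) ?_ ?_ ?_ ?_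
  · intro N hmem
    obtain ⟨a1, a2, a3, a4, b1, b2, b3, b4⟩ := hX N hmem
    rw [mem_filter] at hmem
    obtain ⟨-, h1, h2, -⟩ := hmem
    simp only [mem_product, mem_univ, and_true]
    exact ⟨add_pm h1 a3 a4, add_pm h2 b3 b4⟩
  · intro N hmem N' hmem' heq
    obtain ⟨a1, a2, a3, a4, b1, b2, b3, b4⟩ := hX N hmem
    obtain ⟨a1', a2', a3', a4', b1', b2', b3', b4'⟩ := hX N' hmem'
    simp only [Prod.mk.injEq] at heq
    obtain ⟨e1, e2, e3, e4⟩ := heq
    have c1 : N.1 (X N).1.1 = (X N).1.1 := mem_holes.1 (by rw [a4]; simp)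
    have c2 : N.1 (X N).1.2 = (X N).1.2 := mem_holes.1 (by rw [a4]; simp)
    have c3 : N.2 (X N).2.1 = (X N).2.1 := mem_holes.1 (by rw [b4]; simp)
    have c4 : N.2 (X N).2.2 = (X N).2.2 := mem_holes.1 (by rw [b4]; simp)
    have c1' : N'.1 (X N').1.1 = (X N').1.1 := mem_holes.1 (by rw [a4']; simp)
    have c2' : N'.1 (X N').1.2 = (X N').1.2 := mem_holes.1 (by rw [a4']; simp)
    have c3' : N'.2 (X N').2.1 = (X N').2.1 := mem_holes.1 (by rw [b4']; simp)
    have c4' : N'.2 (X N').2.2 = (X N').2.2 := mem_holes.1 (by rw [b4']; simp)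
    have d1 := del_add c1 c2
    have d2 := del_add c1' c2'
    have d3 := del_add c3 c4
    have d4 := del_add c3' c4'
    rw [e1, e3, d2] at d1
    rw [e2, e4, d4] at d3
    exact Prod.ext d1.symm d3.symm
  · intro N hmem
    obtain ⟨a1, a2, a3, a4, b1, b2, b3, b4⟩ := hX N hmem
    rw [mem_filter] at hmem
    obtain ⟨-, h1, h2, -⟩ := hmem
    obtain ⟨s, t⟩ := N
    simp only at a1 a2 a3 a4 b1 b2 b3 b4 h1 h2 ⊢
    set p := (X (s, t)).1.1
    set z := (X (s, t)).1.2
    set q := (X (s, t)).2.1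
    set y := (X (s, t)).2.2
    have c1 : s p = p := mem_holes.1 (by rw [a4]; simp)
    have c2 : s z = z := mem_holes.1 (by rw [a4]; simp)
    have c3 : t q = q := mem_holes.1 (by rw [b4]; simp)
    have c4 : t y = y := mem_holes.1 (by rw [b4]; simp)
    have d1 := del_add c1 c2
    have d3 := del_add c3 c4
    have hcp : comp s t p = comp s t v := comp_eq h1 h2 a1
    have hzq : q ≠ z := fun h => a2 (h ▸ b1)
    have hyp : p ≠ y := fun h => b2 (h ▸ a1)
    have t1 : two1 (add s p z) (add t q y) p q = add (swp (comp s t v) s t) q z := by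
      unfold two1
      rw [d1, d3, hcp, add_left]
    have t2 : two2 (add s p z) (add t q y) p q = add (swp (comp s t v) t s) p y := by
      unfold two2
      rw [d1, d3, hcp, add_left]
    rw [d1, d3, hcp, if_pos b1, t1, t2]
    have k1 : holes (swp (comp s t v) s t) = {q, z} := by
      rw [holes_swp, a4, b4]
      ext x
      simp only [mem_union, mem_inter, mem_sdiff, mem_insert, mem_singleton]
      constructor
      · rintro (⟨h | h, h'⟩ | ⟨h | h, h'⟩)
        · exact Or.inl h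
        · rw [h] at h'; exact absurd h' b2
        · rw [h] at h'; exact absurd a1 h'
        · exact Or.inr h
      · rintro (h | h)
        · rw [h]; exact Or.inl ⟨Or.inl rfl, b1⟩
        · rw [h]; exact Or.inr ⟨Or.inr rfl, a2⟩
    have k2 : holes (swp (comp s t v) t s) = {p, y} := by
      rw [holes_swp, a4, b4]
      ext x
      simp only [mem_union, mem_inter, mem_sdiff, mem_insert, mem_singleton]
      constructor
      · rintro (⟨h | h, h'⟩ | ⟨h | h, h'⟩)
        · exact Or.inl h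
        · rw [h] at h'; exact absurd h' a2
        · rw [h] at h'; exact absurd b1 h'
        · exact Or.inr h
      · rintro (h | h)
        · rw [h]; exact Or.inl ⟨Or.inl rfl, a1⟩
        · rw [h]; exact Or.inr ⟨Or.inr rfl, b2⟩
    unfold cT
    simp only
    rw [jn_two a3 a4, jn_two b3 b4, jn_two hzq k1, jn_two hyp k2, ← mul_assoc]
    refine mul_le_mul_of_nonneg_right ?_ (sq_nonneg _)
    rw [mul_min_of_nonneg _ _ (by positivity), le_min_iff]
    have i1 := W_le_add hsym hpos hc hN a3 c1 c2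
    have i2 := W_le_add hsym hpos hc hN b3 c3 c4
    have m1 : swp (comp s t v) s t q = q := mem_holes.1 (by rw [k1]; simp)
    have m2 : swp (comp s t v) s t z = z := mem_holes.1 (by rw [k1]; simp)
    have m3 : swp (comp s t v) t s p = p := mem_holes.1 (by rw [k2]; simp)
    have m4 : swp (comp s t v) t s y = y := mem_holes.1 (by rw [k2]; simp)
    have i3 := W_le_add hsym hpos hc hN hzq m1 m2
    have i4 := W_le_add hsym hpos hc hN hyp m3 m4
    have hci : 0 ≤ c0⁻¹ := inv_nonneg.2 hc.le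
    constructor
    · calc W g s * W g t ≤ (c0⁻¹ * W g (add s p z)) * (c0⁻¹ * W g (add t q y)) :=
            mul_le_mul i1 i2 (W_pos hpos _).le (mul_nonneg hci (W_pos hpos _).le)
        _ = _ := by ring
    · rw [← W_swp_mul (A := comp s t v) (s := s) (t := t)]
      calc W g (swp (comp s t v) s t) * W g (swp (comp s t v) t s) ≤
            (c0⁻¹ * W g (add (swp (comp s t v) s t) q z)) *
              (c0⁻¹ * W g (add (swp (comp s t v) t s) p y)) :=
            mul_le_mul i3 i4 (W_pos hpos _).le (mul_nonneg hci (W_pos hpos _).le)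
        _ = _ := by ring
  · intro y _
    split_ifs
    · exact mul_nonneg (le_min (mul_nonneg (W_pos hpos _).le (W_pos hpos _).le)
        (mul_nonneg (W_pos hpos _).le (W_pos hpos _).le)) (sq_nonneg _)
    · exact le_rfl

/-- exchange energy at `v` -/
noncomputable def EexV (g : V → V → ℝ) (f : (V → V) → ℝ) (v : V) : ℝ :=
  ∑ s ∈ pms V, ∑ t ∈ pms V, W g s * W g t *
      (f s + f t - f (swp (comp s t v) s t) - f (swp (comp s t v) t s)) ^ 2

theorem sum_EexV : ∑ v, EexV g f v = Eex g f := by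
  unfold EexV Eex
  rw [Finset.sum_comm]
  refine Finset.sum_congr rfl fun s _ => ?_
  rw [Finset.sum_comm]

include hpos in
theorem EexV_nonneg (v : V) : 0 ≤ EexV g f v :=
  Finset.sum_nonneg fun s _ => Finset.sum_nonneg fun t _ =>
    mul_nonneg (mul_nonneg (W_pos hpos s).le (W_pos hpos t).le) (sq_nonneg _)


open Classical in
include hsym hpos hc hc1 hN in
theorem even_le (v : V) :
    ∑ N ∈ univ.filter (fun N => N ∈ EvenC V v), cT g f v N ≤
      c0⁻¹ * (Fintype.card V * EexV g f v) := by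
  have hst : ∀ N ∈ (univ.filter (fun N => N ∈ EvenC V v) : Finset ((V → V) × (V → V))),
      ∃ x : V × V, x.1 ∈ comp N.1 N.2 v ∧ x.2 ∈ comp N.1 N.2 v ∧ x.1 ≠ x.2 ∧
        holes N.1 = {x.1, x.2} := by
    intro N hN
    rw [mem_filter] at hN
    obtain ⟨-, h1, h2, h3, h4, h5, h6⟩ := hN
    obtain ⟨p, z, a1, a2, a3, a4⟩ := even_struct h3 h5
    exact ⟨(p, z), a1, a2, a3, a4⟩
  have : Nonempty V := ⟨v⟩
  choose! X hX using hst
  have e2 : (Fintype.card V * EexV g f v : ℝ) = ∑ y ∈ (pms V) ×ˢ ((pms V) ×ˢ (univ : Finset V)),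
      W g y.1 * W g y.2.1 * (f y.1 + f y.2.1 - f (swp (comp y.1 y.2.1 v) y.1 y.2.1) -
        f (swp (comp y.1 y.2.1 v) y.2.1 y.1)) ^ 2 := by
    unfold EexV
    rw [Finset.sum_product, Finset.mul_sum]
    refine Finset.sum_congr rfl fun s _ => ?_
    rw [Finset.sum_product, Finset.mul_sum]
    refine Finset.sum_congr rfl fun t _ => ?_
    simp only [Finset.sum_const, Finset.card_univ, nsmul_eq_mul]
  rw [e2]
  refine sum_dom _ _ (fun N => (add N.1 (X N).1 (X N).2, N.2, (X N).1)) _ _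
    (inv_nonneg.2 hc.le) ?_ ?_ ?_ ?_
  · intro N hmem
    obtain ⟨a1, a2, a3, a4⟩ := hX N hmem
    rw [mem_filter] at hmem
    obtain ⟨-, h1, h2, h3, h4, h5, h6⟩ := hmem
    simp only [mem_product, mem_univ, and_true]
    exact ⟨add_pm h1 a3 a4, pms_of_holes h2 (empty_struct h4 h6)⟩
  · intro N hmem N' hmem' heq
    obtain ⟨a1, a2, a3, a4⟩ := hX N hmem
    obtain ⟨a1', a2', a3', a4'⟩ := hX N' hmem'
    simp only [Prod.mk.injEq] at heq
    obtain ⟨e1, e2, e3⟩ := heq
    have c1 : N.1 (X N).1 = (X N).1 := mem_holes.1 (by rw [a4]; simp)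
    have c2 : N.1 (X N).2 = (X N).2 := mem_holes.1 (by rw [a4]; simp)
    have c1' : N'.1 (X N').1 = (X N').1 := mem_holes.1 (by rw [a4']; simp)
    have c2' : N'.1 (X N').2 = (X N').2 := mem_holes.1 (by rw [a4']; simp)
    have d1 := del_add c1 c2
    have d2 := del_add c1' c2'
    rw [e1, e3, d2] at d1
    exact Prod.ext d1.symm e2
  · intro N hmem
    obtain ⟨a1, a2, a3, a4⟩ := hX N hmem
    rw [mem_filter] at hmem
    obtain ⟨-, h1, h2, h3, h4, h5, h6⟩ := hmem
    obtain ⟨s, t⟩ := N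
    simp only at a1 a2 a3 a4 h1 h2 h3 h4 h5 h6 ⊢
    set p := (X (s, t)).1
    set z := (X (s, t)).2
    have c1 : s p = p := mem_holes.1 (by rw [a4]; simp)
    have c2 : s z = z := mem_holes.1 (by rw [a4]; simp)
    have ht0 : holes t = ∅ := empty_struct h4 h6
    have k1 : holes (swp (comp s t v) s t) = ∅ := by
      rw [holes_swp, ht0, Finset.empty_inter, Finset.empty_union]
      exact Finset.card_eq_zero.1 h5
    have k2 : holes (swp (comp s t v) t s) = {p, z} := by
      rw [holes_swp, ht0, Finset.empty_sdiff, Finset.union_empty, a4]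
      ext x
      rw [mem_inter, mem_insert, mem_singleton]
      constructor
      · exact fun h => h.1
      · rintro (h | h)
        · rw [h]; exact ⟨Or.inl rfl, a1⟩
        · rw [h]; exact ⟨Or.inr rfl, a2⟩
    unfold cT
    simp only
    rw [jn_two a3 a4, jn_zero ht0, jn_zero k1, jn_two a3 k2, comp_add_in c1 c2 a1 a2,
      swp_add_in a1 a2, swp_add_in' a1 a2, ← mul_assoc]
    refine mul_le_mul_of_nonneg_right ?_ (sq_nonneg _)
    have i1 := W_le_add hsym hpos hc hN a3 c1 c2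
    calc W g s * W g t ≤ (c0⁻¹ * W g (add s p z)) * W g t :=
          mul_le_mul_of_nonneg_right i1 (W_pos hpos _).le
      _ = _ := by ring
  · intro y _
    exact mul_nonneg (mul_nonneg (W_pos hpos _).le (W_pos hpos _).le) (sq_nonneg _)

theorem cT_comm (v : V) (N : (V → V) × (V → V)) : cT g f v N.swap = cT g f v N := by
  unfold cT
  simp only [Prod.fst_swap, Prod.snd_swap]
  rw [comp_comm (s := N.2)]
  ring

theorem mem_EvenC' (v : V) (N : (V → V) × (V → V)) : N ∈ EvenC' V v ↔ N.swap ∈ EvenC V v := by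
  unfold EvenC' EvenC
  simp only [Set.mem_ofPred_eq, Prod.fst_swap, Prod.snd_swap]
  rw [comp_comm (s := N.2)]
  tauto

open Classical in
theorem even'_eq (v : V) :
    ∑ N ∈ univ.filter (fun N => N ∈ EvenC' V v), cT g f v N =
    ∑ N ∈ univ.filter (fun N => N ∈ EvenC V v), cT g f v N := by
  refine Finset.sum_bij' (fun N _ => N.swap) (fun N _ => N.swap) ?_ ?_ ?_ ?_ ?_
  · intro N hN
    rw [mem_filter] at hN ⊢
    exact ⟨mem_univ _, (mem_EvenC' v N).1 hN.2⟩
  · intro N hN
    rw [mem_filter] at hN ⊢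
    exact ⟨mem_univ _, (mem_EvenC' v _).2 (by rw [Prod.swap_swap]; exact hN.2)⟩
  · intro N _; exact Prod.swap_swap N
  · intro N _; exact Prod.swap_swap N
  · intro N _; exact (cT_comm f v N).symm

/-- canonical pairs -/
def CanP (V : Type*) [Fintype V] [DecidableEq V] (v : V) : Set ((V → V) × (V → V)) :=
  {N | Inv N.1 ∧ N.2 ∈ CanT N.1 v}

theorem CanP_sub {v : V} {N : (V → V) × (V → V)} (h : N ∈ CanP V v) :
    N ∈ OddC V v ∨ N ∈ EvenC V v ∨ N ∈ EvenC' V v := by
  obtain ⟨h1, h2, h3, h4, h5⟩ := h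
  have hd : (comp N.1 N.2 v ∩ holes N.1).card + (comp N.1 N.2 v ∩ holes N.2).card = 2 := by
    rcases h3 with h | h
    · exact defects_left h1 h2 h
    · exact defects_right h1 h2 h
  have hr : rr N.1 N.2 v = (comp N.1 N.2 v ∩ holes N.1).card % 2 := rfl
  have hcases : (comp N.1 N.2 v ∩ holes N.1).card = 0 ∨ (comp N.1 N.2 v ∩ holes N.1).card = 1 ∨
      (comp N.1 N.2 v ∩ holes N.1).card = 2 := by omega
  rcases hcases with h | h | h
  · right; right
    exact ⟨h1, h2, h, by omega, by omega, by omega⟩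
  · left
    exact ⟨h1, h2, h, by omega, by omega, by omega⟩
  · right; left
    exact ⟨h1, h2, h, by omega, by omega, by omega⟩

open Classical in
include hsym hpos hc hc1 hN in
theorem can_le (v : V) :
    ∑ N ∈ univ.filter (fun N => N ∈ CanP V v), cT g f v N ≤
      c0⁻¹ ^ 2 * E2 g f + 2 * (c0⁻¹ * (Fintype.card V * EexV g f v)) := by
  have h1 := odd_le hsym hpos hc hc1 hN f v
  have h2 := even_le hsym hpos hc hc1 hN f v
  have h3 := even'_eq (g := g) f v
  have hsub : (univ.filter (fun N => N ∈ CanP V v) : Finset ((V → V) × (V → V))) ⊆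
      univ.filter (fun N => N ∈ OddC V v) ∪ (univ.filter (fun N => N ∈ EvenC V v) ∪
        univ.filter (fun N => N ∈ EvenC' V v)) := by
    intro N hN
    rw [mem_filter] at hN
    simp only [mem_union, mem_filter, mem_univ, true_and]
    exact CanP_sub hN.2
  have h4 := Finset.sum_le_sum_of_subset_of_nonneg hsub
    (f := fun N => cT g f v N) (fun N _ _ => cT_nonneg hpos f v N)
  have h5 : ∀ A B : Finset ((V → V) × (V → V)), ∑ N ∈ A ∪ B, cT g f v N ≤
      ∑ N ∈ A, cT g f v N + ∑ N ∈ B, cT g f v N := by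
    intro A B
    rw [← Finset.sum_union_inter]
    have : 0 ≤ ∑ N ∈ A ∩ B, cT g f v N := Finset.sum_nonneg fun N _ => cT_nonneg hpos f v N
    linarith
  have h6 := h5 (univ.filter (fun N => N ∈ OddC V v)) (univ.filter (fun N => N ∈ EvenC V v) ∪
        univ.filter (fun N => N ∈ EvenC' V v))
  have h7 := h5 (univ.filter (fun N => N ∈ EvenC V v)) (univ.filter (fun N => N ∈ EvenC' V v))
  linarith

end main

end CQ

end Crest.Agent.R304
end

-- ▼ part R304/ConfQ6

/-!
# R304 / S0464: removing the holes outside the component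
-/

set_option autoImplicit false
set_option linter.unusedSectionVars false
set_option linter.unusedVariables false

namespace Crest.Agent.R304

open Finset

namespace CQ

variable {V : Type*} [Fintype V] [DecidableEq V]

open Classical in
/-- pairs with a defect at `v`, `i` / `j` holes outside the component of `v` -/
noncomputable def DS (V : Type*) [Fintype V] [DecidableEq V] (v : V) (i j : ℕ) :
    Finset ((V → V) × (V → V)) :=
  univ.filter fun N => Inv N.1 ∧ Inv N.2 ∧ Even (holes N.1).card ∧ Even (holes N.2).card ∧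
    (N.1 v = v ∨ N.2 v = v) ∧ (holes N.1 \ comp N.1 N.2 v).card = i ∧
    (holes N.2 \ comp N.1 N.2 v).card = j

theorem mem_DS {v : V} {i j : ℕ} {N : (V → V) × (V → V)} : N ∈ DS V v i j ↔
    Inv N.1 ∧ Inv N.2 ∧ Even (holes N.1).card ∧ Even (holes N.2).card ∧
    (N.1 v = v ∨ N.2 v = v) ∧ (holes N.1 \ comp N.1 N.2 v).card = i ∧
    (holes N.2 \ comp N.1 N.2 v).card = j := by
  simp [DS]

section main
variable {g : V → V → ℝ} {c0 : ℝ} (hsym : ∀ u v, g u v = g v u) (hpos : ∀ u v, 0 < g u v)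
  (hc : 0 < c0) (hc1 : c0 ≤ 1) (hN : NodeA g c0) (f : (V → V) → ℝ)

/-- centred term -/
noncomputable def dT (g : V → V → ℝ) (f : (V → V) → ℝ) (v : V) (N : (V → V) × (V → V)) : ℝ :=
  W g N.1 * W g N.2 * (Gf f N.1 N.2 v - Db g f N.1 N.2 v) ^ 2

include hpos in
theorem dT_nonneg (v : V) (N : (V → V) × (V → V)) : 0 ≤ dT g f v N :=
  mul_nonneg (mul_nonneg (W_pos hpos _).le (W_pos hpos _).le) (sq_nonneg _)

noncomputable def Sij (g : V → V → ℝ) (f : (V → V) → ℝ) (v : V) (i j : ℕ) : ℝ :=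
  ∑ N ∈ DS V v i j, dT g f v N

include hpos in
theorem Sij_nonneg (v : V) (i j : ℕ) : 0 ≤ Sij g f v i j :=
  Finset.sum_nonneg fun N _ => dT_nonneg hpos f v N

open Classical in
include hpos in
/-- base case: canonical pairs -/
theorem can_var (v : V) : ∑ N ∈ univ.filter (fun N => N ∈ CanP V v), dT g f v N ≤
    ∑ N ∈ univ.filter (fun N => N ∈ CanP V v), cT g f v N := by
  have e : ∀ F : (V → V) × (V → V) → ℝ, ∑ N ∈ univ.filter (fun N => N ∈ CanP V v), F N =
      ∑ s ∈ invs V, ∑ t ∈ univ.filter (fun t => t ∈ CanT s v), F (s, t) := by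
    intro F
    rw [Finset.sum_sigma']
    refine Finset.sum_bij' (fun N _ => (⟨N.1, N.2⟩ : (_ : V → V) × (V → V)))
      (fun x _ => (x.1, x.2)) ?_ ?_ ?_ ?_ ?_
    · intro N hN
      rw [mem_filter] at hN
      rw [Finset.mem_sigma, mem_invs, mem_filter]
      exact ⟨hN.2.1, mem_univ _, hN.2.2⟩
    · intro x hx
      rw [Finset.mem_sigma, mem_invs, mem_filter] at hx
      rw [mem_filter]
      exact ⟨mem_univ _, hx.1, hx.2.2⟩
    · intro N _; rfl
    · intro x _; rfl
    · intro N _; rfl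
  rw [e, e]
  refine Finset.sum_le_sum fun s hs => ?_
  have h := var_le hpos f (mem_invs.1 hs) v
  have e1 : ∑ t ∈ univ.filter (fun t => t ∈ CanT s v), dT g f v (s, t) =
      W g s * ∑ t ∈ univ.filter (fun t => t ∈ CanT s v), W g t * (Gf f s t v - Db g f s t v) ^ 2 := by
    rw [Finset.mul_sum]
    refine Finset.sum_congr rfl fun t _ => ?_
    unfold dT; ring
  have e2 : ∑ t ∈ univ.filter (fun t => t ∈ CanT s v), cT g f v (s, t) =
      W g s * ∑ t ∈ univ.filter (fun t => t ∈ CanT s v), W g t * (Gf f s t v - Hf f s t v) ^ 2 := by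
    rw [Finset.mul_sum]
    refine Finset.sum_congr rfl fun t _ => ?_
    rw [← cT_eq]; ring
  rw [e1, e2]
  exact mul_le_mul_of_nonneg_left h (W_pos hpos s).le

/-- canonical bound -/
noncomputable def CB (g : V → V → ℝ) (c0 : ℝ) (f : (V → V) → ℝ) (v : V) : ℝ :=
  c0⁻¹ ^ 2 * E2 g f + 2 * (c0⁻¹ * (Fintype.card V * EexV g f v))

include hpos hc in
theorem CB_nonneg (v : V) : 0 ≤ CB g c0 f v := by
  have h1 := E2_nonneg (g := g) f hpos
  have h2 := EexV_nonneg (g := g) hpos f v
  have h3 : 0 ≤ c0⁻¹ := inv_nonneg.2 hc.le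
  unfold CB
  positivity

theorem card_split (s : V → V) (Y : Finset V) :
    (Y ∩ holes s).card + (holes s \ Y).card = (holes s).card := by
  rw [Finset.inter_comm]; exact Finset.card_inter_add_card_sdiff _ _

include hsym hpos hc hc1 hN in
theorem Sij_base (v : V) (i : ℕ) (hi : i ≤ 1) : Sij g f v i i ≤ CB g c0 f v := by
  classical
  refine le_trans ?_ (can_le hsym hpos hc hc1 hN f v)
  refine le_trans ?_ (can_var hpos f v)
  refine Finset.sum_le_sum_of_subset_of_nonneg ?_ fun N _ _ => dT_nonneg hpos f v N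
  intro N hN'
  obtain ⟨h1, h2, h3, h4, h5, h6, h7⟩ := mem_DS.1 hN'
  rw [mem_filter]
  refine ⟨mem_univ _, h1, h2, h5, ?_, ?_⟩
  · have := card_split N.1 (comp N.1 N.2 v)
    obtain ⟨k, hk⟩ := h3
    unfold rr
    omega
  · have := card_split N.1 (comp N.1 N.2 v)
    obtain ⟨k, hk⟩ := h3
    unfold rr
    omega

theorem card_V_inv_le_kap (hc : 0 < c0) (hc1 : c0 ≤ 1) : c0⁻¹ * (Fintype.card V : ℝ) ≤ kap V c0 := by
  unfold kap
  have h := one_le_inv hc hc1
  have h1 : (Fintype.card V : ℝ) ≤ (Fintype.card V : ℝ) ^ 2 + 1 := by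
    nlinarith [sq_nonneg ((Fintype.card V : ℝ) - 1), sq_nonneg ((Fintype.card V : ℝ))]
  rw [mul_comm]
  exact mul_le_mul_of_nonneg_right h1 (by linarith)

theorem holes_sdiff_add {s : V → V} {Y : Finset V} {u w : V} (huw : u ≠ w) (hu : u ∈ holes s \ Y)
    (hw : w ∈ holes s \ Y) : (holes (add s u w) \ Y).card + 2 = (holes s \ Y).card := by
  rw [holes_add huw]
  have hsub : ({u, w} : Finset V) ⊆ holes s \ Y := by
    intro x hx
    rcases Finset.mem_insert.1 hx with h | h
    · rw [h]; exact hu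
    · rw [Finset.mem_singleton.1 h]; exact hw
  have h2 : ({u, w} : Finset V).card = 2 := Finset.card_pair huw
  have h3 := Finset.card_sdiff_add_card_eq_card hsub
  have h4 : (holes s \ {u, w}) \ Y = (holes s \ Y) \ {u, w} := by
    ext x; simp only [mem_sdiff]; tauto
  rw [h4]; omega

/-- generic one-label domination step -/
theorem lab_dom (A B : Finset ((V → V) × (V → V))) (φ : (V → V) × (V → V) → (V → V) × (V → V))
    (lab : (V → V) × (V → V) → V) (F G : (V → V) × (V → V) → ℝ) {K : ℝ} (hK : 0 ≤ K)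
    (hmap : ∀ x ∈ A, φ x ∈ B)
    (hinj : ∀ x ∈ A, ∀ y ∈ A, φ x = φ y → lab x = lab y → x = y)
    (hle : ∀ x ∈ A, F x ≤ K * G (φ x)) (hG : ∀ y ∈ B, 0 ≤ G y) :
    ∑ x ∈ A, F x ≤ K * (Fintype.card V : ℝ) * ∑ y ∈ B, G y := by
  have h := sum_dom A (B ×ˢ (univ : Finset V)) (fun x => (φ x, lab x)) F (fun y => G y.1) hK
    (fun x hx => by rw [mem_product]; exact ⟨hmap x hx, mem_univ _⟩)
    (fun x hx y hy hxy => by
      rw [Prod.mk.injEq] at hxy
      exact hinj x hx y hy hxy.1 hxy.2) hle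
    (fun y hy => hG y.1 (mem_product.1 hy).1)
  refine h.trans (le_of_eq ?_)
  rw [Finset.sum_product]
  simp only [Finset.sum_const, Finset.card_univ, nsmul_eq_mul]
  rw [← Finset.mul_sum]; ring

include hsym hpos hc hc1 hN in
/-- holes of the second member outside the component can be removed for free -/
theorem Sij_right (v : V) (i j : ℕ) : Sij g f v i (j + 2) ≤ kap V c0 * Sij g f v i j := by
  have hp : ∀ N ∈ DS V v i (j + 2), ∃ x : V × V, x.1 ≠ x.2 ∧
      x.1 ∈ holes N.2 \ comp N.1 N.2 v ∧ x.2 ∈ holes N.2 \ comp N.1 N.2 v := by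
    intro N hmem
    obtain ⟨h1, h2, h3, h4, h5, h6, h7⟩ := mem_DS.1 hmem
    obtain ⟨a, ha, b, hb, hab⟩ := Finset.one_lt_card.1 (show 1 < (holes N.2 \ comp N.1 N.2 v).card by omega)
    exact ⟨(a, b), hab, ha, hb⟩
  have : Nonempty V := ⟨v⟩
  choose! X hX using hp
  have h := lab_dom (DS V v i (j + 2)) (DS V v i j) (fun N => (N.1, add N.2 (X N).1 (X N).2))
    (fun N => (X N).1) (dT g f v) (dT g f v) (inv_nonneg.2 hc.le) ?_ ?_ ?_
    (fun N _ => dT_nonneg hpos f v N)
  · refine h.trans ?_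
    exact mul_le_mul_of_nonneg_right (card_V_inv_le_kap hc hc1) (Sij_nonneg hpos f v i j)
  · intro N hmem
    obtain ⟨a1, a2, a3⟩ := hX N hmem
    obtain ⟨h1, h2, h3, h4, h5, h6, h7⟩ := mem_DS.1 hmem
    have b2 := mem_sdiff.1 a2
    have b3 := mem_sdiff.1 a3
    have e1 : comp N.1 (add N.2 (X N).1 (X N).2) v = comp N.1 N.2 v := by
      rw [comp_comm, comp_add (by rw [comp_comm]; exact b2.2) (by rw [comp_comm]; exact b3.2),
        comp_comm]
    have e2 := holes_sdiff_add a1 a2 a3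
    have e3 := card_holes_add a1 b2.1 b3.1
    rw [mem_DS]
    simp only
    rw [e1]
    refine ⟨h1, h2.add (mem_holes.1 b2.1) (mem_holes.1 b3.1), h3, ?_, ?_, h6, by omega⟩
    · obtain ⟨k, hk⟩ := h4
      exact ⟨k - 1, by omega⟩
    · rcases h5 with h | h
      · exact Or.inl h
      · right
        have n1 : v ≠ (X N).1 := fun e => b2.2 (by rw [← e]; exact self_mem_comp)
        have n2 : v ≠ (X N).2 := fun e => b3.2 (by rw [← e]; exact self_mem_comp)
        rw [add_of_ne n1 n2]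
        exact h
  · intro N hmem N' hmem' heq hlab
    obtain ⟨a1, a2, a3⟩ := hX N hmem
    obtain ⟨a1', a2', a3'⟩ := hX N' hmem'
    simp only [Prod.mk.injEq] at heq
    obtain ⟨e1, e2⟩ := heq
    have d1 := del_add (mem_holes.1 (mem_sdiff.1 a2).1) (mem_holes.1 (mem_sdiff.1 a3).1)
    have d2 := del_add (mem_holes.1 (mem_sdiff.1 a2').1) (mem_holes.1 (mem_sdiff.1 a3').1)
    rw [e2, hlab, d2] at d1
    exact Prod.ext e1 d1.symm
  · intro N hmem
    obtain ⟨a1, a2, a3⟩ := hX N hmem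
    have b2 := mem_sdiff.1 a2
    have b3 := mem_sdiff.1 a3
    have e1 : comp N.1 (add N.2 (X N).1 (X N).2) v = comp N.1 N.2 v := by
      rw [comp_comm, comp_add (by rw [comp_comm]; exact b2.2) (by rw [comp_comm]; exact b3.2),
        comp_comm]
    have e2 : Db g f N.1 (add N.2 (X N).1 (X N).2) v = Db g f N.1 N.2 v :=
      Db_congr g f fun x hx => ⟨rfl, add_of_ne (fun e => b2.2 (e ▸ hx)) (fun e => b3.2 (e ▸ hx))⟩
    have e3 : Gf f N.1 (add N.2 (X N).1 (X N).2) v = Gf f N.1 N.2 v := by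
      unfold Gf
      rw [e1, swp_add_out' b2.2 b3.2]
    unfold dT
    simp only
    rw [e2, e3, ← mul_assoc]
    refine mul_le_mul_of_nonneg_right ?_ (sq_nonneg _)
    have i1 := W_le_add hsym hpos hc hN a1 (mem_holes.1 b2.1) (mem_holes.1 b3.1)
    calc W g N.1 * W g N.2 ≤ W g N.1 * (c0⁻¹ * W g (add N.2 (X N).1 (X N).2)) :=
          mul_le_mul_of_nonneg_left i1 (W_pos hpos _).le
      _ = _ := by ring

/-- total repair term -/
noncomputable def rT (g : V → V → ℝ) (f : (V → V) → ℝ) (N : (V → V) × (V → V)) : ℝ :=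
  W g N.1 * W g N.2 * ∑ u, ∑ w, dU f N.1 u w

include hpos in
theorem rT_nonneg (N : (V → V) × (V → V)) : 0 ≤ rT g f N :=
  mul_nonneg (mul_nonneg (W_pos hpos _).le (W_pos hpos _).le)
    (Finset.sum_nonneg fun u _ => Finset.sum_nonneg fun w _ => dU_nonneg f _ u w)

theorem dU_le_sum {s : V → V} {u w : V} (hu : s u = u) (hw : s w = w) (huw : u ≠ w) :
    (f (jn (add s u w)) - f (jn s)) ^ 2 ≤ ∑ a, ∑ b, dU f s a b := by
  have h1 : (f (jn (add s u w)) - f (jn s)) ^ 2 = dU f s u w := by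
    unfold dU; rw [if_pos ⟨hu, hw, huw⟩]
  rw [h1]
  calc dU f s u w ≤ ∑ b, dU f s u b :=
        Finset.single_le_sum (f := fun b => dU f s u b) (fun b _ => dU_nonneg f s u b) (mem_univ w)
    _ ≤ _ := Finset.single_le_sum (f := fun a => ∑ b, dU f s a b)
        (fun a _ => Finset.sum_nonneg fun b _ => dU_nonneg f s a b) (mem_univ u)

theorem defects_of {v : V} {N : (V → V) × (V → V)} (h1 : Inv N.1) (h2 : Inv N.2)
    (h5 : N.1 v = v ∨ N.2 v = v) :
    (comp N.1 N.2 v ∩ holes N.1).card + (comp N.1 N.2 v ∩ holes N.2).card = 2 := by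
  rcases h5 with h | h
  · exact defects_left h1 h2 h
  · exact defects_right h1 h2 h

theorem DS_Conf {v : V} {i j : ℕ} (hij : i + j ≤ 4) {N : (V → V) × (V → V)}
    (h : N ∈ DS V v i j) : N ∈ Conf V := by
  obtain ⟨h1, h2, h3, h4, h5, h6, h7⟩ := mem_DS.1 h
  simp only [Conf, mem_filter, mem_product, mem_invs]
  refine ⟨⟨h1, h2⟩, h3, h4, ?_⟩
  have := defects_of h1 h2 h5
  have := card_split N.1 (comp N.1 N.2 v)
  have := card_split N.2 (comp N.1 N.2 v)
  omega

/-- swap of the component of `v` -/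
noncomputable def sq (v : V) (N : (V → V) × (V → V)) : (V → V) × (V → V) :=
  (swp (comp N.1 N.2 v) N.1 N.2, swp (comp N.1 N.2 v) N.2 N.1)

theorem comp_sq (v x : V) (N : (V → V) × (V → V)) :
    comp (sq v N).1 (sq v N).2 x = comp N.1 N.2 x := comp_swp

theorem sq_sq (v : V) (N : (V → V) × (V → V)) : sq v (sq v N) = N := by
  have h : comp (sq v N).1 (sq v N).2 v = comp N.1 N.2 v := comp_sq v v N
  unfold sq at h ⊢
  simp only at h ⊢
  rw [h, swp_swp, swp_swp]

theorem W_sq (g : V → V → ℝ) (v : V) (N : (V → V) × (V → V)) :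
    W g (sq v N).1 * W g (sq v N).2 = W g N.1 * W g N.2 := W_swp_mul g

theorem Inv_sq {v : V} {N : (V → V) × (V → V)} (h1 : Inv N.1) (h2 : Inv N.2) :
    Inv (sq v N).1 ∧ Inv (sq v N).2 :=
  ⟨h1.swp h2 comp_cl_left comp_cl_right, h2.swp h1 comp_cl_right comp_cl_left⟩

/-- the number of holes after the swap -/
theorem card_sq1 (v : V) (N : (V → V) × (V → V)) : (holes (sq v N).1).card =
    (comp N.1 N.2 v ∩ holes N.2).card + (holes N.1 \ comp N.1 N.2 v).card := by
  unfold sq
  simp only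
  rw [holes_swp, Finset.card_union_of_disjoint, Finset.inter_comm]
  rw [Finset.disjoint_left]
  intro x hx hx'
  exact (mem_sdiff.1 hx').2 (mem_inter.1 hx).2

theorem card_sq2 (v : V) (N : (V → V) × (V → V)) : (holes (sq v N).2).card =
    (comp N.1 N.2 v ∩ holes N.1).card + (holes N.2 \ comp N.1 N.2 v).card := by
  unfold sq
  simp only
  rw [holes_swp, Finset.card_union_of_disjoint, Finset.inter_comm]
  rw [Finset.disjoint_left]
  intro x hx hx'
  exact (mem_sdiff.1 hx').2 (mem_inter.1 hx).2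

/-- the parity inside a component is the same for both members -/
theorem par_comp {s t : V → V} (hs : Inv s) (ht : Inv t) (v : V) :
    (comp s t v ∩ holes s).card % 2 = (comp s t v ∩ holes t).card % 2 := by
  rw [card_inter_holes_mod hs comp_cl_left, card_inter_holes_mod ht comp_cl_right]

theorem sq_Conf {v : V} {N : (V → V) × (V → V)} (h : N ∈ Conf V) : sq v N ∈ Conf V := by
  simp only [Conf, mem_filter, mem_product, mem_invs] at h ⊢
  obtain ⟨⟨h1, h2⟩, ⟨k, hk⟩, ⟨l, hl⟩, h5⟩ := h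
  have a1 := card_sq1 v N
  have a2 := card_sq2 v N
  have a3 := card_split N.1 (comp N.1 N.2 v)
  have a4 := card_split N.2 (comp N.1 N.2 v)
  have a5 := par_comp h1 h2 v
  refine ⟨Inv_sq h1 h2, ?_, ?_, by omega⟩
  · rw [Nat.even_iff]; omega
  · rw [Nat.even_iff]; omega

include hpos in
theorem sum_sq_le (v : V) (A : Finset ((V → V) × (V → V))) (hA : A ⊆ Conf V) :
    ∑ N ∈ A, rT g f (sq v N) ≤ ∑ N ∈ Conf V, rT g f N := by
  rw [← Finset.sum_image (f := fun N => rT g f N) (g := sq v) (s := A)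
    (fun x _ y _ hxy => by
      have := congrArg (sq v) hxy
      rwa [sq_sq, sq_sq] at this)]
  refine Finset.sum_le_sum_of_subset_of_nonneg ?_ fun N _ _ => rT_nonneg hpos f N
  intro N hN'
  obtain ⟨M, hM, rfl⟩ := Finset.mem_image.1 hN'
  exact sq_Conf (hA hM)

/-- right-hand side of the re-pairing lemma -/
noncomputable def RB (g : V → V → ℝ) (c0 : ℝ) (f : (V → V) → ℝ) : ℝ :=
  Krep V c0 * (Zh g ∅ * Esw g f)

include hsym hpos hc hc1 hN in
/-- holes of the first member outside the component -/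
theorem Sij_left (v : V) (i j : ℕ) (hij : i + 2 + j ≤ 4) :
    Sij g f v (i + 2) j ≤ 3 * kap V c0 * Sij g f v i j + 6 * RB g c0 f := by
  have hp : ∀ N ∈ DS V v (i + 2) j, ∃ x : V × V, x.1 ≠ x.2 ∧
      x.1 ∈ holes N.1 \ comp N.1 N.2 v ∧ x.2 ∈ holes N.1 \ comp N.1 N.2 v := by
    intro N hmem
    obtain ⟨h1, h2, h3, h4, h5, h6, h7⟩ := mem_DS.1 hmem
    obtain ⟨a, ha, b, hb, hab⟩ := Finset.one_lt_card.1 (show 1 < (holes N.1 \ comp N.1 N.2 v).card by omega)
    exact ⟨(a, b), hab, ha, hb⟩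
  have : Nonempty V := ⟨v⟩
  choose! X hX using hp
  -- pointwise
  have hpt : ∀ N ∈ DS V v (i + 2) j, dT g f v N ≤
      3 * (W g N.1 * W g N.2 * (Gf f (add N.1 (X N).1 (X N).2) N.2 v -
        Db g f (add N.1 (X N).1 (X N).2) N.2 v) ^ 2) + 3 * rT g f N + 3 * rT g f (sq v N) := by
    intro N hmem
    obtain ⟨a1, a2, a3⟩ := hX N hmem
    have b2 := mem_sdiff.1 a2
    have b3 := mem_sdiff.1 a3
    have e1 : comp (add N.1 (X N).1 (X N).2) N.2 v = comp N.1 N.2 v := comp_add b2.2 b3.2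
    have e2 : Db g f (add N.1 (X N).1 (X N).2) N.2 v = Db g f N.1 N.2 v :=
      Db_congr g f fun x hx => ⟨add_of_ne (fun e => b2.2 (e ▸ hx)) (fun e => b3.2 (e ▸ hx)), rfl⟩
    have e3 : Gf f (add N.1 (X N).1 (X N).2) N.2 v =
        f (jn (add (swp (comp N.1 N.2 v) N.1 N.2) (X N).1 (X N).2)) -
          f (jn (add N.1 (X N).1 (X N).2)) := by
      unfold Gf
      rw [e1, swp_add_out b2.2 b3.2]
    have r1 := dU_le_sum f (mem_holes.1 b2.1) (mem_holes.1 b3.1) a1
    have m1 : swp (comp N.1 N.2 v) N.1 N.2 (X N).1 = (X N).1 := by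
      rw [swp_of_not_mem b2.2]; exact mem_holes.1 b2.1
    have m2 : swp (comp N.1 N.2 v) N.1 N.2 (X N).2 = (X N).2 := by
      rw [swp_of_not_mem b3.2]; exact mem_holes.1 b3.1
    have r2 := dU_le_sum f m1 m2 a1
    have hω : 0 ≤ W g N.1 * W g N.2 := mul_nonneg (W_pos hpos _).le (W_pos hpos _).le
    have q1 := mul_le_mul_of_nonneg_left r1 hω
    have q2 := mul_le_mul_of_nonneg_left r2 hω
    have e4 : rT g f (sq v N) = W g N.1 * W g N.2 *
        ∑ u, ∑ w, dU f (swp (comp N.1 N.2 v) N.1 N.2) u w := by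
      unfold rT
      rw [W_sq]
      rfl
    rw [e4]
    unfold dT rT
    rw [e2, e3]
    unfold Gf
    set P := swp (comp N.1 N.2 v) N.1 N.2
    set D := Db g f N.1 N.2 v
    set x1 := f (jn P)
    set x2 := f (jn N.1)
    set x3 := f (jn (add P (X N).1 (X N).2))
    set x4 := f (jn (add N.1 (X N).1 (X N).2))
    set ω := W g N.1 * W g N.2
    have key : (x1 - x2 - D) ^ 2 ≤ 3 * (x3 - x4 - D) ^ 2 + 3 * (x4 - x2) ^ 2 +
        3 * (x3 - x1) ^ 2 := by
      nlinarith [sq_nonneg ((x3 - x4 - D) - (x4 - x2)), sq_nonneg ((x3 - x4 - D) + (x3 - x1)),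
        sq_nonneg ((x4 - x2) + (x3 - x1))]
    have := mul_le_mul_of_nonneg_left key hω
    linarith
  have h1 : ∑ N ∈ DS V v (i + 2) j, W g N.1 * W g N.2 *
      (Gf f (add N.1 (X N).1 (X N).2) N.2 v - Db g f (add N.1 (X N).1 (X N).2) N.2 v) ^ 2 ≤
      kap V c0 * Sij g f v i j := by
    have h := lab_dom (DS V v (i + 2) j) (DS V v i j) (fun N => (add N.1 (X N).1 (X N).2, N.2))
      (fun N => (X N).1) (fun N => W g N.1 * W g N.2 *
      (Gf f (add N.1 (X N).1 (X N).2) N.2 v - Db g f (add N.1 (X N).1 (X N).2) N.2 v) ^ 2)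
      (dT g f v) (inv_nonneg.2 hc.le) ?_ ?_ ?_
      (fun N _ => dT_nonneg hpos f v N)
    · refine h.trans ?_
      exact mul_le_mul_of_nonneg_right (card_V_inv_le_kap hc hc1) (Sij_nonneg hpos f v i j)
    · intro N hmem
      obtain ⟨a1, a2, a3⟩ := hX N hmem
      obtain ⟨h1, h2, h3, h4, h5, h6, h7⟩ := mem_DS.1 hmem
      have b2 := mem_sdiff.1 a2
      have b3 := mem_sdiff.1 a3
      have e1 : comp (add N.1 (X N).1 (X N).2) N.2 v = comp N.1 N.2 v := comp_add b2.2 b3.2
      have e2 := holes_sdiff_add a1 a2 a3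
      have e3 := card_holes_add a1 b2.1 b3.1
      rw [mem_DS]
      simp only
      rw [e1]
      refine ⟨h1.add (mem_holes.1 b2.1) (mem_holes.1 b3.1), h2, ?_, h4, ?_, by omega, h7⟩
      · obtain ⟨k, hk⟩ := h3
        exact ⟨k - 1, by omega⟩
      · rcases h5 with h | h
        · left
          have n1 : v ≠ (X N).1 := fun e => b2.2 (by rw [← e]; exact self_mem_comp)
          have n2 : v ≠ (X N).2 := fun e => b3.2 (by rw [← e]; exact self_mem_comp)
          rw [add_of_ne n1 n2]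
          exact h
        · exact Or.inr h
    · intro N hmem N' hmem' heq hlab
      obtain ⟨a1, a2, a3⟩ := hX N hmem
      obtain ⟨a1', a2', a3'⟩ := hX N' hmem'
      simp only [Prod.mk.injEq] at heq
      obtain ⟨e1, e2⟩ := heq
      have d1 := del_add (mem_holes.1 (mem_sdiff.1 a2).1) (mem_holes.1 (mem_sdiff.1 a3).1)
      have d2 := del_add (mem_holes.1 (mem_sdiff.1 a2').1) (mem_holes.1 (mem_sdiff.1 a3').1)
      rw [e1, hlab, d2] at d1
      exact Prod.ext d1.symm e2
    · intro N hmem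
      obtain ⟨a1, a2, a3⟩ := hX N hmem
      have b2 := mem_sdiff.1 a2
      have b3 := mem_sdiff.1 a3
      unfold dT
      simp only
      rw [← mul_assoc]
      refine mul_le_mul_of_nonneg_right ?_ (sq_nonneg _)
      have i1 := W_le_add hsym hpos hc hN a1 (mem_holes.1 b2.1) (mem_holes.1 b3.1)
      calc W g N.1 * W g N.2 ≤ (c0⁻¹ * W g (add N.1 (X N).1 (X N).2)) * W g N.2 :=
            mul_le_mul_of_nonneg_right i1 (W_pos hpos _).le
        _ = _ := by ring
  have hsub : DS V v (i + 2) j ⊆ Conf V := fun N hN' => DS_Conf hij hN'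
  have hrep : ∑ N ∈ Conf V, rT g f N ≤ RB g c0 f := repair_aux hsym hpos hc hc1 hN f
  have h2 : ∑ N ∈ DS V v (i + 2) j, rT g f N ≤ RB g c0 f :=
    (Finset.sum_le_sum_of_subset_of_nonneg hsub fun N _ _ => rT_nonneg hpos f N).trans hrep
  have h3 : ∑ N ∈ DS V v (i + 2) j, rT g f (sq v N) ≤ RB g c0 f :=
    (sum_sq_le hpos f v _ hsub).trans hrep
  have h4 := Finset.sum_le_sum hpt
  rw [Finset.sum_add_distrib, Finset.sum_add_distrib, ← Finset.mul_sum, ← Finset.mul_sum,
    ← Finset.mul_sum] at h4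
  unfold Sij at h1 ⊢
  linarith

end main

end CQ

end Crest.Agent.R304
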