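import Mathlib

-- ▼ part R304/Ctl787A
section

/-!
# R304 / L5 (helper787): the annealing controller, part A: definitions and the potential

Abstract setting: `Ω` = finite set of states (perfect matchings of `K_n`), `E` = pairs,
`mem M` = the edge set of `M`, all of cardinality `N`, and under the uniform law each `e` has
marginal `1 / d`.
-/

set_option autoImplicit false
set_option linter.unusedSectionVars false

namespace Crest.Agent.R304.Ctl

open Finset

variable {Ω E : Type*} [Fintype Ω] [Fintype E] [DecidableEq E]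

/-- weight of a state. -/
noncomputable def wt (mem : Ω → Finset E) (lam : E → ℝ) (M : Ω) : ℝ := ∏ e ∈ mem M, lam e

/-- partition function. -/
noncomputable def Z (mem : Ω → Finset E) (lam : E → ℝ) : ℝ := ∑ M, wt mem lam M

/-- Gibbs probability of a state. -/
noncomputable def gib (mem : Ω → Finset E) (lam : E → ℝ) (M : Ω) : ℝ := wt mem lam M / Z mem lam

/-- probability that `e ∈ M`. -/
noncomputable def marg (mem : Ω → Finset E) (lam : E → ℝ) (e : E) : ℝ :=
  (∑ M ∈ univ.filter (fun M => e ∈ mem M), wt mem lam M) / Z mem lam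

/-- virtual marginal: `lam = A + om`. -/
noncomputable def vmarg (mem : Ω → Finset E) (A om : E → ℝ) (e : E) : ℝ :=
  marg mem (fun e => A e + om e) e * (om e / (A e + om e))

/-- potential, `y = log om`. -/
noncomputable def Psi (mem : Ω → Finset E) (q : ℝ) (A y : E → ℝ) : ℝ :=
  Real.log (Z mem (fun e => A e + Real.exp (y e))) - (∑ e, y e) / q

section basic

variable (mem : Ω → Finset E)

lemma wt_pos {lam : E → ℝ} (h : ∀ e, 0 < lam e) (M : Ω) : 0 < wt mem lam M :=
  Finset.prod_pos fun e _ => h e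

lemma Z_pos [Nonempty Ω] {lam : E → ℝ} (h : ∀ e, 0 < lam e) : 0 < Z mem lam :=
  Finset.sum_pos (fun M _ => wt_pos mem h M) univ_nonempty

lemma marg_nonneg {lam : E → ℝ} (h : ∀ e, 0 < lam e) (e : E) : 0 ≤ marg mem lam e :=
  div_nonneg (Finset.sum_nonneg fun M _ => (wt_pos mem h M).le)
    (Finset.sum_nonneg fun M _ => (wt_pos mem h M).le)

lemma marg_le_one [Nonempty Ω] {lam : E → ℝ} (h : ∀ e, 0 < lam e) (e : E) :
    marg mem lam e ≤ 1 := by
  unfold marg
  rw [div_le_one (Z_pos mem h)]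
  exact Finset.sum_le_sum_of_subset_of_nonneg (Finset.filter_subset _ _)
    (fun M _ _ => (wt_pos mem h M).le)

end basic

/-- The key convexity inequality: `log Z(A + e^{y'}) ≥ log Z(A + e^y) + Σ x_e (y'_e - y_e)`. -/
theorem logZ_ge [Nonempty Ω] (mem : Ω → Finset E) (A y y' : E → ℝ) (hA : ∀ e, 0 < A e) :
    Real.log (Z mem (fun e => A e + Real.exp (y e))) +
      ∑ e, vmarg mem A (fun e => Real.exp (y e)) e * (y' e - y e) ≤
    Real.log (Z mem (fun e => A e + Real.exp (y' e))) := by
  classical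
  set lam : E → ℝ := fun e => A e + Real.exp (y e) with hlam
  set lam' : E → ℝ := fun e => A e + Real.exp (y' e) with hlam'
  have hl : ∀ e, 0 < lam e := fun e => add_pos (hA e) (Real.exp_pos _)
  have hl' : ∀ e, 0 < lam' e := fun e => add_pos (hA e) (Real.exp_pos _)
  have hZ := Z_pos mem hl
  have hZ' := Z_pos mem hl'
  -- pointwise: lam' e ≥ lam e * exp (p_e (y'_e - y_e)), p_e = e^y/lam
  have hpt : ∀ e, lam e * Real.exp (Real.exp (y e) / lam e * (y' e - y e)) ≤ lam' e := by
    intro e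
    have h1 : Real.exp (A e / lam e * 0 + Real.exp (y e) / lam e * (y' e - y e)) ≤
        A e / lam e * Real.exp 0 + Real.exp (y e) / lam e * Real.exp (y' e - y e) := by
      have ha : (0:ℝ) ≤ A e / lam e := div_nonneg (hA e).le (hl e).le
      have hb : (0:ℝ) ≤ Real.exp (y e) / lam e := div_nonneg (Real.exp_pos _).le (hl e).le
      have hab : A e / lam e + Real.exp (y e) / lam e = 1 := by
        rw [← add_div]; exact div_self (hl e).ne'
      have := convexOn_exp.2 (Set.mem_univ (0:ℝ)) (Set.mem_univ (y' e - y e)) ha hb hab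
      simpa [smul_eq_mul] using this
    rw [mul_zero, zero_add, Real.exp_zero, mul_one, Real.exp_sub] at h1
    have h2 : lam e * Real.exp (Real.exp (y e) / lam e * (y' e - y e)) ≤
        lam e * (A e / lam e + Real.exp (y e) / lam e * (Real.exp (y' e) / Real.exp (y e))) :=
      mul_le_mul_of_nonneg_left h1 (hl e).le
    refine h2.trans (le_of_eq ?_)
    have := (hl e).ne'
    have := (Real.exp_pos (y e)).ne'
    simp only [hlam']
    field_simp
  -- weights
  have hw : ∀ M, wt mem lam M * Real.exp (∑ e ∈ mem M, Real.exp (y e) / lam e * (y' e - y e)) ≤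
      wt mem lam' M := by
    intro M
    unfold wt
    rw [Real.exp_sum, ← Finset.prod_mul_distrib]
    exact Finset.prod_le_prod (fun e _ => mul_nonneg (hl e).le (Real.exp_pos _).le)
      (fun e _ => hpt e)
  -- Jensen
  have hJ : Real.exp (∑ M, wt mem lam M / Z mem lam *
        (∑ e ∈ mem M, Real.exp (y e) / lam e * (y' e - y e))) ≤
      ∑ M, wt mem lam M / Z mem lam *
        Real.exp (∑ e ∈ mem M, Real.exp (y e) / lam e * (y' e - y e)) := by
    have := convexOn_exp.map_sum_le (t := (univ : Finset Ω))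
      (w := fun M => wt mem lam M / Z mem lam)
      (p := fun M => ∑ e ∈ mem M, Real.exp (y e) / lam e * (y' e - y e))
      (fun M _ => div_nonneg (wt_pos mem hl M).le hZ.le)
      (by rw [← Finset.sum_div]; exact div_self hZ.ne') (fun _ _ => Set.mem_univ _)
    simpa [smul_eq_mul] using this
  have hsum : ∑ M, wt mem lam M / Z mem lam *
        (∑ e ∈ mem M, Real.exp (y e) / lam e * (y' e - y e)) =
      ∑ e, vmarg mem A (fun e => Real.exp (y e)) e * (y' e - y e) := by
    have h3 : ∀ M, (∑ e ∈ mem M, Real.exp (y e) / lam e * (y' e - y e)) =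
        ∑ e, if e ∈ mem M then Real.exp (y e) / lam e * (y' e - y e) else 0 := by
      intro M
      rw [← Finset.sum_filter]
      apply Finset.sum_congr _ (fun _ _ => rfl)
      ext e; simp
    simp_rw [h3, Finset.mul_sum]
    rw [Finset.sum_comm]
    apply Finset.sum_congr rfl
    intro e _
    unfold vmarg marg
    rw [Finset.sum_filter, Finset.sum_div, Finset.sum_mul, Finset.sum_mul]
    apply Finset.sum_congr rfl
    intro M _
    split_ifs with h
    · simp only [hlam]; ring
    · simp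
  rw [hsum] at hJ
  have h4 : Z mem lam * Real.exp (∑ e, vmarg mem A (fun e => Real.exp (y e)) e * (y' e - y e)) ≤
      Z mem lam' := by
    calc Z mem lam * Real.exp (∑ e, vmarg mem A (fun e => Real.exp (y e)) e * (y' e - y e))
        ≤ Z mem lam * ∑ M, wt mem lam M / Z mem lam *
          Real.exp (∑ e ∈ mem M, Real.exp (y e) / lam e * (y' e - y e)) :=
          mul_le_mul_of_nonneg_left hJ hZ.le
      _ = ∑ M, wt mem lam M *
          Real.exp (∑ e ∈ mem M, Real.exp (y e) / lam e * (y' e - y e)) := by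
          rw [Finset.mul_sum]
          apply Finset.sum_congr rfl
          intro M _
          field_simp
      _ ≤ ∑ M, wt mem lam' M := Finset.sum_le_sum fun M _ => hw M
      _ = Z mem lam' := rfl
  have h5 := Real.log_le_log (mul_pos hZ (Real.exp_pos _)) h4
  rwa [Real.log_mul hZ.ne' (Real.exp_pos _).ne', Real.log_exp] at h5

end Crest.Agent.R304.Ctl
end

-- ▼ part R304/Ctl787B
section

/-!
# R304 / L5 (helper787): the annealing controller, part B: analysis of the potential
-/

set_option autoImplicit false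
set_option linter.unusedSectionVars false

namespace Crest.Agent.R304.Ctl

open Finset

variable {Ω E : Type*} [Fintype Ω] [Fintype E] [DecidableEq E]

/-- the abstract set system: every `mem M` has `N` elements, every `e` is in a fraction `1/d`. -/
structure Sys (mem : Ω → Finset E) (N d : ℕ) : Prop where
  card_mem : ∀ M, (mem M).card = N
  unif : ∀ e, d * (univ.filter (fun M => e ∈ mem M)).card = Fintype.card Ω
  dpos : 0 < d

lemma sum_sum_mem (mem : Ω → Finset E) (f : E → ℝ) :
    ∑ M, ∑ e ∈ mem M, f e = ∑ e, ((univ.filter (fun M => e ∈ mem M)).card : ℝ) * f e := by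
  have h3 : ∀ M, (∑ e ∈ mem M, f e) = ∑ e, if e ∈ mem M then f e else 0 := by
    intro M
    rw [← Finset.sum_filter]
    apply Finset.sum_congr _ (fun _ _ => rfl)
    ext e; simp
  simp_rw [h3]
  rw [Finset.sum_comm]
  apply Finset.sum_congr rfl
  intro e _
  rw [← Finset.sum_filter, Finset.sum_const, nsmul_eq_mul]

lemma Sys.unif_real {mem : Ω → Finset E} {N d : ℕ} (h : Sys mem N d) (e : E) :
    ((univ.filter (fun M => e ∈ mem M)).card : ℝ) = (Fintype.card Ω : ℝ) / d := by
  have hd : (d : ℝ) ≠ 0 := by exact_mod_cast h.dpos.ne'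
  rw [eq_div_iff hd, mul_comm]
  exact_mod_cast h.unif e

lemma Sys.card_E [Nonempty Ω] {mem : Ω → Finset E} {N d : ℕ} (h : Sys mem N d) :
    (Fintype.card E : ℝ) = N * d := by
  have h1 := sum_sum_mem mem (fun _ => (1:ℝ))
  simp only [Finset.sum_const, nsmul_eq_mul, mul_one, h.card_mem, h.unif_real,
    Finset.card_univ] at h1
  have hd : (d : ℝ) ≠ 0 := by exact_mod_cast h.dpos.ne'
  have hO : (Fintype.card Ω : ℝ) ≠ 0 := by exact_mod_cast Fintype.card_ne_zero
  field_simp at h1
  nlinarith [h1]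

/-- Jensen under the uniform law. -/
lemma logZ_ge_unif [Nonempty Ω] {mem : Ω → Finset E} {N d : ℕ} (h : Sys mem N d)
    {lam : E → ℝ} (hl : ∀ e, 0 < lam e) :
    (∑ e, Real.log (lam e)) / d ≤ Real.log (Z mem lam) := by
  have hO : (0:ℝ) < Fintype.card Ω := by exact_mod_cast Fintype.card_pos
  have hd : (0:ℝ) < d := by exact_mod_cast h.dpos
  have hZ := Z_pos mem hl
  have hJ : Real.exp (∑ M : Ω, (1 / (Fintype.card Ω : ℝ)) * (∑ e ∈ mem M, Real.log (lam e))) ≤
      ∑ M : Ω, (1 / (Fintype.card Ω : ℝ)) * Real.exp (∑ e ∈ mem M, Real.log (lam e)) := by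
    have := convexOn_exp.map_sum_le (t := (univ : Finset Ω))
      (w := fun _ => 1 / (Fintype.card Ω : ℝ))
      (p := fun M => ∑ e ∈ mem M, Real.log (lam e))
      (fun M _ => by positivity)
      (by rw [Finset.sum_const, nsmul_eq_mul, Finset.card_univ]; field_simp)
      (fun _ _ => Set.mem_univ _)
    simpa [smul_eq_mul] using this
  rw [← Finset.mul_sum, sum_sum_mem] at hJ
  simp only [h.unif_real] at hJ
  rw [← Finset.mul_sum, ← mul_assoc] at hJ
  have e1 : 1 / (Fintype.card Ω : ℝ) * ((Fintype.card Ω : ℝ) / d) = 1 / d := by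
    field_simp
  rw [e1] at hJ
  have e2 : ∑ M : Ω, Real.exp (∑ e ∈ mem M, Real.log (lam e)) = Z mem lam := by
    unfold Z wt
    apply Finset.sum_congr rfl
    intro M _
    rw [Real.exp_sum]
    exact Finset.prod_congr rfl (fun e _ => Real.exp_log (hl e))
  rw [← Finset.mul_sum, e2] at hJ
  have h1 : (1 : ℝ) / Fintype.card Ω ≤ 1 := by
    rw [div_le_one hO]; exact_mod_cast Fintype.card_pos
  have h2 : Real.exp (1 / (d:ℝ) * ∑ e, Real.log (lam e)) ≤ Z mem lam :=
    hJ.trans (by nlinarith)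
  have h3 := Real.log_le_log (Real.exp_pos _) h2
  rw [Real.log_exp] at h3
  calc (∑ e, Real.log (lam e)) / d = 1 / (d:ℝ) * ∑ e, Real.log (lam e) := by ring
    _ ≤ _ := h3

/-- coercivity: `‖y‖₁ ≤ q (Ψ(y) + N L)`. -/
lemma Psi_coercive [Nonempty Ω] {mem : Ω → Finset E} {N d : ℕ} (h : Sys mem N d)
    {q : ℝ} (hq : 2 * (d:ℝ) ≤ q) {A : E → ℝ} {L : ℝ} (hL : 0 ≤ L)
    (hA : ∀ e, Real.exp (-L) ≤ A e) (y : E → ℝ) :
    (∑ e, |y e|) / q - N * L ≤ Psi mem q A y := by
  have hd : (0:ℝ) < d := by exact_mod_cast h.dpos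
  have hq0 : 0 < q := by linarith
  have hA0 : ∀ e, 0 < A e := fun e => (Real.exp_pos _).trans_le (hA e)
  have hl : ∀ e, 0 < A e + Real.exp (y e) := fun e => add_pos (hA0 e) (Real.exp_pos _)
  have h1 := logZ_ge_unif h hl
  unfold Psi
  have h2 : (∑ e, |y e|) / q - N * L ≤
      (∑ e, Real.log (A e + Real.exp (y e))) / d - (∑ e, y e) / q := by
    have h3 : (N : ℝ) * L = ∑ _e : E, L / d := by
      rw [Finset.sum_const, nsmul_eq_mul, Finset.card_univ, h.card_E]
      field_simp
    rw [h3, Finset.sum_div, Finset.sum_div, Finset.sum_div, ← Finset.sum_sub_distrib,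
      ← Finset.sum_sub_distrib]
    apply Finset.sum_le_sum
    intro e _
    have hy1 : y e ≤ Real.log (A e + Real.exp (y e)) := by
      rw [Real.le_log_iff_exp_le (hl e)]; linarith [hA0 e]
    have hy2 : -L ≤ Real.log (A e + Real.exp (y e)) := by
      rw [Real.le_log_iff_exp_le (hl e)]; linarith [hA e, Real.exp_pos (y e)]
    rcases le_or_gt 0 (y e) with hy | hy
    · rw [abs_of_nonneg hy]
      have h4 : y e / q ≤ y e / (2 * d) := div_le_div_of_nonneg_left hy (by positivity) hq
      have h5 : y e / d ≤ Real.log (A e + Real.exp (y e)) / d := by gcongr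
      have h6 : y e / d = y e / (2 * d) + y e / (2 * d) := by field_simp; ring
      have h7 : 0 ≤ L / d := by positivity
      linarith
    · rw [abs_of_neg hy]
      have h5 : -L / d ≤ Real.log (A e + Real.exp (y e)) / d := by gcongr
      have h6 : -L / d = -(L / d) := by ring
      have h7 : -y e / q = -(y e / q) := by ring
      linarith
  linarith

/-- gradient inequality. -/
lemma Psi_sub_le [Nonempty Ω] (mem : Ω → Finset E) {q : ℝ} (A y y' : E → ℝ)
    (hA : ∀ e, 0 < A e) {η : ℝ}
    (hη : ∀ e, |vmarg mem A (fun e => Real.exp (y e)) e - 1 / q| ≤ η) :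
    Psi mem q A y - Psi mem q A y' ≤ η * ((∑ e, |y e|) + ∑ e, |y' e|) := by
  have h1 := logZ_ge mem A y y' hA
  have h2 : Psi mem q A y - Psi mem q A y' ≤
      ∑ e, (vmarg mem A (fun e => Real.exp (y e)) e - 1 / q) * (y e - y' e) := by
    unfold Psi
    have : ∑ e, (vmarg mem A (fun e => Real.exp (y e)) e - 1 / q) * (y e - y' e) =
        - (∑ e, vmarg mem A (fun e => Real.exp (y e)) e * (y' e - y e)) -
          (∑ e, y e) / q + (∑ e, y' e) / q := by
      rw [Finset.sum_div, Finset.sum_div, ← Finset.sum_neg_distrib, ← Finset.sum_sub_distrib,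
        ← Finset.sum_add_distrib]
      apply Finset.sum_congr rfl
      intro e _
      ring
    rw [this]; linarith
  refine h2.trans ?_
  rw [mul_add, Finset.mul_sum, Finset.mul_sum, ← Finset.sum_add_distrib]
  apply Finset.sum_le_sum
  intro e _
  have hη0 : 0 ≤ η := (abs_nonneg _).trans (hη e)
  calc (vmarg mem A (fun e => Real.exp (y e)) e - 1 / q) * (y e - y' e)
      ≤ |(vmarg mem A (fun e => Real.exp (y e)) e - 1 / q) * (y e - y' e)| := le_abs_self _
    _ = |vmarg mem A (fun e => Real.exp (y e)) e - 1 / q| * |y e - y' e| := abs_mul _ _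
    _ ≤ η * (|y e| + |y' e|) :=
        mul_le_mul (hη e) (abs_sub _ _) (abs_nonneg _) hη0
    _ = η * |y e| + η * |y' e| := by ring

/-- small gradient implies small `β`. -/
lemma beta_small [Nonempty Ω] {mem : Ω → Finset E} {N d : ℕ} (h : Sys mem N d)
    {q : ℝ} (hq : 2 * (d:ℝ) ≤ q) {A : E → ℝ} {L : ℝ} (hL : 0 ≤ L)
    (hA : ∀ e, Real.exp (-L) ≤ A e) (y : E → ℝ) {η P0 : ℝ} (hη0 : 0 ≤ η)
    (hη : ∀ e, |vmarg mem A (fun e => Real.exp (y e)) e - 1 / q| ≤ η)
    (hP : Psi mem q A y ≤ P0) (y' : E → ℝ) :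
    Psi mem q A y - Psi mem q A y' ≤ η * (2 * q * (P0 + N * L)) := by
  have hd : (0:ℝ) < d := by exact_mod_cast h.dpos
  have hq0 : 0 < q := by linarith
  have hA0 : ∀ e, 0 < A e := fun e => (Real.exp_pos _).trans_le (hA e)
  have hc := Psi_coercive h hq hL hA y
  have hs : ∑ e, |y e| ≤ q * (P0 + N * L) := by
    have : (∑ e, |y e|) / q ≤ P0 + N * L := by linarith
    rw [div_le_iff₀ hq0] at this
    linarith
  have hnn : 0 ≤ ∑ e, |y e| := Finset.sum_nonneg fun _ _ => abs_nonneg _
  rcases le_or_gt (Psi mem q A y') (Psi mem q A y) with hy | hy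
  · have hc' := Psi_coercive h hq hL hA y'
    have hs' : ∑ e, |y' e| ≤ q * (P0 + N * L) := by
      have : (∑ e, |y' e|) / q ≤ P0 + N * L := by linarith
      rw [div_le_iff₀ hq0] at this
      linarith
    refine (Psi_sub_le mem A y y' hA0 hη).trans ?_
    refine mul_le_mul_of_nonneg_left ?_ hη0
    linarith
  · have : 0 ≤ η * (2 * q * (P0 + N * L)) := by
      apply mul_nonneg hη0
      have : 0 ≤ q * (P0 + N * L) := hnn.trans hs
      linarith
    linarith

/-- `Z` is affine in each `ω_e`. -/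
lemma Z_update [Nonempty Ω] (mem : Ω → Finset E) (A om : E → ℝ) (hl : ∀ e, 0 < A e + om e)
    (e : E) (r : ℝ) :
    Z mem (fun f => A f + Function.update om e (om e * r) f) =
      Z mem (fun f => A f + om f) * (1 + vmarg mem A om e * (r - 1)) := by
  classical
  set lam : E → ℝ := fun f => A f + om f with hlam
  have hZ := Z_pos mem hl
  have key : ∀ M, wt mem (fun f => A f + Function.update om e (om e * r) f) M =
      wt mem lam M + if e ∈ mem M then wt mem lam M * (om e / lam e) * (r - 1) else 0 := by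
    intro M
    unfold wt
    split_ifs with he
    · rw [← Finset.mul_prod_erase (mem M) _ he, ← Finset.mul_prod_erase (mem M) lam he]
      have h1 : ∏ x ∈ (mem M).erase e, (A x + Function.update om e (om e * r) x) =
          ∏ x ∈ (mem M).erase e, lam x := by
        apply Finset.prod_congr rfl
        intro x hx
        rw [Function.update_of_ne (Finset.ne_of_mem_erase hx)]
      rw [h1, Function.update_self]
      have : lam e ≠ 0 := (hl e).ne'
      have h2 : lam e = A e + om e := rfl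
      field_simp
      rw [h2]; ring
    · rw [add_zero]
      apply Finset.prod_congr rfl
      intro x hx
      have hne : x ≠ e := by rintro rfl; exact he hx
      simp only [hlam, Function.update_of_ne hne]
  have : Z mem (fun f => A f + Function.update om e (om e * r) f) =
      Z mem lam + (∑ M ∈ univ.filter (fun M => e ∈ mem M), wt mem lam M) *
        (om e / lam e) * (r - 1) := by
    unfold Z
    rw [Finset.sum_congr rfl (fun M _ => key M), Finset.sum_add_distrib, ← Finset.sum_filter,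
      Finset.sum_mul, Finset.sum_mul]
  rw [this]
  have hv : vmarg mem A om e = (∑ M ∈ univ.filter (fun M => e ∈ mem M), wt mem lam M) / Z mem lam *
      (om e / lam e) := rfl
  rw [hv]
  have hZ' : Z mem lam ≠ 0 := hZ.ne'
  have hl' : lam e ≠ 0 := (hl e).ne'
  field_simp

lemma Psi_update [Nonempty Ω] (mem : Ω → Finset E) {q : ℝ} (A y : E → ℝ) (hA : ∀ e, 0 < A e)
    (e : E) (t : ℝ) :
    Psi mem q A (Function.update y e (y e + t)) = Psi mem q A y +
      Real.log (1 + vmarg mem A (fun e => Real.exp (y e)) e * (Real.exp t - 1)) - t / q := by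
  have hl : ∀ f, 0 < A f + (fun e => Real.exp (y e)) f :=
    fun f => add_pos (hA f) (Real.exp_pos _)
  have hl' : ∀ f, 0 < A f + Function.update (fun e => Real.exp (y e)) e
      ((fun e => Real.exp (y e)) e * Real.exp t) f := by
    intro f
    apply add_pos (hA f)
    by_cases hf : f = e
    · subst hf; rw [Function.update_self]; positivity
    · rw [Function.update_of_ne hf]; positivity
  have hZ := Z_pos mem hl
  have hZ' := Z_pos mem hl'
  have h1 := Z_update mem A (fun e => Real.exp (y e)) hl e (Real.exp t)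
  have hpos : 0 < 1 + vmarg mem A (fun e => Real.exp (y e)) e * (Real.exp t - 1) := by
    rw [h1] at hZ'
    exact (pos_iff_pos_of_mul_pos hZ').mp hZ
  have h2 : (fun f => A f + Real.exp (Function.update y e (y e + t) f)) =
      fun f => A f + Function.update (fun e => Real.exp (y e)) e
        ((fun e => Real.exp (y e)) e * Real.exp t) f := by
    funext f
    by_cases hf : f = e
    · subst hf; rw [Function.update_self, Function.update_self, Real.exp_add]
    · rw [Function.update_of_ne hf, Function.update_of_ne hf]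
  unfold Psi
  rw [h2, h1, Real.log_mul hZ.ne' hpos.ne']
  have h3 : ∑ f, Function.update y e (y e + t) f = (∑ f, y f) + t := by
    rw [Finset.sum_update_of_mem (Finset.mem_univ e), ← Finset.add_sum_erase univ y (mem_univ e),
      Finset.sdiff_singleton_eq_erase]
    ring
  rw [h3]
  ring

lemma vmarg_nonneg (mem : Ω → Finset E) (A om : E → ℝ) (hA : ∀ e, 0 < A e)
    (ho : ∀ e, 0 < om e) (e : E) : 0 ≤ vmarg mem A om e :=
  mul_nonneg (marg_nonneg mem (fun e => add_pos (hA e) (ho e)) e)
    (div_nonneg (ho e).le (add_pos (hA e) (ho e)).le)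

lemma vmarg_le_marg (mem : Ω → Finset E) (A om : E → ℝ) (hA : ∀ e, 0 < A e)
    (ho : ∀ e, 0 < om e) (e : E) :
    vmarg mem A om e ≤ marg mem (fun e => A e + om e) e := by
  unfold vmarg
  apply mul_le_of_le_one_right (marg_nonneg mem (fun e => add_pos (hA e) (ho e)) e)
  rw [div_le_one (add_pos (hA e) (ho e))]
  linarith [hA e]

lemma vmarg_le_one [Nonempty Ω] (mem : Ω → Finset E) (A om : E → ℝ) (hA : ∀ e, 0 < A e)
    (ho : ∀ e, 0 < om e) (e : E) : vmarg mem A om e ≤ 1 :=
  (vmarg_le_marg mem A om hA ho e).trans (marg_le_one mem (fun e => add_pos (hA e) (ho e)) e)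

/-- the one-coordinate test. -/
lemma x_bounds [Nonempty Ω] (mem : Ω → Finset E) {q : ℝ} (hq : 0 < q) (A y : E → ℝ)
    (hA : ∀ e, 0 < A e) (hβ : ∀ y', Psi mem q A y - Psi mem q A y' ≤ 1 / q) (e : E) :
    1 / (8 * q) ≤ vmarg mem A (fun e => Real.exp (y e)) e ∧
      vmarg mem A (fun e => Real.exp (y e)) e ≤ 4 / q := by
  set x := vmarg mem A (fun e => Real.exp (y e)) e with hx
  have hx0 : 0 ≤ x := vmarg_nonneg mem A _ hA (fun e => Real.exp_pos _) e
  have hx1 : x ≤ 1 := vmarg_le_one mem A _ hA (fun e => Real.exp_pos _) e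
  constructor
  · have h1 := hβ (Function.update y e (y e + 2))
    rw [Psi_update mem A y hA e 2] at h1
    have h2 : 1 / q ≤ Real.log (1 + x * (Real.exp 2 - 1)) := by
      have : (2:ℝ) / q = 1 / q + 1 / q := by ring
      linarith
    have he1 : 0 ≤ Real.exp 2 - 1 := by
      have := Real.add_one_le_exp (2:ℝ); linarith
    have he2 : Real.exp 2 - 1 ≤ 8 := by
      have h5 : Real.exp 1 < 2.7182818286 := Real.exp_one_lt_d9
      have h6 : Real.exp 2 = Real.exp 1 * Real.exp 1 := by rw [← Real.exp_add]; norm_num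
      have := Real.exp_pos 1
      rw [h6]; nlinarith
    have h3 : Real.log (1 + x * (Real.exp 2 - 1)) ≤ x * (Real.exp 2 - 1) := by
      have h4 : 0 < 1 + x * (Real.exp 2 - 1) := by positivity
      have := Real.log_le_sub_one_of_pos h4
      linarith
    have h7 : 1 / q ≤ x * 8 := h2.trans (h3.trans (mul_le_mul_of_nonneg_left he2 hx0))
    have h8 : 1 / (8 * q) = (1 / q) / 8 := by field_simp
    rw [h8]; linarith
  · have h1 := hβ (Function.update y e (y e + (-1)))
    rw [Psi_update mem A y hA e (-1)] at h1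
    have h2 : -(2 / q) ≤ Real.log (1 + x * (Real.exp (-1) - 1)) := by
      have : (2:ℝ) / q = 1 / q + 1 / q := by ring
      have h0 : (-1:ℝ) / q = - (1 / q) := by ring
      linarith
    have he : Real.exp (-1) ≤ 1 / 2 := by
      have h5 : (2.7182818283 : ℝ) < Real.exp 1 := Real.exp_one_gt_d9
      rw [Real.exp_neg, inv_eq_one_div]
      apply one_div_le_one_div_of_le (by norm_num)
      linarith
    have h4 : 0 < 1 + x * (Real.exp (-1) - 1) := by
      have := Real.exp_pos (-1)
      nlinarith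
    have h3 := Real.log_le_sub_one_of_pos h4
    have h5 : x * (1 - Real.exp (-1)) ≤ 2 / q := by nlinarith
    have h6 : x * (1 / 2) ≤ 2 / q := le_trans (mul_le_mul_of_nonneg_left (by linarith) hx0) h5
    have h7 : (4:ℝ) / q = 2 / q + 2 / q := by ring
    linarith

end Crest.Agent.R304.Ctl
end

-- ▼ part R304/Ctl787C
section

/-!
# R304 / L5 (helper787): the annealing controller, part C: the run theorem
-/

set_option autoImplicit false
set_option linter.unusedSectionVars false

namespace Crest.Agent.R304.Ctl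

open Finset

variable {Ω E : Type*} [Fintype Ω] [Fintype E] [DecidableEq E]

/-- controller state: `s` theta-steps made, exponents `a`. -/
structure St (E : Type*) where
  s : ℕ
  a : E → ℤ

/-- real weights: `1` on `G`, `(m/(m+1))^s` off `G`. -/
noncomputable def Aw (G : E → Prop) [DecidablePred G] (m s : ℕ) (e : E) : ℝ :=
  if G e then 1 else ((m : ℝ) / (m + 1)) ^ s

/-- virtual weights `w0 ((m+1)/m)^{a_e}`. -/
noncomputable def omw (w0 : ℝ) (m : ℕ) (a : E → ℤ) (e : E) : ℝ :=
  w0 * (((m : ℝ) + 1) / m) ^ (a e)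

/-- total weights of a controller state. -/
noncomputable def lamw (G : E → Prop) [DecidablePred G] (w0 : ℝ) (m : ℕ) (st : St E) (e : E) : ℝ :=
  Aw G m st.s e + omw w0 m st.a e

/-- virtual marginals of a controller state. -/
noncomputable def xv (mem : Ω → Finset E) (G : E → Prop) [DecidablePred G] (w0 : ℝ) (m : ℕ)
    (st : St E) (e : E) : ℝ :=
  vmarg mem (Aw G m st.s) (omw w0 m st.a) e

lemma xv_eq (mem : Ω → Finset E) (G : E → Prop) [DecidablePred G] (w0 : ℝ) (m : ℕ)
    (st : St E) (e : E) :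
    xv mem G w0 m st e = marg mem (lamw G w0 m st) e * (omw w0 m st.a e / lamw G w0 m st e) := rfl

/-- One step of the controller, from estimates `xh` of the virtual marginals. -/
def CStep (q gd S : ℕ) (xh : E → ℝ) (st st' : St E) : Prop :=
  (∃ e, xh e ≤ 1 / q - 1 / gd ∧ st' = ⟨st.s, Function.update st.a e (st.a e + 1)⟩) ∨
  (∃ e, 1 / q + 1 / gd ≤ xh e ∧ st' = ⟨st.s, Function.update st.a e (st.a e - 1)⟩) ∨
  ((∀ e, |xh e - 1 / q| ≤ 1 / gd) ∧ st' = ⟨min (st.s + 1) S, st.a⟩)

/-- Parameters: `|Ω| ≤ 2^W`, `D = W + 6N + NW`. -/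
structure Par (Ω : Type*) [Fintype Ω] (N d q m W gd : ℕ) : Prop where
  hN : 1 ≤ N
  hd : 1 ≤ d
  hq : 16 * (N * d) ≤ q
  hW : Fintype.card Ω ≤ 2 ^ W
  hgd : 6 * q ^ 2 * (W + 6 * N + N * W) ≤ gd
  hm1 : 2 * q * N ≤ m
  hm2 : 4 * gd ≤ q * m

/-- the number of theta-steps. -/
def Smax (m W : ℕ) : ℕ := m * (W + 4)

/-- number of rounds. -/
def Rounds (N m W gd : ℕ) : ℕ := Smax m W + 4 * gd * (m + 1) * (W + 6 * N + N * W) + 1

lemma Aw_pos (G : E → Prop) [DecidablePred G] {m : ℕ} (hm : 0 < m) (s : ℕ) (e : E) :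
    0 < Aw G m s e := by
  unfold Aw; split_ifs
  · exact one_pos
  · positivity

lemma Aw_le_one (G : E → Prop) [DecidablePred G] (m s : ℕ) (e : E) :
    Aw G m s e ≤ 1 := by
  unfold Aw; split_ifs
  · exact le_rfl
  · apply pow_le_one₀ (by positivity)
    rw [div_le_one (by positivity)]; linarith

lemma omw_pos {w0 : ℝ} (hw : 0 < w0) {m : ℕ} (hm : 0 < m) (a : E → ℤ) (e : E) :
    0 < omw w0 m a e := by
  unfold omw
  have : (0:ℝ) < m := by exact_mod_cast hm
  positivity

lemma log_omw {w0 : ℝ} (hw : 0 < w0) {m : ℕ} (hm : 0 < m) (a : E → ℤ) (e : E) :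
    Real.log (omw w0 m a e) = Real.log w0 + a e * Real.log (((m : ℝ) + 1) / m) := by
  unfold omw
  have : (0:ℝ) < m := by exact_mod_cast hm
  rw [Real.log_mul hw.ne' (by positivity), Real.log_zpow]

/-- the log-parameters -/
noncomputable def yv (w0 : ℝ) (m : ℕ) (a : E → ℤ) (e : E) : ℝ := Real.log (omw w0 m a e)

lemma exp_yv {w0 : ℝ} (hw : 0 < w0) {m : ℕ} (hm : 0 < m) (a : E → ℤ) :
    (fun e => Real.exp (yv w0 m a e)) = omw w0 m a := by
  funext e; exact Real.exp_log (omw_pos hw hm a e)

lemma yv_update {w0 : ℝ} (hw : 0 < w0) {m : ℕ} (hm : 0 < m) (a : E → ℤ) (e : E) (j : ℤ) :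
    yv w0 m (Function.update a e (a e + j)) =
      Function.update (yv w0 m a) e (yv w0 m a e + j * Real.log (((m : ℝ) + 1) / m)) := by
  funext f
  unfold yv
  by_cases hf : f = e
  · subst hf
    rw [Function.update_self, log_omw hw hm, log_omw hw hm, Function.update_self]
    push_cast; ring
  · rw [Function.update_of_ne hf, log_omw hw hm, log_omw hw hm, Function.update_of_ne hf]

/-! ### elementary estimates for `h = log((m+1)/m)` -/

lemma h_le {m : ℕ} (hm : 0 < m) : Real.log (((m : ℝ) + 1) / m) ≤ 1 / m := by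
  have hm' : (0:ℝ) < m := by exact_mod_cast hm
  have := Real.log_le_sub_one_of_pos (show (0:ℝ) < ((m:ℝ) + 1) / m by positivity)
  refine this.trans (le_of_eq ?_)
  field_simp; ring

lemma h_ge {m : ℕ} (hm : 0 < m) : 1 / ((m:ℝ) + 1) ≤ Real.log (((m : ℝ) + 1) / m) := by
  have hm' : (0:ℝ) < m := by exact_mod_cast hm
  have := Real.log_le_sub_one_of_pos (show (0:ℝ) < (m:ℝ) / (m + 1) by positivity)
  have h2 : Real.log ((m:ℝ) / (m + 1)) = - Real.log (((m : ℝ) + 1) / m) := by
    rw [← Real.log_inv, inv_div]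
  have h3 : (m:ℝ) / (m + 1) - 1 = - (1 / (m + 1)) := by field_simp; ring
  linarith


lemma exp_h {m : ℕ} (hm : 0 < m) : Real.exp (Real.log (((m : ℝ) + 1) / m)) = ((m : ℝ) + 1) / m := by
  have hm' : (0:ℝ) < m := by exact_mod_cast hm
  exact Real.exp_log (by positivity)

/-- `A ≥ exp(-(W+4))` for `s ≤ S`. -/
lemma Aw_ge (G : E → Prop) [DecidablePred G] {m W : ℕ} (hm : 0 < m) {s : ℕ}
    (hs : s ≤ Smax m W) (e : E) : Real.exp (-((W:ℝ) + 4)) ≤ Aw G m s e := by
  have hm' : (0:ℝ) < m := by exact_mod_cast hm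
  unfold Aw; split_ifs
  · rw [Real.exp_le_one_iff]
    have : (0:ℝ) ≤ W := by positivity
    linarith
  · have h1 : ((m:ℝ) / (m + 1)) ^ Smax m W ≤ ((m:ℝ) / (m + 1)) ^ s := by
      apply pow_le_pow_of_le_one (by positivity) _ hs
      rw [div_le_one (by positivity)]; linarith
    refine le_trans ?_ h1
    have h2 : Real.exp (-(1 / (m:ℝ))) ≤ (m:ℝ) / (m + 1) := by
      rw [← Real.exp_log (show (0:ℝ) < (m:ℝ) / (m + 1) by positivity)]
      apply Real.exp_le_exp.mpr
      have h2 : Real.log ((m:ℝ) / (m + 1)) = - Real.log (((m : ℝ) + 1) / m) := by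
        rw [← Real.log_inv, inv_div]
      rw [h2]
      linarith [h_le hm]
    calc Real.exp (-((W:ℝ) + 4)) = Real.exp (-(1 / (m:ℝ))) ^ Smax m W := by
          rw [← Real.exp_nat_mul]
          congr 1
          unfold Smax
          push_cast
          field_simp
      _ ≤ ((m:ℝ) / (m + 1)) ^ Smax m W := by
          apply pow_le_pow_left₀ (Real.exp_pos _).le h2

/-- `|Ω| θ_S ≤ 1/16`. -/
lemma theta_small {m W : ℕ} (hm : 0 < m) :
    (2:ℝ) ^ W * ((m:ℝ) / (m + 1)) ^ Smax m W ≤ 1 / 16 := by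
  have hm' : (0:ℝ) < m := by exact_mod_cast hm
  have h1 : ((m:ℝ) / (m + 1)) ^ m ≤ 1 / 2 := by
    have h2 : (2:ℝ) ≤ (1 + 1 / (m:ℝ)) ^ m := by
      have := one_add_mul_le_pow (a := 1 / (m:ℝ)) (by
        have : (0:ℝ) ≤ 1 / m := by positivity
        linarith) m
      have h3 : 1 + (m:ℝ) * (1 / m) = 2 := by field_simp; norm_num
      linarith
    have h4 : ((m:ℝ) / (m + 1)) = (1 + 1 / (m:ℝ))⁻¹ := by
      field_simp
    rw [h4, inv_pow, inv_eq_one_div]
    exact one_div_le_one_div_of_le (by norm_num) h2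
  have h5 : ((m:ℝ) / (m + 1)) ^ Smax m W ≤ (1 / 2) ^ (W + 4) := by
    unfold Smax
    rw [pow_mul]
    exact pow_le_pow_left₀ (by positivity) h1 _
  calc (2:ℝ) ^ W * ((m:ℝ) / (m + 1)) ^ Smax m W ≤ 2 ^ W * (1 / 2) ^ (W + 4) := by
        apply mul_le_mul_of_nonneg_left h5 (by positivity)
    _ = 1 / 16 := by
        rw [pow_add, ← mul_assoc, ← mul_pow]; norm_num

/-! ### monotonicity in `A` -/

lemma Z_mono (mem : Ω → Finset E) {lam lam' : E → ℝ} (h0 : ∀ e, 0 ≤ lam e)
    (h : ∀ e, lam e ≤ lam' e) : Z mem lam ≤ Z mem lam' :=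
  Finset.sum_le_sum fun _ _ => Finset.prod_le_prod (fun e _ => h0 e) (fun e _ => h e)

lemma wt_scale {mem : Ω → Finset E} {N d : ℕ} (hs : Sys mem N d) {lam lam' : E → ℝ}
    (h0 : ∀ e, 0 ≤ lam e) {c : ℝ} (h : ∀ e, lam e ≤ c * lam' e) (M : Ω) :
    wt mem lam M ≤ c ^ N * wt mem lam' M := by
  unfold wt
  calc ∏ e ∈ mem M, lam e ≤ ∏ e ∈ mem M, (c * lam' e) :=
        Finset.prod_le_prod (fun e _ => h0 e) (fun e _ => h e)
    _ = c ^ N * ∏ e ∈ mem M, lam' e := by
        rw [Finset.prod_mul_distrib, Finset.prod_const, hs.card_mem]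

lemma Z_scale {mem : Ω → Finset E} {N d : ℕ} (hs : Sys mem N d) {lam lam' : E → ℝ}
    (h0 : ∀ e, 0 ≤ lam e) {c : ℝ} (h : ∀ e, lam e ≤ c * lam' e) :
    Z mem lam ≤ c ^ N * Z mem lam' := by
  unfold Z
  rw [Finset.mul_sum]
  exact Finset.sum_le_sum fun M _ => wt_scale hs h0 h M

/-! ### the invariant -/

section inv

variable (mem : Ω → Finset E) (G : E → Prop) [DecidablePred G]

/-- the potential of a controller state -/
noncomputable def PsiSt (q : ℕ) (w0 : ℝ) (m : ℕ) (st : St E) : ℝ :=
  Psi mem q (Aw G m st.s) (yv w0 m st.a)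

/-- `w0 = d / (q - d)`. -/
noncomputable def w0 (q d : ℕ) : ℝ := (d : ℝ) / ((q : ℝ) - d)

end inv

section par

variable {mem : Ω → Finset E} {N d q m W gd : ℕ}

lemma Par.mpos (hp : Par Ω N d q m W gd) : 0 < m := by
  have h1 := hp.hm1
  have hN := hp.hN
  have hd := hp.hd
  have h2 := hp.hq
  have : 1 ≤ N * d := Nat.one_le_iff_ne_zero.mpr (Nat.mul_ne_zero (by omega) (by omega))
  have hq : 1 ≤ q := by omega
  have : 0 < 2 * q * N := by positivity
  omega

lemma Par.qpos (hp : Par Ω N d q m W gd) : 0 < q := by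
  have hN := hp.hN
  have hd := hp.hd
  have h2 := hp.hq
  have : 1 ≤ N * d := Nat.one_le_iff_ne_zero.mpr (Nat.mul_ne_zero (by omega) (by omega))
  omega

lemma Par.q_ge (hp : Par Ω N d q m W gd) : 16 * d ≤ q := by
  have hN := hp.hN
  have h2 := hp.hq
  have : d ≤ N * d := Nat.le_mul_of_pos_left d hN
  omega

lemma Par.gdpos (hp : Par Ω N d q m W gd) : 0 < gd := by
  have h := hp.hgd
  have hq := hp.qpos
  have hN := hp.hN
  have : 0 < 6 * q ^ 2 * (W + 6 * N + N * W) := by positivity
  omega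

lemma Par.w0_pos (hp : Par Ω N d q m W gd) : 0 < w0 q d := by
  unfold w0
  have h1 : (16:ℝ) * d ≤ q := by exact_mod_cast hp.q_ge
  have h2 : (1:ℝ) ≤ d := by exact_mod_cast hp.hd
  apply div_pos (by linarith) (by linarith)

end par

end Crest.Agent.R304.Ctl
end

-- ▼ part R304/Ctl787D
section

/-!
# R304 / L5 (helper787): the annealing controller, part D: invariant and run theorem
-/

set_option autoImplicit false
set_option linter.unusedSectionVars false

namespace Crest.Agent.R304.Ctl

open Finset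

variable {Ω E : Type*} [Fintype Ω] [Fintype E] [DecidableEq E]

variable {mem : Ω → Finset E} {N d q m W gd : ℕ}

/-! ### the starting state -/

/-- the starting state -/
def st0 : St E := ⟨0, fun _ => 0⟩

lemma lamw_st0 (G : E → Prop) [DecidablePred G] (w : ℝ) (m : ℕ) :
    lamw G w m (st0 : St E) = fun _ => 1 + w := by
  funext e
  unfold lamw Aw omw st0
  simp

lemma Z_const (hs : Sys mem N d) (c : ℝ) :
    Z mem (fun _ => c) = (Fintype.card Ω : ℝ) * c ^ N := by
  unfold Z wt
  simp [hs.card_mem]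


lemma marg_const [Nonempty Ω] (hs : Sys mem N d) {c : ℝ} (hc : 0 < c) (e : E) :
    marg mem (fun _ => c) e = 1 / d := by
  have hO : (Fintype.card Ω : ℝ) ≠ 0 := by exact_mod_cast Fintype.card_ne_zero
  have hd : (d : ℝ) ≠ 0 := by exact_mod_cast hs.dpos.ne'
  unfold marg
  rw [Z_const hs]
  unfold wt
  rw [Finset.sum_congr rfl (fun M _ => by rw [Finset.prod_const, hs.card_mem])]
  rw [Finset.sum_const, nsmul_eq_mul, hs.unif_real]
  field_simp

lemma xv_st0 [Nonempty Ω] (hs : Sys mem N d) (hp : Par Ω N d q m W gd)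
    (G : E → Prop) [DecidablePred G] (e : E) :
    xv mem G (w0 q d) m st0 e = 1 / q := by
  have hw := hp.w0_pos
  have h1 : (16:ℝ) * d ≤ q := by exact_mod_cast hp.q_ge
  have h2 : (1:ℝ) ≤ d := by exact_mod_cast hp.hd
  have h3 : (0:ℝ) < q - d := by linarith
  have h4 : (0:ℝ) < q := by linarith
  rw [xv_eq, lamw_st0, marg_const hs (by linarith)]
  have h5 : omw (w0 q d) m (st0 : St E).a e = w0 q d := by
    unfold omw st0; simp
  rw [h5]
  simp only
  have h6 : 1 + w0 q d = q / (q - d) := by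
    unfold w0; field_simp; ring
  rw [h6]
  unfold w0
  field_simp


/-- `β ≤ b` -/
def Beta (mem : Ω → Finset E) (G : E → Prop) [DecidablePred G] (q d m : ℕ) (b : ℝ)
    (st : St E) : Prop :=
  ∀ y', Psi mem q (Aw G m st.s) (yv (w0 q d) m st.a) - Psi mem q (Aw G m st.s) y' ≤ b

/-- the bound for the starting potential -/
lemma Psi_st0_le [Nonempty Ω] (hs : Sys mem N d) (hp : Par Ω N d q m W gd)
    (G : E → Prop) [DecidablePred G] :
    PsiSt mem G q (w0 q d) m st0 ≤ W + 2 * N := by
  have hw := hp.w0_pos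
  have hm := hp.mpos
  have h1 : (16:ℝ) * d ≤ q := by exact_mod_cast hp.q_ge
  have h2 : (1:ℝ) ≤ d := by exact_mod_cast hp.hd
  have h3 : (0:ℝ) < q - d := by linarith
  have h4 : (0:ℝ) < q := by linarith
  have hO : (0:ℝ) < (Fintype.card Ω : ℝ) := by exact_mod_cast Fintype.card_pos
  unfold PsiSt Psi
  have e1 : (fun e => Aw G m (st0 : St E).s e + Real.exp (yv (w0 q d) m (st0 : St E).a e)) =
      fun _ => 1 + w0 q d := by
    have := lamw_st0 (E := E) G (w0 q d) m
    rw [← this]
    funext e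
    unfold lamw
    rw [← exp_yv hw hm]
  rw [e1, Z_const hs, Real.log_mul hO.ne' (by positivity), Real.log_pow]
  have e2 : ∑ e : E, yv (w0 q d) m (st0 : St E).a e = (N * d : ℝ) * Real.log (w0 q d) := by
    rw [← hs.card_E, ← Finset.card_univ, ← nsmul_eq_mul, ← Finset.sum_const]
    apply Finset.sum_congr rfl
    intro e _
    unfold yv omw st0
    simp
  rw [e2]
  have h5 : Real.log (Fintype.card Ω : ℝ) ≤ W := by
    have h6 : (Fintype.card Ω : ℝ) ≤ 2 ^ W := by exact_mod_cast hp.hW
    have h7 := Real.log_le_log hO h6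
    rw [Real.log_pow] at h7
    have h8 : Real.log 2 ≤ 1 := by
      have := Real.log_two_lt_d9; linarith
    have h9 : (W:ℝ) * Real.log 2 ≤ W * 1 := mul_le_mul_of_nonneg_left h8 (by positivity)
    linarith
  have h6 : Real.log (1 + w0 q d) ≤ 1 := by
    have h7 := Real.log_le_sub_one_of_pos (show (0:ℝ) < 1 + w0 q d by linarith)
    have h8 : w0 q d ≤ 1 := by
      unfold w0; rw [div_le_one h3]; linarith
    linarith
  have h7 : (N:ℝ) * Real.log (1 + w0 q d) ≤ N * 1 := mul_le_mul_of_nonneg_left h6 (by positivity)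
  have h8 : - Real.log (w0 q d) ≤ q / d := by
    have h9 : - Real.log (w0 q d) = Real.log ((q - d) / d) := by
      unfold w0; rw [← Real.log_inv, inv_div]
    rw [h9]
    have h10 := Real.log_le_sub_one_of_pos (show (0:ℝ) < ((q:ℝ) - d) / d by positivity)
    have h11 : ((q:ℝ) - d) / d = q / d - 1 := by field_simp
    linarith
  have h9 : -((N * d : ℝ) * Real.log (w0 q d) / q) ≤ N := by
    have h10 : (N * d : ℝ) / q * (- Real.log (w0 q d)) ≤ (N * d : ℝ) / q * (q / d) :=
      mul_le_mul_of_nonneg_left h8 (by positivity)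
    have h11 : (N * d : ℝ) / q * (q / d) = N := by field_simp
    have h12 : (N * d : ℝ) / q * (- Real.log (w0 q d)) = -((N * d : ℝ) * Real.log (w0 q d) / q) := by
      ring
    linarith
  linarith

/-- `β = 0` at the starting state. -/
lemma Beta_st0 [Nonempty Ω] (hs : Sys mem N d) (hp : Par Ω N d q m W gd)
    (G : E → Prop) [DecidablePred G] : Beta mem G q d m 0 st0 := by
  intro y'
  have hw := hp.w0_pos
  have hm := hp.mpos
  have h := Psi_sub_le mem (q := q) (Aw G m (st0 : St E).s) (yv (w0 q d) m (st0 : St E).a) y'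
    (fun e => Aw_pos G hm _ e) (η := 0) (by
      intro e
      have h1 := xv_st0 hs hp G e
      unfold xv at h1
      rw [exp_yv hw hm, h1]
      simp)
  simpa using h

/-! ### the effect of the three kinds of steps -/

/-- accuracy of the estimates -/
def Acc (mem : Ω → Finset E) (G : E → Prop) [DecidablePred G] (q d m gd : ℕ) (xh : E → ℝ)
    (st : St E) : Prop :=
  ∀ e, |xh e - xv mem G (w0 q d) m st e| ≤ 1 / (2 * gd)

/-- the decrease per move -/
noncomputable def cdec (m gd : ℕ) : ℝ := 1 / (4 * gd * (m + 1))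

lemma Psi_up [Nonempty Ω] (hp : Par Ω N d q m W gd) (G : E → Prop) [DecidablePred G]
    (st : St E) (e : E) (hx : xv mem G (w0 q d) m st e ≤ 1 / q - 1 / (2 * gd)) :
    PsiSt mem G q (w0 q d) m ⟨st.s, Function.update st.a e (st.a e + 1)⟩ ≤
      PsiSt mem G q (w0 q d) m st - cdec m gd := by
  have hw := hp.w0_pos
  have hm := hp.mpos
  have hm' : (0:ℝ) < m := by exact_mod_cast hm
  have hq : (0:ℝ) < q := by exact_mod_cast hp.qpos
  have hg : (0:ℝ) < gd := by exact_mod_cast hp.gdpos
  unfold PsiSt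
  simp only
  rw [yv_update hw hm, Int.cast_one, one_mul, Psi_update mem _ _ (fun e => Aw_pos G hm _ e) e,
    exp_h hm, exp_yv hw hm]
  set x := vmarg mem (Aw G m st.s) (omw (w0 q d) m st.a) e with hxdef
  have hx' : x ≤ 1 / q - 1 / (2 * gd) := hx
  have hx0 : 0 ≤ x := vmarg_nonneg mem _ _ (fun e => Aw_pos G hm _ e)
    (fun e => omw_pos hw hm _ e) e
  have e1 : ((m:ℝ) + 1) / m - 1 = 1 / m := by field_simp; ring
  rw [e1]
  have h1 : Real.log (1 + x * (1 / m)) ≤ x * (1 / m) := by
    have := Real.log_le_sub_one_of_pos (show (0:ℝ) < 1 + x * (1 / m) by positivity)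
    linarith
  have h2 : x * (1 / m) ≤ (1 / q - 1 / (2 * gd)) * (1 / m) :=
    mul_le_mul_of_nonneg_right hx' (by positivity)
  have h3 : 1 / ((m:ℝ) + 1) / q ≤ Real.log (((m:ℝ) + 1) / m) / q := by
    apply div_le_div_of_nonneg_right (h_ge hm) hq.le
  have h4 : (1 / (q:ℝ) - 1 / (2 * gd)) * (1 / m) - 1 / ((m:ℝ) + 1) / q ≤ - cdec m gd := by
    unfold cdec
    have h5 : 4 * (gd:ℝ) ≤ q * m := by exact_mod_cast hp.hm2
    rw [← sub_nonneg]
    have : -(1 / (4 * (gd:ℝ) * (m + 1))) - ((1 / (q:ℝ) - 1 / (2 * gd)) * (1 / m) -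
        1 / ((m:ℝ) + 1) / q) = ((q:ℝ) * (m + 2) - 4 * gd) / (4 * q * gd * m * (m + 1)) := by
      field_simp; ring
    rw [this]
    apply div_nonneg _ (by positivity)
    nlinarith
  linarith

lemma Psi_down [Nonempty Ω] (hp : Par Ω N d q m W gd) (G : E → Prop) [DecidablePred G]
    (st : St E) (e : E) (hx : 1 / q + 1 / (2 * gd) ≤ xv mem G (w0 q d) m st e) :
    PsiSt mem G q (w0 q d) m ⟨st.s, Function.update st.a e (st.a e - 1)⟩ ≤
      PsiSt mem G q (w0 q d) m st - cdec m gd := by
  have hw := hp.w0_pos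
  have hm := hp.mpos
  have hm' : (0:ℝ) < m := by exact_mod_cast hm
  have hq : (0:ℝ) < q := by exact_mod_cast hp.qpos
  have hg : (0:ℝ) < gd := by exact_mod_cast hp.gdpos
  unfold PsiSt
  simp only
  rw [sub_eq_add_neg (st.a e), yv_update hw hm, Int.cast_neg, Int.cast_one, neg_mul, one_mul,
    Psi_update mem _ _ (fun e => Aw_pos G hm _ e) e, Real.exp_neg, exp_h hm, exp_yv hw hm]
  set x := vmarg mem (Aw G m st.s) (omw (w0 q d) m st.a) e with hxdef
  have hx' : 1 / q + 1 / (2 * gd) ≤ x := hx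
  have hx0 : 0 ≤ x := vmarg_nonneg mem _ _ (fun e => Aw_pos G hm _ e)
    (fun e => omw_pos hw hm _ e) e
  have hx1 : x ≤ 1 := vmarg_le_one mem _ _ (fun e => Aw_pos G hm _ e)
    (fun e => omw_pos hw hm _ e) e
  have e1 : (((m:ℝ) + 1) / m)⁻¹ - 1 = - (1 / (m + 1)) := by
    rw [inv_div]; field_simp; ring
  rw [e1]
  have h1 : Real.log (1 + x * (-(1 / (m + 1)))) ≤ x * (-(1 / (m + 1))) := by
    have h2 : (1:ℝ) / (m + 1) < 1 := by
      rw [div_lt_one (by positivity)]; linarith
    have h3 : 0 < (1:ℝ) / (m + 1) := by positivity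
    have := Real.log_le_sub_one_of_pos (show (0:ℝ) < 1 + x * (-(1 / (m + 1))) by nlinarith)
    linarith
  have h2 : x * (-(1 / ((m:ℝ) + 1))) ≤ (1 / q + 1 / (2 * gd)) * (-(1 / (m + 1))) := by
    have h3 : 0 < (1:ℝ) / (m + 1) := by positivity
    nlinarith
  have h3 : Real.log (((m:ℝ) + 1) / m) / q ≤ 1 / m / q := by
    apply div_le_div_of_nonneg_right (h_le hm) hq.le
  have h4 : (1 / (q:ℝ) + 1 / (2 * gd)) * (-(1 / (m + 1))) + 1 / (m:ℝ) / q ≤ - cdec m gd := by
    unfold cdec
    have h5 : 4 * (gd:ℝ) ≤ q * m := by exact_mod_cast hp.hm2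
    rw [← sub_nonneg]
    have : -(1 / (4 * (gd:ℝ) * (m + 1))) - ((1 / (q:ℝ) + 1 / (2 * gd)) * (-(1 / (m + 1))) +
        1 / (m:ℝ) / q) = ((q:ℝ) * m - 4 * gd) / (4 * q * gd * m * (m + 1)) := by
      field_simp; ring
    rw [this]
    apply div_nonneg _ (by positivity)
    linarith
  have h5 : -Real.log (((m:ℝ) + 1) / m) / q = - (Real.log (((m:ℝ) + 1) / m) / q) := by ring
  rw [h5]
  linarith

/-- a theta-step changes the potential by at most `N/m`. -/
lemma Psi_theta [Nonempty Ω] (hs : Sys mem N d) (hm : 0 < m) (Q : ℝ)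
    (G : E → Prop) [DecidablePred G] (s : ℕ) (y : E → ℝ) :
    Psi mem Q (Aw G m (s + 1)) y ≤ Psi mem Q (Aw G m s) y ∧
      Psi mem Q (Aw G m s) y ≤ Psi mem Q (Aw G m (s + 1)) y + N / m := by
  have hm' : (0:ℝ) < m := by exact_mod_cast hm
  have hpos : ∀ s e, 0 < Aw G m s e + Real.exp (y e) :=
    fun s e => add_pos (Aw_pos G hm s e) (Real.exp_pos _)
  have hr1 : (m:ℝ) / (m + 1) ≤ 1 := by rw [div_le_one (by positivity)]; linarith
  have hle : ∀ e, Aw G m (s + 1) e ≤ Aw G m s e := by
    intro e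
    unfold Aw; split_ifs
    · exact le_rfl
    · rw [pow_succ]
      exact mul_le_of_le_one_right (by positivity) hr1
  have hge : ∀ e, Aw G m s e ≤ ((m:ℝ) + 1) / m * Aw G m (s + 1) e := by
    intro e
    unfold Aw; split_ifs
    · rw [mul_one, le_div_iff₀ hm']; linarith
    · rw [pow_succ]
      apply le_of_eq
      field_simp
  have hk1 : (1:ℝ) ≤ ((m:ℝ) + 1) / m := by rw [le_div_iff₀ hm']; linarith
  unfold Psi
  constructor
  · have h1 : Z mem (fun e => Aw G m (s + 1) e + Real.exp (y e)) ≤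
        Z mem (fun e => Aw G m s e + Real.exp (y e)) :=
      Z_mono mem (fun e => (hpos _ e).le) (fun e => by linarith [hle e])
    have := Real.log_le_log (Z_pos mem (hpos (s + 1))) h1
    linarith
  · have h1 : Z mem (fun e => Aw G m s e + Real.exp (y e)) ≤
        (((m:ℝ) + 1) / m) ^ N * Z mem (fun e => Aw G m (s + 1) e + Real.exp (y e)) := by
      apply Z_scale hs (fun e => (hpos _ e).le)
      intro e
      have h2 := hge e
      have h3 : Real.exp (y e) ≤ ((m:ℝ) + 1) / m * Real.exp (y e) :=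
        le_mul_of_one_le_left (Real.exp_pos _).le hk1
      rw [mul_add]; linarith
    have h2 := Real.log_le_log (Z_pos mem (hpos s)) h1
    rw [Real.log_mul (by positivity) (Z_pos mem (hpos (s + 1))).ne', Real.log_pow] at h2
    have h3 : (N:ℝ) * Real.log (((m:ℝ) + 1) / m) ≤ N * (1 / m) :=
      mul_le_mul_of_nonneg_left (h_le hm) (by positivity)
    have h4 : (N:ℝ) * (1 / m) = N / m := by ring
    linarith

end Crest.Agent.R304.Ctl
namespace Crest.Agent.R304.Ctl.Par
end Crest.Agent.R304.Ctl.Par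
end

-- ▼ part R304/Ctl787E

/-!
# R304 / L5 (helper787): the annealing controller, part E: the run theorem and its consequences

Main results:
* `run_good`: along every accurate run all visited states are `Good`;
* `run_final`: after `Rounds N m W gd` accurate rounds, `s = Smax m W`;
* `Good.vmarg`, `Good.marg`: bounds for the marginals;
* `final_count`: `0 < N(G) → Z ≤ 2 N(G)` at a good state with `s = Smax`.
-/

set_option autoImplicit false
set_option linter.unusedSectionVars false

namespace Crest.Agent.R304.Ctl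

open Finset

variable {Ω E : Type*} [Fintype Ω] [Fintype E] [DecidableEq E]

variable {mem : Ω → Finset E} {N d q m W gd : ℕ}

/-- invariant: `s ≤ S`, `β ≤ 1/q`, `Ψ ≤ W + 2N`. -/
structure Good (mem : Ω → Finset E) (G : E → Prop) [DecidablePred G] (N d q m W : ℕ)
    (st : St E) : Prop where
  s_le : st.s ≤ Smax m W
  beta : Beta mem G q d m (1 / q) st
  psi : PsiSt mem G q (w0 q d) m st ≤ W + 2 * N

lemma good_st0 [Nonempty Ω] (hs : Sys mem N d) (hp : Par Ω N d q m W gd)
    (G : E → Prop) [DecidablePred G] : Good mem G N d q m W st0 where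
  s_le := Nat.zero_le _
  beta := fun y' => (Beta_st0 hs hp G y').trans (by positivity)
  psi := Psi_st0_le hs hp G

/-- one accurate controller step. -/
theorem step_good [Nonempty Ω] (hs : Sys mem N d) (hp : Par Ω N d q m W gd)
    (G : E → Prop) [DecidablePred G] {st st' : St E} {xh : E → ℝ}
    (hg : Good mem G N d q m W st) (hacc : Acc mem G q d m gd xh st)
    (hst : CStep q gd (Smax m W) xh st st') :
    Good mem G N d q m W st' ∧
      ((PsiSt mem G q (w0 q d) m st' ≤ PsiSt mem G q (w0 q d) m st - cdec m gd ∧ st'.s = st.s) ∨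
       (PsiSt mem G q (w0 q d) m st' ≤ PsiSt mem G q (w0 q d) m st ∧
        st'.s = min (st.s + 1) (Smax m W))) := by
  have hw := hp.w0_pos
  have hm := hp.mpos
  have hm' : (0:ℝ) < m := by exact_mod_cast hm
  have hq : (0:ℝ) < q := by exact_mod_cast hp.qpos
  have hgd : (0:ℝ) < gd := by exact_mod_cast hp.gdpos
  have hc0 : 0 < cdec m gd := by unfold cdec; positivity
  rcases hst with ⟨e, hxe, rfl⟩ | ⟨e, hxe, rfl⟩ | ⟨hxe, rfl⟩
  · have h1 : xv mem G (w0 q d) m st e ≤ 1 / q - 1 / (2 * gd) := by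
      have h2 := abs_le.mp (hacc e)
      have h3 : (1:ℝ) / gd = 1 / (2 * gd) + 1 / (2 * gd) := by field_simp; norm_num
      linarith [h2.1]
    have h2 := Psi_up hp G st e h1
    refine ⟨⟨hg.s_le, ?_, by linarith [hg.psi]⟩, Or.inl ⟨h2, rfl⟩⟩
    intro y'
    have h3 := hg.beta y'
    have h4 : PsiSt mem G q (w0 q d) m ⟨st.s, Function.update st.a e (st.a e + 1)⟩ ≤
      PsiSt mem G q (w0 q d) m st := by linarith
    unfold PsiSt at h4
    simp only at h4 ⊢
    linarith
  · have h1 : 1 / q + 1 / (2 * gd) ≤ xv mem G (w0 q d) m st e := by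
      have h2 := abs_le.mp (hacc e)
      have h3 : (1:ℝ) / gd = 1 / (2 * gd) + 1 / (2 * gd) := by field_simp; norm_num
      linarith [h2.2]
    have h2 := Psi_down hp G st e h1
    refine ⟨⟨hg.s_le, ?_, by linarith [hg.psi]⟩, Or.inl ⟨h2, rfl⟩⟩
    intro y'
    have h3 := hg.beta y'
    have h4 : PsiSt mem G q (w0 q d) m ⟨st.s, Function.update st.a e (st.a e - 1)⟩ ≤
      PsiSt mem G q (w0 q d) m st := by linarith
    unfold PsiSt at h4
    simp only at h4 ⊢
    linarith
  · -- theta step
    have hη : ∀ e, |vmarg mem (Aw G m st.s) (fun e => Real.exp (yv (w0 q d) m st.a e)) e - 1 / q|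
        ≤ 3 / (2 * gd) := by
      intro e
      rw [exp_yv hw hm]
      have h1 := hacc e
      have h2 := hxe e
      unfold xv at h1
      have h3 : (3:ℝ) / (2 * gd) = 1 / (2 * gd) + 1 / gd := by field_simp; norm_num
      rw [h3]
      calc _ = |-(xh e - vmarg mem (Aw G m st.s) (omw (w0 q d) m st.a) e) + (xh e - 1 / q)| := by
            congr 1; ring
        _ ≤ |-(xh e - vmarg mem (Aw G m st.s) (omw (w0 q d) m st.a) e)| + |xh e - 1 / q| :=
            abs_add_le _ _
        _ ≤ _ := by rw [abs_neg]; exact add_le_add h1 h2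
    have hq2 : 2 * (d:ℝ) ≤ q := by
      have : 16 * d ≤ q := hp.q_ge
      have : 2 * d ≤ q := by omega
      exact_mod_cast this
    have hb : ∀ y', Psi mem q (Aw G m st.s) (yv (w0 q d) m st.a) -
        Psi mem q (Aw G m st.s) y' ≤ 1 / (2 * q) := by
      intro y'
      have h1 := beta_small hs hq2 (L := (W:ℝ) + 4) (by positivity)
        (fun e => Aw_ge G hm hg.s_le e) (yv (w0 q d) m st.a) (η := 3 / (2 * gd)) (by positivity)
        hη hg.psi y'
      refine h1.trans ?_
      have h2 : 6 * (q:ℝ) ^ 2 * (W + 6 * N + N * W) ≤ gd := by exact_mod_cast hp.hgd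
      have h3 : (W:ℝ) + 2 * N + N * (W + 4) = W + 6 * N + N * W := by ring
      rw [h3]
      rw [div_mul_eq_mul_div, div_le_div_iff₀ (by positivity) (by positivity)]
      nlinarith
    rcases Nat.lt_or_ge st.s (Smax m W) with hlt | hge
    · have hmin : min (st.s + 1) (Smax m W) = st.s + 1 := min_eq_left hlt
      rw [hmin]
      have h1 := Psi_theta hs hm q G st.s (yv (w0 q d) m st.a)
      have h2 : PsiSt mem G q (w0 q d) m ⟨st.s + 1, st.a⟩ ≤ PsiSt mem G q (w0 q d) m st := h1.1
      refine ⟨⟨hlt, ?_, by linarith [hg.psi]⟩, Or.inr ⟨h2, rfl⟩⟩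
      intro y'
      have h3 := Psi_theta hs hm q G st.s y'
      have h4 := hb y'
      simp only
      have h5 : (N:ℝ) / m ≤ 1 / (2 * q) := by
        have : (2:ℝ) * q * N ≤ m := by exact_mod_cast hp.hm1
        rw [div_le_div_iff₀ hm' (by positivity)]; linarith
      have h6 : (1:ℝ) / q = 1 / (2 * q) + 1 / (2 * q) := by field_simp; norm_num
      linarith [h1.1, h3.2]
    · have hmin : min (st.s + 1) (Smax m W) = st.s := by
        have := hg.s_le
        omega
      rw [hmin]
      exact ⟨hg, Or.inr ⟨le_rfl, rfl⟩⟩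

/-- lower bound for the potential of a good state -/
lemma Good.psi_ge [Nonempty Ω] (hs : Sys mem N d) (hp : Par Ω N d q m W gd)
    {G : E → Prop} [DecidablePred G] {st : St E} (hg : Good mem G N d q m W st) :
    -((N:ℝ) * (W + 4)) ≤ PsiSt mem G q (w0 q d) m st := by
  have hq2 : 2 * (d:ℝ) ≤ q := by
    have : 16 * d ≤ q := hp.q_ge
    have : 2 * d ≤ q := by omega
    exact_mod_cast this
  have h1 := Psi_coercive hs hq2 (L := (W:ℝ) + 4) (by positivity)
    (fun e => Aw_ge G hp.mpos hg.s_le e) (yv (w0 q d) m st.a)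
  have h2 : 0 ≤ (∑ e, |yv (w0 q d) m st.a e|) / q :=
    div_nonneg (Finset.sum_nonneg fun _ _ => abs_nonneg _) (by positivity)
  unfold PsiSt
  linarith

/-- Accurate runs stay good. -/
theorem run_good [Nonempty Ω] (hs : Sys mem N d) (hp : Par Ω N d q m W gd)
    (G : E → Prop) [DecidablePred G] (st : ℕ → St E) (xh : ℕ → E → ℝ) (h0 : st 0 = st0)
    (T : ℕ) (hstep : ∀ t < T, CStep q gd (Smax m W) (xh t) (st t) (st (t + 1)))
    (hacc : ∀ t < T, Acc mem G q d m gd (xh t) (st t)) :
    Good mem G N d q m W (st T) ∧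
      ((st T).s < Smax m W → (st T).s ≤ T ∧
        PsiSt mem G q (w0 q d) m (st T) ≤ W + 2 * N - ((T:ℝ) - (st T).s) * cdec m gd) := by
  have hgd : (0:ℝ) < gd := by exact_mod_cast hp.gdpos
  have hc0 : 0 < cdec m gd := by unfold cdec; positivity
  induction T with
  | zero =>
    rw [h0]
    refine ⟨good_st0 hs hp G, fun _ => ⟨le_rfl, ?_⟩⟩
    have := Psi_st0_le hs hp G
    simpa [st0] using this
  | succ T ih =>
    obtain ⟨hg, ihs⟩ := ih (fun t ht => hstep t (by omega)) (fun t ht => hacc t (by omega))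
    have h1 := step_good hs hp G hg (hacc T (by omega)) (hstep T (by omega))
    refine ⟨h1.1, fun hlt => ?_⟩
    rcases h1.2 with ⟨h2, h3⟩ | ⟨h2, h3⟩
    · rw [h3] at hlt ⊢
      obtain ⟨h4, h5⟩ := ihs hlt
      refine ⟨by omega, ?_⟩
      push_cast
      nlinarith
    · have h4 : (st T).s < Smax m W := by
        by_contra hcon
        push Not at hcon
        rw [h3, min_eq_right (by omega)] at hlt
        exact lt_irrefl _ hlt
      rw [h3, min_eq_left (by omega)]
      obtain ⟨h5, h6⟩ := ihs h4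
      refine ⟨by omega, ?_⟩
      push_cast
      have : ((T:ℝ) + 1 - ((st T).s + 1)) = (T:ℝ) - (st T).s := by ring
      rw [this]
      linarith

/-- after `Rounds` accurate rounds, `s = Smax`. -/
theorem run_final [Nonempty Ω] (hs : Sys mem N d) (hp : Par Ω N d q m W gd)
    (G : E → Prop) [DecidablePred G] (st : ℕ → St E) (xh : ℕ → E → ℝ) (h0 : st 0 = st0)
    (T : ℕ) (hT : Rounds N m W gd ≤ T)
    (hstep : ∀ t < T, CStep q gd (Smax m W) (xh t) (st t) (st (t + 1)))
    (hacc : ∀ t < T, Acc mem G q d m gd (xh t) (st t)) :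
    (st T).s = Smax m W := by
  obtain ⟨hg, h1⟩ := run_good hs hp G st xh h0 T hstep hacc
  by_contra hne
  have hlt : (st T).s < Smax m W := lt_of_le_of_ne hg.s_le hne
  obtain ⟨h2, h3⟩ := h1 hlt
  have h4 := hg.psi_ge hs hp
  have hgd : (0:ℝ) < gd := by exact_mod_cast hp.gdpos
  have hT' : (Smax m W : ℝ) + 4 * gd * (m + 1) * (W + 6 * N + N * W) + 1 ≤ T := by
    have : Smax m W + 4 * gd * (m + 1) * (W + 6 * N + N * W) + 1 ≤ T := hT
    exact_mod_cast this
  have h5 : ((st T).s : ℝ) ≤ Smax m W := by exact_mod_cast hg.s_le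
  have h6 : 4 * (gd:ℝ) * (m + 1) * (W + 6 * N + N * W) + 1 ≤ (T:ℝ) - (st T).s := by linarith
  have hc0 : 0 < cdec m gd := by unfold cdec; positivity
  have h7 : (4 * (gd:ℝ) * (m + 1) * (W + 6 * N + N * W) + 1) * cdec m gd ≤
      ((T:ℝ) - (st T).s) * cdec m gd := mul_le_mul_of_nonneg_right h6 hc0.le
  have h8 : (4 * (gd:ℝ) * (m + 1) * (W + 6 * N + N * W) + 1) * cdec m gd =
      (W + 6 * N + N * W) + cdec m gd := by
    have : 4 * (gd:ℝ) * (m + 1) * cdec m gd = 1 := by
      unfold cdec; field_simp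
    calc (4 * (gd:ℝ) * (m + 1) * (W + 6 * N + N * W) + 1) * cdec m gd =
        (4 * (gd:ℝ) * (m + 1) * cdec m gd) * (W + 6 * N + N * W) + cdec m gd := by ring
      _ = _ := by rw [this, one_mul]
  nlinarith

/-! ### consequences of `Good` -/

/-- virtual marginals of a good state -/
theorem Good.vmarg [Nonempty Ω] (hp : Par Ω N d q m W gd)
    {G : E → Prop} [DecidablePred G] {st : St E} (hg : Good mem G N d q m W st) (e : E) :
    1 / (8 * (q:ℝ)) ≤ xv mem G (w0 q d) m st e ∧ xv mem G (w0 q d) m st e ≤ 4 / q := by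
  have hq : (0:ℝ) < q := by exact_mod_cast hp.qpos
  have h := x_bounds mem hq (Aw G m st.s) (yv (w0 q d) m st.a) (fun e => Aw_pos G hp.mpos _ e)
    hg.beta e
  rwa [exp_yv hp.w0_pos hp.mpos] at h

lemma lamw_pos (hp : Par Ω N d q m W gd) (G : E → Prop) [DecidablePred G] (st : St E) (e : E) :
    0 < lamw G (w0 q d) m st e :=
  add_pos (Aw_pos G hp.mpos _ e) (omw_pos hp.w0_pos hp.mpos _ e)

/-- total marginals of a good state: the well-conditioning `WC_{8q}`. -/
theorem Good.marg_ge [Nonempty Ω] (hp : Par Ω N d q m W gd)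
    {G : E → Prop} [DecidablePred G] {st : St E} (hg : Good mem G N d q m W st) (e : E) :
    1 / (8 * (q:ℝ)) ≤ marg mem (lamw G (w0 q d) m st) e := by
  have h := vmarg_le_marg mem (Aw G m st.s) (omw (w0 q d) m st.a)
    (fun e => Aw_pos G hp.mpos _ e) (fun e => omw_pos hp.w0_pos hp.mpos _ e) e
  exact (hg.vmarg hp e).1.trans h

/-- the weights change by at most the factor `(m+1)/m` in one controller step. -/
theorem lamw_step (hp : Par Ω N d q m W gd) (G : E → Prop) [DecidablePred G] {S : ℕ}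
    {st st' : St E} {xh : E → ℝ} (hst : CStep q gd S xh st st') (hs' : st.s ≤ S) (e : E) :
    lamw G (w0 q d) m st' e ≤ ((m:ℝ) + 1) / m * lamw G (w0 q d) m st e ∧
    lamw G (w0 q d) m st e ≤ ((m:ℝ) + 1) / m * lamw G (w0 q d) m st' e := by
  have hw := hp.w0_pos
  have hm := hp.mpos
  have hm' : (0:ℝ) < m := by exact_mod_cast hm
  have hk1 : (1:ℝ) ≤ ((m:ℝ) + 1) / m := by rw [le_div_iff₀ hm']; linarith
  have hA : ∀ (s : ℕ) (e : E), 0 < Aw G m s e := fun s e => Aw_pos G hm s e
  have ho : ∀ (a : E → ℤ) (e : E), 0 < omw (w0 q d) m a e := fun a e => omw_pos hw hm a e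
  have hle : ∀ x : ℝ, 0 ≤ x → x ≤ ((m:ℝ) + 1) / m * x := fun x hx =>
    le_mul_of_one_le_left hx hk1
  have hup : ∀ (a : E → ℤ) (f : E),
      omw (w0 q d) m (Function.update a f (a f + 1)) e ≤ ((m:ℝ) + 1) / m * omw (w0 q d) m a e ∧
      omw (w0 q d) m a e ≤ ((m:ℝ) + 1) / m * omw (w0 q d) m (Function.update a f (a f + 1)) e := by
    intro a f
    by_cases hf : e = f
    · subst hf
      unfold omw
      rw [Function.update_self, zpow_add_one₀ (by positivity)]
      have hpos : 0 < w0 q d * (((m:ℝ) + 1) / m) ^ (a e) := by positivity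
      constructor
      · apply le_of_eq; ring
      · have h1 := hle _ hpos.le
        have h2 := hle (((m:ℝ) + 1) / m * (w0 q d * (((m:ℝ) + 1) / m) ^ (a e))) (by positivity)
        calc _ ≤ _ := h1
          _ ≤ _ := h2
          _ = _ := by ring
    · unfold omw
      rw [Function.update_of_ne hf]
      have hpos : 0 < w0 q d * (((m:ℝ) + 1) / m) ^ (a e) := by positivity
      exact ⟨hle _ hpos.le, hle _ hpos.le⟩
  rcases hst with ⟨f, _, rfl⟩ | ⟨f, _, rfl⟩ | ⟨_, rfl⟩
  · unfold lamw
    simp only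
    have h1 := hup st.a f
    have h2 := hle _ (hA st.s e).le
    constructor <;> rw [mul_add] <;> linarith [h1.1, h1.2]
  · unfold lamw
    simp only
    have h1 := hup (Function.update st.a f (st.a f - 1)) f
    have h3 : Function.update (Function.update st.a f (st.a f - 1)) f
        (Function.update st.a f (st.a f - 1) f + 1) = st.a := by
      funext x
      by_cases hx : x = f
      · subst hx; simp
      · rw [Function.update_of_ne hx, Function.update_of_ne hx]
    rw [h3] at h1
    have h2 := hle _ (hA st.s e).le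
    constructor <;> rw [mul_add] <;> linarith [h1.1, h1.2]
  · unfold lamw
    simp only
    have h2 := hle _ (ho st.a e).le
    have h3 : Aw G m (min (st.s + 1) S) e ≤ Aw G m st.s e ∧
        Aw G m st.s e ≤ ((m:ℝ) + 1) / m * Aw G m (min (st.s + 1) S) e := by
      rcases Nat.lt_or_ge st.s S with hlt | hge
      · rw [min_eq_left (by omega)]
        unfold Aw; split_ifs
        · exact ⟨le_rfl, by rw [mul_one]; exact hk1⟩
        · rw [pow_succ]
          constructor
          · apply mul_le_of_le_one_right (by positivity)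
            rw [div_le_one (by positivity)]; linarith
          · apply le_of_eq; field_simp
      · have : min (st.s + 1) S = st.s := by omega
        rw [this]
        exact ⟨le_rfl, hle _ (hA st.s e).le⟩
    have h4 := hle _ (hA st.s e).le
    constructor <;> rw [mul_add] <;> linarith [h3.1, h3.2]



/-! ### the final count -/

/-- the number of states inside `G`. -/
def cntG (mem : Ω → Finset E) (G : E → Prop) [DecidablePred G] : ℕ :=
  (univ.filter (fun M => ∀ e ∈ mem M, G e)).card

lemma prod_one_sub_ge {ι : Type*} (s : Finset ι) (u : ι → ℝ) (h0 : ∀ i ∈ s, 0 ≤ u i)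
    (h1 : ∀ i ∈ s, u i ≤ 1) : 1 - ∑ i ∈ s, u i ≤ ∏ i ∈ s, (1 - u i) := by
  classical
  induction s using Finset.induction_on with
  | empty => simp
  | insert i s hi ih =>
    rw [Finset.sum_insert hi, Finset.prod_insert hi]
    have h2 := ih (fun j hj => h0 j (Finset.mem_insert_of_mem hj))
      (fun j hj => h1 j (Finset.mem_insert_of_mem hj))
    have h3 := h0 i (Finset.mem_insert_self _ _)
    have h4 := h1 i (Finset.mem_insert_self _ _)
    have h5 : ∏ j ∈ s, (1 - u j) ≤ 1 :=
      Finset.prod_le_one (fun j hj => by linarith [h1 j (Finset.mem_insert_of_mem hj)])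
        (fun j hj => by linarith [h0 j (Finset.mem_insert_of_mem hj)])
    nlinarith

/-- the mass of the states without virtual edges. -/
theorem sum_prodA_ge [Nonempty Ω] (hp : Par Ω N d q m W gd) (hs : Sys mem N d)
    {G : E → Prop} [DecidablePred G] {st : St E} (hg : Good mem G N d q m W st) :
    3 / 4 * Z mem (lamw G (w0 q d) m st) ≤ ∑ M, ∏ e ∈ mem M, Aw G m st.s e := by
  have hq : (0:ℝ) < q := by exact_mod_cast hp.qpos
  have hlpos := lamw_pos hp G st
  have hZ := Z_pos mem hlpos
  have h1 : ∀ M, wt mem (lamw G (w0 q d) m st) M -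
      ∑ e ∈ mem M, wt mem (lamw G (w0 q d) m st) M *
        (omw (w0 q d) m st.a e / lamw G (w0 q d) m st e) ≤ ∏ e ∈ mem M, Aw G m st.s e := by
    intro M
    have h2 := prod_one_sub_ge (mem M) (fun e => omw (w0 q d) m st.a e / lamw G (w0 q d) m st e)
      (fun e _ => div_nonneg (omw_pos hp.w0_pos hp.mpos _ e).le (hlpos e).le)
      (fun e _ => by
        rw [div_le_one (hlpos e)]; unfold lamw; linarith [Aw_pos G hp.mpos st.s e])
    have h3 : ∏ e ∈ mem M, Aw G m st.s e = wt mem (lamw G (w0 q d) m st) M *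
        ∏ e ∈ mem M, (1 - omw (w0 q d) m st.a e / lamw G (w0 q d) m st e) := by
      unfold wt
      rw [← Finset.prod_mul_distrib]
      apply Finset.prod_congr rfl
      intro e _
      have := (hlpos e).ne'
      rw [mul_sub, mul_one, mul_div_cancel₀ _ this]
      unfold lamw; ring
    rw [h3, ← Finset.mul_sum]
    have h4 := mul_le_mul_of_nonneg_left h2 (wt_pos mem hlpos M).le
    linarith
  have h5 : ∑ M, ∑ e ∈ mem M, wt mem (lamw G (w0 q d) m st) M *
        (omw (w0 q d) m st.a e / lamw G (w0 q d) m st e) =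
      Z mem (lamw G (w0 q d) m st) * ∑ e, xv mem G (w0 q d) m st e := by
    have h6 : ∀ M, (∑ e ∈ mem M, wt mem (lamw G (w0 q d) m st) M *
        (omw (w0 q d) m st.a e / lamw G (w0 q d) m st e)) = ∑ e, if e ∈ mem M then
          wt mem (lamw G (w0 q d) m st) M *
        (omw (w0 q d) m st.a e / lamw G (w0 q d) m st e) else 0 := by
      intro M
      rw [← Finset.sum_filter]
      apply Finset.sum_congr _ (fun _ _ => rfl)
      ext e; simp
    simp_rw [h6]
    rw [Finset.sum_comm, Finset.mul_sum]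
    apply Finset.sum_congr rfl
    intro e _
    rw [← Finset.sum_filter, xv_eq, ← Finset.sum_mul]
    unfold marg
    field_simp
  have h7 : ∑ e, xv mem G (w0 q d) m st e ≤ 1 / 4 := by
    calc ∑ e, xv mem G (w0 q d) m st e ≤ ∑ _e : E, 4 / (q:ℝ) :=
          Finset.sum_le_sum fun e _ => (hg.vmarg hp e).2
      _ = (N * d : ℝ) * (4 / q) := by
          rw [Finset.sum_const, nsmul_eq_mul, Finset.card_univ, hs.card_E]
      _ ≤ 1 / 4 := by
          have : (16:ℝ) * (N * d) ≤ q := by exact_mod_cast hp.hq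
          rw [← mul_div_assoc, div_le_div_iff₀ hq (by norm_num)]
          linarith
  calc 3 / 4 * Z mem (lamw G (w0 q d) m st) ≤ Z mem (lamw G (w0 q d) m st) -
        Z mem (lamw G (w0 q d) m st) * ∑ e, xv mem G (w0 q d) m st e := by nlinarith
    _ = ∑ M, (wt mem (lamw G (w0 q d) m st) M - ∑ e ∈ mem M, wt mem (lamw G (w0 q d) m st) M *
        (omw (w0 q d) m st.a e / lamw G (w0 q d) m st e)) := by
        rw [Finset.sum_sub_distrib, h5]; rfl
    _ ≤ _ := Finset.sum_le_sum fun M _ => h1 M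

/-- **Final count**: at a good state with `s = Smax`, if `G` contains at least one state then
`Z ≤ 2 N(G)`. -/
theorem final_count [Nonempty Ω] (hp : Par Ω N d q m W gd) (hs : Sys mem N d)
    {G : E → Prop} [DecidablePred G] {st : St E} (hg : Good mem G N d q m W st)
    (hS : st.s = Smax m W) (hpos : 0 < cntG mem G) :
    Z mem (lamw G (w0 q d) m st) ≤ 2 * cntG mem G := by
  have h1 := sum_prodA_ge hp hs hg
  have hm := hp.mpos
  have h2 : ∑ M, ∏ e ∈ mem M, Aw G m st.s e ≤ cntG mem G + 1 / 16 := by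
    have h3 : ∀ M, ∏ e ∈ mem M, Aw G m st.s e ≤ (if (∀ e ∈ mem M, G e) then (1:ℝ) else 0) +
        ((m:ℝ) / (m + 1)) ^ Smax m W := by
      intro M
      split_ifs with h
      · have : ∏ e ∈ mem M, Aw G m st.s e ≤ 1 :=
          Finset.prod_le_one (fun e _ => (Aw_pos G hm _ e).le) (fun e _ => Aw_le_one G m _ e)
        have h4 : 0 ≤ ((m:ℝ) / (m + 1)) ^ Smax m W := by positivity
        linarith
      · push Not at h
        obtain ⟨e, he, hne⟩ := h
        rw [← Finset.mul_prod_erase (mem M) _ he, zero_add]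
        have h5 : Aw G m st.s e = ((m:ℝ) / (m + 1)) ^ Smax m W := by
          unfold Aw; rw [if_neg hne, hS]
        rw [h5]
        apply mul_le_of_le_one_right (by positivity)
        exact Finset.prod_le_one (fun e _ => (Aw_pos G hm _ e).le) (fun e _ => Aw_le_one G m _ e)
    calc ∑ M, ∏ e ∈ mem M, Aw G m st.s e ≤ ∑ M : Ω, ((if (∀ e ∈ mem M, G e) then (1:ℝ) else 0) +
          ((m:ℝ) / (m + 1)) ^ Smax m W) := Finset.sum_le_sum fun M _ => h3 M
      _ = cntG mem G + (Fintype.card Ω : ℝ) * ((m:ℝ) / (m + 1)) ^ Smax m W := by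
          rw [Finset.sum_add_distrib, Finset.sum_const, nsmul_eq_mul, Finset.card_univ]
          congr 1
          rw [← Finset.sum_filter, Finset.sum_const, nsmul_eq_mul, mul_one]
          rfl
      _ ≤ cntG mem G + 1 / 16 := by
          have h4 := theta_small (W := W) hm
          have h5 : (Fintype.card Ω : ℝ) ≤ 2 ^ W := by exact_mod_cast hp.hW
          have h6 : (Fintype.card Ω : ℝ) * ((m:ℝ) / (m + 1)) ^ Smax m W ≤
              2 ^ W * ((m:ℝ) / (m + 1)) ^ Smax m W :=
            mul_le_mul_of_nonneg_right h5 (by positivity)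
          linarith
  have h3 : (1:ℝ) ≤ cntG mem G := by exact_mod_cast hpos
  linarith

/-- the identity behind the final estimator. -/
theorem final_identity [Nonempty Ω] (hp : Par Ω N d q m W gd)
    (G : E → Prop) [DecidablePred G] (st : St E) :
    (cntG mem G : ℝ) = Z mem (lamw G (w0 q d) m st) *
      ∑ M, gib mem (lamw G (w0 q d) m st) M *
        ∏ e ∈ mem M, (if G e then (lamw G (w0 q d) m st e)⁻¹ else 0) := by
  have hlpos := lamw_pos hp G st
  have hZ := Z_pos mem hlpos
  rw [Finset.mul_sum]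
  have h1 : ∀ M, Z mem (lamw G (w0 q d) m st) * (gib mem (lamw G (w0 q d) m st) M *
        ∏ e ∈ mem M, (if G e then (lamw G (w0 q d) m st e)⁻¹ else 0)) =
      if (∀ e ∈ mem M, G e) then 1 else 0 := by
    intro M
    have h2 : Z mem (lamw G (w0 q d) m st) * gib mem (lamw G (w0 q d) m st) M =
        wt mem (lamw G (w0 q d) m st) M := by
      unfold gib; field_simp
    rw [← mul_assoc, h2]
    unfold wt
    rw [← Finset.prod_mul_distrib]
    split_ifs with h
    · apply Finset.prod_eq_one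
      intro e he
      rw [if_pos (h e he), mul_inv_cancel₀ (hlpos e).ne']
    · push Not at h
      obtain ⟨e, he, hne⟩ := h
      apply Finset.prod_eq_zero he
      rw [if_neg hne, mul_zero]
  rw [Finset.sum_congr rfl (fun M _ => h1 M), ← Finset.sum_filter, Finset.sum_const,
    nsmul_eq_mul, mul_one]
  rfl

end Crest.Agent.R304.Ctl
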