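import Crest.Agent.R304.EntG
import Crest.Agent.R304.MWTop
import Crest.Prelude.Def_MultiplicityCount

-- ▼ part R304/Ded316A
section

/-!
R304 / S0467, analysis file A: the logarithm of the weighted number of perfect matchings and the
functional `G(x) = ∑ (x log w - x log x)`: `log N ≤ G(x*) + m` for the marginals `x*` of the Gibbs law
and `G(x) - 2 m ≤ log N` for all marginals `x` (the latter from S0465).
-/

set_option autoImplicit false

namespace Crest.Agent.R304.Ded316A

open Finset Crest.Agent.R304.EntA Crest.Agent.R304.EntB Crest.Agent.R304.EntC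
  Crest.Agent.R304.EntF Crest.Agent.R304.EntG Crest.Matchings

/-- the statement of S0465 -/
def S0465stmt : Prop :=
  ∀ (m : ℕ), 1 ≤ m → ∀ (k : ℕ) (ends : Fin k → Fin (2 * m) × Fin (2 * m)),
    (∀ e, (ends e).1 ≠ (ends e).2) → ∀ (p : Finset (Fin k) → ℝ), IsMatchingLaw ends p →
    ∃ q : Finset (Fin k) → ℝ, IsMatchingLaw ends q ∧ (∀ e, marginal q e = marginal p e) ∧
      ∑ e, Real.negMulLog (marginal p e) - (2 - 2 / (m : ℝ)) * ∑ e, Real.negMulLog (1 - marginal p e)
        ≤ lawEntropy q

/-- Gibbs' inequality -/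
theorem gibbs_ineq {Ω : Type*} [Fintype Ω] {b r : Ω → ℝ} (hb : ∀ ω, 0 ≤ b ω)
    (hb1 : ∑ ω, b ω = 1) (hr : ∀ ω, 0 ≤ r ω) (hS : ∀ ω, b ω ≠ 0 → r ω ≠ 0) :
    H b + ∑ ω, b ω * Real.log (r ω) ≤ Real.log (∑ ω, r ω) := by
  classical
  set Z := ∑ ω, r ω with hZ
  have hZpos : 0 < Z := by
    have : ∃ ω, b ω ≠ 0 := by
      by_contra h
      push Not at h
      simp [h] at hb1
    obtain ⟨ω, hω⟩ := this
    exact sum_pos' (fun ω _ => hr ω) ⟨ω, mem_univ _, lt_of_le_of_ne (hr ω) (Ne.symm (hS ω hω))⟩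
  have key : ∀ ω, Real.negMulLog (b ω) + b ω * Real.log (r ω) - b ω * Real.log Z
      ≤ r ω / Z - b ω := by
    intro ω
    by_cases h : b ω = 0
    · simp only [h, Real.negMulLog_zero, zero_mul, add_zero, sub_zero]
      exact div_nonneg (hr ω) hZpos.le
    · have hb0 : 0 < b ω := lt_of_le_of_ne (hb ω) (Ne.symm h)
      have hr0 : 0 < r ω := lt_of_le_of_ne (hr ω) (Ne.symm (hS ω h))
      have hy0 : 0 < r ω / (Z * b ω) := by positivity
      have h1 := Real.log_le_sub_one_of_pos hy0
      rw [Real.log_div hr0.ne' (by positivity), Real.log_mul hZpos.ne' hb0.ne'] at h1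
      have h4 := mul_le_mul_of_nonneg_left h1 hb0.le
      have h5 : b ω * (r ω / (Z * b ω) - 1) = r ω / Z - b ω := by
        field_simp
      rw [h5] at h4
      unfold Real.negMulLog
      linarith
  have hs := sum_le_sum fun ω (_ : ω ∈ univ) => key ω
  rw [sum_sub_distrib, sum_add_distrib, sum_sub_distrib, ← sum_div, ← hZ,
    div_self hZpos.ne', hb1, ← sum_mul, hb1] at hs
  unfold H
  linarith

variable {m k : ℕ}

open Classical in
/-- weighted number of perfect matchings -/
noncomputable def NPM {v : ℕ} (ends : Fin k → Fin v × Fin v) (w : Fin k → ℕ) : ℕ :=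
  ∑ M ∈ univ.filter (fun M : Finset (Fin k) => IsPerfectMatching ends M), ∏ e ∈ M, w e

/-- the functional `G` -/
noncomputable def Gf (w : Fin k → ℕ) (x : Fin k → ℝ) : ℝ :=
  ∑ e, (x e * Real.log (w e) + Real.negMulLog (x e))

open Classical in
/-- Gibbs weights -/
noncomputable def gw {v : ℕ} (ends : Fin k → Fin v × Fin v) (w : Fin k → ℕ)
    (M : Finset (Fin k)) : ℝ :=
  if IsPerfectMatching ends M then ∏ e ∈ M, (w e : ℝ) else 0

theorem sum_gw {v : ℕ} (ends : Fin k → Fin v × Fin v) (w : Fin k → ℕ) :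
    ∑ M, gw ends w M = NPM ends w := by
  classical
  unfold gw NPM
  rw [← sum_filter]
  push_cast
  exact sum_congr (by congr) fun M _ => rfl

theorem gw_pos {v : ℕ} {ends : Fin k → Fin v × Fin v} {w : Fin k → ℕ} (hw : ∀ e, 1 ≤ w e)
    {M : Finset (Fin k)} (hM : IsPerfectMatching ends M) : 0 < gw ends w M := by
  classical
  unfold gw
  rw [if_pos hM]
  exact prod_pos fun e _ => by exact_mod_cast hw e

theorem gw_nonneg {v : ℕ} (ends : Fin k → Fin v × Fin v) (w : Fin k → ℕ)
    (M : Finset (Fin k)) : 0 ≤ gw ends w M := by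
  classical
  unfold gw
  split_ifs
  · exact prod_nonneg fun e _ => by positivity
  · exact le_refl _

theorem log_gw {v : ℕ} {ends : Fin k → Fin v × Fin v} {w : Fin k → ℕ} (hw : ∀ e, 1 ≤ w e)
    {M : Finset (Fin k)} (hM : IsPerfectMatching ends M) :
    Real.log (gw ends w M) = dot inc (fun e => Real.log (w e)) M := by
  classical
  unfold gw dot inc
  rw [if_pos hM, Real.log_prod fun e _ => by
    have := hw e
    have : (0:ℝ) < w e := by exact_mod_cast this
    exact this.ne']
  simp only [mul_ite, mul_one, mul_zero]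
  rw [← sum_filter]
  congr 1
  ext e; simp

/-- variational lower bound -/
theorem law_le_log {ends : Fin k → Fin (2 * m) × Fin (2 * m)} {w : Fin k → ℕ}
    (hw : ∀ e, 1 ≤ w e) {q : Finset (Fin k) → ℝ} (hq : q ∈ Law (PMs ends)) :
    H q + ∑ e, marg inc q e * Real.log (w e) ≤ Real.log (NPM ends w) := by
  have h1 := gibbs_ineq hq.1 hq.2.1 (gw_nonneg ends w) (fun M hM => (gw_pos hw (hq.2.2 M hM)).ne')
  rw [sum_gw] at h1
  have h2 : ∑ M, q M * Real.log (gw ends w M) = ∑ e, marg inc q e * Real.log (w e) := by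
    have h3 := sum_dot (inc (k := k)) (fun e => Real.log (w e)) q
    rw [sum_congr rfl fun e _ => mul_comm (marg inc q e) (Real.log (w e)), ← h3]
    refine sum_congr rfl fun M _ => ?_
    by_cases h : q M = 0
    · simp [h]
    · rw [log_gw hw (hq.2.2 M h)]
  rw [h2] at h1
  exact h1

theorem negMulLog_one_sub_le {x : ℝ} (h0 : 0 ≤ x) (h1 : x ≤ 1) : Real.negMulLog (1 - x) ≤ x := by
  rcases eq_or_lt_of_le h1 with h | h
  · rw [h]; simp
  · have hpos : 0 < 1 - x := by linarith
    have h2 := Real.log_le_sub_one_of_pos (inv_pos.2 hpos)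
    rw [Real.log_inv] at h2
    have h3 := mul_le_mul_of_nonneg_left h2 hpos.le
    have h4 : (1 - x) * ((1 - x)⁻¹ - 1) = x := by field_simp; ring
    rw [h4] at h3
    unfold Real.negMulLog
    linarith

theorem sum_negMulLog_one_sub_le {ends : Fin k → Fin (2 * m) × Fin (2 * m)}
    (hends : ∀ e, (ends e).1 ≠ (ends e).2) {q : Finset (Fin k) → ℝ} (hq : q ∈ Law (PMs ends)) :
    ∑ e, Real.negMulLog (1 - marg inc q e) ≤ m := by
  have hA : ∀ (M : Finset (Fin k)) (e : Fin k), 0 ≤ inc M e ∧ inc M e ≤ 1 := fun M e => by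
    rcases inc_zero_or_one M e with h | h <;> rw [h] <;> norm_num
  rw [← sum_marg ends hends hq]
  exact sum_le_sum fun e _ =>
    negMulLog_one_sub_le (marg_mem hq hA e).1 (marg_mem hq hA e).2

theorem sum_negMulLog_one_sub_nonneg {ends : Fin k → Fin (2 * m) × Fin (2 * m)}
    {q : Finset (Fin k) → ℝ} (hq : q ∈ Law (PMs ends)) :
    0 ≤ ∑ e, Real.negMulLog (1 - marg inc q e) := by
  have hA : ∀ (M : Finset (Fin k)) (e : Fin k), 0 ≤ inc M e ∧ inc M e ≤ 1 := fun M e => by
    rcases inc_zero_or_one M e with h | h <;> rw [h] <;> norm_num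
  refine sum_nonneg fun e _ => Real.negMulLog_nonneg ?_ ?_
  · linarith [(marg_mem hq hA e).2]
  · linarith [(marg_mem hq hA e).1]

/-- lower bound from S0465 -/
theorem G_le_log (h65 : S0465stmt) (hm : 1 ≤ m) {ends : Fin k → Fin (2 * m) × Fin (2 * m)}
    (hends : ∀ e, (ends e).1 ≠ (ends e).2) {w : Fin k → ℕ}
    (hw : ∀ e, 1 ≤ w e) {p : Finset (Fin k) → ℝ} (hp : p ∈ Law (PMs ends)) :
    Gf w (marg inc p) - 2 * m ≤ Real.log (NPM ends w) := by
  obtain ⟨q, hq, hqm, hqH⟩ := h65 m hm k ends hends p hp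
  have hq' : q ∈ Law (PMs ends) := hq
  have hmarg : marg inc q = marg inc p := by
    funext e; rw [marg_inc, marg_inc, hqm]
  have h1 := law_le_log hw hq'
  rw [hmarg] at h1
  have h2 : ∑ e, Real.negMulLog (marg inc p e)
      - (2 - 2 / (m : ℝ)) * ∑ e, Real.negMulLog (1 - marg inc p e) ≤ H q := by
    simp only [marg_inc]; exact hqH
  have hB := sum_negMulLog_one_sub_le hends hp
  have hB0 := sum_negMulLog_one_sub_nonneg hp
  have hm0 : (1:ℝ) ≤ m := by exact_mod_cast hm
  have hc : 0 ≤ 2 / (m:ℝ) := by positivity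
  have h3 : (2 - 2 / (m : ℝ)) * ∑ e, Real.negMulLog (1 - marg inc p e) ≤ 2 * m := by
    have h4 : (2 - 2 / (m : ℝ)) * ∑ e, Real.negMulLog (1 - marg inc p e)
        ≤ 2 * ∑ e, Real.negMulLog (1 - marg inc p e) :=
      mul_le_mul_of_nonneg_right (by linarith) hB0
    linarith
  unfold Gf
  rw [sum_add_distrib]
  linarith

/-- the Gibbs law -/
noncomputable def gibbs {v : ℕ} (ends : Fin k → Fin v × Fin v) (w : Fin k → ℕ)
    (M : Finset (Fin k)) : ℝ := gw ends w M / NPM ends w

theorem gibbs_law {v : ℕ} {ends : Fin k → Fin v × Fin v} {w : Fin k → ℕ}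
    (hN : 0 < NPM ends w) : gibbs ends w ∈ Law (PMs ends) := by
  classical
  have hN' : (0:ℝ) < NPM ends w := by exact_mod_cast hN
  refine ⟨fun M => div_nonneg (gw_nonneg _ _ _) hN'.le, ?_, fun M hM => ?_⟩
  · unfold gibbs
    rw [← sum_div, sum_gw, div_self hN'.ne']
  · by_contra h
    apply hM
    have h' : ¬ IsPerfectMatching ends M := h
    unfold gibbs gw
    rw [if_neg h', zero_div]

/-- entropy is subadditive -/
theorem H_le_sum {q : Finset (Fin k) → ℝ} (hq0 : ∀ M, 0 ≤ q M) (hq1 : ∑ M, q M = 1) :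
    H q ≤ ∑ e, (Real.negMulLog (marg inc q e) + Real.negMulLog (1 - marg inc q e)) := by
  classical
  have hq : q ∈ Law (Set.univ : Set (Finset (Fin k))) := ⟨hq0, hq1, fun _ _ => Set.mem_univ _⟩
  have hA : ∀ (M : Finset (Fin k)) (e : Fin k), 0 ≤ inc M e ∧ inc M e ≤ 1 := fun M e => by
    rcases inc_zero_or_one M e with h | h <;> rw [h] <;> norm_num
  set x := marg inc q with hx
  have hx01 : ∀ e, 0 ≤ x e ∧ x e ≤ 1 := marg_mem hq hA
  set r : Finset (Fin k) → ℝ := fun M => (∏ e ∈ M, x e) * ∏ e ∈ univ \ M, (1 - x e) with hr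
  have hr0 : ∀ M, 0 ≤ r M := fun M => mul_nonneg (prod_nonneg fun e _ => (hx01 e).1)
    (prod_nonneg fun e _ => by linarith [(hx01 e).2])
  have hpos1 : ∀ M, q M ≠ 0 → ∀ e ∈ M, x e ≠ 0 := by
    intro M hM e he h0
    have h1 : inc M e = 0 := marg_eq_zero hq hA h0 M hM
    rw [inc, if_pos he] at h1
    exact one_ne_zero h1
  have hpos2 : ∀ M, q M ≠ 0 → ∀ e ∉ M, 1 - x e ≠ 0 := by
    intro M hM e he h0
    have h1 : inc M e = 1 := marg_eq_one hq hA (by linarith : marg inc q e = 1) M hM
    rw [inc, if_neg he] at h1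
    exact zero_ne_one h1
  have hS : ∀ M, q M ≠ 0 → r M ≠ 0 := by
    intro M hM
    refine mul_ne_zero (prod_ne_zero_iff.2 fun e he => hpos1 M hM e he)
      (prod_ne_zero_iff.2 fun e he => hpos2 M hM e (mem_sdiff.1 he).2)
  have hrsum : ∑ M, r M = 1 := by
    have h1 := Finset.prod_add (fun e : Fin k => x e) (fun e => 1 - x e) univ
    rw [powerset_univ] at h1
    rw [hr]
    rw [← h1]
    simp
  have h1 := gibbs_ineq hq0 hq1 hr0 hS
  rw [hrsum, Real.log_one] at h1
  have h2 : ∑ M, q M * Real.log (r M)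
      = -∑ e, (Real.negMulLog (x e) + Real.negMulLog (1 - x e)) := by
    have h3 : ∀ M, q M * Real.log (r M)
        = ∑ e, q M * (inc M e * Real.log (x e) + (1 - inc M e) * Real.log (1 - x e)) := by
      intro M
      by_cases h : q M = 0
      · simp [h]
      · rw [hr]
        simp only
        rw [Real.log_mul (prod_ne_zero_iff.2 fun e he => hpos1 M h e he)
          (prod_ne_zero_iff.2 fun e he => hpos2 M h e (mem_sdiff.1 he).2),
          Real.log_prod fun e he => hpos1 M h e he,
          Real.log_prod fun e he => hpos2 M h e (mem_sdiff.1 he).2, ← mul_sum,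
          sum_add_distrib]
        congr 2
        · unfold inc
          simp only [ite_mul, one_mul, zero_mul]
          rw [← sum_filter]
          congr 1
          ext e; simp
        · unfold inc
          rw [← sum_subset (subset_univ (univ \ M))]
          · refine sum_congr rfl fun e he => ?_
            rw [if_neg (mem_sdiff.1 he).2]; ring
          · intro e _ he
            have : e ∈ M := by
              by_contra h'
              exact he (mem_sdiff.2 ⟨mem_univ _, h'⟩)
            rw [if_pos this]; ring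
    rw [sum_congr rfl fun M _ => h3 M, sum_comm, ← sum_neg_distrib]
    refine sum_congr rfl fun e _ => ?_
    have h4 : ∀ M, q M * (inc M e * Real.log (x e) + (1 - inc M e) * Real.log (1 - x e))
        = q M * inc M e * Real.log (x e) + (q M - q M * inc M e) * Real.log (1 - x e) :=
      fun M => by ring
    rw [sum_congr rfl fun M _ => h4 M, sum_add_distrib, ← sum_mul, ← sum_mul, sum_sub_distrib,
      hq1]
    change x e * Real.log (x e) + (1 - x e) * Real.log (1 - x e) = _
    unfold Real.negMulLog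
    ring
  rw [h2] at h1
  linarith

/-- upper bound -/
theorem log_le_G {ends : Fin k → Fin (2 * m) × Fin (2 * m)}
    (hends : ∀ e, (ends e).1 ≠ (ends e).2) {w : Fin k → ℕ} (hw : ∀ e, 1 ≤ w e)
    (hN : 0 < NPM ends w) :
    Real.log (NPM ends w) ≤ Gf w (marg inc (gibbs ends w)) + m := by
  classical
  have hN' : (0:ℝ) < NPM ends w := by exact_mod_cast hN
  have hq := gibbs_law hN
  have h1 : H (gibbs ends w) = Real.log (NPM ends w)
      - ∑ e, marg inc (gibbs ends w) e * Real.log (w e) := by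
    have h3 := sum_dot (inc (k := k)) (fun e => Real.log (w e)) (gibbs ends w)
    rw [sum_congr rfl fun e _ => mul_comm (marg inc (gibbs ends w) e) (Real.log (w e)), ← h3]
    have h4 : Real.log (NPM ends w) = ∑ M, gibbs ends w M * Real.log (NPM ends w) := by
      rw [← sum_mul, hq.2.1, one_mul]
    rw [h4, ← sum_sub_distrib]
    unfold H
    refine sum_congr rfl fun M _ => ?_
    by_cases h : gibbs ends w M = 0
    · simp [h]
    · have hM : IsPerfectMatching ends M := hq.2.2 M h
      have hg := gw_pos hw hM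
      have h5 : Real.log (gibbs ends w M) = Real.log (gw ends w M) - Real.log (NPM ends w) := by
        unfold gibbs
        rw [Real.log_div hg.ne' hN'.ne']
      unfold Real.negMulLog
      rw [h5, log_gw hw hM]
      ring
  have h2 := H_le_sum hq.1 hq.2.1
  have h3 := sum_negMulLog_one_sub_le hends hq
  rw [sum_add_distrib] at h2
  unfold Gf
  rw [sum_add_distrib]
  linarith

end Crest.Agent.R304.Ded316A
end

-- ▼ part R304/Ded316B
section

/-!
R304 / S0467, analysis file B: the multiplicative-update scheme with integer weights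
`size (w e) + (τ + 2) - size (c e + 1)`, `2 ^ τ ≥ k` rounds, gives the exponent of a `512 ^ n`
approximation.
-/

set_option autoImplicit false

namespace Crest.Agent.R304.Ded316B

open Finset Crest.Agent.R304.EntA Crest.Agent.R304.EntB Crest.Agent.R304.EntC
  Crest.Agent.R304.EntF Crest.Agent.R304.EntG Crest.Agent.R304.Ded316A Crest.Matchings

/-- the integer weight of an edge with multiplicity `x` and count `c` -/
def wt (τ x c : ℕ) : ℕ := Nat.size x + (τ + 2) - Nat.size (c + 1)

theorem log_lt_size (n : ℕ) (hn : 1 ≤ n) : Real.log n ≤ Nat.size n * Real.log 2 := by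
  have h1 : (n : ℝ) ≤ (2:ℝ) ^ Nat.size n := by exact_mod_cast (Nat.lt_size_self n).le
  have h2 := Real.log_le_log (by exact_mod_cast hn) h1
  rwa [Real.log_pow] at h2

theorem size_le_log (n : ℕ) (hn : 1 ≤ n) :
    (Nat.size n : ℝ) * Real.log 2 ≤ Real.log n + Real.log 2 := by
  obtain ⟨s, hs⟩ : ∃ s, Nat.size n = s + 1 := by
    have : 0 < Nat.size n := Nat.size_pos.2 hn
    exact ⟨Nat.size n - 1, by omega⟩
  have h1 : 2 ^ s ≤ n := by
    rw [← Nat.lt_size, hs]; exact Nat.lt_succ_self s
  have h1' : ((2:ℝ) ^ s) ≤ n := by exact_mod_cast h1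
  have h2 := Real.log_le_log (by positivity) h1'
  rw [Real.log_pow] at h2
  rw [hs]
  push_cast
  linarith

theorem size_le_of_le_pow {τ c : ℕ} (hc : c ≤ 2 ^ τ) : Nat.size (c + 1) ≤ τ + 2 := by
  rw [Nat.size_le]
  have : 2 ^ τ + 1 < 2 ^ (τ + 2) := by
    have : 1 ≤ 2 ^ τ := Nat.one_le_two_pow
    rw [pow_add]; omega
  omega

theorem wt_cast {τ x c : ℕ} (hc : c ≤ 2 ^ τ) :
    ((wt τ x c : ℕ) : ℝ) = Nat.size x + (τ + 2) - Nat.size (c + 1) := by
  unfold wt
  have := size_le_of_le_pow hc
  rw [Nat.cast_sub (by omega)]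
  push_cast
  ring

/-- `c log c - c` -/
noncomputable def gg (c : ℕ) : ℝ := c * Real.log c - c

theorem gg_zero : gg 0 = 0 := by simp [gg]

theorem gg_step (c : ℕ) : gg (c + 1) - gg c ≤ Real.log ((c + 1 : ℕ) : ℝ) := by
  unfold gg
  rcases Nat.eq_zero_or_pos c with h | h
  · subst h; simp
  · have hc : (0:ℝ) < c := by exact_mod_cast h
    have h1 : Real.log ((c:ℝ) + 1) - Real.log c ≤ 1 / c := by
      rw [← Real.log_div (by positivity) hc.ne']
      have h2 := Real.log_le_sub_one_of_pos (show (0:ℝ) < (c + 1) / c by positivity)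
      have h3 : ((c:ℝ) + 1) / c - 1 = 1 / c := by field_simp; ring
      linarith
    have h4 := mul_le_mul_of_nonneg_left h1 hc.le
    rw [mul_one_div_cancel hc.ne'] at h4
    push_cast
    nlinarith

variable {m k : ℕ}

section run

variable {ends : Fin k → Fin (2 * m) × Fin (2 * m)} {w : Fin k → ℕ} {τ : ℕ}
  {M : ℕ → Finset (Fin k)} {c : ℕ → Fin k → ℕ}

theorem c_eq (hc0 : ∀ e, c 0 e = 0)
    (hc : ∀ t < 2 ^ τ, ∀ e, c (t + 1) e = c t e + if e ∈ M t then 1 else 0) {t : ℕ}
    (ht : t ≤ 2 ^ τ) (e : Fin k) : (c t e : ℝ) = ∑ s ∈ range t, inc (M s) e := by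
  induction t with
  | zero => simp [hc0]
  | succ t ih =>
    rw [sum_range_succ, ← ih (by omega), hc t (by omega)]
    unfold inc
    push_cast
    rfl

theorem c_le (hc0 : ∀ e, c 0 e = 0)
    (hc : ∀ t < 2 ^ τ, ∀ e, c (t + 1) e = c t e + if e ∈ M t then 1 else 0) {t : ℕ}
    (ht : t ≤ 2 ^ τ) (e : Fin k) : c t e ≤ t := by
  induction t with
  | zero => simp [hc0]
  | succ t ih =>
    rw [hc t (by omega)]
    have := ih (by omega)
    split_ifs <;> omega

theorem sum_c (hends : ∀ e, (ends e).1 ≠ (ends e).2)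
    (hM : ∀ t < 2 ^ τ, IsPerfectMatching ends (M t)) (hc0 : ∀ e, c 0 e = 0)
    (hc : ∀ t < 2 ^ τ, ∀ e, c (t + 1) e = c t e + if e ∈ M t then 1 else 0) {t : ℕ}
    (ht : t ≤ 2 ^ τ) : ∑ e, (c t e : ℝ) = m * t := by
  rw [sum_congr rfl fun e _ => c_eq hc0 hc ht e, sum_comm]
  rw [sum_congr rfl fun s hs => by
    rw [sum_inc, card_pm ends hends (hM s (by have := mem_range.1 hs; omega))]]
  simp; ring

/-- upper bound for the accumulated weight -/
theorem acc_le (hends : ∀ e, (ends e).1 ≠ (ends e).2) (hw : ∀ e, 1 ≤ w e)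
    (hM : ∀ t < 2 ^ τ, IsPerfectMatching ends (M t)) (hc0 : ∀ e, c 0 e = 0)
    (hc : ∀ t < 2 ^ τ, ∀ e, c (t + 1) e = c t e + if e ∈ M t then 1 else 0) {t : ℕ}
    (ht : t ≤ 2 ^ τ) :
    Real.log 2 * ∑ s ∈ range t, ∑ e ∈ M s, (wt τ (w e) (c s e) : ℝ) ≤
      ∑ e, (c t e * (Real.log (w e) + Real.log 2) - gg (c t e))
        + (τ + 2) * Real.log 2 * (m * t) := by
  have hl2 : 0 < Real.log 2 := Real.log_pos (by norm_num)
  induction t with
  | zero => simp [hc0, gg_zero]
  | succ t ih =>
    have ih' := ih (by omega)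
    rw [sum_range_succ, mul_add]
    have hcard : ((M t).card : ℝ) = m := by rw [card_pm ends hends (hM t (by omega))]
    have h1 : Real.log 2 * ∑ e ∈ M t, (wt τ (w e) (c t e) : ℝ)
        ≤ ∑ e ∈ M t, (Real.log (w e) + Real.log 2 - (gg (c t e + 1) - gg (c t e)))
          + (τ + 2) * Real.log 2 * m := by
      have h2 : (τ + 2) * Real.log 2 * (m:ℝ) = ∑ e ∈ M t, (τ + 2) * Real.log 2 := by
        rw [sum_const, nsmul_eq_mul, hcard]; ring
      rw [h2, mul_sum, ← sum_add_distrib]
      refine sum_le_sum fun e _ => ?_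
      rw [wt_cast ((c_le hc0 hc (by omega : t ≤ 2 ^ τ) e).trans (by omega))]
      have a1 := size_le_log (w e) (hw e)
      have a2 := log_lt_size (c t e + 1) (by omega)
      have a3 := gg_step (c t e)
      nlinarith
    have h3 : ∑ e, (c (t + 1) e * (Real.log (w e) + Real.log 2) - gg (c (t + 1) e))
        = ∑ e, (c t e * (Real.log (w e) + Real.log 2) - gg (c t e))
          + ∑ e ∈ M t, (Real.log (w e) + Real.log 2 - (gg (c t e + 1) - gg (c t e))) := by
      rw [← sum_filter_add_sum_filter_not univ (fun e => e ∈ M t)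
        (fun e => (c (t + 1) e * (Real.log (w e) + Real.log 2) - gg (c (t + 1) e))),
        ← sum_filter_add_sum_filter_not univ (fun e => e ∈ M t)
        (fun e => (c t e * (Real.log (w e) + Real.log 2) - gg (c t e)))]
      have h4 : univ.filter (fun e => e ∈ M t) = M t := by ext; simp
      rw [h4]
      have h5 : ∑ e ∈ univ.filter (fun e => e ∉ M t),
          (c (t + 1) e * (Real.log (w e) + Real.log 2) - gg (c (t + 1) e))
          = ∑ e ∈ univ.filter (fun e => e ∉ M t),
          (c t e * (Real.log (w e) + Real.log 2) - gg (c t e)) := by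
        refine sum_congr rfl fun e he => ?_
        rw [hc t (by omega), if_neg (mem_filter.1 he).2, add_zero]
      have h6 : ∑ e ∈ M t, (c (t + 1) e * (Real.log (w e) + Real.log 2) - gg (c (t + 1) e))
          = ∑ e ∈ M t, (c t e * (Real.log (w e) + Real.log 2) - gg (c t e))
          + ∑ e ∈ M t, (Real.log (w e) + Real.log 2 - (gg (c t e + 1) - gg (c t e))) := by
        rw [← sum_add_distrib]
        refine sum_congr rfl fun e he => ?_
        rw [hc t (by omega), if_pos he]
        push_cast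
        ring
      rw [h5, h6]; ring
    rw [h3]
    push_cast
    nlinarith

open Classical in
/-- the empirical law -/
noncomputable def emp (M : ℕ → Finset (Fin k)) (T : ℕ) (N : Finset (Fin k)) : ℝ :=
  (∑ t ∈ range T, if M t = N then (1:ℝ) else 0) / T

theorem emp_law {T : ℕ} (hT : 0 < T) (hM : ∀ t < T, IsPerfectMatching ends (M t)) :
    emp M T ∈ Law (PMs ends) := by
  classical
  have hT' : (0:ℝ) < T := by exact_mod_cast hT
  refine ⟨fun N => div_nonneg (sum_nonneg fun t _ => by split_ifs <;> norm_num) hT'.le, ?_,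
    fun N hN => ?_⟩
  · unfold emp
    rw [← sum_div, sum_comm]
    simp [hT'.ne']
  · by_contra h
    apply hN
    unfold emp
    rw [sum_eq_zero, zero_div]
    intro t ht
    rw [if_neg]
    rintro rfl
    exact h (hM t (mem_range.1 ht))

theorem marg_emp {T : ℕ} (e : Fin k) :
    marg inc (emp M T) e = (∑ t ∈ range T, inc (M t) e) / T := by
  classical
  unfold marg emp
  simp only [div_mul_eq_mul_div]
  rw [← sum_div]
  congr 1
  simp only [sum_mul]
  rw [sum_comm]
  refine sum_congr rfl fun t _ => ?_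
  simp

theorem T_mul_G {T : ℕ} (hT : 0 < T) (x : Fin k → ℕ) :
    (T : ℝ) * Gf w (fun e => (x e : ℝ) / T)
      = ∑ e, (x e * Real.log (w e) - x e * Real.log (x e)) + (∑ e, (x e : ℝ)) * Real.log T := by
  have hT' : (T : ℝ) ≠ 0 := by positivity
  unfold Gf
  rw [mul_sum, sum_mul, ← sum_add_distrib]
  refine sum_congr rfl fun e _ => ?_
  by_cases h : x e = 0
  · simp [h]
  · have h1 : (x e : ℝ) ≠ 0 := by exact_mod_cast h
    unfold Real.negMulLog
    rw [Real.log_div h1 hT']
    field_simp
    ring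

theorem log_two_ge : (0.6 : ℝ) ≤ Real.log 2 := by
  have := Real.log_two_gt_d9
  linarith

/-- lower bound on `log N` -/
theorem lower (h65 : S0465stmt) (hm : 1 ≤ m) (hends : ∀ e, (ends e).1 ≠ (ends e).2)
    (hw : ∀ e, 1 ≤ w e) (hM : ∀ t < 2 ^ τ, IsPerfectMatching ends (M t)) (hc0 : ∀ e, c 0 e = 0)
    (hc : ∀ t < 2 ^ τ, ∀ e, c (t + 1) e = c t e + if e ∈ M t then 1 else 0) :
    Real.log 2 * (((∑ s ∈ range (2 ^ τ), ∑ e ∈ M s, wt τ (w e) (c s e) : ℕ) : ℝ) / 2 ^ τ - 8 * m)
      ≤ Real.log (NPM ends w) := by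
  set T : ℕ := 2 ^ τ with hT
  have hT0 : 0 < T := by rw [hT]; positivity
  have hT' : (0:ℝ) < T := by exact_mod_cast hT0
  have hlaw := emp_law (M := M) hT0 hM
  have hG := G_le_log h65 hm hends hw hlaw
  have hmarg : marg inc (emp M T) = fun e => (c T e : ℝ) / T := by
    funext e; rw [marg_emp, ← c_eq hc0 hc (le_refl _)]
  rw [hmarg] at hG
  have h1 := T_mul_G (w := w) hT0 (c T)
  have h2 := acc_le hends hw hM hc0 hc (le_refl T)
  have h3 := sum_c hends hM hc0 hc (le_refl T)
  have hlogT : Real.log T = τ * Real.log 2 := by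
    rw [hT]; push_cast; rw [Real.log_pow]
  rw [h3, hlogT] at h1
  have h4 : ∑ e, (c T e * (Real.log (w e) + Real.log 2) - gg (c T e))
      = ∑ e, (c T e * Real.log (w e) - c T e * Real.log (c T e))
        + (m * T) * (Real.log 2 + 1) := by
    rw [← h3, sum_mul, ← sum_add_distrib]
    refine sum_congr rfl fun e _ => ?_
    unfold gg; ring
  rw [h4] at h2
  have hl := log_two_ge
  have hS : ((∑ s ∈ range T, ∑ e ∈ M s, wt τ (w e) (c s e) : ℕ) : ℝ)
      = ∑ s ∈ range T, ∑ e ∈ M s, (wt τ (w e) (c s e) : ℝ) := by push_cast; rfl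
  rw [hS]
  have hTT : ((2:ℝ) ^ τ) = T := by rw [hT]; push_cast; rfl
  rw [hTT]
  set S := ∑ s ∈ range T, ∑ e ∈ M s, (wt τ (w e) (c s e) : ℝ) with hSdef
  have h5 : Real.log 2 * S ≤ T * (Gf w (fun e => (c T e : ℝ) / T) + m * (3 * Real.log 2 + 1)) := by
    nlinarith
  have h6 : Real.log 2 * (S / T) ≤ Gf w (fun e => (c T e : ℝ) / T) + m * (3 * Real.log 2 + 1) := by
    rw [mul_div_assoc', div_le_iff₀ hT']
    linarith
  have hm0 : (0:ℝ) ≤ m := by positivity
  nlinarith

/-- pointwise Jensen -/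
theorem point_jensen {x y s : ℝ} (hx : 0 ≤ x) (hy : 0 < y) (hs : 0 < s) :
    Real.negMulLog x + x * Real.log y ≤ y / s - x + x * Real.log s := by
  rcases eq_or_lt_of_le hx with h | h
  · rw [← h]
    simp only [Real.negMulLog_zero, zero_mul, add_zero, sub_zero]
    positivity
  · have h1 := Real.log_le_sub_one_of_pos (show 0 < y / (x * s) by positivity)
    rw [Real.log_div hy.ne' (by positivity), Real.log_mul h.ne' hs.ne'] at h1
    have h2 := mul_le_mul_of_nonneg_left h1 h.le
    have h3 : x * (y / (x * s) - 1) = y / s - x := by field_simp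
    rw [h3] at h2
    unfold Real.negMulLog
    linarith

/-- upper bound on `log N` -/
theorem upper (hm : 1 ≤ m) (hends : ∀ e, (ends e).1 ≠ (ends e).2)
    (hw : ∀ e, 1 ≤ w e) (hk : k ≤ 2 ^ τ)
    (hM : ∀ t < 2 ^ τ, IsPerfectMatching ends (M t)) (hc0 : ∀ e, c 0 e = 0)
    (hc : ∀ t < 2 ^ τ, ∀ e, c (t + 1) e = c t e + if e ∈ M t then 1 else 0)
    (hopt : ∀ t < 2 ^ τ, ∀ M' : Finset (Fin k), IsPerfectMatching ends M' →
      ∑ e ∈ M', wt τ (w e) (c t e) ≤ ∑ e ∈ M t, wt τ (w e) (c t e) + 6 * m)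
    (hN : 0 < NPM ends w) :
    Real.log (NPM ends w) ≤
      Real.log 2 * (((∑ s ∈ range (2 ^ τ), ∑ e ∈ M s, wt τ (w e) (c s e) : ℕ) : ℝ) / 2 ^ τ
        + 8 * m) := by
  set T : ℕ := 2 ^ τ with hT
  have hT0 : 0 < T := by rw [hT]; positivity
  have hT' : (0:ℝ) < T := by exact_mod_cast hT0
  have hl2 : 0 < Real.log 2 := Real.log_pos (by norm_num)
  have hq := gibbs_law hN
  set q := gibbs ends w with hqdef
  have hA : ∀ (M : Finset (Fin k)) (e : Fin k), 0 ≤ inc M e ∧ inc M e ≤ 1 := fun M e => by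
    rcases inc_zero_or_one M e with h | h <;> rw [h] <;> norm_num
  have hx01 : ∀ e, 0 ≤ marg inc q e ∧ marg inc q e ≤ 1 := marg_mem hq hA
  have hsum := sum_marg ends hends hq
  have hlogT : Real.log (2 * T) = (τ + 1) * Real.log 2 := by
    rw [Real.log_mul (by norm_num) hT'.ne', hT]; push_cast; rw [Real.log_pow]; ring
  -- one round
  have hround : ∀ t < T, Gf w (marg inc q) ≤
      Real.log 2 * (∑ e ∈ M t, (wt τ (w e) (c t e) : ℝ) + 6 * m) := by
    intro t ht
    have h1 : ∑ e, marg inc q e * (wt τ (w e) (c t e) : ℝ)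
        ≤ ∑ e ∈ M t, (wt τ (w e) (c t e) : ℝ) + 6 * m := by
      have h2 := sum_dot (inc (k := k)) (fun e => (wt τ (w e) (c t e) : ℝ)) q
      rw [sum_congr rfl fun e _ => mul_comm (marg inc q e) (wt τ (w e) (c t e) : ℝ), ← h2]
      have h3 : ∀ N ∈ (univ : Finset (Finset (Fin k))),
          q N * dot inc (fun e => (wt τ (w e) (c t e) : ℝ)) N
          ≤ q N * (∑ e ∈ M t, (wt τ (w e) (c t e) : ℝ) + 6 * m) := by
        intro N _
        by_cases h : q N = 0
        · simp [h]
        · refine mul_le_mul_of_nonneg_left ?_ (hq.1 N)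
          have h4 := hopt t ht N (hq.2.2 N h)
          have h5 : dot inc (fun e => (wt τ (w e) (c t e) : ℝ)) N
              = ∑ e ∈ N, (wt τ (w e) (c t e) : ℝ) := by
            unfold dot inc
            simp only [mul_ite, mul_one, mul_zero]
            rw [← sum_filter]
            congr 1
            ext e; simp
          rw [h5]
          exact_mod_cast h4
      refine (sum_le_sum h3).trans ?_
      rw [← sum_mul, hq.2.1, one_mul]
    have h6 : ∀ e, marg inc q e * Real.log (w e) + Real.negMulLog (marg inc q e)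
        + ((τ + 1) * Real.log 2) * marg inc q e
        ≤ Real.log 2 * (marg inc q e * (wt τ (w e) (c t e) : ℝ))
          + (((c t e : ℝ) + 1) / (2 * T) - marg inc q e
            + marg inc q e * ((τ + 1) * Real.log 2)) := by
      intro e
      have hx := (hx01 e).1
      have hcle := c_le hc0 hc (le_of_lt ht) e
      rw [wt_cast (hcle.trans (le_of_lt ht))]
      have a1 := log_lt_size (w e) (hw e)
      have a2 := size_le_log (c t e + 1) (by omega)
      have a3 := point_jensen hx (show (0:ℝ) < (c t e : ℝ) + 1 by positivity)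
        (show (0:ℝ) < 2 * T by positivity)
      rw [hlogT] at a3
      have a4 : marg inc q e * Real.log (w e) ≤ marg inc q e * (Nat.size (w e) * Real.log 2) :=
        mul_le_mul_of_nonneg_left a1 hx
      have a5 : marg inc q e * ((Nat.size (c t e + 1) : ℝ) * Real.log 2)
          ≤ marg inc q e * (Real.log ((c t e : ℝ) + 1) + Real.log 2) := by
        refine mul_le_mul_of_nonneg_left ?_ hx
        push_cast at a2
        exact a2
      nlinarith
    have h7 := sum_le_sum fun e (_ : e ∈ univ) => h6 e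
    have h8 : ∑ e, (((c t e : ℝ) + 1) / (2 * T)) ≤ m := by
      rw [← sum_div, sum_add_distrib, sum_c hends hM hc0 hc (le_of_lt ht)]
      simp only [sum_const, card_univ, Fintype.card_fin, nsmul_eq_mul, mul_one]
      rw [div_le_iff₀ (by positivity)]
      have ht' : (t : ℝ) ≤ T := by exact_mod_cast ht.le
      have hk' : (k : ℝ) ≤ T := by exact_mod_cast hk
      have hm' : (1:ℝ) ≤ m := by exact_mod_cast hm
      nlinarith
    simp only [sum_add_distrib, sum_sub_distrib, ← mul_sum, ← sum_mul] at h7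
    rw [hsum] at h7
    unfold Gf
    rw [sum_add_distrib]
    have h9 := mul_le_mul_of_nonneg_left h1 hl2.le
    linarith
  have hG := log_le_G hends hw hN
  have hsumG : T * Gf w (marg inc q) ≤
      Real.log 2 * (∑ s ∈ range T, ∑ e ∈ M s, (wt τ (w e) (c s e) : ℝ) + T * (6 * m)) := by
    have h1 := sum_le_sum fun t (ht : t ∈ range T) => hround t (mem_range.1 ht)
    rw [sum_const, card_range, nsmul_eq_mul, ← mul_sum, sum_add_distrib, sum_const, card_range,
      nsmul_eq_mul] at h1
    exact h1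
  have hS : ((∑ s ∈ range T, ∑ e ∈ M s, wt τ (w e) (c s e) : ℕ) : ℝ)
      = ∑ s ∈ range T, ∑ e ∈ M s, (wt τ (w e) (c s e) : ℝ) := by push_cast; rfl
  rw [hS]
  have hTT : ((2:ℝ) ^ τ) = T := by rw [hT]; push_cast; rfl
  rw [hTT]
  set S := ∑ s ∈ range T, ∑ e ∈ M s, (wt τ (w e) (c s e) : ℝ) with hSdef
  have h5 : Gf w (marg inc q) ≤ Real.log 2 * (S / T + 6 * m) := by
    have h6 : Real.log 2 * (S / T + 6 * m) = (Real.log 2 * (S + T * (6 * m))) / T := by
      field_simp
    rw [h6, le_div_iff₀ hT']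
    linarith
  have hl := log_two_ge
  have hm0 : (0:ℝ) ≤ m := by positivity
  nlinarith

/-- main analysis theorem -/
theorem ded_main (h65 : S0465stmt) (hm : 1 ≤ m) (hends : ∀ e, (ends e).1 ≠ (ends e).2)
    (hw : ∀ e, 1 ≤ w e) (hk : k ≤ 2 ^ τ)
    (hM : ∀ t < 2 ^ τ, IsPerfectMatching ends (M t)) (hc0 : ∀ e, c 0 e = 0)
    (hc : ∀ t < 2 ^ τ, ∀ e, c (t + 1) e = c t e + if e ∈ M t then 1 else 0)
    (hopt : ∀ t < 2 ^ τ, ∀ M' : Finset (Fin k), IsPerfectMatching ends M' →
      ∑ e ∈ M', wt τ (w e) (c t e) ≤ ∑ e ∈ M t, wt τ (w e) (c t e) + 6 * m) {S : ℕ}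
    (hS : S = ∑ s ∈ range (2 ^ τ), ∑ e ∈ M s, wt τ (w e) (c s e)) :
    NPM ends w ≤ 512 ^ (2 * m) * 2 ^ (S / 2 ^ τ - 8 * m) ∧
      2 ^ (S / 2 ^ τ - 8 * m) ≤ NPM ends w := by
  have hl2 : 0 < Real.log 2 := Real.log_pos (by norm_num)
  have hT0 : 0 < 2 ^ τ := by positivity
  have hNpos : 0 < NPM ends w := by
    classical
    have h0 := hM 0 hT0
    have h1 : (0:ℝ) < NPM ends w := by
      rw [← sum_gw]
      exact sum_pos' (fun M _ => gw_nonneg _ _ M) ⟨M 0, mem_univ _, gw_pos hw h0⟩
    exact_mod_cast h1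
  have hN' : (0:ℝ) < NPM ends w := by exact_mod_cast hNpos
  have hlow := lower h65 hm hends hw hM hc0 hc
  have hup := upper hm hends hw hk hM hc0 hc hopt hNpos
  rw [← hS] at hlow hup
  have hdiv1 : ((S / 2 ^ τ : ℕ) : ℝ) ≤ (S:ℝ) / 2 ^ τ := by
    have := @Nat.cast_div_le ℝ _ _ _ S (2 ^ τ)
    push_cast at this ⊢
    exact this
  have hdiv2 : (S:ℝ) / 2 ^ τ ≤ ((S / 2 ^ τ : ℕ) : ℝ) + 1 := by
    rw [div_le_iff₀ (by positivity)]
    have : S < (S / 2 ^ τ + 1) * 2 ^ τ := by
      have := Nat.lt_div_mul_add (a := S) hT0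
      rw [add_mul, one_mul]; exact this
    have h2 : (S:ℝ) < (((S / 2 ^ τ + 1) * 2 ^ τ : ℕ) : ℝ) := by exact_mod_cast this
    push_cast at h2
    linarith
  constructor
  · -- upper
    have h1 : Real.log (NPM ends w) ≤ Real.log (((512 ^ (2 * m) * 2 ^ (S / 2 ^ τ - 8 * m) : ℕ)) : ℝ) := by
      push_cast
      rw [Real.log_mul (by positivity) (by positivity), Real.log_pow, Real.log_pow]
      have h512 : Real.log 512 = 9 * Real.log 2 := by
        rw [show (512:ℝ) = 2 ^ 9 by norm_num, Real.log_pow]; norm_num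
      rw [h512]
      have h3 : ((S / 2 ^ τ : ℕ) : ℝ) - 8 * m ≤ ((S / 2 ^ τ - 8 * m : ℕ) : ℝ) := by
        have := @Nat.sub_le_iff_le_add (S / 2 ^ τ) (8 * m) (S / 2 ^ τ - 8 * m)
        have h4 : S / 2 ^ τ ≤ (S / 2 ^ τ - 8 * m) + 8 * m := by omega
        have h5 : ((S / 2 ^ τ : ℕ) : ℝ) ≤ (((S / 2 ^ τ - 8 * m) + 8 * m : ℕ) : ℝ) := by
          exact_mod_cast h4
        push_cast at h5
        linarith
      have hm' : (1:ℝ) ≤ m := by exact_mod_cast hm
      push_cast at h3 ⊢
      nlinarith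
    have h2 := (Real.log_le_log_iff hN' (by positivity)).1 h1
    exact_mod_cast h2
  · rcases Nat.le_total (S / 2 ^ τ) (8 * m) with h | h
    · rw [Nat.sub_eq_zero_of_le h, pow_zero]; exact hNpos
    · have h1 : Real.log ((2 ^ (S / 2 ^ τ - 8 * m) : ℕ) : ℝ) ≤ Real.log (NPM ends w) := by
        push_cast
        rw [Real.log_pow, Nat.cast_sub h]
        push_cast
        nlinarith
      have h2 := (Real.log_le_log_iff (by positivity) hN').1 h1
      exact_mod_cast h2

end run

end Crest.Agent.R304.Ded316B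
end

-- ▼ part R304/Ded316C

/-!
R304 / S0467, file C: the outer algorithm as a pure function, its correctness, and the bridge to
`multNumPerfectMatchings`.
-/

set_option autoImplicit false

namespace Crest.Agent.R304.Ded316C

open Finset Crest.Agent.R304.EntF Crest.Agent.R304.Ded316A Crest.Agent.R304.Ded316B
  Crest.Agent.R304.MWTop Crest.Matchings
open Crest.Agent.Lib.PT (Un)

/-! ### the algorithm -/

/-- an edge with multiplicity -/
abbrev Edge := ℕ × ℕ × ℕ

/-- the weighted entries of a round -/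
def entsOf (τ : ℕ) (E : List Edge) (cs : List ℕ) : List Ent :=
  List.zipWith (fun e c => ((e.1, e.2.1, (⟨wt τ e.2.2 c⟩ : Un)) : Ent)) E cs

/-- the new counts -/
def updOf (E : List Edge) (cs : List ℕ) (R : List (ℕ × ℕ)) : List ℕ :=
  List.zipWith (fun e c => if (e.1, e.2.1) ∈ R then c + 1 else c) E cs

/-- the state of the outer loop: counts, accumulated weight, flag -/
abbrev St := List ℕ × ℕ × Bool

/-- one round -/
def stepS (mw : Un × List Ent → Option (List (ℕ × ℕ))) (n τ : ℕ) (E : List Edge) (s : St) : St :=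
  match mw (⟨n⟩, entsOf τ E s.1) with
  | none => (s.1, s.2.1, false)
  | some R => (updOf E s.1 R, s.2.1 + tot (entsOf τ E s.1) R, s.2.2)

/-- the whole loop -/
def runS (mw : Un × List Ent → Option (List (ℕ × ℕ))) (n τ : ℕ) (E : List Edge) (t : ℕ) : St :=
  (stepS mw n τ E)^[t] (List.replicate E.length 0, 0, true)

/-- the output -/
def outS (mw : Un × List Ent → Option (List (ℕ × ℕ))) (n : ℕ) (E : List Edge) : ℕ :=
  if n = 0 then 1
  else if n % 2 = 1 ∨ 2 * E.length < n then 0
  else
    bif (runS mw (2 * (min n (2 * E.length) / 2)) (Nat.size E.length) E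
        (2 ^ Nat.size E.length)).2.2 then
      2 ^ ((runS mw (2 * (min n (2 * E.length) / 2)) (Nat.size E.length) E
        (2 ^ Nat.size E.length)).2.1 / 2 ^ Nat.size E.length - 8 * (min n (2 * E.length) / 2))
    else 0

/-! ### correctness of the loop -/

section corr

variable {m k : ℕ} (ends : Fin k → Fin (2 * m) × Fin (2 * m)) (w : Fin k → ℕ)

/-- the pair of an edge -/
def pr (e : Fin k) : ℕ × ℕ := (((ends e).1 : ℕ), ((ends e).2 : ℕ))

/-- the list of edges -/
def EL : List Edge := List.ofFn fun e => ((((ends e).1 : ℕ), ((ends e).2 : ℕ), w e) : Edge)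

/-- entries from a weight function -/
def LL (x : Fin k → ℕ) : List Ent :=
  List.ofFn fun e => ((((ends e).1 : ℕ), ((ends e).2 : ℕ), (⟨x e⟩ : Un)) : Ent)

/-- the set of edges whose pair is in `R` -/
def MR (R : List (ℕ × ℕ)) : Finset (Fin k) := univ.filter fun e => pr ends e ∈ R

variable {ends w}

theorem prs_LL (x : Fin k → ℕ) : prs (LL ends x) = List.ofFn (pr ends) := by
  unfold prs LL
  rw [List.map_ofFn]
  rfl

theorem mem_prs_LL (x : Fin k → ℕ) (q : ℕ × ℕ) : q ∈ prs (LL ends x) ↔ ∃ e, pr ends e = q := by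
  rw [prs_LL, List.mem_ofFn]

theorem good_LL (hm : 1 ≤ m) (hlt : ∀ e, (ends e).1 < (ends e).2) (hinj : Function.Injective ends)
    (x : Fin k → ℕ) : Good m (LL ends x) := by
  refine ⟨hm, ?_, ?_⟩
  · intro e he
    unfold LL at he
    rw [List.mem_ofFn] at he
    obtain ⟨e, rfl⟩ := he
    exact ⟨hlt e, (ends e).2.2⟩
  · rw [prs_LL, List.nodup_ofFn]
    intro a b hab
    apply hinj
    unfold pr at hab
    rw [Prod.mk.injEq] at hab
    exact Prod.ext (Fin.ext hab.1) (Fin.ext hab.2)

theorem pr_inj (hinj : Function.Injective ends) : Function.Injective (pr ends) := by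
  intro a b hab
  apply hinj
  unfold pr at hab
  rw [Prod.mk.injEq] at hab
  exact Prod.ext (Fin.ext hab.1) (Fin.ext hab.2)

theorem sum_filter_ofFn {α : Type} {k : ℕ} (f : Fin k → α) (p : α → Bool) (g : α → ℕ) :
    (((List.ofFn f).filter p).map g).sum = ∑ e ∈ univ.filter (fun e => p (f e) = true), g (f e) := by
  have h1 : ∀ l : List α, ((l.filter p).map g).sum = (l.map fun a => if p a then g a else 0).sum := by
    intro l
    induction l with
    | nil => simp
    | cons a l ih =>
      by_cases h : p a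
      · simp [h, ih]
      · simp [h, ih]
  rw [h1, List.map_ofFn, List.sum_ofFn, sum_filter]
  rfl

theorem tot_LL (x : Fin k → ℕ) (R : List (ℕ × ℕ)) :
    tot (LL ends x) R = ∑ e ∈ MR ends R, x e := by
  unfold tot LL
  rw [sum_filter_ofFn]
  unfold MR pr
  simp only [decide_eq_true_eq]

theorem isPM_of_isPML (hinj : Function.Injective ends) {x : Fin k → ℕ} {R : List (ℕ × ℕ)}
    (hsub : ∀ q ∈ R, q ∈ prs (LL ends x)) (hR : IsPML (2 * m) R) :
    IsPerfectMatching ends (MR ends R) := by
  intro v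
  obtain ⟨q, ⟨hq1, hq2⟩, huniq⟩ := hR v v.2
  obtain ⟨e, he⟩ := (mem_prs_LL x q).1 (hsub q hq1)
  rw [card_eq_one]
  refine ⟨e, ?_⟩
  ext f
  rw [mem_filter, mem_singleton, MR, mem_filter]
  constructor
  · rintro ⟨⟨_, hf1⟩, hf2⟩
    have h1 : pr ends f = q := huniq _ ⟨hf1, by
      unfold pr
      rcases hf2 with h | h
      · left; rw [h]
      · right; rw [h]⟩
    exact pr_inj hinj (h1.trans he.symm)
  · rintro rfl
    refine ⟨⟨mem_univ _, by rw [he]; exact hq1⟩, ?_⟩
    rw [← he] at hq2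
    unfold pr at hq2
    rcases hq2 with h | h
    · left; exact Fin.ext h
    · right; exact Fin.ext h

/-- the list of pairs of a finset of edges -/
noncomputable def RM (ends : Fin k → Fin (2 * m) × Fin (2 * m)) (M : Finset (Fin k)) :
    List (ℕ × ℕ) := M.toList.map (pr ends)

theorem MR_RM (hinj : Function.Injective ends) (M : Finset (Fin k)) :
    MR ends (RM ends M) = M := by
  ext e
  unfold MR RM
  rw [mem_filter, List.mem_map]
  constructor
  · rintro ⟨_, f, hf, hfe⟩
    rw [← pr_inj hinj hfe]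
    exact mem_toList.1 hf
  · intro he
    exact ⟨mem_univ _, e, mem_toList.2 he, rfl⟩

theorem RM_sub (x : Fin k → ℕ) (M : Finset (Fin k)) : ∀ q ∈ RM ends M, q ∈ prs (LL ends x) := by
  intro q hq
  unfold RM at hq
  rw [List.mem_map] at hq
  obtain ⟨e, _, rfl⟩ := hq
  exact (mem_prs_LL x _).2 ⟨e, rfl⟩

theorem isPML_of_isPM {M : Finset (Fin k)} (hM : IsPerfectMatching ends M) :
    IsPML (2 * m) (RM ends M) := by
  intro v hv
  have h := hM ⟨v, hv⟩
  rw [card_eq_one] at h
  obtain ⟨e, he⟩ := h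
  have he1 : e ∈ M.filter fun e => (ends e).1 = (⟨v, hv⟩ : Fin (2 * m)) ∨ (ends e).2 = ⟨v, hv⟩ := by
    rw [he]; exact mem_singleton_self e
  rw [mem_filter] at he1
  refine ⟨pr ends e, ⟨?_, ?_⟩, ?_⟩
  · unfold RM
    exact List.mem_map.2 ⟨e, mem_toList.2 he1.1, rfl⟩
  · unfold pr
    rcases he1.2 with h | h
    · left; rw [h]
    · right; rw [h]
  · rintro q ⟨hq1, hq2⟩
    unfold RM at hq1
    obtain ⟨f, hf, rfl⟩ := List.mem_map.1 hq1
    have hf1 : f ∈ M.filter fun e => (ends e).1 = (⟨v, hv⟩ : Fin (2 * m)) ∨ (ends e).2 = ⟨v, hv⟩ := by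
      rw [mem_filter]
      refine ⟨mem_toList.1 hf, ?_⟩
      unfold pr at hq2
      rcases hq2 with h | h
      · left; exact Fin.ext h
      · right; exact Fin.ext h
    rw [he, mem_singleton] at hf1
    rw [hf1]

/-- the invariant form of the state -/
theorem entsOf_ofFn (τ : ℕ) (c : Fin k → ℕ) :
    entsOf τ (EL ends w) (List.ofFn c) = LL ends (fun e => wt τ (w e) (c e)) := by
  unfold entsOf EL LL
  apply List.ext_getElem
  · simp
  · intro i h1 h2
    simp

theorem updOf_ofFn (c : Fin k → ℕ) (R : List (ℕ × ℕ)) :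
    updOf (EL ends w) (List.ofFn c) R
      = List.ofFn (fun e => c e + if e ∈ MR ends R then 1 else 0) := by
  unfold updOf EL
  apply List.ext_getElem
  · simp
  · intro i h1 h2
    have h3 : ∀ e : Fin k, (e ∈ MR ends R) ↔ (((ends e).1 : ℕ), ((ends e).2 : ℕ)) ∈ R := by
      intro e
      unfold MR pr
      simp
    simp only [List.getElem_zipWith, List.getElem_ofFn, h3]
    split_ifs <;> rfl

theorem length_EL : (EL ends w).length = k := by unfold EL; simp

/-- the matching returned in the state with counts `c` -/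
def ans (mw : Un × List Ent → Option (List (ℕ × ℕ))) (ends : Fin k → Fin (2 * m) × Fin (2 * m))
    (w : Fin k → ℕ) (τ : ℕ) (c : Fin k → ℕ) : Option (List (ℕ × ℕ)) :=
  mw (⟨2 * m⟩, LL ends (fun e => wt τ (w e) (c e)))

/-- the counts -/
def cs (mw : Un × List Ent → Option (List (ℕ × ℕ))) (ends : Fin k → Fin (2 * m) × Fin (2 * m))
    (w : Fin k → ℕ) (τ : ℕ) : ℕ → Fin k → ℕ
  | 0 => fun _ => 0
  | t + 1 => fun e => cs mw ends w τ t e +
      if e ∈ MR ends ((ans mw ends w τ (cs mw ends w τ t)).getD []) then 1 else 0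

theorem run_eq (mw : Un × List Ent → Option (List (ℕ × ℕ))) (τ : ℕ)
    (hall : ∀ c : Fin k → ℕ, (ans mw ends w τ c).isSome = true) (t : ℕ) :
    runS mw (2 * m) τ (EL ends w) t = (List.ofFn (cs mw ends w τ t),
      ∑ s ∈ range t, ∑ e ∈ MR ends ((ans mw ends w τ (cs mw ends w τ s)).getD []),
        wt τ (w e) (cs mw ends w τ s e), true) := by
  induction t with
  | zero =>
    unfold runS
    rw [Function.iterate_zero, id, length_EL]
    simp only [range_zero, sum_empty, cs]
    rw [← List.ofFn_const]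
  | succ t ih =>
    unfold runS at ih ⊢
    rw [Function.iterate_succ_apply', ih]
    unfold stepS
    simp only
    rw [entsOf_ofFn]
    have h := hall (cs mw ends w τ t)
    unfold ans at h
    obtain ⟨R, hR⟩ := Option.isSome_iff_exists.1 h
    rw [hR]
    simp only
    rw [updOf_ofFn, tot_LL, sum_range_succ]
    have h2 : (ans mw ends w τ (cs mw ends w τ t)).getD [] = R := by
      unfold ans; rw [hR]; rfl
    rw [h2]
    have h3 : cs mw ends w τ (t + 1) = fun e => cs mw ends w τ t e +
        if e ∈ MR ends R then 1 else 0 := by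
      funext e
      rw [cs, h2]
    rw [h3]

theorem run_false (mw : Un × List Ent → Option (List (ℕ × ℕ))) (τ : ℕ)
    (hnone : ∀ c : Fin k → ℕ, ans mw ends w τ c = none) {t : ℕ} (ht : 0 < t) :
    (runS mw (2 * m) τ (EL ends w) t).2.2 = false := by
  have key : ∀ t, (runS mw (2 * m) τ (EL ends w) t).1 = List.ofFn (fun _ : Fin k => 0) ∧
      (0 < t → (runS mw (2 * m) τ (EL ends w) t).2.2 = false) := by
    intro t
    induction t with
    | zero =>
      refine ⟨?_, fun h => absurd h (lt_irrefl _)⟩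
      unfold runS
      rw [Function.iterate_zero, id, length_EL, List.ofFn_const]
    | succ t ih =>
      have h1 : runS mw (2 * m) τ (EL ends w) (t + 1)
          = stepS mw (2 * m) τ (EL ends w) (runS mw (2 * m) τ (EL ends w) t) := by
        unfold runS; rw [Function.iterate_succ_apply']
      rw [h1]
      unfold stepS
      rw [ih.1, entsOf_ofFn]
      have h2 := hnone (fun _ => 0)
      unfold ans at h2
      rw [h2]
      exact ⟨rfl, fun _ => rfl⟩
  exact (key t).2 ht

theorem NPM_eq_zero {v : ℕ} {ends : Fin k → Fin v × Fin v} {w : Fin k → ℕ}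
    (h : ∀ M : Finset (Fin k), ¬ IsPerfectMatching ends M) : NPM ends w = 0 := by
  classical
  unfold NPM
  rw [sum_eq_zero]
  intro M hM
  exact absurd (mem_filter.1 hM).2 (h M)

/-- correctness of the output in the case `n = 2 m`, `1 ≤ m`, `2 m ≤ 2 k` -/
theorem out_correct (h65 : S0465stmt) {mw : Un × List Ent → Option (List (ℕ × ℕ))}
    (hmw : MWSpec mw) (hm : 1 ≤ m) (hlt : ∀ e, (ends e).1 < (ends e).2)
    (hinj : Function.Injective ends) (hw : ∀ e, 1 ≤ w e) (hk : 2 * m ≤ 2 * k) :
    NPM ends w ≤ 512 ^ (2 * m) * outS mw (2 * m) (EL ends w) ∧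
      outS mw (2 * m) (EL ends w) ≤ NPM ends w := by
  set τ := Nat.size k with hτ
  have hkτ : k ≤ 2 ^ τ := (Nat.lt_size_self k).le
  have hends : ∀ e, (ends e).1 ≠ (ends e).2 := fun e => (hlt e).ne
  have hout : outS mw (2 * m) (EL ends w) =
      bif (runS mw (2 * m) τ (EL ends w) (2 ^ τ)).2.2 then
        2 ^ ((runS mw (2 * m) τ (EL ends w) (2 ^ τ)).2.1 / 2 ^ τ - 8 * m) else 0 := by
    unfold outS
    rw [length_EL, if_neg (by omega), if_neg (by omega), min_eq_left hk,
      Nat.mul_div_cancel_left m (by norm_num : 0 < 2)]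
  by_cases hex : ∃ M : Finset (Fin k), IsPerfectMatching ends M
  · obtain ⟨M₀, hM₀⟩ := hex
    have hall : ∀ c : Fin k → ℕ, (ans mw ends w τ c).isSome = true := by
      intro c
      unfold ans
      rw [Option.isSome_iff_ne_none]
      intro hnone
      exact (hmw m _ (good_LL hm hlt hinj _)).1 hnone (RM ends M₀) (RM_sub _ M₀)
        (isPML_of_isPM hM₀)
    have hrun := run_eq (ends := ends) (w := w) mw τ hall (2 ^ τ)
    rw [hout, hrun]
    simp only [cond_true]
    have hspec : ∀ c : Fin k → ℕ,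
        IsPerfectMatching ends (MR ends ((ans mw ends w τ c).getD [])) ∧
        ∀ M' : Finset (Fin k), IsPerfectMatching ends M' → ∑ e ∈ M', wt τ (w e) (c e) ≤
          ∑ e ∈ MR ends ((ans mw ends w τ c).getD []), wt τ (w e) (c e) + 6 * m := by
      intro c
      obtain ⟨R, hR⟩ := Option.isSome_iff_exists.1 (hall c)
      rw [hR, Option.getD_some]
      unfold ans at hR
      obtain ⟨h1, h2, h3⟩ := (hmw m _ (good_LL hm hlt hinj _)).2 R hR
      refine ⟨isPM_of_isPML hinj h1 h2, fun M' hM' => ?_⟩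
      have h4 := h3 (RM ends M') (RM_sub _ M') (isPML_of_isPM hM')
      rw [tot_LL, tot_LL, MR_RM hinj] at h4
      exact h4
    exact ded_main h65 hm hends hw hkτ
      (M := fun t => MR ends ((ans mw ends w τ (cs mw ends w τ t)).getD []))
      (c := cs mw ends w τ) (fun t _ => (hspec _).1) (fun e => rfl) (fun t _ e => rfl)
      (fun t _ M' hM' => (hspec _).2 M' hM') rfl
  · push Not at hex
    have hN : NPM ends w = 0 := NPM_eq_zero hex
    have hnone : ∀ c : Fin k → ℕ, ans mw ends w τ c = none := by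
      intro c
      by_contra h
      obtain ⟨R, hR⟩ := Option.ne_none_iff_exists'.1 h
      unfold ans at hR
      obtain ⟨h1, h2, _⟩ := (hmw m _ (good_LL hm hlt hinj _)).2 R hR
      exact hex _ (isPM_of_isPML hinj h1 h2)
    rw [hout, run_false mw τ hnone (by positivity), hN]
    simp

end corr

/-! ### bridge -/

section bridge

variable {n : ℕ} (w : Fin n → Fin n → ℕ)

theorem mem_posPairs (q : Fin n × Fin n) : q ∈ posPairs n w ↔ q.1 < q.2 ∧ 0 < w q.1 q.2 := by
  unfold posPairs
  rw [List.mem_filter]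
  simp only [decide_eq_true_eq]
  constructor
  · intro h; exact h.2
  · intro h
    refine ⟨?_, h⟩
    exact List.mem_product.2 ⟨List.mem_finRange _, List.mem_finRange _⟩

theorem nodup_posPairs : (posPairs n w).Nodup := by
  unfold posPairs
  exact List.Nodup.filter _ ((List.nodup_finRange n).product (List.nodup_finRange n))

/-- the positive pairs as edges -/
def pe (e : Fin (posPairs n w).length) : Fin n × Fin n := (posPairs n w).get e

theorem pe_inj : Function.Injective (pe w) := List.nodup_iff_injective_get.1 (nodup_posPairs w)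

theorem pe_prop (e : Fin (posPairs n w).length) : (pe w e).1 < (pe w e).2 ∧
    0 < w (pe w e).1 (pe w e).2 := (mem_posPairs w _).1 (List.get_mem _ _)

theorem bridge : multNumPerfectMatchings w
    = NPM (pe w) (fun e => w (pe w e).1 (pe w e).2) := by
  classical
  symm
  unfold NPM multNumPerfectMatchings
  refine Finset.sum_of_injOn (fun M => M.map ⟨pe w, pe_inj w⟩) ?_ ?_ ?_ ?_
  · intro a _ b _ hab
    exact Finset.map_injective _ hab
  · intro M hM
    have hM' : IsPerfectMatching (pe w) M := (mem_filter.1 (mem_coe.1 hM)).2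
    rw [mem_coe, mem_filter, mem_powerset]
    refine ⟨?_, ?_⟩
    · intro q hq
      obtain ⟨e, _, rfl⟩ := Finset.mem_map.1 hq
      unfold ltPairs
      exact mem_filter.2 ⟨mem_univ _, (pe_prop w e).1⟩
    · intro v
      rw [filter_map, card_map]
      exact hM' v
  · intro N hN hnot
    rw [mem_filter, mem_powerset] at hN
    by_contra hne
    apply hnot
    have hne := prod_ne_zero_iff.1 hne
    have hmem : ∀ q ∈ N, ∃ e, pe w e = q := by
      intro q hq
      have h1 : q ∈ posPairs n w := (mem_posPairs w q).2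
        ⟨(mem_filter.1 (hN.1 hq)).2, Nat.pos_of_ne_zero (hne q hq)⟩
      obtain ⟨e, he⟩ := List.get_of_mem h1
      exact ⟨e, he⟩
    have himg : (univ.filter fun e => pe w e ∈ N).map ⟨pe w, pe_inj w⟩ = N := by
      ext q
      rw [Finset.mem_map]
      constructor
      · rintro ⟨e, he, rfl⟩
        exact (mem_filter.1 he).2
      · intro hq
        obtain ⟨e, he⟩ := hmem q hq
        exact ⟨e, mem_filter.2 ⟨mem_univ _, by rw [he]; exact hq⟩, he⟩
    refine ⟨univ.filter fun e => pe w e ∈ N, ?_, himg⟩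
    rw [mem_coe, mem_filter]
    refine ⟨mem_univ _, fun v => ?_⟩
    have h2 := hN.2 v
    rw [← himg, filter_map, card_map] at h2
    exact h2
  · intro M _
    rw [prod_map]
    rfl

end bridge

/-- the edge list of the multigraph -/
def edgesOf (n : ℕ) (w : Fin n → Fin n → ℕ) : List Edge :=
  (posPairs n w).map fun q => (((q.1 : ℕ), (q.2 : ℕ), w q.1 q.2) : Edge)

theorem edgesOf_eq {m : ℕ} (w : Fin (2 * m) → Fin (2 * m) → ℕ) :
    edgesOf (2 * m) w = EL (pe w) (fun e => w (pe w e).1 (pe w e).2) := by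
  unfold edgesOf EL pe
  apply List.ext_getElem
  · simp
  · intro i h1 h2
    simp

theorem length_edgesOf (n : ℕ) (w : Fin n → Fin n → ℕ) :
    (edgesOf n w).length = (posPairs n w).length := by
  unfold edgesOf; simp

theorem card_of_pm {v k : ℕ} {ends : Fin k → Fin v × Fin v} (hends : ∀ e, (ends e).1 ≠ (ends e).2)
    {M : Finset (Fin k)} (hM : IsPerfectMatching ends M) : v = 2 * M.card := by
  rw [← double_count ends hends M, sum_congr rfl fun w _ => hM w]
  simp

/-- correctness of the whole pure algorithm -/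
theorem outS_correct (h65 : S0465stmt) {mw : Un × List Ent → Option (List (ℕ × ℕ))}
    (hmw : MWSpec mw) (n : ℕ) (w : Fin n → Fin n → ℕ) :
    multNumPerfectMatchings w ≤ 512 ^ n * outS mw n (edgesOf n w) ∧
      outS mw n (edgesOf n w) ≤ multNumPerfectMatchings w := by
  classical
  rw [bridge w]
  have hends : ∀ e, (pe w e).1 ≠ (pe w e).2 := fun e => (pe_prop w e).1.ne
  by_cases hn : n = 0
  · subst hn
    have hout : outS mw 0 (edgesOf 0 w) = 1 := by unfold outS; rw [if_pos rfl]
    have hN : NPM (pe w) (fun e => w (pe w e).1 (pe w e).2) = 1 := by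
      have hk : (posPairs 0 w).length = 0 := by
        rw [List.length_eq_zero_iff, List.eq_nil_iff_forall_not_mem]
        intro q; exact q.1.elim0
      unfold NPM
      have : IsEmpty (Fin (posPairs 0 w).length) := by rw [hk]; infer_instance
      have huniv : (univ : Finset (Finset (Fin (posPairs 0 w).length))) = {∅} := by
        ext s
        rw [mem_singleton]
        refine ⟨fun _ => ?_, fun _ => mem_univ _⟩
        exact Finset.eq_empty_of_isEmpty s
      rw [huniv, filter_singleton, if_pos]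
      · simp
      · intro v; exact v.elim0
    rw [hout, hN]
    simp
  by_cases hcase : n % 2 = 1 ∨ 2 * (posPairs n w).length < n
  · have hout : outS mw n (edgesOf n w) = 0 := by
      unfold outS
      rw [length_edgesOf, if_neg hn, if_pos hcase]
    have hN : NPM (pe w) (fun e => w (pe w e).1 (pe w e).2) = 0 := by
      apply NPM_eq_zero
      intro M hM
      have h1 := card_of_pm hends hM
      have h2 : M.card ≤ (posPairs n w).length := by
        have := card_le_univ M
        rwa [Fintype.card_fin] at this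
      omega
    rw [hout, hN]
    simp
  · push Not at hcase
    obtain ⟨m, rfl⟩ : ∃ m, n = 2 * m := ⟨n / 2, by omega⟩
    rw [edgesOf_eq]
    exact out_correct h65 hmw (by omega) (fun e => (pe_prop w e).1) (pe_inj w)
      (fun e => (pe_prop w e).2) hcase.2

end Crest.Agent.R304.Ded316C
private theorem rz_bf6b934911 : type_of% @_root_.Crest.Agent.R304.Ded316C.cs.eq_def := @_root_.Crest.Agent.R304.Ded316C.cs.eq_def -- L235
private theorem rz_4482d490f6 : type_of% @_root_.Crest.Agent.R304.Ded316C.cs.eq_1 := @_root_.Crest.Agent.R304.Ded316C.cs.eq_1 -- L235
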