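import Mathlib
import Crest.Prelude.Def_MatchingPolytope

-- ▼ part R304/EntA
section

/-!
R304 / S0465: abstract entropy part, file A (laws, marginals, maximum-entropy laws, full support,
existence of a minimiser of `h - φ`).
-/

set_option autoImplicit false

namespace Crest.Agent.R304.EntA

open Finset Filter Topology

variable {Ω E : Type*} [Fintype Ω] [Fintype E]

/-- Probability laws on `Ω` supported on `P`. -/
def Law (P : Set Ω) : Set (Ω → ℝ) :=
  {q | (∀ ω, 0 ≤ q ω) ∧ ∑ ω, q ω = 1 ∧ ∀ ω, q ω ≠ 0 → ω ∈ P}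

/-- marginals -/
def marg (A : Ω → E → ℝ) (q : Ω → ℝ) (e : E) : ℝ := ∑ ω, q ω * A ω e

/-- entropy -/
noncomputable def H (q : Ω → ℝ) : ℝ := ∑ ω, Real.negMulLog (q ω)

theorem continuous_H : Continuous (H : (Ω → ℝ) → ℝ) := by
  unfold H
  exact continuous_finsetSum _ fun ω _ => Real.continuous_negMulLog.comp (continuous_apply ω)

omit [Fintype E] in
theorem continuous_marg (A : Ω → E → ℝ) : Continuous (marg A) := by
  unfold marg
  refine continuous_pi fun e => ?_
  exact continuous_finsetSum _ fun ω _ => (continuous_apply ω).mul continuous_const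

theorem law_isCompact (P : Set Ω) : IsCompact (Law P) := by
  classical
  have h1 : Law P = stdSimplex ℝ Ω ∩ ⋂ ω : Ω, ⋂ (_ : ω ∉ P), {q : Ω → ℝ | q ω = 0} := by
    ext q
    simp only [Law, Set.mem_ofPred_eq, stdSimplex, Set.mem_inter_iff, Set.mem_iInter]
    constructor
    · rintro ⟨a, b, c⟩
      exact ⟨⟨a, b⟩, fun ω hω => by by_contra h; exact hω (c ω h)⟩
    · rintro ⟨⟨a, b⟩, c⟩
      exact ⟨a, b, fun ω hω => by by_contra h; exact hω (c ω h)⟩
  rw [h1]
  refine (isCompact_stdSimplex ℝ Ω).inter_right ?_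
  exact isClosed_iInter fun ω => isClosed_iInter fun _ =>
    isClosed_eq (continuous_apply ω) continuous_const

theorem law_convex {P : Set Ω} {p q : Ω → ℝ} (hp : p ∈ Law P) (hq : q ∈ Law P)
    {t : ℝ} (h0 : 0 ≤ t) (h1 : t ≤ 1) : (fun ω => (1 - t) * p ω + t * q ω) ∈ Law P := by
  obtain ⟨p0, p1, p2⟩ := hp
  obtain ⟨q0, q1, q2⟩ := hq
  refine ⟨fun ω => ?_, ?_, fun ω hω => ?_⟩
  · have := p0 ω; have := q0 ω
    have : 0 ≤ 1 - t := by linarith
    positivity
  · rw [sum_add_distrib, ← mul_sum, ← mul_sum, p1, q1]; ring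
  · by_contra h
    have a : p ω = 0 := by by_contra h'; exact h (p2 ω h')
    have b : q ω = 0 := by by_contra h'; exact h (q2 ω h')
    simp [a, b] at hω

/-- `q` is a maximum-entropy law with the marginals of `p`. -/
def IsMaxEnt (P : Set Ω) (A : Ω → E → ℝ) (p q : Ω → ℝ) : Prop :=
  q ∈ Law P ∧ marg A q = marg A p ∧ ∀ b ∈ Law P, marg A b = marg A p → H b ≤ H q

theorem exists_maxEnt (P : Set Ω) (A : Ω → E → ℝ) {p : Ω → ℝ} (hp : p ∈ Law P) :
    ∃ q, IsMaxEnt P A p q := by
  have hc : IsCompact (Law P ∩ {q | marg A q = marg A p}) :=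
    (law_isCompact P).inter_right (isClosed_eq (continuous_marg A) continuous_const)
  obtain ⟨q, hq, hmax⟩ := hc.exists_isMaxOn ⟨p, hp, rfl⟩ continuous_H.continuousOn
  exact ⟨q, hq.1, hq.2, fun b hb hb' => hmax ⟨hb, hb'⟩⟩

/-- full support -/
theorem IsMaxEnt.support {P : Set Ω} {A : Ω → E → ℝ} {p q b : Ω → ℝ} (hq : IsMaxEnt P A p q)
    (hb : b ∈ Law P) (hbm : marg A b = marg A p) {ω₀ : Ω} (h0 : 0 < b ω₀) : 0 < q ω₀ := by
  classical
  obtain ⟨hqL, hqm, hmax⟩ := hq
  by_contra hcon
  have hq0 : q ω₀ = 0 := le_antisymm (not_lt.1 hcon) (hqL.1 ω₀)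
  -- for t in (0,1)
  have key : ∀ t : ℝ, 0 < t → t < 1 → b ω₀ * (-Real.log t) ≤ H q - H b := by
    intro t ht0 ht1
    have hm : (fun ω => (1 - t) * q ω + t * b ω) ∈ Law P := law_convex hqL hb ht0.le ht1.le
    have hmm : marg A (fun ω => (1 - t) * q ω + t * b ω) = marg A p := by
      funext e
      have e1 : marg A q e = marg A p e := congrFun hqm e
      have e2 : marg A b e = marg A p e := congrFun hbm e
      unfold marg at *
      have : ∑ ω, ((1 - t) * q ω + t * b ω) * A ω e
          = (1 - t) * ∑ ω, q ω * A ω e + t * ∑ ω, b ω * A ω e := by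
        rw [mul_sum, mul_sum, ← sum_add_distrib]
        exact sum_congr rfl fun ω _ => by ring
      rw [this, e1, e2]; ring
    have h1 := hmax _ hm hmm
    -- lower bound
    have h2 : (1 - t) * H q + t * H b + b ω₀ * Real.negMulLog t
        ≤ H (fun ω => (1 - t) * q ω + t * b ω) := by
      unfold H
      rw [mul_sum, mul_sum, ← sum_add_distrib]
      rw [← add_sum_erase _ _ (mem_univ ω₀)]
      rw [← add_sum_erase univ (fun ω => Real.negMulLog ((1 - t) * q ω + t * b ω)) (mem_univ ω₀)]
      have a1 : (1 - t) * Real.negMulLog (q ω₀) + t * Real.negMulLog (b ω₀)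
          + b ω₀ * Real.negMulLog t = Real.negMulLog ((1 - t) * q ω₀ + t * b ω₀) := by
        rw [hq0, mul_zero, zero_add, Real.negMulLog_mul]
        simp only [Real.negMulLog_zero, mul_zero, zero_add]
        ring
      have a2 : ∑ ω ∈ univ.erase ω₀, ((1 - t) * Real.negMulLog (q ω) + t * Real.negMulLog (b ω))
          ≤ ∑ ω ∈ univ.erase ω₀, Real.negMulLog ((1 - t) * q ω + t * b ω) := by
        refine sum_le_sum fun ω _ => ?_
        have := Real.concaveOn_negMulLog.2 (Set.mem_Ici.2 (hqL.1 ω)) (Set.mem_Ici.2 (hb.1 ω))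
          (by linarith : (0:ℝ) ≤ 1 - t) ht0.le (by ring)
        simpa [smul_eq_mul] using this
      linarith
    have h3 : Real.negMulLog t = t * (-Real.log t) := by unfold Real.negMulLog; ring
    rw [h3] at h2
    have h4 : t * (b ω₀ * (-Real.log t)) ≤ t * (H q - H b) := by nlinarith
    exact le_of_mul_le_mul_left h4 ht0
  set D := H q - H b with hD
  have hD' : 0 ≤ |D| := abs_nonneg _
  have ht := key (Real.exp (-((|D| + 1) / b ω₀))) (Real.exp_pos _) (by
    rw [Real.exp_lt_one_iff]
    have : 0 < (|D| + 1) / b ω₀ := by positivity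
    linarith)
  rw [Real.log_exp, neg_neg, mul_div_cancel₀ _ h0.ne'] at ht
  have := le_abs_self D
  linarith

/-- Minimiser of `h - φ`. -/
theorem exists_min (P : Set Ω) (A : Ω → E → ℝ) (φ : (E → ℝ) → ℝ) (hφ : Continuous φ)
    {p₀ q₀ : Ω → ℝ} (hp₀ : p₀ ∈ Law P) (hq₀ : IsMaxEnt P A p₀ q₀) :
    ∃ q, IsMaxEnt P A q q ∧ H q - φ (marg A q) ≤ H q₀ - φ (marg A p₀) ∧
      ∀ b ∈ Law P, ∀ b', IsMaxEnt P A b b' → H q - φ (marg A q) ≤ H b' - φ (marg A b) := by
  classical
  choose! m hm using fun (p : Ω → ℝ) (hp : p ∈ Law P) => exists_maxEnt P A hp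
  set ψ : (Ω → ℝ) → ℝ := fun p => H (m p) - φ (marg A p) with hψ
  have hH0 : ∀ q ∈ Law P, 0 ≤ H q := by
    intro q hq
    unfold H
    refine sum_nonneg fun ω _ => Real.negMulLog_nonneg (hq.1 ω) ?_
    rw [← hq.2.1]
    exact single_le_sum (fun i _ => hq.1 i) (mem_univ ω)
  have hbdd : BddBelow (ψ '' Law P) := by
    obtain ⟨C, hC⟩ := (law_isCompact P).exists_bound_of_continuousOn
      ((hφ.comp (continuous_marg A)).continuousOn)
    refine ⟨-C, ?_⟩
    rintro _ ⟨p, hp, rfl⟩
    have h1 := hC p hp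
    have h2 := hH0 _ (hm p hp).1
    simp only [hψ]
    rw [Real.norm_eq_abs] at h1
    have := (abs_le.1 h1).2
    simp only [Function.comp] at this
    linarith
  have hne : (ψ '' Law P).Nonempty := ⟨_, p₀, hp₀, rfl⟩
  obtain ⟨u, -, hu, hmem⟩ := exists_seq_tendsto_sInf hne hbdd
  choose p hpL hpu using hmem
  obtain ⟨p', hp', σ, hσ, hlim⟩ := (law_isCompact P).tendsto_subseq hpL
  have hq := hm p' hp'
  set q := m p' with hqdef
  -- q_n
  have hqn : ∀ᶠ n in atTop, (fun ω => q ω + (p (σ n) ω - p' ω)) ∈ Law P := by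
    have hpt : ∀ ω, ∀ᶠ n in atTop, 0 ≤ q ω + (p (σ n) ω - p' ω) := by
      intro ω
      by_cases h : 0 < q ω
      · have h1 : Tendsto (fun n => q ω + (p (σ n) ω - p' ω)) atTop (𝓝 (q ω + (p' ω - p' ω))) :=
          tendsto_const_nhds.add (((tendsto_pi_nhds.1 hlim) ω).sub tendsto_const_nhds)
        rw [sub_self, add_zero] at h1
        exact (h1.eventually (lt_mem_nhds h)).mono fun n hn => hn.le
      · have h1 : q ω = 0 := le_antisymm (not_lt.1 h) (hq.1.1 ω)
        have h2 : p' ω = 0 := by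
          by_contra h3
          exact h (hq.support hp' rfl (lt_of_le_of_ne (hp'.1 ω) (Ne.symm h3)))
        refine Eventually.of_forall fun n => ?_
        rw [h1, h2]
        have := (hpL (σ n)).1 ω
        linarith
    have hall := eventually_all.2 hpt
    refine hall.mono fun n hn => ⟨hn, ?_, ?_⟩
    · rw [sum_add_distrib, sum_sub_distrib, hq.1.2.1, (hpL (σ n)).2.1, hp'.2.1]; ring
    · intro ω hω
      by_contra h
      have a : q ω = 0 := by by_contra h'; exact h (hq.1.2.2 ω h')
      have b : p (σ n) ω = 0 := by by_contra h'; exact h ((hpL (σ n)).2.2 ω h')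
      have c : p' ω = 0 := by by_contra h'; exact h (hp'.2.2 ω h')
      simp [a, b, c] at hω
  have hle : ∀ᶠ n in atTop, H (fun ω => q ω + (p (σ n) ω - p' ω)) - φ (marg A (p (σ n)))
      ≤ u (σ n) := by
    refine hqn.mono fun n hn => ?_
    have hmn : marg A (fun ω => q ω + (p (σ n) ω - p' ω)) = marg A (p (σ n)) := by
      funext e
      have e1 : marg A q e = marg A p' e := congrFun hq.2.1 e
      unfold marg at *
      have : ∑ ω, (q ω + (p (σ n) ω - p' ω)) * A ω e
          = ∑ ω, q ω * A ω e + (∑ ω, p (σ n) ω * A ω e - ∑ ω, p' ω * A ω e) := by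
        rw [← sum_sub_distrib, ← sum_add_distrib]
        exact sum_congr rfl fun ω _ => by ring
      rw [this, e1]; ring
    have h1 := (hm _ (hpL (σ n))).2.2 _ hn hmn
    have h2 : u (σ n) = H (m (p (σ n))) - φ (marg A (p (σ n))) := by rw [← hpu (σ n)]
    rw [h2]
    linarith
  have hlimψ : Tendsto (fun n => H (fun ω => q ω + (p (σ n) ω - p' ω)) - φ (marg A (p (σ n))))
      atTop (𝓝 (H q - φ (marg A p'))) := by
    have h1 : Tendsto (fun n => (fun ω => q ω + (p (σ n) ω - p' ω))) atTop (𝓝 q) := by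
      rw [tendsto_pi_nhds]
      intro ω
      have h1 : Tendsto (fun n => q ω + (p (σ n) ω - p' ω)) atTop (𝓝 (q ω + (p' ω - p' ω))) :=
        tendsto_const_nhds.add (((tendsto_pi_nhds.1 hlim) ω).sub tendsto_const_nhds)
      rwa [sub_self, add_zero] at h1
    have h2 := (continuous_H.tendsto q).comp h1
    have h3 := ((hφ.comp (continuous_marg A)).tendsto p').comp hlim
    exact h2.sub h3
  have hulim : Tendsto (fun n => u (σ n)) atTop (𝓝 (sInf (ψ '' Law P))) :=
    hu.comp hσ.tendsto_atTop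
  have hmin : H q - φ (marg A p') ≤ sInf (ψ '' Law P) :=
    le_of_tendsto_of_tendsto hlimψ hulim hle
  have hgen : ∀ b ∈ Law P, ∀ b', IsMaxEnt P A b b' →
      H q - φ (marg A p') ≤ H b' - φ (marg A b) := by
    intro b hb b' hb'
    have h1 : sInf (ψ '' Law P) ≤ ψ b := csInf_le hbdd ⟨b, hb, rfl⟩
    have h2 : H (m b) ≤ H b' := hb'.2.2 _ (hm b hb).1 (hm b hb).2.1
    simp only [hψ] at h1
    linarith
  have hqm : marg A q = marg A p' := hq.2.1
  refine ⟨q, ⟨hq.1, rfl, fun b hb hbm => hq.2.2 b hb (hbm.trans hqm)⟩, ?_, ?_⟩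
  · rw [hqm]; exact hgen p₀ hp₀ q₀ hq₀
  · rw [hqm]; exact hgen

end Crest.Agent.R304.EntA
end

-- ▼ part R304/EntB
section

/-!
R304 / S0465: abstract entropy part, file B (Gibbs form of a maximum-entropy law, weak duality,
first and second order conditions at a minimiser of `h - φ`).
-/

set_option autoImplicit false

namespace Crest.Agent.R304.EntB

open Finset Filter Topology Crest.Agent.R304.EntA

variable {Ω E : Type*} [Fintype Ω] [Fintype E]

/-- `a = η · A ω` -/
def dot (A : Ω → E → ℝ) (η : E → ℝ) (ω : Ω) : ℝ := ∑ e, η e * A ω e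

theorem sum_dot (A : Ω → E → ℝ) (η : E → ℝ) (q : Ω → ℝ) :
    ∑ ω, q ω * dot A η ω = ∑ e, η e * marg A q e := by
  unfold dot marg
  simp only [mul_sum]
  rw [sum_comm]
  exact sum_congr rfl fun e _ => sum_congr rfl fun ω _ => by ring

/-- second derivative test, necessary condition -/
theorem second_order {T T' : ℝ → ℝ} {s : ℝ} (hmin : IsLocalMin T 0)
    (hT : ∀ᶠ t in 𝓝 (0:ℝ), HasDerivAt T (T' t) t) (hT' : HasDerivAt T' s 0) : 0 ≤ s := by
  by_contra hs
  push Not at hs
  have h1 : deriv T =ᶠ[𝓝 0] T' := hT.mono fun t ht => ht.deriv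
  have h2 : deriv (deriv T) 0 = s := by
    rw [h1.deriv_eq]; exact hT'.deriv
  have h3 : deriv T 0 = 0 := hmin.deriv_eq_zero
  have h4 : IsLocalMax T 0 :=
    isLocalMax_of_deriv_deriv_neg (by rw [h2]; exact hs) h3 (hT.self_of_nhds).continuousAt
  have h5 : T =ᶠ[𝓝 0] fun _ => T 0 := by
    filter_upwards [hmin, h4] with t ht1 ht2
    exact le_antisymm ht2 ht1
  have h6 : deriv T =ᶠ[𝓝 0] fun _ => (0:ℝ) := by
    have := h5.deriv
    simpa using this
  have h7 : deriv (deriv T) 0 = 0 := by
    rw [h6.deriv_eq]; simp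
  linarith

/-- perturbation stays nonneg for small `t` -/
theorem eventually_nonneg {q a : Ω → ℝ} (hq : ∀ ω, 0 ≤ q ω) :
    ∀ᶠ t in 𝓝 (0:ℝ), ∀ ω, 0 ≤ q ω + t * (q ω * a ω) := by
  rw [eventually_all]
  intro ω
  have h1 : Tendsto (fun t : ℝ => 1 + t * a ω) (𝓝 0) (𝓝 (1 + 0 * a ω)) :=
    tendsto_const_nhds.add (tendsto_id.mul tendsto_const_nhds)
  rw [zero_mul, add_zero] at h1
  refine (h1.eventually (lt_mem_nhds one_pos)).mono fun t ht => ?_
  have : q ω + t * (q ω * a ω) = q ω * (1 + t * a ω) := by ring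
  rw [this]
  exact mul_nonneg (hq ω) ht.le

/-- first order condition -/
theorem first_order {P : Set Ω} {A : Ω → E → ℝ} {q : Ω → ℝ} (hq : IsMaxEnt P A q q)
    {w : E → ℝ} (hw : ∀ ω ∈ P, dot A w ω = 1) {a : Ω → ℝ}
    (ha : ∀ e, ∑ ω, (q ω * a ω) * A ω e = 0) : ∑ ω, (q ω * a ω) * Real.log (q ω) = 0 := by
  classical
  have hsum : ∑ ω, q ω * a ω = 0 := by
    have h1 : ∑ ω, q ω * a ω = ∑ ω, (q ω * a ω) * dot A w ω := by
      refine sum_congr rfl fun ω _ => ?_
      by_cases h : q ω = 0
      · simp [h]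
      · rw [hw ω (hq.1.2.2 ω h), mul_one]
    rw [h1, sum_dot]
    exact sum_eq_zero fun e _ => by rw [show marg A (fun ω => q ω * a ω) e = 0 from ha e, mul_zero]
  have hmax : IsLocalMax (fun t : ℝ => H (fun ω => q ω + t * (q ω * a ω))) 0 := by
    filter_upwards [eventually_nonneg (a := a) hq.1.1] with t ht
    have hm : (fun ω => q ω + t * (q ω * a ω)) ∈ Law P := by
      refine ⟨ht, ?_, fun ω hω => hq.1.2.2 ω fun h => hω (by simp [h])⟩
      rw [sum_add_distrib, ← mul_sum, hsum, hq.1.2.1]; ring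
    have hmm : marg A (fun ω => q ω + t * (q ω * a ω)) = marg A q := by
      funext e
      have := ha e
      unfold marg
      simp only [add_mul, sum_add_distrib, mul_assoc] at this ⊢
      rw [← mul_sum, this]; ring
    have := hq.2.2 _ hm hmm
    simpa using this
  have hder : HasDerivAt (fun t : ℝ => H (fun ω => q ω + t * (q ω * a ω)))
      (∑ ω, (q ω * a ω) * (-Real.log (q ω) - 1)) 0 := by
    unfold H
    apply HasDerivAt.fun_sum
    intro ω _
    by_cases h : q ω = 0
    · simp only [h, zero_mul, mul_zero, add_zero]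
      exact hasDerivAt_const _ _
    · have h1 : HasDerivAt (fun t : ℝ => q ω + t * (q ω * a ω)) (q ω * a ω) 0 := by
        simpa using ((hasDerivAt_id (0:ℝ)).mul_const (q ω * a ω)).const_add (q ω)
      have h2 : HasDerivAt Real.negMulLog (-Real.log (q ω) - 1)
          (q ω + 0 * (q ω * a ω)) := by
        rw [zero_mul, add_zero]; exact Real.hasDerivAt_negMulLog h
      have := h2.comp (0:ℝ) h1
      rw [mul_comm (-Real.log (q ω) - 1)] at this
      exact this
  have h0 := hmax.hasDerivAt_eq_zero hder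
  have h1 : ∑ ω, (q ω * a ω) * (-Real.log (q ω) - 1)
      = -(∑ ω, (q ω * a ω) * Real.log (q ω)) - ∑ ω, q ω * a ω := by
    rw [← sum_neg_distrib, ← sum_sub_distrib]
    exact sum_congr rfl fun ω _ => by ring
  rw [h1, hsum] at h0
  linarith

/-- Gibbs form -/
theorem gibbs_form {P : Set Ω} {A : Ω → E → ℝ} {q : Ω → ℝ} (hq : IsMaxEnt P A q q)
    {w : E → ℝ} (hw : ∀ ω ∈ P, dot A w ω = 1) :
    ∃ θ : E → ℝ, ∀ ω, q ω ≠ 0 → Real.log (q ω) = dot A θ ω := by
  classical
  let f : (Ω → ℝ) →ₗ[ℝ] (E → ℝ) :=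
    { toFun := fun a e => ∑ ω, (q ω * a ω) * A ω e
      map_add' := fun a b => by
        funext e
        simp only [Pi.add_apply, ← sum_add_distrib]
        exact sum_congr rfl fun ω _ => by ring
      map_smul' := fun c a => by
        funext e
        simp only [Pi.smul_apply, smul_eq_mul, RingHom.id_apply, mul_sum]
        exact sum_congr rfl fun ω _ => by ring }
  let l : (Ω → ℝ) →ₗ[ℝ] ℝ :=
    { toFun := fun a => ∑ ω, (q ω * a ω) * Real.log (q ω)
      map_add' := fun a b => by
        simp only [Pi.add_apply, ← sum_add_distrib]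
        exact sum_congr rfl fun ω _ => by ring
      map_smul' := fun c a => by
        simp only [Pi.smul_apply, smul_eq_mul, RingHom.id_apply, mul_sum]
        exact sum_congr rfl fun ω _ => by ring }
  have hl : l ∈ (LinearMap.ker f).dualAnnihilator := by
    rw [Submodule.mem_dualAnnihilator]
    intro a ha
    have ha' : ∀ e, ∑ ω, (q ω * a ω) * A ω e = 0 := fun e => congrFun (LinearMap.mem_ker.1 ha) e
    exact first_order hq hw ha'
  rw [← LinearMap.range_dualMap_eq_dualAnnihilator_ker] at hl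
  obtain ⟨θ', hθ'⟩ := hl
  refine ⟨fun e => θ' (Pi.single e 1), fun ω hω => ?_⟩
  have h1 : l (Pi.single ω 1) = θ' (f (Pi.single ω 1)) := by
    rw [← hθ']; rfl
  have h2 : l (Pi.single ω 1) = q ω * Real.log (q ω) := by
    change ∑ ω', (q ω' * (Pi.single ω (1:ℝ) : Ω → ℝ) ω') * Real.log (q ω') = _
    rw [Finset.sum_eq_single ω]
    · simp
    · intro b _ hb; simp [Pi.single_eq_of_ne hb]
    · simp
  have h3 : f (Pi.single ω 1) = fun e => q ω * A ω e := by
    funext e
    change ∑ ω', (q ω' * (Pi.single ω (1:ℝ) : Ω → ℝ) ω') * A ω' e = _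
    rw [Finset.sum_eq_single ω]
    · simp
    · intro b _ hb; simp [Pi.single_eq_of_ne hb]
    · simp
  have h4 : θ' (fun e => q ω * A ω e) = q ω * dot A (fun e => θ' (Pi.single e 1)) ω := by
    rw [LinearMap.pi_apply_eq_sum_univ θ' (fun e => q ω * A ω e)]
    unfold dot
    rw [mul_sum]
    refine sum_congr rfl fun e _ => ?_
    have : (fun j => if e = j then (1:ℝ) else 0) = Pi.single e 1 := by
      funext j
      by_cases h : e = j
      · subst h; simp
      · simp [h]
    simp only [smul_eq_mul, this]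
    ring
  rw [h2, h3, h4] at h1
  exact mul_left_cancel₀ hω h1

/-- weak duality -/
theorem dual_bound {A : Ω → E → ℝ} {q b : Ω → ℝ} (hq : ∀ ω, 0 ≤ q ω) {θ η : E → ℝ}
    (hθ : ∀ ω, q ω ≠ 0 → Real.log (q ω) = dot A θ ω)
    (hb : ∀ ω, 0 ≤ b ω) (hb1 : ∑ ω, b ω = 1) (hbS : ∀ ω, b ω ≠ 0 → q ω ≠ 0) (t : ℝ) :
    H b ≤ Real.log (∑ ω, q ω * Real.exp (t * dot A η ω)) - ∑ e, θ e * marg A b e
      - t * ∑ e, η e * marg A b e := by
  classical
  set Z := ∑ ω, q ω * Real.exp (t * dot A η ω) with hZ
  have hZpos : 0 < Z := by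
    have : ∃ ω, b ω ≠ 0 := by
      by_contra h
      push Not at h
      simp [h] at hb1
    obtain ⟨ω, hω⟩ := this
    have h1 : 0 < q ω := lt_of_le_of_ne (hq ω) (Ne.symm (hbS ω hω))
    rw [hZ]
    exact sum_pos' (fun ω _ => mul_nonneg (hq ω) (Real.exp_pos _).le)
      ⟨ω, mem_univ _, mul_pos h1 (Real.exp_pos _)⟩
  rw [← sum_dot, ← sum_dot]
  have key : ∀ ω, Real.negMulLog (b ω) + b ω * dot A θ ω + t * (b ω * dot A η ω)
      - b ω * Real.log Z ≤ q ω * Real.exp (t * dot A η ω) / Z - b ω := by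
    intro ω
    by_cases h : b ω = 0
    · simp only [h, Real.negMulLog_zero, zero_mul, mul_zero, add_zero, sub_zero]
      have := hq ω
      positivity
    · have hb0 : 0 < b ω := lt_of_le_of_ne (hb ω) (Ne.symm h)
      have hq0 : 0 < q ω := lt_of_le_of_ne (hq ω) (Ne.symm (hbS ω h))
      rw [← hθ ω hq0.ne']
      set y := q ω * Real.exp (t * dot A η ω) / (Z * b ω) with hy
      have hy0 : 0 < y := by positivity
      have h1 := Real.log_le_sub_one_of_pos hy0
      have h2 : Real.log y = Real.log (q ω) + t * dot A η ω - (Real.log Z + Real.log (b ω)) := by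
        rw [hy, Real.log_div (by positivity) (by positivity), Real.log_mul hq0.ne'
          (Real.exp_pos _).ne', Real.log_exp, Real.log_mul hZpos.ne' hb0.ne']
      rw [h2] at h1
      have h3 : b ω * y = q ω * Real.exp (t * dot A η ω) / Z := by
        rw [hy]; field_simp
      have h4 := mul_le_mul_of_nonneg_left h1 hb0.le
      have h5 : b ω * (y - 1) = q ω * Real.exp (t * dot A η ω) / Z - b ω := by
        rw [mul_sub, h3, mul_one]
      rw [h5] at h4
      have h6 : Real.negMulLog (b ω) = - (b ω * Real.log (b ω)) := by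
        unfold Real.negMulLog; ring
      rw [h6]
      linarith
  have hs := sum_le_sum fun ω (_ : ω ∈ univ) => key ω
  rw [sum_sub_distrib, sum_add_distrib, sum_add_distrib, sum_sub_distrib, ← sum_div, ← hZ,
    div_self hZpos.ne', hb1, ← mul_sum, ← sum_mul, hb1] at hs
  unfold H
  linarith

end Crest.Agent.R304.EntB
end

-- ▼ part R304/EntC
section

/-!
R304 / S0465: abstract entropy part, file C (second order condition at a minimiser of `h - φ_c`).
-/

set_option autoImplicit false

namespace Crest.Agent.R304.EntC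

open Finset Filter Topology Crest.Agent.R304.EntA Crest.Agent.R304.EntB

variable {Ω E : Type*} [Fintype Ω] [Fintype E]

/-- `φ_c(x) = F(x) - c B(x)` -/
noncomputable def phi (c : ℝ) (x : E → ℝ) : ℝ :=
  ∑ e, Real.negMulLog (x e) - c * ∑ e, Real.negMulLog (1 - x e)

theorem continuous_phi (c : ℝ) : Continuous (phi c : (E → ℝ) → ℝ) := by
  unfold phi
  refine Continuous.sub ?_ (continuous_const.mul ?_)
  · exact continuous_finsetSum _ fun e _ => Real.continuous_negMulLog.comp (continuous_apply e)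
  · exact continuous_finsetSum _ fun e _ =>
      Real.continuous_negMulLog.comp (continuous_const.sub (continuous_apply e))

/-- the direction `d = Cov η` -/
def cdir (A : Ω → E → ℝ) (q : Ω → ℝ) (η : E → ℝ) (e : E) : ℝ :=
  ∑ ω, q ω * (dot A η ω - ∑ f, η f * marg A q f) * A ω e

theorem marg_mem {P : Set Ω} {A : Ω → E → ℝ} {q : Ω → ℝ} (hq : q ∈ Law P)
    (hA : ∀ ω e, 0 ≤ A ω e ∧ A ω e ≤ 1) (e : E) : 0 ≤ marg A q e ∧ marg A q e ≤ 1 := by
  constructor
  · exact sum_nonneg fun ω _ => mul_nonneg (hq.1 ω) (hA ω e).1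
  · calc marg A q e ≤ ∑ ω, q ω := sum_le_sum fun ω _ =>
        mul_le_of_le_one_right (hq.1 ω) (hA ω e).2
      _ = 1 := hq.2.1

/-- If the marginal is `0` then `A ω e = 0` on the support. -/
theorem marg_eq_zero {P : Set Ω} {A : Ω → E → ℝ} {q : Ω → ℝ} (hq : q ∈ Law P)
    (hA : ∀ ω e, 0 ≤ A ω e ∧ A ω e ≤ 1) {e : E} (h : marg A q e = 0) (ω : Ω) (hω : q ω ≠ 0) :
    A ω e = 0 := by
  have h1 : ∀ ω ∈ (univ : Finset Ω), 0 ≤ q ω * A ω e :=
    fun ω _ => mul_nonneg (hq.1 ω) (hA ω e).1
  have h2 := (sum_eq_zero_iff_of_nonneg h1).1 h ω (mem_univ ω)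
  exact (mul_eq_zero.1 h2).resolve_left hω

theorem marg_eq_one {P : Set Ω} {A : Ω → E → ℝ} {q : Ω → ℝ} (hq : q ∈ Law P)
    (hA : ∀ ω e, 0 ≤ A ω e ∧ A ω e ≤ 1) {e : E} (h : marg A q e = 1) (ω : Ω) (hω : q ω ≠ 0) :
    A ω e = 1 := by
  have h1 : ∀ ω ∈ (univ : Finset Ω), 0 ≤ q ω * (1 - A ω e) :=
    fun ω _ => mul_nonneg (hq.1 ω) (by linarith [(hA ω e).2])
  have h3 : ∑ ω, q ω * (1 - A ω e) = 0 := by
    have : ∑ ω, q ω * (1 - A ω e) = ∑ ω, q ω - marg A q e := by
      unfold marg; rw [← sum_sub_distrib]; exact sum_congr rfl fun ω _ => by ring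
    rw [this, h, hq.2.1]; ring
  have h2 := (sum_eq_zero_iff_of_nonneg h1).1 h3 ω (mem_univ ω)
  have := (mul_eq_zero.1 h2).resolve_left hω
  linarith

theorem sum_center {P : Set Ω} {A : Ω → E → ℝ} {q : Ω → ℝ} (hq : q ∈ Law P) (η : E → ℝ) :
    ∑ ω, q ω * (dot A η ω - ∑ f, η f * marg A q f) = 0 := by
  have : ∑ ω, q ω * (dot A η ω - ∑ f, η f * marg A q f)
      = ∑ ω, q ω * dot A η ω - (∑ ω, q ω) * ∑ f, η f * marg A q f := by
    rw [sum_mul, ← sum_sub_distrib]; exact sum_congr rfl fun ω _ => by ring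
  rw [this, sum_dot, hq.2.1]; ring

theorem cdir_eq_zero {P : Set Ω} {A : Ω → E → ℝ} {q : Ω → ℝ} (hq : q ∈ Law P)
    (hA : ∀ ω e, 0 ≤ A ω e ∧ A ω e ≤ 1) {e : E} (h : marg A q e = 0 ∨ marg A q e = 1)
    (η : E → ℝ) : cdir A q η e = 0 := by
  unfold cdir
  rcases h with h | h
  · refine sum_eq_zero fun ω _ => ?_
    by_cases hω : q ω = 0
    · simp [hω]
    · rw [marg_eq_zero hq hA h ω hω, mul_zero]
  · have : ∀ ω ∈ (univ : Finset Ω), q ω * (dot A η ω - ∑ f, η f * marg A q f) * A ω e
        = q ω * (dot A η ω - ∑ f, η f * marg A q f) := by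
      intro ω _
      by_cases hω : q ω = 0
      · simp [hω]
      · rw [marg_eq_one hq hA h ω hω, mul_one]
    rw [sum_congr rfl this, sum_center hq]

/-- variance identity -/
theorem var_eq {P : Set Ω} {A : Ω → E → ℝ} {q : Ω → ℝ} (hq : q ∈ Law P) (η : E → ℝ) :
    ∑ ω, q ω * (dot A η ω) ^ 2 - (∑ f, η f * marg A q f) ^ 2 = ∑ e, η e * cdir A q η e := by
  set μ := ∑ f, η f * marg A q f with hμ
  have h1 : ∑ e, η e * cdir A q η e = ∑ ω, (q ω * (dot A η ω - μ)) * dot A η ω := by
    rw [sum_dot]; rfl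
  rw [h1]
  have h2 : ∑ ω, q ω * dot A η ω = μ := sum_dot A η q
  have h3 : ∑ ω, (q ω * (dot A η ω - μ)) * dot A η ω
      = ∑ ω, q ω * (dot A η ω) ^ 2 - μ * ∑ ω, q ω * dot A η ω := by
    rw [mul_sum, ← sum_sub_distrib]; exact sum_congr rfl fun ω _ => by ring
  rw [h3, h2]; ring

/-- The law in the second-order variation is supported on `supp q`. -/
theorem support_of_pert {P : Set Ω} {A : Ω → E → ℝ} {q b c : Ω → ℝ} (hq : IsMaxEnt P A q q)
    (hb : b ∈ Law P) (hc : c ∈ Law P)
    (hm : ∀ e, marg A b e + marg A c e = 2 * marg A q e) {ω : Ω} (hω : b ω ≠ 0) : q ω ≠ 0 := by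
  have h1 : (fun ω => (1 - (1/2:ℝ)) * b ω + (1/2:ℝ) * c ω) ∈ Law P :=
    law_convex hb hc (by norm_num) (by norm_num)
  have h2 : marg A (fun ω => (1 - (1/2:ℝ)) * b ω + (1/2:ℝ) * c ω) = marg A q := by
    funext e
    have := hm e
    have h3 : marg A (fun ω => (1 - (1/2:ℝ)) * b ω + (1/2:ℝ) * c ω) e
        = (1/2) * (marg A b e + marg A c e) := by
      unfold marg; rw [← sum_add_distrib, mul_sum]; exact sum_congr rfl fun ω _ => by ring
    rw [h3, this]; ring
  have h4 : 0 < (fun ω => (1 - (1/2:ℝ)) * b ω + (1/2:ℝ) * c ω) ω := by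
    have h5 : 0 < b ω := lt_of_le_of_ne (hb.1 ω) (Ne.symm hω)
    have h6 := hc.1 ω
    simp only
    nlinarith
  exact (hq.support h1 h2 h4).ne'

theorem second_order_cond {P : Set Ω} {A : Ω → E → ℝ} {q : Ω → ℝ} (hq : IsMaxEnt P A q q)
    (hA : ∀ ω e, 0 ≤ A ω e ∧ A ω e ≤ 1)
    {w : E → ℝ} (hw : ∀ ω ∈ P, dot A w ω = 1) (c : ℝ)
    (hmin : ∀ b ∈ Law P, ∀ b', IsMaxEnt P A b b' →
      H q - phi c (marg A q) ≤ H b' - phi c (marg A b)) (η : E → ℝ) :
    ∑ e, η e * cdir A q η e ≤
      ∑ e, (cdir A q η e) ^ 2 * (1 / marg A q e - c / (1 - marg A q e)) := by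
  classical
  obtain ⟨θ, hθ⟩ := gibbs_form hq hw
  set x := marg A q with hx
  set d := cdir A q η with hd
  set μ := ∑ f, η f * x f with hμ
  set G : ℝ → ℝ := fun t => ∑ ω, q ω * Real.exp (t * dot A η ω) with hG
  set G1 : ℝ → ℝ := fun t => ∑ ω, q ω * (dot A η ω * Real.exp (t * dot A η ω)) with hG1
  have hx01 : ∀ e, 0 ≤ x e ∧ x e ≤ 1 := marg_mem hq.1 hA
  have hd0 : ∀ e, x e = 0 ∨ x e = 1 → d e = 0 := fun e he => cdir_eq_zero hq.1 hA he η
  have hGd : ∀ t, HasDerivAt G (G1 t) t := by
    intro t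
    apply HasDerivAt.fun_sum
    intro ω _
    have h1 : HasDerivAt (fun t : ℝ => t * dot A η ω) (dot A η ω) t := by
      simpa using (hasDerivAt_id t).mul_const (dot A η ω)
    have h2 := (h1.exp).const_mul (q ω)
    rw [mul_comm (Real.exp (t * dot A η ω))] at h2
    exact h2
  have hG1d : HasDerivAt G1 (∑ ω, q ω * (dot A η ω) ^ 2) 0 := by
    apply HasDerivAt.fun_sum
    intro ω _
    have h1 : HasDerivAt (fun t : ℝ => t * dot A η ω) (dot A η ω) 0 := by
      simpa using (hasDerivAt_id (0:ℝ)).mul_const (dot A η ω)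
    have h2 := ((h1.exp).const_mul (dot A η ω)).const_mul (q ω)
    simp only [zero_mul, Real.exp_zero, one_mul] at h2
    rw [← pow_two] at h2
    exact h2
  have hG0 : G 0 = 1 := by simp [hG, hq.1.2.1]
  have hG10 : G1 0 = μ := by
    simp only [hG1, zero_mul, Real.exp_zero, mul_one]
    exact sum_dot A η q
  have hGpos : ∀ t, 0 < G t := by
    intro t
    have : ∃ ω, q ω ≠ 0 := by
      by_contra h
      push Not at h
      have := hq.1.2.1
      simp [h] at this
    obtain ⟨ω, hω⟩ := this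
    exact sum_pos' (fun ω _ => mul_nonneg (hq.1.1 ω) (Real.exp_pos _).le)
      ⟨ω, mem_univ _, mul_pos (lt_of_le_of_ne (hq.1.1 ω) (Ne.symm hω)) (Real.exp_pos _)⟩
  -- the comparison function
  set T : ℝ → ℝ := fun t => Real.log (G t) - ∑ e, θ e * (x e + t * d e)
      - t * ∑ e, η e * (x e + t * d e) - phi c (fun e => x e + t * d e) with hT
  set L1 := ∑ e, θ e * d e with hL1
  set L2 := ∑ e, η e * d e with hL2
  set p1 : ℝ → ℝ := fun t => ∑ e, d e * ((-Real.log (x e + t * d e) - 1)
      + c * (-Real.log (1 - x e - t * d e) - 1)) with hp1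
  set T' : ℝ → ℝ := fun t => G1 t / G t - L1 - (μ + 2 * t * L2) - p1 t with hT'
  -- neighbourhood where the marginals stay in (0,1)
  have hnear : ∀ᶠ t in 𝓝 (0:ℝ), ∀ e, d e ≠ 0 → x e + t * d e ≠ 0 ∧ 1 - x e - t * d e ≠ 0 := by
    rw [eventually_all]
    intro e
    by_cases he : d e = 0
    · exact Eventually.of_forall fun t h => absurd he h
    · have h1 : x e ≠ 0 := fun h => he (hd0 e (Or.inl h))
      have h2 : 1 - x e ≠ 0 := fun h => he (hd0 e (Or.inr (by linarith)))
      have c1 : Tendsto (fun t : ℝ => x e + t * d e) (𝓝 0) (𝓝 (x e + 0 * d e)) :=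
        tendsto_const_nhds.add (tendsto_id.mul tendsto_const_nhds)
      have c2 : Tendsto (fun t : ℝ => 1 - x e - t * d e) (𝓝 0) (𝓝 (1 - x e - 0 * d e)) :=
        tendsto_const_nhds.sub (tendsto_id.mul tendsto_const_nhds)
      rw [zero_mul, add_zero] at c1
      rw [zero_mul, sub_zero] at c2
      filter_upwards [c1.eventually_ne h1, c2.eventually_ne h2] with t a b _
      exact ⟨a, b⟩
  have hTd : ∀ᶠ t in 𝓝 (0:ℝ), HasDerivAt T (T' t) t := by
    filter_upwards [hnear] with t ht
    have e1 : HasDerivAt (fun t => Real.log (G t)) (G1 t / G t) t :=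
      (hGd t).log (hGpos t).ne'
    have e2 : HasDerivAt (fun t => ∑ e, θ e * (x e + t * d e)) L1 t := by
      apply HasDerivAt.fun_sum
      intro e _
      simpa using (((hasDerivAt_id t).mul_const (d e)).const_add (x e)).const_mul (θ e)
    have e3 : HasDerivAt (fun t => t * ∑ e, η e * (x e + t * d e)) (μ + 2 * t * L2) t := by
      have e4 : HasDerivAt (fun t => ∑ e, η e * (x e + t * d e)) L2 t := by
        apply HasDerivAt.fun_sum
        intro e _
        simpa using (((hasDerivAt_id t).mul_const (d e)).const_add (x e)).const_mul (η e)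
      have e5 := (hasDerivAt_id t).mul e4
      have e6 : (1:ℝ) * (∑ e, η e * (x e + t * d e)) + id t * L2 = μ + 2 * t * L2 := by
        have : ∑ e, η e * (x e + t * d e) = μ + t * L2 := by
          rw [hμ, hL2, mul_sum, ← sum_add_distrib]
          exact sum_congr rfl fun e _ => by ring
        rw [this]; simp only [id]; ring
      rw [e6] at e5
      exact e5
    have e7 : HasDerivAt (fun t => phi c (fun e => x e + t * d e)) (p1 t) t := by
      unfold phi
      have f1 : HasDerivAt (fun t => ∑ e, Real.negMulLog (x e + t * d e))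
          (∑ e, d e * (-Real.log (x e + t * d e) - 1)) t := by
        apply HasDerivAt.fun_sum
        intro e _
        by_cases he : d e = 0
        · simp only [he, mul_zero, add_zero, zero_mul]; exact hasDerivAt_const _ _
        · have g1 : HasDerivAt (fun t : ℝ => x e + t * d e) (d e) t := by
            simpa using ((hasDerivAt_id t).mul_const (d e)).const_add (x e)
          have g2 := (Real.hasDerivAt_negMulLog (ht e he).1).comp t g1
          rw [mul_comm (-Real.log (x e + t * d e) - 1)] at g2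
          exact g2
      have f2 : HasDerivAt (fun t => ∑ e, Real.negMulLog (1 - (x e + t * d e)))
          (∑ e, -(d e * (-Real.log (1 - x e - t * d e) - 1))) t := by
        apply HasDerivAt.fun_sum
        intro e _
        by_cases he : d e = 0
        · simp only [he, mul_zero, add_zero, zero_mul, neg_zero]; exact hasDerivAt_const _ _
        · have g1 : HasDerivAt (fun t : ℝ => 1 - (x e + t * d e)) (-(d e)) t := by
            simpa using (((hasDerivAt_id t).mul_const (d e)).const_add (x e)).const_sub 1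
          have h2 : 1 - (x e + t * d e) ≠ 0 := by
            have := (ht e he).2
            intro h; apply this; linarith
          have g2 := (Real.hasDerivAt_negMulLog h2).comp t g1
          have g3 : (-Real.log (1 - (x e + t * d e)) - 1) * -(d e)
              = -(d e * (-Real.log (1 - x e - t * d e) - 1)) := by
            rw [show 1 - (x e + t * d e) = 1 - x e - t * d e by ring]; ring
          rw [g3] at g2
          exact g2
      have f3 := f1.sub (f2.const_mul c)
      have f4 : ∑ e, d e * (-Real.log (x e + t * d e) - 1)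
          - c * ∑ e, -(d e * (-Real.log (1 - x e - t * d e) - 1)) = p1 t := by
        rw [hp1, mul_sum, ← sum_sub_distrib]
        exact sum_congr rfl fun e _ => by ring
      rw [f4] at f3
      exact f3
    exact ((e1.sub e2).sub e3).sub e7
  -- derivative of T' at 0
  have hT'd : HasDerivAt T' (-L2 + ∑ e, (d e) ^ 2 * (1 / x e - c / (1 - x e))) 0 := by
    have e1 : HasDerivAt (fun t => G1 t / G t) L2 0 := by
      have h1 := hG1d.div (hGd 0) (hGpos 0).ne'
      have h2 : ((∑ ω, q ω * dot A η ω ^ 2) * G 0 - G1 0 * G1 0) / G 0 ^ 2 = L2 := by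
        rw [hG0, hG10]
        have := var_eq hq.1 η (A := A)
        rw [hL2, hd, ← this, ← hx, ← hμ]; ring
      rw [h2] at h1
      exact h1
    have e2 : HasDerivAt (fun t : ℝ => μ + 2 * t * L2) (2 * L2) 0 := by
      simpa using (((hasDerivAt_id (0:ℝ)).const_mul 2).mul_const L2).const_add μ
    have e3 : HasDerivAt p1 (-∑ e, (d e) ^ 2 * (1 / x e - c / (1 - x e))) 0 := by
      have h0 : -∑ e, (d e) ^ 2 * (1 / x e - c / (1 - x e))
          = ∑ e, d e * (-(d e / x e) + c * (-(-d e / (1 - x e)))) := by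
        rw [← sum_neg_distrib]
        exact sum_congr rfl fun e _ => by ring
      rw [h0]
      apply HasDerivAt.fun_sum
      intro e _
      by_cases he : d e = 0
      · simp only [he, zero_mul]; exact hasDerivAt_const _ _
      · have hx0 : x e ≠ 0 := fun h => he (hd0 e (Or.inl h))
        have hx1 : 1 - x e ≠ 0 := fun h => he (hd0 e (Or.inr (by linarith)))
        have g1 : HasDerivAt (fun t : ℝ => x e + t * d e) (d e) 0 := by
          simpa using ((hasDerivAt_id (0:ℝ)).mul_const (d e)).const_add (x e)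
        have g2 : HasDerivAt (fun t : ℝ => 1 - x e - t * d e) (-(d e)) 0 := by
          simpa using ((hasDerivAt_id (0:ℝ)).mul_const (d e)).const_sub (1 - x e)
        have k1 := g1.log (by simpa using hx0)
        have k2 := g2.log (by simpa using hx1)
        simp only [zero_mul, add_zero, sub_zero] at k1 k2
        have k3 := (((k1.neg).sub_const 1).add (((k2.neg).sub_const 1).const_mul c)).const_mul (d e)
        exact k3
    have e4 := ((e1.sub_const L1).sub e2).sub e3
    have e5 : L2 - 2 * L2 - -∑ e, (d e) ^ 2 * (1 / x e - c / (1 - x e))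
        = -L2 + ∑ e, (d e) ^ 2 * (1 / x e - c / (1 - x e)) := by ring
    rw [e5] at e4
    exact e4
  -- local minimum
  have hTmin : IsLocalMin T 0 := by
    have hr : ∀ᶠ t in 𝓝 (0:ℝ), ∀ ω, 0 ≤ q ω + t * (q ω * (dot A η ω - μ)) :=
      eventually_nonneg hq.1.1
    have hr' : ∀ᶠ t in 𝓝 (0:ℝ), ∀ ω, 0 ≤ q ω + (-t) * (q ω * (dot A η ω - μ)) := by
      have := (continuous_neg.tendsto (0:ℝ))
      rw [neg_zero] at this
      exact this.eventually hr
    have hlaw : ∀ t : ℝ, (∀ ω, 0 ≤ q ω + t * (q ω * (dot A η ω - μ))) →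
        (fun ω => q ω + t * (q ω * (dot A η ω - μ))) ∈ Law P := by
      intro t ht
      refine ⟨ht, ?_, fun ω hω => hq.1.2.2 ω fun h => hω (by simp [h])⟩
      rw [sum_add_distrib, ← mul_sum, hq.1.2.1, sum_center hq.1]; ring
    have hmarg : ∀ (t : ℝ) e, marg A (fun ω => q ω + t * (q ω * (dot A η ω - μ))) e
        = x e + t * d e := by
      intro t e
      rw [hx, hd]
      unfold marg cdir
      rw [mul_sum, ← sum_add_distrib]
      exact sum_congr rfl fun ω _ => by ring
    filter_upwards [hr, hr'] with t ht ht'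
    have hb := hlaw t ht
    have hb2 := hlaw (-t) ht'
    obtain ⟨b', hb'⟩ := exists_maxEnt P A hb
    have h1 := hmin _ hb b' hb'
    have hmb : ∀ e, marg A b' e = x e + t * d e := fun e => by
      rw [congrFun hb'.2.1 e, hmarg]
    have hsup : ∀ ω, b' ω ≠ 0 → q ω ≠ 0 := fun ω hω =>
      support_of_pert hq hb'.1 hb2 (fun e => by rw [hmb, hmarg]; ring) hω
    have h2 := dual_bound hq.1.1 hθ hb'.1.1 hb'.1.2.1 hsup t (η := η)
    simp only [hmb] at h2
    have h3 : marg A (fun ω => q ω + t * (q ω * (dot A η ω - μ))) = fun e => x e + t * d e :=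
      funext (hmarg t)
    rw [h3] at h1
    have hT0 : T 0 = H q - phi c x := by
      have g1 : H q = - ∑ e, θ e * x e := by
        rw [hx, ← sum_dot]
        unfold H
        rw [← sum_neg_distrib]
        refine sum_congr rfl fun ω _ => ?_
        by_cases h : q ω = 0
        · simp [h]
        · rw [← hθ ω h]; unfold Real.negMulLog; ring
      simp only [hT, zero_mul, add_zero, sub_zero]
      rw [hG0, Real.log_one, g1]; ring
    rw [hT0]
    refine h1.trans ?_
    simp only [hT]
    linarith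
  have := second_order hTmin hTd hT'd
  linarith

end Crest.Agent.R304.EntC
end

-- ▼ part R304/EntD
section

/-!
R304 / S0465: abstract entropy part, file D (trace argument: the covariance matrix at a minimiser of
`h - φ_c` has rank at most `∑ x(1-x)(1/x - c/(1-x))`).
-/

set_option autoImplicit false

namespace Crest.Agent.R304.EntD

open Finset Filter Topology Crest.Agent.R304.EntA Crest.Agent.R304.EntB Crest.Agent.R304.EntC
open scoped Matrix

/-- abstract trace inequality -/
theorem rank_le_trace {E : Type*} [Fintype E] [DecidableEq E] {C : Matrix E E ℝ}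
    (hC : C.PosSemidef) (R : E → ℝ)
    (h : ∀ η : E → ℝ, ∑ e, η e * (C *ᵥ η) e ≤ ∑ e, ((C *ᵥ η) e) ^ 2 * R e) :
    (C.rank : ℝ) ≤ ∑ e, R e * C e e := by
  classical
  have hH := hC.isHermitian
  set μ := hH.eigenvalues with hμ
  set U : Matrix E E ℝ := (hH.eigenvectorUnitary : Matrix E E ℝ) with hU
  have hmul : ∀ i, C *ᵥ (fun e => U e i) = fun e => μ i * U e i := by
    intro i
    have h1 := hH.mulVec_eigenvectorBasis i
    have h2 : (fun e => U e i) = ⇑(hH.eigenvectorBasis i) := by
      funext e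
      rw [hU, hH.eigenvectorUnitary_apply]
    rw [h2]
    refine h1.trans ?_
    funext e
    change hH.eigenvalues i * (hH.eigenvectorBasis i).ofLp e = μ i * U e i
    rw [← congrFun h2 e]
  have hnorm : ∀ i, ∑ e, U e i * U e i = 1 := by
    intro i
    have h1 : (star U * U) i i = 1 := by
      rw [hU, Unitary.coe_star_mul_self]; simp
    rw [Matrix.mul_apply] at h1
    simpa [Matrix.star_apply] using h1
  have hdiag : ∀ e, C e e = ∑ i, μ i * (U e i) ^ 2 := by
    intro e
    have h1 := hH.spectral_theorem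
    rw [Unitary.conjStarAlgAut_apply] at h1
    have h2 : C e e = ((U * Matrix.diagonal (RCLike.ofReal ∘ μ)) * star U : Matrix E E ℝ) e e := by
      conv_lhs => rw [h1]
    rw [h2, Matrix.mul_apply]
    refine sum_congr rfl fun i _ => ?_
    rw [Matrix.mul_diagonal, Matrix.star_apply]
    simp
    ring
  have hnonneg : ∀ i, 0 ≤ μ i := fun i => hC.eigenvalues_nonneg i
  have key : ∀ i, μ i ≠ 0 → 1 ≤ μ i * ∑ e, (U e i) ^ 2 * R e := by
    intro i hi
    have hpos : 0 < μ i := lt_of_le_of_ne (hnonneg i) (Ne.symm hi)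
    have h1 := h (fun e => U e i)
    rw [hmul i] at h1
    have h2 : ∑ e, U e i * (μ i * U e i) = μ i := by
      have : ∑ e, U e i * (μ i * U e i) = μ i * ∑ e, U e i * U e i := by
        rw [mul_sum]; exact sum_congr rfl fun e _ => by ring
      rw [this, hnorm, mul_one]
    have h3 : ∑ e, (μ i * U e i) ^ 2 * R e = μ i * (μ i * ∑ e, (U e i) ^ 2 * R e) := by
      rw [mul_sum, mul_sum]; exact sum_congr rfl fun e _ => by ring
    simp only at h1
    rw [h2, h3] at h1
    have h4 : μ i * 1 ≤ μ i * (μ i * ∑ e, (U e i) ^ 2 * R e) := by rw [mul_one]; exact h1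
    exact le_of_mul_le_mul_left h4 hpos
  have hrank : (C.rank : ℝ) = ∑ i, if μ i ≠ 0 then (1:ℝ) else 0 := by
    rw [hH.rank_eq_card_non_zero_eigs, Fintype.card_subtype, ← sum_boole]
  have hsum : ∑ e, R e * C e e = ∑ i, μ i * ∑ e, (U e i) ^ 2 * R e := by
    simp only [hdiag, mul_sum]
    rw [sum_comm]
    exact sum_congr rfl fun i _ => sum_congr rfl fun e _ => by ring
  rw [hrank, hsum]
  refine sum_le_sum fun i _ => ?_
  by_cases hi : μ i = 0
  · simp [hi]
  · simp only [ne_eq, hi, not_false_eq_true, if_true]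
    exact key i hi

variable {Ω E : Type*} [Fintype Ω] [Fintype E]

/-- covariance matrix -/
def cov (A : Ω → E → ℝ) (q : Ω → ℝ) : Matrix E E ℝ :=
  fun e f => ∑ ω, q ω * (A ω f - marg A q f) * A ω e

theorem cov_mulVec (A : Ω → E → ℝ) (q : Ω → ℝ) (η : E → ℝ) :
    cov A q *ᵥ η = cdir A q η := by
  funext e
  unfold Matrix.mulVec dotProduct cov cdir dot
  simp only [sum_mul]
  rw [sum_comm]
  refine sum_congr rfl fun ω _ => ?_
  rw [← sum_sub_distrib, mul_sum, sum_mul]
  exact sum_congr rfl fun f _ => by ring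

omit [Fintype E] in
theorem cov_symm (A : Ω → E → ℝ) (q : Ω → ℝ) (e f : E) :
    cov A q e f = ∑ ω, q ω * (A ω e * A ω f) - marg A q e * marg A q f := by
  unfold cov
  have : ∑ ω, q ω * (A ω f - marg A q f) * A ω e
      = ∑ ω, q ω * (A ω e * A ω f) - marg A q f * ∑ ω, q ω * A ω e := by
    rw [mul_sum, ← sum_sub_distrib]
    exact sum_congr rfl fun ω _ => by ring
  rw [this]
  change _ - marg A q f * marg A q e = _
  ring

theorem cov_posSemidef {P : Set Ω} {A : Ω → E → ℝ} {q : Ω → ℝ} (hq : q ∈ Law P) :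
    (cov A q).PosSemidef := by
  refine Matrix.PosSemidef.of_dotProduct_mulVec_nonneg ?_ ?_
  · ext e f
    rw [Matrix.conjTranspose_apply, cov_symm, cov_symm]
    simp only [star_trivial]
    congr 1
    · exact sum_congr rfl fun ω _ => by ring
    · ring
  · intro η
    rw [cov_mulVec]
    have h1 : star η ⬝ᵥ cdir A q η = ∑ e, η e * cdir A q η e := by
      simp [dotProduct]
    rw [h1, ← var_eq hq]
    have h3 : ∑ ω, q ω * dot A η ω = ∑ f, η f * marg A q f := sum_dot A η q
    generalize (∑ f, η f * marg A q f) = μ at h3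
    have h2 : ∑ ω, q ω * (dot A η ω) ^ 2 - μ ^ 2 = ∑ ω, q ω * (dot A η ω - μ) ^ 2 := by
      have h4 : ∑ ω, q ω * (dot A η ω - μ) ^ 2
          = ∑ ω, q ω * (dot A η ω) ^ 2 - 2 * μ * ∑ ω, q ω * dot A η ω + μ ^ 2 * ∑ ω, q ω := by
        rw [mul_sum, mul_sum, ← sum_sub_distrib, ← sum_add_distrib]
        exact sum_congr rfl fun ω _ => by ring
      rw [h4, h3, hq.2.1]; ring
    rw [h2]
    exact sum_nonneg fun ω _ => mul_nonneg (hq.1 ω) (sq_nonneg _)

/-- Rank bound at a minimiser, for zero-one vectors `A ω`. -/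
theorem rank_le {P : Set Ω} {A : Ω → E → ℝ} {q : Ω → ℝ} [DecidableEq E] (hq : IsMaxEnt P A q q)
    (hA : ∀ ω e, A ω e = 0 ∨ A ω e = 1)
    {w : E → ℝ} (hw : ∀ ω ∈ P, dot A w ω = 1) (c : ℝ)
    (hmin : ∀ b ∈ Law P, ∀ b', IsMaxEnt P A b b' →
      H q - phi c (marg A q) ≤ H b' - phi c (marg A b)) :
    ((cov A q).rank : ℝ) ≤
      ∑ e ∈ univ.filter (fun e => 0 < marg A q e ∧ marg A q e < 1), (1 - (1 + c) * marg A q e) := by
  classical
  have hA' : ∀ ω e, 0 ≤ A ω e ∧ A ω e ≤ 1 := fun ω e => by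
    rcases hA ω e with h | h <;> rw [h] <;> norm_num
  have h1 := rank_le_trace (cov_posSemidef (A := A) hq.1)
    (fun e => 1 / marg A q e - c / (1 - marg A q e)) (fun η => by
      rw [cov_mulVec]; exact second_order_cond hq hA' hw c hmin η)
  refine h1.trans (le_of_eq ?_)
  rw [sum_filter]
  refine sum_congr rfl fun e _ => ?_
  have hdiag : cov A q e e = marg A q e * (1 - marg A q e) := by
    rw [cov_symm]
    have : ∑ ω, q ω * (A ω e * A ω e) = marg A q e := by
      unfold marg
      refine sum_congr rfl fun ω _ => ?_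
      rcases hA ω e with h | h <;> rw [h] <;> ring
    rw [this]; ring
  rw [hdiag]
  obtain ⟨hx0, hx1⟩ := marg_mem hq.1 hA' e
  set x := marg A q e with hx
  by_cases h0 : x = 0
  · rw [h0]; simp
  by_cases h1' : x = 1
  · rw [h1']; simp
  have a : 0 < x := lt_of_le_of_ne hx0 (Ne.symm h0)
  have b : x < 1 := lt_of_le_of_ne hx1 h1'
  have b' : 1 - x ≠ 0 := by linarith
  rw [if_pos ⟨a, b⟩]
  field_simp
  ring

end Crest.Agent.R304.EntD
end

-- ▼ part R304/EntE
section

/-!
R304 / S0465: abstract entropy part, file E (differences of marginals of laws living on the support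
of `q` lie in the range of the covariance matrix; dimension count for coordinate restrictions).
-/

set_option autoImplicit false

namespace Crest.Agent.R304.EntE

open Finset Filter Topology Crest.Agent.R304.EntA Crest.Agent.R304.EntB Crest.Agent.R304.EntC
  Crest.Agent.R304.EntD
open scoped Matrix

variable {Ω E : Type*} [Fintype Ω] [Fintype E]

theorem sub_marg_mem_range {P : Set Ω} {A : Ω → E → ℝ} {q b : Ω → ℝ} [DecidableEq E]
    (hq : q ∈ Law P) (hb : b ∈ Law P) (hsup : ∀ ω, b ω ≠ 0 → q ω ≠ 0) :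
    marg A b - marg A q ∈ LinearMap.range (cov A q).mulVecLin := by
  classical
  by_contra hcon
  obtain ⟨f, hf, hker⟩ := Submodule.exists_le_ker_of_notMem hcon
  set η : E → ℝ := fun e => f (Pi.single e 1) with hη
  have hfv : ∀ v : E → ℝ, f v = ∑ e, η e * v e := by
    intro v
    rw [LinearMap.pi_apply_eq_sum_univ f v]
    refine sum_congr rfl fun e _ => ?_
    have : (fun j => if e = j then (1:ℝ) else 0) = Pi.single e 1 := by
      funext j
      by_cases h : e = j
      · subst h; simp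
      · simp [h]
    simp only [smul_eq_mul, this, hη]
    ring
  have h1 : f (cov A q *ᵥ η) = 0 := by
    have : cov A q *ᵥ η ∈ LinearMap.range (cov A q).mulVecLin := ⟨η, by simp⟩
    exact LinearMap.mem_ker.1 (hker this)
  rw [hfv, cov_mulVec, ← var_eq hq] at h1
  have h3 : ∑ ω, q ω * dot A η ω = ∑ f, η f * marg A q f := sum_dot A η q
  have h5 : f (marg A b - marg A q) = ∑ ω, b ω * dot A η ω - ∑ f, η f * marg A q f := by
    rw [hfv, sum_dot, ← sum_sub_distrib]
    exact sum_congr rfl fun e _ => by simp only [Pi.sub_apply]; ring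
  generalize (∑ f, η f * marg A q f) = μ at h1 h3 h5
  have h2 : ∑ ω, q ω * (dot A η ω - μ) ^ 2 = 0 := by
    have h4 : ∑ ω, q ω * (dot A η ω - μ) ^ 2
        = ∑ ω, q ω * (dot A η ω) ^ 2 - 2 * μ * ∑ ω, q ω * dot A η ω + μ ^ 2 * ∑ ω, q ω := by
      rw [mul_sum, mul_sum, ← sum_sub_distrib, ← sum_add_distrib]
      exact sum_congr rfl fun ω _ => by ring
    rw [h4, h3, hq.2.1]; linarith
  have h6 : ∀ ω, q ω ≠ 0 → dot A η ω = μ := by
    intro ω hω
    have := (sum_eq_zero_iff_of_nonneg (fun ω _ => mul_nonneg (hq.1 ω) (sq_nonneg _))).1 h2 ω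
      (mem_univ ω)
    have h7 := (mul_eq_zero.1 this).resolve_left hω
    have h8 := pow_eq_zero_iff (two_ne_zero) |>.1 h7
    linarith
  apply hf
  rw [h5]
  have h9 : ∑ ω, b ω * dot A η ω = ∑ ω, b ω * μ := by
    refine sum_congr rfl fun ω _ => ?_
    by_cases h : b ω = 0
    · simp [h]
    · rw [h6 ω (hsup ω h)]
  rw [h9, ← sum_mul, hb.2.1]; ring

/-- dimension count -/
theorem finrank_span_le_rank {ι : Type*} [Fintype ι] [DecidableEq E] (C : Matrix E E ℝ)
    (κ : ι → E) (hκ : Function.Injective κ) (D : Set (ι → ℝ))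
    (hD : ∀ h ∈ D, Function.extend κ h 0 ∈ LinearMap.range C.mulVecLin) :
    Module.finrank ℝ (Submodule.span ℝ D) ≤ C.rank := by
  classical
  set L : (ι → ℝ) →ₗ[ℝ] (E → ℝ) := Function.ExtendByZero.linearMap ℝ κ with hL
  have hLinj : Function.Injective L := Function.extend_injective hκ _
  have h1 : Submodule.map L (Submodule.span ℝ D) ≤ LinearMap.range C.mulVecLin := by
    rw [Submodule.map_span, Submodule.span_le]
    rintro _ ⟨h, hh, rfl⟩
    exact hD h hh
  have h2 : Module.finrank ℝ (Submodule.span ℝ D)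
      = Module.finrank ℝ (Submodule.map L (Submodule.span ℝ D)) :=
    LinearEquiv.finrank_eq (Submodule.equivMapOfInjective L hLinj _)
  rw [h2]
  exact Submodule.finrank_mono h1

end Crest.Agent.R304.EntE
end

-- ▼ part R304/EntF
section

/-!
R304 / S0465: file F (the multigraph obtained by deleting the forced edges and their endpoints;
the face dimension of its polytope is at most the rank of the covariance matrix).
-/

set_option autoImplicit false

namespace Crest.Agent.R304.EntF

open Finset Filter Topology Crest.Agent.R304.EntA Crest.Agent.R304.EntB Crest.Agent.R304.EntC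
  Crest.Agent.R304.EntD Crest.Agent.R304.EntE Crest.Matchings
open scoped Matrix

/-- the statement of S0466 -/
def S0466stmt : Prop :=
  ∀ (m : ℕ), 1 ≤ m → ∀ (k : ℕ) (ends : Fin k → Fin (2 * m) × Fin (2 * m)),
    (∀ e, (ends e).1 ≠ (ends e).2) → ∀ (x : Fin k → ℝ), x ∈ pmPolytope ends →
    ((Finset.univ.filter fun e => 0 < x e).card : ℤ) - (pmFaceDim ends x : ℤ) ≤ 3 * (m : ℤ) - 2

/-- perfect matchings as a set -/
def PMs {v k : ℕ} (ends : Fin k → Fin v × Fin v) : Set (Finset (Fin k)) :=
  {M | IsPerfectMatching ends M}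

/-- incidence vector -/
def inc {k : ℕ} (M : Finset (Fin k)) (e : Fin k) : ℝ := if e ∈ M then 1 else 0

theorem inc_zero_or_one {k : ℕ} (M : Finset (Fin k)) (e : Fin k) : inc M e = 0 ∨ inc M e = 1 := by
  unfold inc; split_ifs <;> simp

theorem double_count {v k : ℕ} (ends : Fin k → Fin v × Fin v)
    (hends : ∀ e, (ends e).1 ≠ (ends e).2) (T : Finset (Fin k)) :
    ∑ w : Fin v, (T.filter fun e => (ends e).1 = w ∨ (ends e).2 = w).card = 2 * T.card := by
  classical
  simp only [card_filter]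
  rw [sum_comm, mul_comm, ← smul_eq_mul, ← sum_const]
  refine sum_congr rfl fun e _ => ?_
  rw [← card_filter]
  have : (univ.filter fun w => (ends e).1 = w ∨ (ends e).2 = w) = {(ends e).1, (ends e).2} := by
    ext w; simp [eq_comm]
  rw [this, card_pair (hends e)]

theorem card_pm {m k : ℕ} (ends : Fin k → Fin (2 * m) × Fin (2 * m))
    (hends : ∀ e, (ends e).1 ≠ (ends e).2) {M : Finset (Fin k)} (hM : IsPerfectMatching ends M) :
    M.card = m := by
  have h := double_count ends hends M
  have h2 : ∑ w : Fin (2 * m), (M.filter fun e => (ends e).1 = w ∨ (ends e).2 = w).card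
      = 2 * m := by
    rw [sum_congr rfl fun w _ => hM w]; simp
  omega

/-- vertices covered by `F` -/
def cov' {v k : ℕ} (ends : Fin k → Fin v × Fin v) (F : Finset (Fin k)) : Finset (Fin v) :=
  univ.filter fun w => ∃ e ∈ F, (ends e).1 = w ∨ (ends e).2 = w

theorem card_cov {v k : ℕ} (ends : Fin k → Fin v × Fin v)
    (hends : ∀ e, (ends e).1 ≠ (ends e).2) {M F : Finset (Fin k)} (hM : IsPerfectMatching ends M)
    (hF : F ⊆ M) : (cov' ends F).card = 2 * F.card := by
  classical
  rw [← double_count ends hends F]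
  have h1 : ∀ w : Fin v, (F.filter fun e => (ends e).1 = w ∨ (ends e).2 = w).card
      = if w ∈ cov' ends F then 1 else 0 := by
    intro w
    have hle : (F.filter fun e => (ends e).1 = w ∨ (ends e).2 = w).card ≤ 1 := by
      rw [← hM w]; exact card_le_card (filter_subset_filter _ hF)
    by_cases h : w ∈ cov' ends F
    · rw [if_pos h]
      obtain ⟨e, he, hw⟩ := (mem_filter.1 h).2
      have : 0 < (F.filter fun e => (ends e).1 = w ∨ (ends e).2 = w).card :=
        card_pos.2 ⟨e, mem_filter.2 ⟨he, hw⟩⟩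
      omega
    · rw [if_neg h, card_eq_zero, filter_eq_empty_iff]
      intro e he hw
      exact h (mem_filter.2 ⟨mem_univ _, e, he, hw⟩)
  rw [sum_congr rfl fun w _ => h1 w]
  simp

/-- two edges of a perfect matching with a common endpoint are equal -/
theorem pm_unique {v k : ℕ} {ends : Fin k → Fin v × Fin v} {M : Finset (Fin k)}
    (hM : IsPerfectMatching ends M) {e f : Fin k} (he : e ∈ M) (hf : f ∈ M) {w : Fin v}
    (hew : (ends e).1 = w ∨ (ends e).2 = w) (hfw : (ends f).1 = w ∨ (ends f).2 = w) : e = f := by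
  have h := hM w
  rw [card_eq_one] at h
  obtain ⟨g, hg⟩ := h
  have h1 : e ∈ ({g} : Finset (Fin k)) := by rw [← hg]; exact mem_filter.2 ⟨he, hew⟩
  have h2 : f ∈ ({g} : Finset (Fin k)) := by rw [← hg]; exact mem_filter.2 ⟨hf, hfw⟩
  rw [mem_singleton] at h1 h2
  rw [h1, h2]

theorem rank_ge (h66 : S0466stmt) {m k : ℕ} (ends : Fin k → Fin (2 * m) × Fin (2 * m))
    (hends : ∀ e, (ends e).1 ≠ (ends e).2) {q : Finset (Fin k) → ℝ}
    (hq : IsMaxEnt (PMs ends) inc q q) {m' : ℕ} (hm'1 : 1 ≤ m')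
    (hm' : m = m' + (univ.filter fun e => marg inc q e = 1).card) :
    ((univ.filter fun e => 0 < marg inc q e ∧ marg inc q e < 1).card : ℤ)
      ≤ ((cov inc q).rank : ℤ) + 3 * (m' : ℤ) - 2 := by
  classical
  set x := marg inc q with hx
  set F : Finset (Fin k) := univ.filter fun e => x e = 1 with hF
  set E1 : Finset (Fin k) := univ.filter fun e => 0 < x e ∧ x e < 1 with hE1
  have hA : ∀ (M : Finset (Fin k)) (e : Fin k), 0 ≤ inc M e ∧ inc M e ≤ 1 := fun M e => by
    rcases inc_zero_or_one M e with h | h <;> rw [h] <;> norm_num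
  have hx01 : ∀ e, 0 ≤ x e ∧ x e ≤ 1 := marg_mem hq.1 hA
  have hx0 : ∀ e, e ∉ F → e ∉ E1 → x e = 0 := by
    intro e h1 h2
    by_contra h3
    apply h2
    refine mem_filter.2 ⟨mem_univ _, lt_of_le_of_ne (hx01 e).1 (Ne.symm h3),
      lt_of_le_of_ne (hx01 e).2 fun h4 => h1 (mem_filter.2 ⟨mem_univ _, h4⟩)⟩
  -- support facts
  have hS : ∀ M, q M ≠ 0 → IsPerfectMatching ends M := fun M hM => hq.1.2.2 M hM
  have hSF : ∀ M, q M ≠ 0 → F ⊆ M := by
    intro M hM e he
    have h1 : inc M e = 1 := marg_eq_one hq.1 hA (mem_filter.1 he).2 M hM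
    by_contra h2
    rw [inc, if_neg h2] at h1
    exact zero_ne_one h1
  have hS0 : ∀ M, q M ≠ 0 → ∀ e ∈ M, x e ≠ 0 := by
    intro M hM e he h0
    have h1 : inc M e = 0 := marg_eq_zero hq.1 hA h0 M hM
    rw [inc, if_pos he] at h1
    exact one_ne_zero h1
  obtain ⟨M0, hM0⟩ : ∃ M, q M ≠ 0 := by
    by_contra h
    push Not at h
    have := hq.1.2.1
    simp [h] at this
  -- uncovered vertices
  set V1 : Finset (Fin (2 * m)) := (cov' ends F)ᶜ with hV1
  have hV1card : V1.card = 2 * m' := by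
    rw [hV1, card_compl, Fintype.card_fin, card_cov ends hends (hS M0 hM0) (hSF M0 hM0)]
    omega
  have hE1V : ∀ e ∈ E1, (ends e).1 ∈ V1 ∧ (ends e).2 ∈ V1 := by
    intro e he
    have hne : x e ≠ 0 := ((mem_filter.1 he).2.1).ne'
    obtain ⟨M, hM, heM⟩ : ∃ M, q M ≠ 0 ∧ e ∈ M := by
      by_contra hcon
      push Not at hcon
      apply hne
      rw [hx]
      unfold marg
      refine sum_eq_zero fun M _ => ?_
      by_cases h : q M = 0
      · rw [h, zero_mul]
      · rw [inc, if_neg (hcon M h), mul_zero]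
    have heF : e ∉ F := fun h => by
      have h1 := (mem_filter.1 h).2
      have h2 := (mem_filter.1 he).2.2
      rw [h1] at h2
      exact lt_irrefl _ h2
    constructor
    · rw [hV1, mem_compl]
      intro h
      obtain ⟨f, hf, hfw⟩ := (mem_filter.1 h).2
      have := pm_unique (hS M hM) heM (hSF M hM hf) (Or.inl rfl) hfw
      rw [this] at heF
      exact heF hf
    · rw [hV1, mem_compl]
      intro h
      obtain ⟨f, hf, hfw⟩ := (mem_filter.1 h).2
      have := pm_unique (hS M hM) heM (hSF M hM hf) (Or.inr rfl) hfw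
      rw [this] at heF
      exact heF hf
  -- the new multigraph
  set k' := E1.card with hk'
  set κ : Fin k' ↪ Fin k := (E1.orderEmbOfFin rfl).toEmbedding with hκ
  have hκmem : ∀ i, κ i ∈ E1 := fun i => E1.orderEmbOfFin_mem rfl i
  have hκsurj : ∀ e ∈ E1, ∃ i, κ i = e := by
    intro e he
    have : e ∈ Set.range (E1.orderEmbOfFin rfl) := by
      rw [Finset.range_orderEmbOfFin]; exact he
    obtain ⟨i, hi⟩ := this
    exact ⟨i, hi⟩
  set ν : V1 ≃ Fin (2 * m') := V1.equivFinOfCardEq hV1card with hν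
  set ends' : Fin k' → Fin (2 * m') × Fin (2 * m') := fun i =>
    (ν ⟨(ends (κ i)).1, (hE1V _ (hκmem i)).1⟩, ν ⟨(ends (κ i)).2, (hE1V _ (hκmem i)).2⟩)
    with hends'
  have hinc1 : ∀ i w, (ends' i).1 = w ↔ (ends (κ i)).1 = (ν.symm w : Fin (2 * m)) := by
    intro i w
    rw [hends']
    simp only
    rw [← Equiv.eq_symm_apply, Subtype.ext_iff]
  have hinc2 : ∀ i w, (ends' i).2 = w ↔ (ends (κ i)).2 = (ν.symm w : Fin (2 * m)) := by
    intro i w
    rw [hends']
    simp only
    rw [← Equiv.eq_symm_apply, Subtype.ext_iff]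
  have hloop : ∀ i, (ends' i).1 ≠ (ends' i).2 := by
    intro i h
    have h1 := (hinc1 i _).1 h
    have h2 := (hinc2 i _).1 (rfl : (ends' i).2 = (ends' i).2)
    exact hends _ (h1.trans h2.symm)
  -- lift
  have hlift : ∀ M' : Finset (Fin k'), IsPerfectMatching ends' M' →
      IsPerfectMatching ends (F ∪ M'.map κ) := by
    intro M' hM' v
    rw [filter_union]
    by_cases hv : v ∈ cov' ends F
    · have h1 : ((M'.map κ).filter fun e => (ends e).1 = v ∨ (ends e).2 = v) = ∅ := by
        rw [filter_eq_empty_iff]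
        intro e he hev
        obtain ⟨i, _, rfl⟩ := Finset.mem_map.1 he
        have h2 := hE1V _ (hκmem i)
        rw [hV1, mem_compl, mem_compl] at h2
        rcases hev with h | h
        · exact h2.1 (h ▸ hv)
        · exact h2.2 (h ▸ hv)
      rw [h1, union_empty]
      obtain ⟨e, he, hw⟩ := (mem_filter.1 hv).2
      have h3 : 0 < (F.filter fun e => (ends e).1 = v ∨ (ends e).2 = v).card :=
        card_pos.2 ⟨e, mem_filter.2 ⟨he, hw⟩⟩
      have h4 : (F.filter fun e => (ends e).1 = v ∨ (ends e).2 = v).card ≤ 1 := by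
        rw [← hS M0 hM0 v]; exact card_le_card (filter_subset_filter _ (hSF M0 hM0))
      omega
    · have h1 : (F.filter fun e => (ends e).1 = v ∨ (ends e).2 = v) = ∅ := by
        rw [filter_eq_empty_iff]
        intro e he hev
        exact hv (mem_filter.2 ⟨mem_univ _, e, he, hev⟩)
      rw [h1, empty_union]
      have hv1 : v ∈ V1 := by rw [hV1, mem_compl]; exact hv
      rw [filter_map, card_map]
      have h5 := hM' (ν ⟨v, hv1⟩)
      rw [← h5]
      congr 1
      refine filter_congr fun i _ => ?_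
      simp only [Function.comp]
      rw [hinc1, hinc2, Equiv.symm_apply_apply]
  -- restriction
  have hrestr : ∀ M, q M ≠ 0 → IsPerfectMatching ends' (univ.filter fun i => κ i ∈ M) := by
    intro M hM w
    rw [← hS M hM (ν.symm w : Fin (2 * m)), ← card_map κ]
    congr 1
    ext e
    simp only [Finset.mem_map, mem_filter, mem_univ, true_and]
    constructor
    · rintro ⟨i, ⟨h1, h2⟩, rfl⟩
      rw [hinc1, hinc2] at h2
      exact ⟨h1, h2⟩
    · rintro ⟨h1, h2⟩
      have h3 : e ∉ F := by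
        intro h
        have h4 : (ν.symm w : Fin (2 * m)) ∈ cov' ends F :=
          mem_filter.2 ⟨mem_univ _, e, h, h2⟩
        have h5 : (ν.symm w : Fin (2 * m)) ∈ (cov' ends F)ᶜ := (ν.symm w).2
        rw [mem_compl] at h5
        exact h5 h4
      have h4 : e ∈ E1 := by
        by_contra h
        exact hS0 M hM e h1 (hx0 e h3 h)
      obtain ⟨i, rfl⟩ := hκsurj e h4
      refine ⟨i, ⟨h1, ?_⟩, rfl⟩
      rw [hinc1, hinc2]
      exact h2
  -- the point x'
  set x' : Fin k' → ℝ := fun i => x (κ i) with hx'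
  have hx'mem : x' ∈ pmPolytope ends' := by
    have h1 : x' = ∑ M ∈ univ.filter (fun M => q M ≠ 0),
        q M • pmIndicator (univ.filter fun i => κ i ∈ M) := by
      funext i
      rw [Finset.sum_apply, hx', hx]
      simp only [marg, Pi.smul_apply, smul_eq_mul]
      rw [sum_filter]
      refine sum_congr rfl fun M _ => ?_
      by_cases h : q M = 0
      · simp [h]
      · rw [if_pos h, pmIndicator, inc]
        simp
    rw [h1]
    refine Convex.sum_mem (convex_convexHull ℝ _) (fun M _ => hq.1.1 M) ?_ ?_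
    · rw [sum_filter_ne_zero, hq.1.2.1]
    · intro M hM
      exact subset_convexHull ℝ _ ⟨_, hrestr M (mem_filter.1 hM).2, rfl⟩
  -- lifting laws
  have hlaw : ∀ y ∈ pmPolytope ends', ∃ b ∈ Law (PMs ends), (∀ i, marg inc b (κ i) = y i) ∧
      (∀ e ∈ F, marg inc b e = 1) ∧ (∀ e, e ∉ F → e ∉ E1 → marg inc b e = 0) := by
    set T : Set (Fin k' → ℝ) := {y | ∃ b ∈ Law (PMs ends), (∀ i, marg inc b (κ i) = y i) ∧
      (∀ e ∈ F, marg inc b e = 1) ∧ (∀ e, e ∉ F → e ∉ E1 → marg inc b e = 0)} with hT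
    have hsub : pmPolytope ends' ⊆ T := by
      refine convexHull_min ?_ ?_
      · rintro _ ⟨M', hM', rfl⟩
        refine ⟨Pi.single (F ∪ M'.map κ) 1, ⟨?_, ?_, ?_⟩, ?_, ?_, ?_⟩
        · intro M
          by_cases h : M = F ∪ M'.map κ
          · rw [h, Pi.single_eq_same]; norm_num
          · rw [Pi.single_eq_of_ne h]
        · rw [Finset.sum_eq_single (F ∪ M'.map κ)]
          · rw [Pi.single_eq_same]
          · intro b _ hb; rw [Pi.single_eq_of_ne hb]
          · simp
        · intro M hM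
          by_cases h : M = F ∪ M'.map κ
          · rw [h]; exact hlift M' hM'
          · rw [Pi.single_eq_of_ne h] at hM; exact absurd rfl hM
        all_goals
          have hmarg : ∀ e, marg inc (Pi.single (F ∪ M'.map κ) (1:ℝ)) e
              = inc (F ∪ M'.map κ) e := by
            intro e
            unfold marg
            rw [Finset.sum_eq_single (F ∪ M'.map κ)]
            · rw [Pi.single_eq_same, one_mul]
            · intro b _ hb; rw [Pi.single_eq_of_ne hb, zero_mul]
            · simp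
        · intro i
          rw [hmarg, inc, pmIndicator]
          have h1 : κ i ∉ F := by
            intro h
            have h2 := (mem_filter.1 h).2
            have h3 := (mem_filter.1 (hκmem i)).2.2
            rw [h2] at h3
            exact lt_irrefl _ h3
          have h4 : κ i ∈ F ∪ M'.map κ ↔ i ∈ M' := by
            rw [mem_union, mem_map' κ]
            simp [h1]
          simp only [h4]
        · intro e he
          rw [hmarg, inc, if_pos (mem_union_left _ he)]
        · intro e he1 he2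
          rw [hmarg, inc, if_neg]
          intro h
          rcases mem_union.1 h with h | h
          · exact he1 h
          · obtain ⟨i, _, rfl⟩ := Finset.mem_map.1 h
            exact he2 (hκmem i)
      · intro y1 hy1 y2 hy2 a c ha hc hac
        obtain ⟨b1, hb1, p1, p2, p3⟩ := hy1
        obtain ⟨b2, hb2, r1, r2, r3⟩ := hy2
        have hac' : a = 1 - c := by linarith
        subst hac'
        have hm : ∀ e, marg inc (fun M => (1 - c) * b1 M + c * b2 M) e
            = (1 - c) * marg inc b1 e + c * marg inc b2 e := by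
          intro e
          unfold marg
          rw [mul_sum, mul_sum, ← sum_add_distrib]
          exact sum_congr rfl fun ω _ => by ring
        refine ⟨_, law_convex hb1 hb2 hc (by linarith), ?_, ?_, ?_⟩
        · intro i
          rw [hm, p1, r1]; simp
        · intro e he
          rw [hm, p2 e he, r2 e he]; ring
        · intro e he1 he2
          rw [hm, p3 e he1 he2, r3 e he1 he2]; ring
    intro y hy
    exact hsub hy
  -- directions
  have hdir : ∀ h ∈ pmDirections ends' x',
      Function.extend κ h 0 ∈ LinearMap.range (cov inc q).mulVecLin := by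
    rintro h ⟨ε, hε, hεt⟩
    have ht1 : |ε / 2| < ε := by rw [abs_of_pos (by linarith)]; linarith
    have ht2 : |(-(ε / 2))| < ε := by rw [abs_neg]; exact ht1
    obtain ⟨b, hb, p1, p2, p3⟩ := hlaw _ (hεt _ ht1)
    obtain ⟨c, hc, r1, r2, r3⟩ := hlaw _ (hεt _ ht2)
    have hsum : ∀ e, marg inc b e + marg inc c e = 2 * marg inc q e := by
      intro e
      by_cases h1 : e ∈ F
      · rw [p2 e h1, r2 e h1, show marg inc q e = 1 from (mem_filter.1 h1).2]; norm_num
      · by_cases h2 : e ∈ E1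
        · obtain ⟨i, rfl⟩ := hκsurj e h2
          rw [p1, r1]
          simp only [Pi.add_apply, Pi.smul_apply, smul_eq_mul, hx', hx]
          ring
        · rw [p3 e h1 h2, r3 e h1 h2, show marg inc q e = 0 from hx0 e h1 h2]; norm_num
    have hsup : ∀ M, b M ≠ 0 → q M ≠ 0 := fun M hM => support_of_pert hq hb hc hsum hM
    have hmem := sub_marg_mem_range (A := inc) hq.1 hb hsup
    have heq : Function.extend κ h 0 = (ε / 2)⁻¹ • (marg inc b - marg inc q) := by
      funext e
      simp only [Pi.smul_apply, Pi.sub_apply, smul_eq_mul]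
      by_cases h1 : e ∈ E1
      · obtain ⟨i, rfl⟩ := hκsurj e h1
        rw [κ.injective.extend_apply, p1]
        simp only [Pi.add_apply, Pi.smul_apply, smul_eq_mul, hx', hx]
        field_simp
        ring
      · rw [Function.extend_apply']
        · by_cases h2 : e ∈ F
          · rw [p2 e h2, show marg inc q e = 1 from (mem_filter.1 h2).2]; simp
          · rw [p3 e h2 h1, show marg inc q e = 0 from hx0 e h2 h1]; simp
        · rintro ⟨i, rfl⟩
          exact h1 (hκmem i)
    rw [heq]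
    exact Submodule.smul_mem _ _ hmem
  have hdim : pmFaceDim ends' x' ≤ (cov inc q).rank :=
    finrank_span_le_rank (ι := Fin k') (E := Fin k) (cov inc q) (⇑κ) κ.injective
      (pmDirections ends' x') hdir
  have h66' := h66 m' hm'1 k' ends' hloop x' hx'mem
  have hall : (univ.filter fun i => 0 < x' i) = univ := by
    rw [filter_eq_self]
    intro i _
    exact (mem_filter.1 (hκmem i)).2.1
  rw [hall, card_univ, Fintype.card_fin] at h66'
  omega

end Crest.Agent.R304.EntF
end

-- ▼ part R304/EntG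

/-!
R304 / S0465: file G (the entropy bound S0465, with the statement of S0466 as hypothesis).
-/

set_option autoImplicit false

namespace Crest.Agent.R304.EntG

open Finset Filter Topology Crest.Agent.R304.EntA Crest.Agent.R304.EntB Crest.Agent.R304.EntC
  Crest.Agent.R304.EntD Crest.Agent.R304.EntE Crest.Agent.R304.EntF Crest.Matchings

theorem marg_inc {k : ℕ} (p : Finset (Fin k) → ℝ) (e : Fin k) : marg inc p e = marginal p e := by
  classical
  unfold marg marginal inc
  rw [sum_filter]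
  exact sum_congr rfl fun M _ => by split_ifs <;> simp


theorem sum_inc {k : ℕ} (M : Finset (Fin k)) : ∑ e, inc M e = M.card := by
  classical
  unfold inc
  rw [sum_boole]; simp

theorem dot_inc {m k : ℕ} (hm : 1 ≤ m) (ends : Fin k → Fin (2 * m) × Fin (2 * m))
    (hends : ∀ e, (ends e).1 ≠ (ends e).2) {M : Finset (Fin k)} (hM : M ∈ PMs ends) :
    dot inc (fun _ => 1 / (m : ℝ)) M = 1 := by
  unfold dot
  rw [← mul_sum, sum_inc, card_pm ends hends hM]
  have : (m : ℝ) ≠ 0 := by positivity
  field_simp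

theorem sum_marg {m k : ℕ} (ends : Fin k → Fin (2 * m) × Fin (2 * m))
    (hends : ∀ e, (ends e).1 ≠ (ends e).2) {q : Finset (Fin k) → ℝ} (hq : q ∈ Law (PMs ends)) :
    ∑ e, marg inc q e = m := by
  have h1 := sum_dot (inc (k := k)) (fun _ => 1) q
  simp only [one_mul] at h1
  rw [← h1]
  have h2 : ∀ M ∈ (univ : Finset (Finset (Fin k))), q M * dot inc (fun _ => 1) M = q M * m := by
    intro M _
    by_cases h : q M = 0
    · simp [h]
    · have : dot inc (fun _ => (1:ℝ)) M = m := by
        unfold dot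
        simp only [one_mul]
        rw [sum_inc, card_pm ends hends (hq.2.2 M h)]
      rw [this]
  rw [sum_congr rfl h2, ← sum_mul, hq.2.1, one_mul]

theorem H_nonneg {k : ℕ} {P : Set (Finset (Fin k))} {q : Finset (Fin k) → ℝ} (hq : q ∈ Law P) :
    0 ≤ H q := by
  unfold H
  refine sum_nonneg fun ω _ => Real.negMulLog_nonneg (hq.1 ω) ?_
  rw [← hq.2.1]
  exact single_le_sum (fun i _ => hq.1 i) (mem_univ ω)

theorem phi_le_of_gt (h66 : S0466stmt) {m k : ℕ} (hm : 1 ≤ m)
    (ends : Fin k → Fin (2 * m) × Fin (2 * m)) (hends : ∀ e, (ends e).1 ≠ (ends e).2)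
    {p q₀ : Finset (Fin k) → ℝ} (hp : p ∈ Law (PMs ends)) (hq₀ : IsMaxEnt (PMs ends) inc p q₀)
    {c : ℝ} (hc : 2 - 2 / (m : ℝ) < c) : phi c (marg inc p) ≤ H q₀ := by
  classical
  by_contra hcon
  push Not at hcon
  obtain ⟨q, hq, hqle, hmin⟩ := exists_min (PMs ends) inc (phi c) (continuous_phi c) hp hq₀
  have hneg : H q - phi c (marg inc q) < 0 := by linarith
  have hA : ∀ (M : Finset (Fin k)) (e : Fin k), 0 ≤ inc M e ∧ inc M e ≤ 1 := fun M e => by
    rcases inc_zero_or_one M e with h | h <;> rw [h] <;> norm_num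
  have hx01 : ∀ e, 0 ≤ marg inc q e ∧ marg inc q e ≤ 1 := marg_mem hq.1 hA
  have hrank := rank_le hq inc_zero_or_one (fun M hM => dot_inc hm ends hends hM) c hmin
  have hsum := sum_marg ends hends hq.1
  set F : Finset (Fin k) := univ.filter fun e => marg inc q e = 1 with hF
  set E1 : Finset (Fin k) := univ.filter fun e => 0 < marg inc q e ∧ marg inc q e < 1 with hE1
  set s := ∑ e ∈ E1, marg inc q e with hs
  have hsplit : (m : ℝ) = F.card + s := by
    rw [← hsum, ← sum_filter_add_sum_filter_not univ (fun e => marg inc q e = 1)]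
    congr 1
    · rw [sum_congr rfl fun e he => (mem_filter.1 he).2]; simp [hF]
    · rw [hs]
      symm
      refine sum_subset ?_ ?_
      · intro e he
        have := (mem_filter.1 he).2.2
        exact mem_filter.2 ⟨mem_univ _, this.ne⟩
      · intro e he1 he2
        by_contra h3
        apply he2
        exact mem_filter.2 ⟨mem_univ _, lt_of_le_of_ne (hx01 e).1 (Ne.symm h3),
          lt_of_le_of_ne (hx01 e).2 (mem_filter.1 he1).2⟩
  have hs0 : 0 ≤ s := sum_nonneg fun e _ => (hx01 e).1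
  have hFm : F.card ≤ m := by
    have : (F.card : ℝ) ≤ m := by linarith
    exact_mod_cast this
  rcases eq_or_lt_of_le hFm with hFe | hFl
  · -- all marginals are 0 or 1
    have hs1 : s = 0 := by
      have : (F.card : ℝ) = m := by exact_mod_cast hFe
      linarith
    have hE1e : ∀ e, marg inc q e = 0 ∨ marg inc q e = 1 := by
      intro e
      by_contra h
      push Not at h
      have he : e ∈ E1 := mem_filter.2 ⟨mem_univ _, lt_of_le_of_ne (hx01 e).1 (Ne.symm h.1),
        lt_of_le_of_ne (hx01 e).2 h.2⟩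
      have h1 := (sum_eq_zero_iff_of_nonneg (fun e _ => (hx01 e).1)).1 hs1 e he
      exact h.1 h1
    have hphi : phi c (marg inc q) = 0 := by
      unfold phi
      have h1 : ∑ e, Real.negMulLog (marg inc q e) = 0 := sum_eq_zero fun e _ => by
        rcases hE1e e with h | h <;> rw [h] <;> simp
      have h2 : ∑ e, Real.negMulLog (1 - marg inc q e) = 0 := sum_eq_zero fun e _ => by
        rcases hE1e e with h | h <;> rw [h] <;> simp
      rw [h1, h2]; ring
    have := H_nonneg hq.1
    linarith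
  · obtain ⟨m', hm'⟩ := Nat.exists_eq_add_of_lt hFl
    have hm'2 : m = (m' + 1) + F.card := by omega
    have hge := rank_ge h66 ends hends hq (m' := m' + 1) (by omega) hm'2
    have hge' : (E1.card : ℝ) ≤ ((cov inc q).rank : ℝ) + 3 * ((m' + 1 : ℕ) : ℝ) - 2 := by
      exact_mod_cast hge
    have hsm : s = ((m' + 1 : ℕ) : ℝ) := by
      have : (m : ℝ) = ((m' + 1 : ℕ) : ℝ) + F.card := by exact_mod_cast hm'2
      linarith
    have hr2 : ∑ e ∈ E1, (1 - (1 + c) * marg inc q e) = E1.card - (1 + c) * s := by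
      rw [sum_sub_distrib, ← mul_sum]; simp [hs]
    rw [hr2, hsm] at hrank
    set t : ℝ := ((m' + 1 : ℕ) : ℝ) with ht
    have ht0 : 0 < t := by rw [ht]; positivity
    have htm : t ≤ m := by
      rw [ht]; exact_mod_cast (by omega : m' + 1 ≤ m)
    have h1 : (1 + c) * t ≤ 3 * t - 2 := by linarith
    have hm0 : (0:ℝ) < m := by positivity
    have h2 : 2 / (m:ℝ) ≤ 2 / t := div_le_div_of_nonneg_left (by norm_num) ht0 htm
    have h3 : (2 - 2 / t) * t < c * t := by
      apply mul_lt_mul_of_pos_right _ ht0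
      linarith
    have h4 : (2 - 2 / t) * t = 2 * t - 2 := by field_simp
    rw [h4] at h3
    linarith

theorem s0465_of_s0466 (h66 : S0466stmt) (m : ℕ) (hm : 1 ≤ m) (k : ℕ)
    (ends : Fin k → Fin (2 * m) × Fin (2 * m)) (hends : ∀ e, (ends e).1 ≠ (ends e).2)
    (p : Finset (Fin k) → ℝ) (hp : IsMatchingLaw ends p) :
    ∃ q : Finset (Fin k) → ℝ, IsMatchingLaw ends q ∧ (∀ e, marginal q e = marginal p e) ∧
      ∑ e, Real.negMulLog (marginal p e) - (2 - 2 / (m : ℝ)) * ∑ e, Real.negMulLog (1 - marginal p e)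
        ≤ lawEntropy q := by
  have hp' : p ∈ Law (PMs ends) := hp
  obtain ⟨q₀, hq₀⟩ := exists_maxEnt (PMs ends) inc hp'
  refine ⟨q₀, hq₀.1, fun e => ?_, ?_⟩
  · rw [← marg_inc, ← marg_inc, hq₀.2.1]
  · have hm1 : ∀ e, marginal p e = marg inc p e := fun e => (marg_inc p e).symm
    simp only [hm1]
    change phi (2 - 2 / (m : ℝ)) (marg inc p) ≤ H q₀
    set B := ∑ e, Real.negMulLog (1 - marg inc p e) with hB
    refine le_of_forall_pos_le_add fun ε hε => ?_
    have hB0 : 0 < |B| + 1 := by positivity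
    have hc : 2 - 2 / (m : ℝ) < 2 - 2 / (m : ℝ) + ε / (|B| + 1) := by
      have : 0 < ε / (|B| + 1) := by positivity
      linarith
    have h1 := phi_le_of_gt h66 hm ends hends hp' hq₀ hc
    have h2 : phi (2 - 2 / (m : ℝ)) (marg inc p)
        = phi (2 - 2 / (m : ℝ) + ε / (|B| + 1)) (marg inc p) + ε / (|B| + 1) * B := by
      unfold phi; rw [← hB]; ring
    have h3 : ε / (|B| + 1) * B ≤ ε := by
      have h4 : ε / (|B| + 1) * B ≤ ε / (|B| + 1) * (|B| + 1) := by
        apply mul_le_mul_of_nonneg_left _ (by positivity)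
        have := le_abs_self B
        linarith
      rwa [div_mul_cancel₀ _ hB0.ne'] at h4
    rw [h2]
    linarith

end Crest.Agent.R304.EntG
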