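import Mathlib

/-!
# R304 / S0464, block L4: population of replicas (interface)

`Ω` is an arbitrary finite type (later: perfect matchings of `K_n`).  `π` is a positive weight of
total mass one, `K` a kernel on pairs, `popK` the kernel on `Fin k → Ω` which applies `K` to a
uniformly random ordered pair of distinct coordinates.
-/

set_option autoImplicit false

noncomputable section

namespace Crest.Agent.R304.Pop

open Finset

/-- A kernel on pairs which is reversible and positive semidefinite for `π × π` and whose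
Dirichlet form on the functions `f(x) + f(y)` dominates `2 γ Var_π f`. -/
structure GoodKernel {Ω : Type*} [Fintype Ω] (π : Ω → ℝ) (K : Ω × Ω → Ω × Ω → ℝ) (γ : ℝ) :
    Prop where
  nonneg : ∀ z z', 0 ≤ K z z'
  sum_one : ∀ z, ∑ z', K z z' = 1
  rev : ∀ z z', π z.1 * π z.2 * K z z' = π z'.1 * π z'.2 * K z' z
  psd : ∀ φ : Ω × Ω → ℝ, 0 ≤ ∑ z, ∑ z', π z.1 * π z.2 * K z z' * φ z * φ z'
  gap : ∀ f : Ω → ℝ, ∑ a, π a * f a = 0 →
    2 * γ * ∑ a, π a * f a ^ 2 ≤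
      (1 / 2) * ∑ z : Ω × Ω, ∑ z' : Ω × Ω,
        π z.1 * π z.2 * K z z' * ((f z.1 + f z.2) - (f z'.1 + f z'.2)) ^ 2

/-- Product weight of a population. -/
def prodW {Ω : Type*} {k : ℕ} (π : Ω → ℝ) (x : Fin k → Ω) : ℝ := ∏ i, π (x i)

open Classical in
/-- The pair kernel acting on the coordinates `p` and `q`. -/
def pairK {Ω : Type*} {k : ℕ} (K : Ω × Ω → Ω × Ω → ℝ) (p q : Fin k) (x y : Fin k → Ω) : ℝ :=
  if ∀ i, i ≠ p → i ≠ q → y i = x i then K (x p, x q) (y p, y q) else 0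

/-- The population kernel: apply `K` to a uniformly random ordered pair of distinct replicas. -/
def popK {Ω : Type*} {k : ℕ} (K : Ω × Ω → Ω × Ω → ℝ) (x y : Fin k → Ω) : ℝ :=
  (∑ p, ∑ q, if p ≠ q then pairK K p q x y else 0) / ((k : ℝ) * ((k : ℝ) - 1))

/-- One step of the evolution of a law under a kernel. -/
def push {X : Type*} [Fintype X] (P : X → X → ℝ) (ν : X → ℝ) (y : X) : ℝ := ∑ x, ν x * P x y

/-- The annealed law: start from `π 0 ^ k`, in stage `s = 1, ..., T` apply `τ` times the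
population kernel of `K s`. -/
def annLaw {Ω : Type*} [Fintype Ω] [DecidableEq Ω] (k τ : ℕ) (π : ℕ → Ω → ℝ)
    (K : ℕ → Ω × Ω → Ω × Ω → ℝ) : ℕ → (Fin k → Ω) → ℝ
  | 0 => prodW (π 0)
  | s + 1 => (push (popK (K (s + 1))))^[τ] (annLaw k τ π K s)



/-- INTERFACE of block L4. -/
def PopAnneal : Prop :=
  ∀ {Ω : Type} [Fintype Ω] [DecidableEq Ω] (k τ T : ℕ) (γ ε : ℝ) (π : ℕ → Ω → ℝ)
    (K : ℕ → Ω × Ω → Ω × Ω → ℝ),
    0 < γ → γ ≤ 1 → 6400 ≤ γ ^ 2 * k → 0 ≤ ε → k * ε ^ 2 ≤ 1 →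
    (∀ s ≤ T, ∀ a, 0 < π s a) → (∀ s ≤ T, ∑ a, π s a = 1) →
    (∀ s, 1 ≤ s → s ≤ T → GoodKernel (π s) (K s) γ) →
    (∀ s < T, ∀ a, |π s a / π (s + 1) a - 1| ≤ ε) →
    ∑ x : Fin k → Ω, |annLaw k τ π K T x - prodW (π T) x| ≤
      T * (((1 - γ / (4 * k)) ^ τ + 160 / (k * γ ^ 2)) * (√k * ε) + k * ε ^ 2)

end Crest.Agent.R304.Pop
end
private theorem rz_0f67bf6f84 : type_of% @_root_.Crest.Agent.R304.Pop.annLaw.eq_def := @_root_.Crest.Agent.R304.Pop.annLaw.eq_def -- L49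
private theorem rz_1fdb62b45d : type_of% @_root_.Crest.Agent.R304.Pop.annLaw.eq_1 := @_root_.Crest.Agent.R304.Pop.annLaw.eq_1 -- L49
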