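import Crest.Agent.R304.GK922
import Crest.Agent.R304.L6Law

/-!
# R304 / S0464: interpolated (fine) tables between well conditioned macro tables
-/

set_option autoImplicit false
set_option linter.unusedSectionVars false

noncomputable section

namespace Crest.Agent.R304.Fine922

open Finset Lab922 Good922 GK922

variable {n : ℕ}

/-! ### comparison of weights -/

theorem wt_le {lam lam' : Fin n → Fin n → ℝ} {c : ℝ} (h0 : ∀ u v, 0 < lam u v)
    (h : ∀ u v, lam u v ≤ c * lam' u v) (s : Mov.Om (Fin n)) :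
    Br.wt lam s.1 ≤ c ^ (n / 2) * Br.wt lam' s.1 := by
  unfold Br.wt
  rw [← Br.card_low s, ← Finset.prod_const, ← Finset.prod_mul_distrib]
  exact Finset.prod_le_prod (fun v _ => (h0 _ _).le) (fun v _ => h _ _)

theorem Zw_le {lam lam' : Fin n → Fin n → ℝ} {c : ℝ} (h0 : ∀ u v, 0 < lam u v)
    (h : ∀ u v, lam u v ≤ c * lam' u v) :
    Br.Zw lam ≤ c ^ (n / 2) * Br.Zw lam' := by
  unfold Br.Zw
  rw [Finset.mul_sum]
  exact Finset.sum_le_sum fun s _ => wt_le h0 h s

theorem Zw_pos {lam : Fin n → Fin n → ℝ} (hev : Even n) (h0 : ∀ u v, 0 < lam u v) :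
    0 < Br.Zw lam := by
  have := nonempty_Om hev
  exact Finset.sum_pos (fun s _ => Br.wt_pos h0 _) univ_nonempty

/-- well conditioned tables -/
def WC (q : ℝ) (lam : Fin n → Fin n → ℝ) : Prop :=
  ∀ u v, u ≠ v →
    Br.Zw lam ≤ q * ∑ s : Mov.Om (Fin n), (if s.1 u = v then Br.wt lam s.1 else 0)


theorem WC.of_ratio {lam lam' : Fin n → Fin n → ℝ} {q c d B : ℝ}
    (h0 : ∀ u v, 0 < lam u v) (h0' : ∀ u v, 0 < lam' u v) (hq : 0 ≤ q)
    (h : ∀ u v, lam' u v ≤ c * lam u v) (h' : ∀ u v, lam u v ≤ d * lam' u v)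
    (hc : 0 ≤ c) (hB : (c * d) ^ (n / 2) ≤ B) (wc : WC q lam) : WC (q * B) lam' := by
  intro u v huv
  have h1 := Zw_le (n := n) h0' h
  have h2 := wc u v huv
  have h3 : ∑ s : Mov.Om (Fin n), (if s.1 u = v then Br.wt lam s.1 else 0) ≤
      d ^ (n / 2) * ∑ s : Mov.Om (Fin n), (if s.1 u = v then Br.wt lam' s.1 else 0) := by
    rw [Finset.mul_sum]
    refine Finset.sum_le_sum fun s _ => ?_
    split_ifs
    · exact wt_le h0 h' s
    · simp
  have hS : 0 ≤ ∑ s : Mov.Om (Fin n), (if s.1 u = v then Br.wt lam' s.1 else 0) :=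
    Finset.sum_nonneg fun s _ => by
      split_ifs
      · exact (Br.wt_pos h0' _).le
      · exact le_rfl
  calc Br.Zw lam' ≤ c ^ (n / 2) * Br.Zw lam := h1
    _ ≤ c ^ (n / 2) * (q * ∑ s : Mov.Om (Fin n), (if s.1 u = v then Br.wt lam s.1 else 0)) := by
        gcongr
    _ ≤ c ^ (n / 2) * (q * (d ^ (n / 2) *
          ∑ s : Mov.Om (Fin n), (if s.1 u = v then Br.wt lam' s.1 else 0))) := by
        gcongr
    _ = q * (c * d) ^ (n / 2) *
          ∑ s : Mov.Om (Fin n), (if s.1 u = v then Br.wt lam' s.1 else 0) := by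
        rw [mul_pow]; ring
    _ ≤ _ := by gcongr

/-! ### densities -/

theorem law_eq (lam : Fin n → Fin n → ℝ) (s : Mov.Om (Fin n)) :
    GoodK.law (wo lam) s = Br.wt lam s.1 / Br.Zw lam := rfl

theorem law_smul {lam : Fin n → Fin n → ℝ} {c : ℝ} (hc : 0 < c) :
    GoodK.law (wo fun u v => c * lam u v) = GoodK.law (wo lam) := by
  have h1 : ∀ s : Mov.Om (Fin n), Br.wt (fun u v => c * lam u v) s.1 =
      c ^ (n / 2) * Br.wt lam s.1 := by
    intro s
    unfold Br.wt
    rw [← Br.card_low s, ← Finset.prod_const, ← Finset.prod_mul_distrib]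
  have h2 : Br.Zw (fun u v => c * lam u v) = c ^ (n / 2) * Br.Zw lam := by
    unfold Br.Zw
    rw [Finset.mul_sum]
    exact Finset.sum_congr rfl fun s _ => h1 s
  funext s
  rw [law_eq, law_eq, h1, h2, mul_div_mul_left _ _ (pow_pos hc _).ne']

/-- density of two tables with ratio within `1 + δ` -/
theorem law_ratio {lam lam' : Fin n → Fin n → ℝ} {δ : ℝ} (hev : Even n)
    (h0 : ∀ u v, 0 < lam u v) (h0' : ∀ u v, 0 < lam' u v) (hδ : 0 ≤ δ) (hnδ : n * δ ≤ 1)
    (h : ∀ u v, lam u v ≤ (1 + δ) * lam' u v) (h' : ∀ u v, lam' u v ≤ (1 + δ) * lam u v)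
    (s : Mov.Om (Fin n)) :
    |GoodK.law (wo lam) s / GoodK.law (wo lam') s - 1| ≤ 2 * (n * δ) := by
  have hZ := Zw_pos (n := n) hev h0
  have hZ' := Zw_pos (n := n) hev h0'
  have hw : 0 < Br.wt lam s.1 := Br.wt_pos h0 _
  have hw' : 0 < Br.wt lam' s.1 := Br.wt_pos h0' _
  have a1 := wt_le (n := n) h0 h s
  have a2 := wt_le (n := n) h0' h' s
  have a3 := Zw_le (n := n) h0 h
  have a4 := Zw_le (n := n) h0' h'
  set P : ℝ := (1 + δ) ^ (n / 2) with hP
  have hP0 : 0 < P := by positivity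
  have hPP : P * P ≤ 1 + 2 * (n * δ) := by
    rw [hP, ← pow_add]
    have e : n / 2 + n / 2 = n := by
      obtain ⟨k, hk⟩ := hev; omega
    rw [e]
    have e1 : (1 + δ) ^ n ≤ Real.exp (n * δ) := by
      rw [Real.exp_nat_mul]
      refine pow_le_pow_left₀ (by linarith) ?_ n
      linarith [Real.add_one_le_exp δ]
    have e2 : |Real.exp (n * δ) - 1| ≤ 2 * |(n : ℝ) * δ| :=
      Real.abs_exp_sub_one_le (by rw [abs_of_nonneg (by positivity)]; exact hnδ)
    rw [abs_of_nonneg (show (0 : ℝ) ≤ n * δ by positivity)] at e2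
    linarith [(abs_le.1 e2).2]
  have hx : GoodK.law (wo lam) s / GoodK.law (wo lam') s =
      (Br.wt lam s.1 * Br.Zw lam') / (Br.wt lam' s.1 * Br.Zw lam) := by
    rw [law_eq, law_eq]
    field_simp
  have hD : 0 < Br.wt lam' s.1 * Br.Zw lam := by positivity
  have hN : 0 < Br.wt lam s.1 * Br.Zw lam' := by positivity
  have hup : (Br.wt lam s.1 * Br.Zw lam') / (Br.wt lam' s.1 * Br.Zw lam) ≤ P * P := by
    rw [div_le_iff₀ hD]
    calc Br.wt lam s.1 * Br.Zw lam' ≤ (P * Br.wt lam' s.1) * (P * Br.Zw lam) :=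
          mul_le_mul a1 a4 hZ'.le (by positivity)
      _ = P * P * (Br.wt lam' s.1 * Br.Zw lam) := by ring
  have hlo : 1 / (P * P) ≤ (Br.wt lam s.1 * Br.Zw lam') / (Br.wt lam' s.1 * Br.Zw lam) := by
    rw [div_le_div_iff₀ (by positivity) hD, one_mul]
    calc Br.wt lam' s.1 * Br.Zw lam ≤ (P * Br.wt lam s.1) * (P * Br.Zw lam') :=
          mul_le_mul a2 a3 hZ.le (by positivity)
      _ = Br.wt lam s.1 * Br.Zw lam' * (P * P) := by ring
  rw [hx, abs_le]
  have hx0 : 0 ≤ (n : ℝ) * δ := by positivity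
  constructor
  · have h5 : 1 - 2 * (n * δ) ≤ 1 / (P * P) := by
      rw [le_div_iff₀ (by positivity)]
      by_cases hneg : 1 - 2 * ((n : ℝ) * δ) ≤ 0
      · have : (1 - 2 * ((n : ℝ) * δ)) * (P * P) ≤ 0 :=
          mul_nonpos_of_nonpos_of_nonneg hneg (by positivity)
        linarith
      · push Not at hneg
        calc (1 - 2 * ((n : ℝ) * δ)) * (P * P) ≤
            (1 - 2 * ((n : ℝ) * δ)) * (1 + 2 * (n * δ)) := by gcongr
          _ ≤ 1 := by nlinarith [sq_nonneg ((n : ℝ) * δ)]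
    linarith
  · linarith

/-! ### fine tables -/

/-- interpolation of macro tables -/
def fine (Lm : ℕ → Fin n → Fin n → ℝ) (H i : ℕ) (u v : Fin n) : ℝ :=
  ((H - (i % H + 1) : ℕ) : ℝ) * Lm (i / H) u v + ((i % H + 1 : ℕ) : ℝ) * Lm (i / H + 1) u v

/-- hypotheses on the macro tables up to time `T` -/
structure Macro (n m T : ℕ) (q : ℝ) (Lm : ℕ → Fin n → Fin n → ℝ) : Prop where
  even : Even n
  three : 3 ≤ n
  m_le : 2 * n ≤ m
  q_ge : 1 ≤ q
  pos : ∀ t ≤ T, ∀ u v, 0 < Lm t u v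
  symm : ∀ t ≤ T, ∀ u v, Lm t u v = Lm t v u
  up : ∀ t < T, ∀ u v, Lm (t + 1) u v ≤ (1 + 1 / (m : ℝ)) * Lm t u v
  down : ∀ t < T, ∀ u v, Lm t u v ≤ (1 + 1 / (m : ℝ)) * Lm (t + 1) u v
  wc : ∀ t ≤ T, WC q (Lm t)

variable {m T : ℕ} {q : ℝ} {Lm : ℕ → Fin n → Fin n → ℝ}

section mix

/-- convex mixtures -/
def mixT (a b : ℝ) (L0 L1 : Fin n → Fin n → ℝ) (u v : Fin n) : ℝ := a * L0 u v + b * L1 u v

variable {L0 L1 : Fin n → Fin n → ℝ} {a b r : ℝ}

theorem mix_pos (h0 : ∀ u v, 0 < L0 u v) (h1 : ∀ u v, 0 < L1 u v) (ha : 0 ≤ a) (hb : 0 ≤ b)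
    (hab : 0 < a + b) (u v : Fin n) : 0 < mixT a b L0 L1 u v := by
  unfold mixT
  rcases ha.lt_or_eq with h | h
  · have := mul_pos h (h0 u v)
    have := mul_nonneg hb (h1 u v).le
    linarith
  · have hb' : 0 < b := by linarith
    have := mul_pos hb' (h1 u v)
    have := mul_nonneg ha (h0 u v).le
    linarith

theorem mix_le_left (h01 : ∀ u v, L1 u v ≤ r * L0 u v) (h0 : ∀ u v, 0 < L0 u v)
    (hr : 1 ≤ r) (ha : 0 ≤ a) (hb : 0 ≤ b) (u v : Fin n) :
    mixT a b L0 L1 u v ≤ ((a + b) * r) * L0 u v := by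
  unfold mixT
  have e1 := mul_le_mul_of_nonneg_left (h01 u v) hb
  have e2 : a * L0 u v ≤ a * (r * L0 u v) := by
    apply mul_le_mul_of_nonneg_left _ ha
    nlinarith [h0 u v]
  nlinarith

theorem left_le_mix (h10 : ∀ u v, L0 u v ≤ r * L1 u v) (h0 : ∀ u v, 0 < L0 u v)
    (hr : 1 ≤ r) (ha : 0 ≤ a) (hb : 0 ≤ b) (hab : 0 < a + b) (u v : Fin n) :
    L0 u v ≤ (r / (a + b)) * mixT a b L0 L1 u v := by
  unfold mixT
  rw [div_mul_eq_mul_div, le_div_iff₀ hab]
  have e1 := mul_le_mul_of_nonneg_left (h10 u v) hb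
  have e2 : a * L0 u v ≤ a * (r * L0 u v) := by
    apply mul_le_mul_of_nonneg_left _ ha
    nlinarith [h0 u v]
  nlinarith

theorem mix_swap (u v : Fin n) : mixT a b L0 L1 u v = mixT b a L1 L0 u v := by
  unfold mixT; ring

/-- one interpolation step moves the table by a factor at most `1 + r (r-1)/(a+b)` -/
theorem mix_step (h01 : ∀ u v, L1 u v ≤ r * L0 u v) (h10 : ∀ u v, L0 u v ≤ r * L1 u v)
    (h0 : ∀ u v, 0 < L0 u v) (h1 : ∀ u v, 0 < L1 u v) (hr : 1 ≤ r) (ha : 0 ≤ a) (hb : 0 ≤ b)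
    (u v : Fin n) :
    mixT a (b + 1) L0 L1 u v ≤ (1 + r * (r - 1) / (a + b + 1)) * mixT (a + 1) b L0 L1 u v ∧
      mixT (a + 1) b L0 L1 u v ≤ (1 + r * (r - 1) / (a + b + 1)) * mixT a (b + 1) L0 L1 u v := by
  have hs : 0 < a + b + 1 := by linarith
  have f1 := left_le_mix (a := a + 1) (b := b) h10 h0 hr (by linarith) hb (by linarith) u v
  have f2 := left_le_mix (L0 := L1) (L1 := L0) (a := b + 1) (b := a) h01 h1 hr (by linarith) ha
    (by linarith) u v
  rw [mix_swap] at f2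
  have g1 : mixT a (b + 1) L0 L1 u v = mixT (a + 1) b L0 L1 u v + (L1 u v - L0 u v) := by
    unfold mixT; ring
  have e1 := h01 u v
  have e2 := h10 u v
  have r0 : 0 ≤ r - 1 := by linarith
  have k1 : (r - 1) * L0 u v ≤ (r - 1) * ((r / (a + 1 + b)) * mixT (a + 1) b L0 L1 u v) :=
    mul_le_mul_of_nonneg_left f1 r0
  have k2 : (r - 1) * L1 u v ≤ (r - 1) * ((r / (b + 1 + a)) * mixT a (b + 1) L0 L1 u v) :=
    mul_le_mul_of_nonneg_left f2 r0
  have s1 : (r - 1) * ((r / (a + 1 + b)) * mixT (a + 1) b L0 L1 u v) =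
      r * (r - 1) / (a + b + 1) * mixT (a + 1) b L0 L1 u v := by
    rw [show a + 1 + b = a + b + 1 by ring]; ring
  have s2 : (r - 1) * ((r / (b + 1 + a)) * mixT a (b + 1) L0 L1 u v) =
      r * (r - 1) / (a + b + 1) * mixT a (b + 1) L0 L1 u v := by
    rw [show b + 1 + a = a + b + 1 by ring]; ring
  rw [s1] at k1
  rw [s2] at k2
  constructor
  · calc mixT a (b + 1) L0 L1 u v = mixT (a + 1) b L0 L1 u v + (L1 u v - L0 u v) := g1
      _ ≤ mixT (a + 1) b L0 L1 u v + (r - 1) * L0 u v := by linarith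
      _ ≤ mixT (a + 1) b L0 L1 u v + r * (r - 1) / (a + b + 1) * mixT (a + 1) b L0 L1 u v := by
          linarith
      _ = _ := by ring
  · calc mixT (a + 1) b L0 L1 u v = mixT a (b + 1) L0 L1 u v + (L0 u v - L1 u v) := by
          rw [g1]; ring
      _ ≤ mixT a (b + 1) L0 L1 u v + (r - 1) * L1 u v := by linarith
      _ ≤ mixT a (b + 1) L0 L1 u v + r * (r - 1) / (a + b + 1) * mixT a (b + 1) L0 L1 u v := by
          linarith
      _ = _ := by ring

end mix

theorem fine_eq_mix (H i : ℕ) :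
    fine Lm H i = mixT ((H - (i % H + 1) : ℕ) : ℝ) ((i % H + 1 : ℕ) : ℝ) (Lm (i / H))
      (Lm (i / H + 1)) := rfl

theorem div_lt_of {H i t : ℕ} (hi : i < t * H) : i / H < t :=
  Nat.div_lt_of_lt_mul (by rwa [mul_comm] at hi)

theorem coef_sum {H i : ℕ} (hH : 0 < H) :
    ((H - (i % H + 1) : ℕ) : ℝ) + ((i % H + 1 : ℕ) : ℝ) = H := by
  have : i % H + 1 ≤ H := Nat.mod_lt _ hH
  rw [Nat.cast_sub this]; ring

theorem r_ge (m : ℕ) : (1 : ℝ) ≤ 1 + 1 / (m : ℝ) := by
  have : (0 : ℝ) ≤ 1 / (m : ℝ) := by positivity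
  linarith

/-- `(1 + 1/m)^n ≤ 2` -/
theorem r_pow_le (hm : 2 * n ≤ m) (h3 : 3 ≤ n) : (1 + 1 / (m : ℝ)) ^ n ≤ 2 := by
  have hm0 : (0 : ℝ) < m := by exact_mod_cast (by omega : 0 < m)
  have h1 : (n : ℝ) * (1 / (m : ℝ)) ≤ 1 / 2 := by
    rw [mul_one_div, div_le_div_iff₀ hm0 (by norm_num)]
    have : (2 * n : ℝ) ≤ m := by exact_mod_cast hm
    linarith
  have h2 : (1 + 1 / (m : ℝ)) ^ n ≤ Real.exp (n * (1 / (m : ℝ))) := by
    rw [Real.exp_nat_mul]
    refine pow_le_pow_left₀ (by positivity) ?_ n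
    linarith [Real.add_one_le_exp (1 / (m : ℝ))]
  have h0 : (0 : ℝ) ≤ (n : ℝ) * (1 / (m : ℝ)) := by positivity
  have h3 : |Real.exp (n * (1 / (m : ℝ))) - 1| ≤ 2 * |(n : ℝ) * (1 / (m : ℝ))| :=
    Real.abs_exp_sub_one_le (by rw [abs_of_nonneg h0]; linarith)
  rw [abs_of_nonneg h0] at h3
  linarith [(abs_le.1 h3).2]

namespace Macro

variable (M : Macro n m T q Lm)
include M

theorem m_pos : (0 : ℝ) < m := by
  have h1 := M.three
  have h2 := M.m_le
  exact_mod_cast (by omega : 0 < m)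

theorem fine_pos {H i : ℕ} (hH : 0 < H) (hi : i < T * H) (u v : Fin n) : 0 < fine Lm H i u v := by
  have ht := div_lt_of hi
  rw [fine_eq_mix]
  refine mix_pos (M.pos _ ht.le) (M.pos _ ht) (Nat.cast_nonneg _) (Nat.cast_nonneg _) ?_ u v
  rw [coef_sum hH]
  exact_mod_cast hH

theorem fine_symm {H i : ℕ} (hi : i < T * H) (u v : Fin n) :
    fine Lm H i u v = fine Lm H i v u := by
  have ht := div_lt_of hi
  unfold fine
  rw [M.symm _ ht.le u v, M.symm _ ht u v]

/-- the fine tables are well conditioned -/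
theorem fine_wc {H i : ℕ} (hH : 0 < H) (hi : i < T * H) : WC (q * 2) (fine Lm H i) := by
  have ht := div_lt_of hi
  have hs : (0 : ℝ) < ((H - (i % H + 1) : ℕ) : ℝ) + ((i % H + 1 : ℕ) : ℝ) := by
    rw [coef_sum hH]; exact_mod_cast hH
  have hq := M.q_ge
  refine WC.of_ratio (c := (((H - (i % H + 1) : ℕ) : ℝ) + ((i % H + 1 : ℕ) : ℝ)) *
      (1 + 1 / (m : ℝ)))
    (d := (1 + 1 / (m : ℝ)) / (((H - (i % H + 1) : ℕ) : ℝ) + ((i % H + 1 : ℕ) : ℝ)))
    (M.pos _ ht.le) (M.fine_pos hH hi) (by linarith) ?_ ?_ ?_ ?_ (M.wc _ ht.le)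
  · intro u v
    rw [fine_eq_mix]
    exact mix_le_left (M.up _ ht) (M.pos _ ht.le) (r_ge m) (Nat.cast_nonneg _) (Nat.cast_nonneg _) u v
  · intro u v
    rw [fine_eq_mix]
    exact left_le_mix (M.down _ ht) (M.pos _ ht.le) (r_ge m) (Nat.cast_nonneg _)
      (Nat.cast_nonneg _) hs u v
  · have := r_ge m
    positivity
  · have e : ((((H - (i % H + 1) : ℕ) : ℝ) + ((i % H + 1 : ℕ) : ℝ)) * (1 + 1 / (m : ℝ))) *
        ((1 + 1 / (m : ℝ)) / (((H - (i % H + 1) : ℕ) : ℝ) + ((i % H + 1 : ℕ) : ℝ))) =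
        (1 + 1 / (m : ℝ)) ^ 2 := by
      field_simp
    rw [e, ← pow_mul]
    have e2 : 2 * (n / 2) = n := by
      obtain ⟨k, hk⟩ := M.even; omega
    rw [e2]
    exact r_pow_le M.m_le M.three

/-- **(a)** every fine table has a good kernel -/
theorem fine_good {K : ℝ → ℝ} (hK : 0 < K (c0 n (q * 2))) (hL : ThmL n K) {H i : ℕ} (hH : 0 < H)
    (hi : i < T * H) :
    Pop.GoodKernel (GoodK.law (wo (fine Lm H i)))
      (GoodK.hb (GoodK.pw (wo (fine Lm H i))) (tauL (V := Fin n))) (gam n K (q * 2)) := by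
  have hq := M.q_ge
  exact good_of_wc (M.fine_pos hH hi) (M.fine_symm hi) M.three M.even (by linarith)
    (M.fine_wc hH hi) hK hL

theorem delta_bound {H : ℕ} (hH : 0 < H) :
    (1 + 1 / (m : ℝ)) * ((1 + 1 / (m : ℝ)) - 1) / (H : ℝ) ≤ 2 / (m * H) ∧
      (n : ℝ) * (2 / (m * H)) ≤ 1 := by
  have hm := M.m_pos
  have hH' : (1 : ℝ) ≤ H := by exact_mod_cast hH
  have h1 : (1 : ℝ) ≤ m := by
    have h1 := M.three
    have h2 := M.m_le
    exact_mod_cast (by omega : 1 ≤ m)
  constructor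
  · have e1 : 1 + 1 / (m : ℝ) ≤ 2 := by
      have : 1 / (m : ℝ) ≤ 1 := by rw [div_le_one hm]; exact h1
      linarith
    have e2 : (1 + 1 / (m : ℝ)) - 1 = 1 / m := by ring
    rw [e2]
    calc (1 + 1 / (m : ℝ)) * (1 / m) / H ≤ 2 * (1 / m) / H := by gcongr
      _ = 2 / (m * H) := by field_simp
  · rw [mul_div_assoc', div_le_one (by positivity)]
    have h2 : (2 * n : ℝ) ≤ m := by exact_mod_cast M.m_le
    nlinarith

/-- one interpolation step between macro tables `t` and `t+1` -/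
theorem mix_law {t H : ℕ} (ht : t < T) (hH : 0 < H) {a b : ℕ} (hab : a + b + 1 = H)
    (s : Mov.Om (Fin n)) :
    |GoodK.law (wo (mixT ((a + 1 : ℕ) : ℝ) (b : ℝ) (Lm t) (Lm (t + 1)))) s /
      GoodK.law (wo (mixT (a : ℝ) ((b + 1 : ℕ) : ℝ) (Lm t) (Lm (t + 1)))) s - 1| ≤
      4 * n / (m * H) := by
  obtain ⟨d1, d2⟩ := M.delta_bound hH
  have hstep := mix_step (a := (a : ℝ)) (b := (b : ℝ)) (M.up t ht) (M.down t ht) (M.pos t ht.le)
    (M.pos (t + 1) ht) (r_ge m) (Nat.cast_nonneg _) (Nat.cast_nonneg _)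
  have hab' : (a : ℝ) + b + 1 = H := by exact_mod_cast hab
  rw [hab'] at hstep
  have p1 := mix_pos (a := ((a + 1 : ℕ) : ℝ)) (b := (b : ℝ)) (M.pos t ht.le) (M.pos (t + 1) ht)
    (Nat.cast_nonneg _) (Nat.cast_nonneg _) (by push_cast; positivity)
  have p2 := mix_pos (a := (a : ℝ)) (b := ((b + 1 : ℕ) : ℝ)) (M.pos t ht.le) (M.pos (t + 1) ht)
    (Nat.cast_nonneg _) (Nat.cast_nonneg _) (by push_cast; positivity)
  have hδ : (0 : ℝ) ≤ 2 / (m * H) := by positivity
  have key := law_ratio (δ := 2 / (m * H)) M.even p1 p2 hδ d2 ?_ ?_ s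
  · refine key.trans (le_of_eq ?_)
    ring
  · intro u v
    have h2 := (hstep u v).2
    push_cast
    refine h2.trans ?_
    have hp := (p2 u v).le
    push_cast at hp
    exact mul_le_mul_of_nonneg_right (by linarith) hp
  · intro u v
    have h2 := (hstep u v).1
    push_cast
    refine h2.trans ?_
    have hp := (p1 u v).le
    push_cast at hp
    exact mul_le_mul_of_nonneg_right (by linarith) hp

/-- at the end of a macro step the fine table is proportional to the macro table -/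
theorem law_fine_last {t H : ℕ} (ht : 0 < t) (hH : 0 < H) :
    GoodK.law (wo (fine Lm H (t * H - 1))) = GoodK.law (wo (Lm t)) := by
  obtain ⟨t', rfl⟩ : ∃ t', t = t' + 1 := ⟨t - 1, by omega⟩
  have e1 : (t' + 1) * H - 1 = H * t' + (H - 1) := by
    have : (t' + 1) * H = H * t' + H := by ring
    omega
  have e2 : ((t' + 1) * H - 1) % H = H - 1 := by
    rw [e1, Nat.mul_add_mod, Nat.mod_eq_of_lt (by omega)]
  have e3 : ((t' + 1) * H - 1) / H = t' := by
    rw [e1, Nat.mul_add_div hH, Nat.div_eq_of_lt (by omega), add_zero]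
  have e4 : fine Lm H ((t' + 1) * H - 1) = fun u v => (H : ℝ) * Lm (t' + 1) u v := by
    funext u v
    unfold fine
    rw [e2, e3, Nat.sub_add_cancel (by omega), Nat.sub_self]
    simp
  rw [e4]
  exact law_smul (by exact_mod_cast hH)

/-- the first fine table against the first macro table -/
theorem fine_first {t H : ℕ} (ht : t < T) (hH : 0 < H) (s : Mov.Om (Fin n)) :
    |GoodK.law (wo (Lm t)) s / GoodK.law (wo (fine Lm H (t * H))) s - 1| ≤ 4 * n / (m * H) := by
  have h := M.mix_law (a := H - 1) (b := 0) ht hH (by omega) s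
  have e1 : GoodK.law (wo (mixT (((H - 1) + 1 : ℕ) : ℝ) ((0 : ℕ) : ℝ) (Lm t) (Lm (t + 1)))) =
      GoodK.law (wo (Lm t)) := by
    have : mixT (((H - 1) + 1 : ℕ) : ℝ) ((0 : ℕ) : ℝ) (Lm t) (Lm (t + 1)) =
        fun u v => (H : ℝ) * Lm t u v := by
      funext u v
      unfold mixT
      rw [Nat.sub_add_cancel hH]
      simp
    rw [this]
    exact law_smul (by exact_mod_cast hH)
  have e2 : mixT ((H - 1 : ℕ) : ℝ) ((0 + 1 : ℕ) : ℝ) (Lm t) (Lm (t + 1)) = fine Lm H (t * H) := by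
    rw [fine_eq_mix, Nat.mul_mod_left, Nat.mul_div_cancel _ hH]
  rw [e1, e2] at h
  exact h

/-- **(b)** consecutive fine tables -/
theorem fine_step {H i : ℕ} (hH : 0 < H) (hi : i + 1 < T * H) (s : Mov.Om (Fin n)) :
    |GoodK.law (wo (fine Lm H i)) s / GoodK.law (wo (fine Lm H (i + 1))) s - 1| ≤
      4 * n / (m * H) := by
  by_cases hmod : (i + 1) % H = 0
  · obtain ⟨t, ht⟩ := Nat.dvd_of_mod_eq_zero hmod
    have ht' : i + 1 = t * H := by rw [ht, mul_comm]
    have htpos : 0 < t := by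
      rcases Nat.eq_zero_or_pos t with h | h
      · subst h; omega
      · exact h
    have htT : t < T := by
      by_contra h
      push Not at h
      have := Nat.mul_le_mul_right H h
      omega
    have e1 : i = t * H - 1 := by omega
    rw [ht', e1, M.law_fine_last htpos hH]
    exact M.fine_first htT hH s
  · have hlt : i % H + 1 < H := by
      have h1 : i % H < H := Nat.mod_lt _ hH
      rcases Nat.lt_or_ge (i % H + 1) H with h | h
      · exact h
      · exfalso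
        apply hmod
        have h2 : i % H + 1 = H := by omega
        rcases Nat.lt_or_ge 1 H with h3 | h3
        · rw [Nat.add_mod, Nat.mod_eq_of_lt h3, h2, Nat.mod_self]
        · have : H = 1 := by omega
          subst this; exact Nat.mod_one _
    have hmod' : (i + 1) % H = i % H + 1 := by
      have h3 : 1 < H := by omega
      rw [Nat.add_mod, Nat.mod_eq_of_lt h3, Nat.mod_eq_of_lt hlt]
    have hdiv' : (i + 1) / H = i / H := by
      have h4 := Nat.div_add_mod i H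
      have h5 := Nat.div_add_mod (i + 1) H
      rw [hmod'] at h5
      have h6 : H * ((i + 1) / H) = H * (i / H) := by omega
      exact Nat.eq_of_mul_eq_mul_left hH h6
    have ht : i / H < T := div_lt_of (by omega)
    have h := M.mix_law (a := H - (i % H + 1) - 1) (b := i % H + 1) ht hH (by omega) s
    have e1 : mixT ((H - (i % H + 1) - 1 + 1 : ℕ) : ℝ) ((i % H + 1 : ℕ) : ℝ) (Lm (i / H))
        (Lm (i / H + 1)) = fine Lm H i := by
      rw [fine_eq_mix, Nat.sub_add_cancel (by omega)]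
    have e2 : mixT ((H - (i % H + 1) - 1 : ℕ) : ℝ) ((i % H + 1 + 1 : ℕ) : ℝ) (Lm (i / H))
        (Lm (i / H + 1)) = fine Lm H (i + 1) := by
      rw [fine_eq_mix, hmod', hdiv', Nat.sub_sub]
    rw [e1, e2] at h
    exact h

end Macro

/-! ### packaged form for `L6.annealL` / `L6.approx_anneal`, stages `Option ℕ` -/

/-- law at a stage: `none` = start, `some i` = fine stage `i` -/
def piO (Lm : ℕ → Fin n → Fin n → ℝ) (H : ℕ) : Option ℕ → Mov.Om (Fin n) → ℝ
  | none => GoodK.law (wo (Lm 0))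
  | some i => GoodK.law (wo (fine Lm H i))

/-- stages of the run up to macro time `t` -/
def stO (H t : ℕ) : List (Option ℕ) := (List.range (t * H)).map some

theorem stO_succ (N : ℕ) : ((List.range (N + 1)).map some : List (Option ℕ)) =
    (List.range N).map some ++ [some N] := by
  rw [List.range_succ, List.map_append]; rfl

theorem lastR_range (N : ℕ) : L6.lastR none ((List.range N).map some) =
    (if N = 0 then none else some (N - 1)) := by
  cases N with
  | zero => rfl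
  | succ N => rw [stO_succ, L6.lastR_append]; simp [L6.lastR]

theorem Macro.chain (M : Macro n m T q Lm) {H : ℕ} (hH : 0 < H) :
    ∀ N, N ≤ T * H → L6.ChainR (fun t t' => ∀ s, |piO Lm H t s / piO Lm H t' s - 1| ≤
      4 * n / (m * H)) none ((List.range N).map some) := by
  intro N
  induction N with
  | zero => intro _; trivial
  | succ N ih =>
    intro hN
    rw [stO_succ, L6.chainR_append]
    refine ⟨ih (by omega), ?_, trivial⟩
    rw [lastR_range]
    by_cases h0 : N = 0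
    · subst h0
      rw [if_pos rfl]
      intro s
      have hT : 0 < T := by
        rcases Nat.eq_zero_or_pos T with h | h
        · subst h; omega
        · exact h
      have := M.fine_first (t := 0) hT hH s
      rw [zero_mul] at this
      exact this
    · rw [if_neg h0]
      intro s
      have := M.fine_step (i := N - 1) hH (by omega) s
      rw [Nat.sub_add_cancel (by omega)] at this
      exact this

theorem Macro.piO_last (M : Macro n m T q Lm) {H t : ℕ} (hH : 0 < H) :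
    piO Lm H (L6.lastR none (stO H t)) = GoodK.law (wo (Lm t)) := by
  unfold stO
  rw [lastR_range]
  rcases Nat.eq_zero_or_pos t with h | h
  · subst h
    simp [piO]
  · have : t * H ≠ 0 := (Nat.mul_pos h hH).ne'
    rw [if_neg this]
    exact M.law_fine_last h hH

theorem Macro.piO_pos (M : Macro n m T q Lm) {H : ℕ} (hH : 0 < H) {t : ℕ} (ht : t ≤ T)
    (o : Option ℕ) (ho : o ∈ none :: stO H t) (s : Mov.Om (Fin n)) : 0 < piO Lm H o s := by
  have hne := nonempty_Om M.even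
  cases o with
  | none => exact GoodK.law_pos (wo_pos (M.pos 0 (Nat.zero_le _))) s
  | some i =>
    have hi : i < t * H := by
      rcases List.mem_cons.1 ho with h | h
      · exact absurd h (by simp)
      · unfold stO at h
        simpa using h
    have hi' : i < T * H := lt_of_lt_of_le hi (Nat.mul_le_mul_right H ht)
    exact GoodK.law_pos (wo_pos (M.fine_pos hH hi')) s

theorem Macro.piO_sum (M : Macro n m T q Lm) {H : ℕ} (hH : 0 < H) {t : ℕ} (ht : t ≤ T)
    (o : Option ℕ) (ho : o ∈ none :: stO H t) : ∑ s, piO Lm H o s = 1 := by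
  have hne := nonempty_Om M.even
  cases o with
  | none => exact GoodK.law_sum (wo_pos (M.pos 0 (Nat.zero_le _)))
  | some i =>
    have hi : i < t * H := by
      rcases List.mem_cons.1 ho with h | h
      · exact absurd h (by simp)
      · unfold stO at h
        simpa using h
    have hi' : i < T * H := lt_of_lt_of_le hi (Nat.mul_le_mul_right H ht)
    exact GoodK.law_sum (wo_pos (M.fine_pos hH hi'))

/-- the pair kernel at a stage -/
def kerO (Lm : ℕ → Fin n → Fin n → ℝ) (H : ℕ) (o : Option ℕ) :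
    Mov.Om (Fin n) × Mov.Om (Fin n) → Mov.Om (Fin n) × Mov.Om (Fin n) → ℝ :=
  GoodK.hb (GoodK.pw (wo (fine Lm H (o.getD 0)))) (tauL (V := Fin n))

theorem Macro.good_stage (M : Macro n m T q Lm) {K : ℝ → ℝ} (hK : 0 < K (c0 n (q * 2)))
    (hL : ThmL n K) {H : ℕ} (hH : 0 < H) {t : ℕ} (ht : t ≤ T) (o : Option ℕ) (ho : o ∈ stO H t) :
    Pop.GoodKernel (piO Lm H o) (kerO Lm H o) (gam n K (q * 2)) := by
  unfold stO at ho
  rw [List.mem_map] at ho
  obtain ⟨i, hi, rfl⟩ := ho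
  rw [List.mem_range] at hi
  exact M.fine_good hK hL hH (lt_of_lt_of_le hi (Nat.mul_le_mul_right H ht))

end Crest.Agent.R304.Fine922

end
private theorem rz_24d21ed44e : type_of% @_root_.Crest.Agent.R304.Fine922.piO.eq_1 := @_root_.Crest.Agent.R304.Fine922.piO.eq_1 -- L506
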