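import Crest.Agent.R304.ConfDefs
import Crest.Agent.R304.Moves
import Crest.Agent.R304.GoodK922
import Crest.Agent.R304.Br555

-- ▼ part R304/Lab922
section

/-!
# R304 / S0464: the energy `En` is dominated by the energy of the labelled involutions

`LabT V = Fin 4 × V × V × V × V`, `tauL l = Mov.tau (lab l)`.  For a symmetric positive `g` and
every `f : (V → V) → ℝ`
`En g f ≤ ∑ l, ∑ z, min (w z) (w (tauL l z)) * (F z - F (tauL l z)) ^ 2`
with `w z = W g z.1 * W g z.2`, `F z = f z.1 + f z.2`.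
-/

set_option autoImplicit false
set_option linter.unusedSectionVars false

noncomputable section

namespace Crest.Agent.R304.Lab922

open Finset

variable {V : Type} [Fintype V] [DecidableEq V]

/-! ### the components agree -/

theorem comp_eq_movComp {s t : V → V} (hs : Inv s) (ht : Inv t) (a : V) :
    Mov.comp s t a = comp s t a := by
  have hinj : Function.Injective (fun x => t (s x)) := ht.injective.comp hs.injective
  have hper : a ∈ Function.periodicPts (fun x => t (s x)) := hinj.mem_periodicPts a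
  have hpos : 0 < Function.minimalPeriod (fun x => t (s x)) a :=
    Function.minimalPeriod_pos_of_mem_periodicPts hper
  have hle : Function.minimalPeriod (fun x => t (s x)) a ≤ Fintype.card V :=
    Function.minimalPeriod_le_card
  set ρ : V → V := fun x => t (s x) with hρ
  set N := Function.minimalPeriod ρ a with hN
  have hmem : ∀ x, x ∈ Mov.comp s t a ↔ ∃ k, k < Fintype.card V ∧ (x = ρ^[k] a ∨ x = s (ρ^[k] a)) := by
    intro x
    simp [Mov.comp, hρ]
  have hO : ∀ k, ρ^[k] a ∈ Mov.comp s t a := fun k => by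
    rw [hmem]
    refine ⟨k % N, lt_of_lt_of_le (Nat.mod_lt _ hpos) hle, Or.inl ?_⟩
    rw [Function.iterate_mod_minimalPeriod_eq]
  have hsO : ∀ k, s (ρ^[k] a) ∈ Mov.comp s t a := fun k => by
    rw [hmem]
    refine ⟨k % N, lt_of_lt_of_le (Nat.mod_lt _ hpos) hle, Or.inr ?_⟩
    rw [Function.iterate_mod_minimalPeriod_eq]
  refine Finset.Subset.antisymm ?_ ?_
  · intro x hx
    rw [hmem] at hx
    obtain ⟨k, -, h⟩ := hx
    have h1 : ρ^[k] a ∈ comp s t a := by
      clear h
      induction k with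
      | zero => exact self_mem_comp
      | succ k ih =>
        rw [Function.iterate_succ_apply']
        exact comp_cl_right _ (comp_cl_left _ ih)
    rcases h with h | h
    · rw [h]; exact h1
    · rw [h]; exact comp_cl_left _ h1
  · refine comp_subset (hO 0) ?_ ?_
    · intro x hx
      rw [hmem] at hx
      obtain ⟨k, -, rfl | rfl⟩ := hx
      · exact hsO k
      · rw [hs]; exact hO k
    · intro x hx
      rw [hmem] at hx
      obtain ⟨k, -, rfl | rfl⟩ := hx
      · rcases k with _ | k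
        · have h1 : ρ^[N] a = a := Function.iterate_minimalPeriod
          obtain ⟨m, hm⟩ : ∃ m, N = m + 1 := ⟨N - 1, by omega⟩
          rw [hm, Function.iterate_succ_apply'] at h1
          have h2 : t a = s (ρ^[m] a) := by
            conv_lhs => rw [← h1]
            exact ht _
          rw [Function.iterate_zero_apply, h2]
          exact hsO m
        · rw [Function.iterate_succ_apply']
          have h2 : t (ρ (ρ^[k] a)) = s (ρ^[k] a) := ht _
          rw [h2]
          exact hsO k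
      · have h2 : t (s (ρ^[k] a)) = ρ^[k + 1] a := by rw [Function.iterate_succ_apply']
        rw [h2]
        exact hO _

theorem mix_eq (C : Finset V) (s t : V → V) : Mov.mix C s t = swp C s t := rfl

theorem join_eq (s : V → V) (u v : V) : Mov.join s u v = add s u v := rfl

theorem cut_eq {s : V → V} {u v : V} (h : s u = v) : Mov.cut s u v = del s u := by
  funext w; unfold Mov.cut del; rw [h]

/-! ### labels -/

/-- the label type -/
abbrev LabT (V : Type) : Type := Fin 4 × V × V × V × V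

/-- raw labels -/
def lab (l : LabT V) : Mov.Lab V := ((l.1 : ℕ), l.2.1, l.2.2.1, l.2.2.2.1, l.2.2.2.2)

/-- the family of involutions -/
def tauL (l : LabT V) (z : Mov.Om V × Mov.Om V) : Mov.Om V × Mov.Om V := Mov.tau (lab l) z

theorem tauL_tauL (l : LabT V) (z : Mov.Om V × Mov.Om V) : tauL l (tauL l z) = z :=
  Mov.tau_tau _ _

theorem card_labT : Fintype.card (LabT V) = 4 * Fintype.card V ^ 4 := by
  simp only [LabT, Fintype.card_prod, Fintype.card_fin]
  ring

/-- weight of a pair -/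
def wz (g : V → V → ℝ) (z : Mov.Om V × Mov.Om V) : ℝ := W g z.1.1 * W g z.2.1

/-- sum function on pairs -/
def Fz (f : (V → V) → ℝ) (z : Mov.Om V × Mov.Om V) : ℝ := f z.1.1 + f z.2.1

/-- energy of one label at one pair -/
def el (g : V → V → ℝ) (f : (V → V) → ℝ) (l : LabT V) (z : Mov.Om V × Mov.Om V) : ℝ :=
  min (wz g z) (wz g (tauL l z)) * (Fz f z - Fz f (tauL l z)) ^ 2

/-- energy of the labelled involutions -/
def EL (g : V → V → ℝ) (f : (V → V) → ℝ) : ℝ := ∑ l : LabT V, ∑ z, el g f l z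

theorem wz_pos {g : V → V → ℝ} (hg : ∀ u v, 0 < g u v) (z : Mov.Om V × Mov.Om V) : 0 < wz g z :=
  mul_pos (W_pos hg _) (W_pos hg _)

theorem el_nonneg {g : V → V → ℝ} (hg : ∀ u v, 0 < g u v) (f : (V → V) → ℝ) (l : LabT V)
    (z : Mov.Om V × Mov.Om V) : 0 ≤ el g f l z :=
  mul_nonneg (le_min (wz_pos hg _).le (wz_pos hg _).le) (sq_nonneg _)

theorem mem_pms_iff {s : V → V} : s ∈ pms V ↔ ∀ v, s (s v) = v ∧ s v ≠ v := by
  rw [mem_pms]
  exact ⟨fun h v => ⟨h.1 v, h.2 v⟩, fun h => ⟨fun v => (h v).1, fun v => (h v).2⟩⟩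

theorem sum_pms (F : (V → V) → ℝ) : ∑ s ∈ pms V, F s = ∑ s : Mov.Om V, F s.1 :=
  Finset.sum_subtype (pms V) (fun _ => mem_pms_iff) F

/-- lower bound for one label -/
theorem el_of_cand {g : V → V → ℝ} (f : (V → V) → ℝ) (l : LabT V) (z : Mov.Om V × Mov.Om V)
    {s' t' : V → V} (hs' : s' ∈ pms V) (ht' : t' ∈ pms V)
    (h1 : Mov.cand (lab l) (z.1.1, z.2.1) = (s', t'))
    (h2 : Mov.cand (lab l) (s', t') = (z.1.1, z.2.1)) :
    el g f l z = min (W g z.1.1 * W g z.2.1) (W g s' * W g t') *
      (f z.1.1 + f z.2.1 - f s' - f t') ^ 2 := by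
  have h : tauL l z = (⟨s', mem_pms_iff.1 hs'⟩, ⟨t', mem_pms_iff.1 ht'⟩) :=
    Mov.tau_eq (lab l) z (⟨s', mem_pms_iff.1 hs'⟩, ⟨t', mem_pms_iff.1 ht'⟩) h1 h2
  unfold el
  rw [h]
  unfold wz Fz
  congr 1
  ring

/-! ### exchange -/

theorem Inv.of_pms {s : V → V} (h : s ∈ pms V) : Inv s := (mem_pms.1 h).1

theorem swp_mem_pms {s t : V → V} {A : Finset V} (hs : s ∈ pms V) (ht : t ∈ pms V)
    (h1 : Cl A s) (h2 : Cl A t) : swp A s t ∈ pms V := by
  rw [mem_pms] at *
  refine ⟨Inv.swp hs.1 ht.1 h1 h2, fun v => ?_⟩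
  by_cases h : v ∈ A
  · rw [swp_of_mem h]; exact ht.2 v
  · rw [swp_of_not_mem h]; exact hs.2 v

theorem Eex_le {g : V → V → ℝ} (hg : ∀ u v, 0 < g u v) (f : (V → V) → ℝ) :
    Eex g f ≤ ∑ u : V, ∑ v : V, ∑ x : V, ∑ y : V, ∑ z, el g f ((0 : Fin 4), u, v, x, y) z := by
  have h1 : Eex g f = ∑ u : V, ∑ z, el g f ((0 : Fin 4), u, u, u, u) z := by
    unfold Eex
    rw [sum_pms]
    have h2 : ∀ s : Mov.Om V, ∑ t ∈ pms V, ∑ v : V, W g s.1 * W g t *
        (f s.1 + f t - f (swp (comp s.1 t v) s.1 t) - f (swp (comp s.1 t v) t s.1)) ^ 2 =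
        ∑ t : Mov.Om V, ∑ v : V, el g f ((0 : Fin 4), v, v, v, v) (s, t) := by
      intro s
      rw [sum_pms]
      refine Finset.sum_congr rfl fun t _ => Finset.sum_congr rfl fun v _ => ?_
      have hs := mem_pms_iff.2 s.2
      have ht := mem_pms_iff.2 t.2
      have hsi := Inv.of_pms hs
      have hti := Inv.of_pms ht
      have hA1 : Cl (comp s.1 t.1 v) s.1 := comp_cl_left
      have hA2 : Cl (comp s.1 t.1 v) t.1 := comp_cl_right
      have hc := comp_eq_movComp hsi hti v
      have m1 := swp_mem_pms hs ht hA1 hA2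
      have m2 := swp_mem_pms ht hs hA2 hA1
      rw [el_of_cand (g := g) f ((0 : Fin 4), v, v, v, v) (s, t) m1 m2]
      · simp only
        rw [W_swp_mul, min_self]
      · show Mov.candEx v (s.1, t.1) = _
        unfold Mov.candEx
        rw [hc]
        rfl
      · show Mov.candEx v (_, _) = _
        unfold Mov.candEx
        rw [comp_eq_movComp (Inv.of_pms m1) (Inv.of_pms m2), comp_swp]
        simp only [mix_eq]
        rw [swp_swp, swp_swp]
    simp only [h2]
    rw [Finset.sum_comm' (t' := univ) (s' := fun _ => univ) (by simp)]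
    rw [Finset.sum_comm]
    have h3 : ∀ s : Mov.Om V, ∑ t : Mov.Om V, ∑ v : V, el g f ((0 : Fin 4), v, v, v, v) (s, t) =
        ∑ v : V, ∑ t : Mov.Om V, el g f ((0 : Fin 4), v, v, v, v) (s, t) :=
      fun s => Finset.sum_comm
    simp only [h3]
    rw [Finset.sum_comm]
    refine Finset.sum_congr rfl fun v _ => ?_
    rw [Fintype.sum_prod_type]
  rw [h1]
  refine Finset.sum_le_sum fun u _ => ?_
  have hnn : ∀ v x y, 0 ≤ ∑ z, el g f ((0 : Fin 4), u, v, x, y) z := fun v x y =>
    Finset.sum_nonneg fun z _ => el_nonneg hg f _ z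
  calc ∑ z, el g f ((0 : Fin 4), u, u, u, u) z ≤ ∑ y : V, ∑ z, el g f ((0 : Fin 4), u, u, u, y) z :=
        Finset.single_le_sum (f := fun y => ∑ z, el g f ((0 : Fin 4), u, u, u, y) z)
          (fun y _ => hnn u u y) (Finset.mem_univ u)
    _ ≤ ∑ x : V, ∑ y : V, ∑ z, el g f ((0 : Fin 4), u, u, x, y) z :=
        Finset.single_le_sum (f := fun x => ∑ y : V, ∑ z, el g f ((0 : Fin 4), u, u, x, y) z)
          (fun x _ => Finset.sum_nonneg fun y _ => hnn u x y) (Finset.mem_univ u)
    _ ≤ _ :=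
        Finset.single_le_sum (f := fun v => ∑ x : V, ∑ y : V, ∑ z, el g f ((0 : Fin 4), u, v, x, y) z)
          (fun v _ => Finset.sum_nonneg fun x _ => Finset.sum_nonneg fun y _ => hnn v x y)
          (Finset.mem_univ u)

/-! ### generic injection of labels -/

/-- for fixed `z` the labels `(k, p, α p, q, β q)` are pairwise different -/
theorem sum_inj_labels {g : V → V → ℝ} (hg : ∀ u v, 0 < g u v) (f : (V → V) → ℝ) (k : Fin 4)
    (z : Mov.Om V × Mov.Om V) (α β : V → V) (P : V → V → Prop) [∀ p q, Decidable (P p q)] :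
    ∑ p : V, ∑ q : V, (if P p q then el g f (k, p, α p, q, β q) z else 0) ≤
      ∑ u : V, ∑ v : V, ∑ x : V, ∑ y : V, el g f (k, u, v, x, y) z := by
  refine Finset.sum_le_sum fun p _ => ?_
  have h1 : ∀ q : V, (if P p q then el g f (k, p, α p, q, β q) z else 0) ≤
      ∑ y : V, el g f (k, p, α p, q, y) z := by
    intro q
    have h2 : 0 ≤ ∑ y : V, el g f (k, p, α p, q, y) z :=
      Finset.sum_nonneg fun y _ => el_nonneg hg f _ z
    split_ifs with h
    · exact Finset.single_le_sum (f := fun y => el g f (k, p, α p, q, y) z)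
        (fun y _ => el_nonneg hg f _ z) (Finset.mem_univ (β q))
    · exact h2
  calc ∑ q : V, (if P p q then el g f (k, p, α p, q, β q) z else 0) ≤
        ∑ q : V, ∑ y : V, el g f (k, p, α p, q, y) z := Finset.sum_le_sum fun q _ => h1 q
    _ ≤ _ := Finset.single_le_sum (f := fun v => ∑ x : V, ∑ y : V, el g f (k, p, v, x, y) z)
          (fun v _ => Finset.sum_nonneg fun x _ => Finset.sum_nonneg fun y _ => el_nonneg hg f _ z)
          (Finset.mem_univ (α p))

/-! ### switch -/

theorem sw_apply {s : V → V} (hs : s ∈ pms V) {u v : V} (h1 : v ≠ u) (h2 : v ≠ s u) (x : V) :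
    sw s u v x = if x = u then v else if x = v then u else if x = s u then s v
      else if x = s v then s u else s x := by
  have hi := Inv.of_pms hs
  have hne := (mem_pms.1 hs).2
  have e1 : s u ≠ u := hne u
  have e2 : s v ≠ v := hne v
  have e3 : s v ≠ u := fun h => h2 (by rw [← h, hi])
  have e4 : s v ≠ s u := fun h => h1 (hi.injective h)
  unfold sw add
  by_cases hx1 : x = s u
  · subst hx1
    simp [e1, h2.symm]
  · by_cases hx2 : x = s v
    · subst hx2
      simp [e2, e3, e4]
    · by_cases hx3 : x = u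
      · subst hx3; simp [e1.symm, e3.symm]
      · by_cases hx4 : x = v
        · subst hx4; simp [h2, e2.symm, h1]
        · simp [hx1, hx2, hx3, hx4]

theorem sw_mem_pms {s : V → V} (hs : s ∈ pms V) {u v : V} (h1 : v ≠ u) (h2 : v ≠ s u) :
    sw s u v ∈ pms V := by
  have hi := Inv.of_pms hs
  have hne := (mem_pms.1 hs).2
  have e1 : s u ≠ u := hne u
  have e2 : s v ≠ v := hne v
  have e3 : s v ≠ u := fun h => h2 (by rw [← h, hi])
  have e4 : s v ≠ s u := fun h => h1 (hi.injective h)
  rw [mem_pms_iff]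
  intro x
  have ap := sw_apply hs h1 h2
  by_cases hx3 : x = u
  · subst hx3
    have : sw s x v x = v := by rw [ap]; simp
    rw [this]
    refine ⟨?_, h1⟩
    rw [ap]; simp [h1]
  · by_cases hx4 : x = v
    · subst hx4
      have : sw s u x x = u := by rw [ap]; simp [h1]
      rw [this]
      exact ⟨by rw [ap]; simp, h1.symm⟩
    · by_cases hx1 : x = s u
      · subst hx1
        have : sw s u v (s u) = s v := by rw [ap]; simp [e1, h2.symm]
        rw [this]
        refine ⟨?_, e4⟩
        rw [ap]; simp [e2, e3, e4]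
      · by_cases hx2 : x = s v
        · subst hx2
          have : sw s u v (s v) = s u := by rw [ap]; simp [e2, e3, e4]
          rw [this]
          refine ⟨?_, e4.symm⟩
          rw [ap]; simp [e1, h2.symm]
        · have h5 : sw s u v x = s x := by rw [ap]; simp [hx1, hx2, hx3, hx4]
          rw [h5]
          have h6 : s x ≠ u := fun h => hx1 (by rw [← h, hi])
          have h7 : s x ≠ v := fun h => hx2 (by rw [← h, hi])
          have h8 : s x ≠ s u := fun h => hx3 (hi.injective h)
          have h9 : s x ≠ s v := fun h => hx4 (hi.injective h)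
          refine ⟨?_, hne x⟩
          rw [ap]; simp [h6, h7, h8, h9, hi x]

theorem candSw_fwd {s : V → V} (u v : V) : Mov.candSw u (s u) v (s v) s =
    add (add s u v) (s u) (s v) := by
  unfold Mov.candSw
  rw [if_pos ⟨rfl, rfl⟩]
  rfl

theorem candSw_bwd {s : V → V} (hs : s ∈ pms V) {u v : V} (h1 : v ≠ u) (h2 : v ≠ s u) :
    Mov.candSw u (s u) v (s v) (sw s u v) = s := by
  have hi := Inv.of_pms hs
  have hne := (mem_pms.1 hs).2
  have e1 : s u ≠ u := hne u
  have e2 : s v ≠ v := hne v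
  have e3 : s v ≠ u := fun h => h2 (by rw [← h, hi])
  have e4 : s v ≠ s u := fun h => h1 (hi.injective h)
  have ap := sw_apply hs h1 h2
  have a1 : sw s u v u = v := by rw [ap]; simp
  have a2 : sw s u v (s u) = s v := by rw [ap]; simp [e1, h2.symm]
  unfold Mov.candSw
  rw [if_neg (by rw [a1]; exact fun h => h2 h.1), if_pos ⟨a1, a2⟩]
  funext x
  unfold Mov.join
  by_cases hx3 : x = u
  · subst hx3; simp [h1.symm, e3.symm]
  · by_cases hx4 : x = v
    · subst hx4; simp
    · by_cases hx1 : x = s u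
      · subst hx1; simp [e1, h2.symm, e4.symm, hi u]
      · by_cases hx2 : x = s v
        · subst hx2; simp [e2, hi v]
        · simp only [hx1, hx2, hx3, hx4, if_false]
          rw [ap]; simp [hx1, hx2, hx3, hx4]

theorem Zh_empty_eq (g : V → V → ℝ) : Zh g ∅ = ∑ t : Mov.Om V, W g t.1 := by
  unfold Zh
  rw [st_empty, sum_pms]

theorem Esw_le {g : V → V → ℝ} (hg : ∀ u v, 0 < g u v) (f : (V → V) → ℝ) :
    Zh g ∅ * Esw g f ≤
      ∑ u : V, ∑ v : V, ∑ x : V, ∑ y : V, ∑ z, el g f ((1 : Fin 4), u, v, x, y) z := by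
  have h1 : Zh g ∅ * Esw g f = ∑ z : Mov.Om V × Mov.Om V, ∑ u : V, ∑ v : V,
      (if v ≠ u ∧ v ≠ z.1.1 u then el g f ((1 : Fin 4), u, z.1.1 u, v, z.1.1 v) z else 0) := by
    unfold Esw
    rw [sum_pms, Zh_empty_eq, mul_comm, Finset.sum_mul, Fintype.sum_prod_type]
    refine Finset.sum_congr rfl fun s _ => ?_
    rw [Finset.mul_sum]
    refine Finset.sum_congr rfl fun t _ => ?_
    rw [Finset.sum_mul]
    refine Finset.sum_congr rfl fun u _ => ?_
    rw [Finset.sum_mul]
    refine Finset.sum_congr rfl fun v _ => ?_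
    by_cases h : v ≠ u ∧ v ≠ s.1 u
    · rw [if_pos h, if_pos h]
      have hs := mem_pms_iff.2 s.2
      have ht := mem_pms_iff.2 t.2
      have m1 := sw_mem_pms hs h.1 h.2
      rw [el_of_cand (g := g) f ((1 : Fin 4), u, s.1 u, v, s.1 v) (s, t) m1 ht]
      · simp only
        have hW : 0 < W g t.1 := W_pos hg _
        rw [← min_mul_of_nonneg _ _ hW.le]
        ring
      · show (Mov.candSw u (s.1 u) v (s.1 v) s.1, t.1) = _
        rw [candSw_fwd]
        rfl
      · show (Mov.candSw u (s.1 u) v (s.1 v) (sw s.1 u v), t.1) = _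
        rw [candSw_bwd hs h.1 h.2]
    · rw [if_neg h, if_neg h, zero_mul]
  rw [h1]
  have h2 : ∀ z : Mov.Om V × Mov.Om V, ∑ u : V, ∑ v : V,
      (if v ≠ u ∧ v ≠ z.1.1 u then el g f ((1 : Fin 4), u, z.1.1 u, v, z.1.1 v) z else 0) ≤
      ∑ u : V, ∑ v : V, ∑ x : V, ∑ y : V, el g f ((1 : Fin 4), u, v, x, y) z := fun z =>
    sum_inj_labels hg f 1 z z.1.1 z.1.1 (fun u v => v ≠ u ∧ v ≠ z.1.1 u)
  refine (Finset.sum_le_sum fun z _ => h2 z).trans (le_of_eq ?_)
  rw [Finset.sum_comm]
  refine Finset.sum_congr rfl fun u _ => ?_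
  rw [Finset.sum_comm]
  refine Finset.sum_congr rfl fun v _ => ?_
  rw [Finset.sum_comm]
  refine Finset.sum_congr rfl fun x _ => ?_
  rw [Finset.sum_comm]

/-! ### two-replica switch -/

section Two

variable {s t : V → V} {p q : V}

/-- the facts about the component used below -/
theorem two_facts (hs : s ∈ pms V) (ht : t ∈ pms V)
    (hq : q ∈ comp (del s p) (del t q) p) :
    s p ∉ comp (del s p) (del t q) p ∧ t q ∉ comp (del s p) (del t q) p := by
  have hi := Inv.of_pms hs
  have hj := Inv.of_pms ht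
  have hne := (mem_pms.1 hs).2
  have hne' := (mem_pms.1 ht).2
  have hi0 : Inv (del s p) := hi.del
  have hj0 : Inv (del t q) := hj.del
  have h2 := defects_left hi0 hj0 (v := p) del_self
  set D := comp (del s p) (del t q) p with hD
  have hp1 : p ∈ D ∩ holes (del s p) := by
    rw [Finset.mem_inter, mem_holes]; exact ⟨self_mem_comp, del_self⟩
  have hq1 : q ∈ D ∩ holes (del t q) := by
    rw [Finset.mem_inter, mem_holes]; exact ⟨hq, del_self⟩
  have c1 : 1 ≤ (D ∩ holes (del s p)).card := Finset.card_pos.2 ⟨p, hp1⟩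
  have c2 : 1 ≤ (D ∩ holes (del t q)).card := Finset.card_pos.2 ⟨q, hq1⟩
  have d1 : (D ∩ holes (del s p)).card = 1 := by omega
  have d2 : (D ∩ holes (del t q)).card = 1 := by omega
  rw [Finset.card_eq_one] at d1 d2
  obtain ⟨a, ha⟩ := d1
  obtain ⟨b, hb⟩ := d2
  rw [ha, Finset.mem_singleton] at hp1
  rw [hb, Finset.mem_singleton] at hq1
  constructor
  · intro h
    have : s p ∈ D ∩ holes (del s p) := by
      rw [Finset.mem_inter, mem_holes]; exact ⟨h, del_mate⟩
    rw [ha, Finset.mem_singleton, ← hp1] at this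
    exact hne p this
  · intro h
    have : t q ∈ D ∩ holes (del t q) := by
      rw [Finset.mem_inter, mem_holes]; exact ⟨h, del_mate⟩
    rw [hb, Finset.mem_singleton, ← hq1] at this
    exact hne' q this

/-- swapped partial matchings -/
theorem two_half (hs : s ∈ pms V) (ht : t ∈ pms V)
    (hq : q ∈ comp (del s p) (del t q) p) :
    let D := comp (del s p) (del t q) p
    let s0 := swp D (del s p) (del t q)
    Inv s0 ∧ s0 q = q ∧ s0 (s p) = s p ∧ q ≠ s p ∧ holes s0 = {q, s p} ∧
      add s0 q (s p) ∈ pms V := by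
  intro D s0
  have hi := Inv.of_pms hs
  have hj := Inv.of_pms ht
  have hne := (mem_pms.1 hs).2
  have hne' := (mem_pms.1 ht).2
  have hi0 : Inv (del s p) := hi.del
  have hj0 : Inv (del t q) := hj.del
  obtain ⟨f1, f2⟩ := two_facts hs ht hq
  have hI : Inv s0 := Inv.swp hi0 hj0 comp_cl_left comp_cl_right
  have a1 : s0 q = q := by
    show swp D (del s p) (del t q) q = q
    rw [swp_of_mem hq, del_self]
  have a2 : s0 (s p) = s p := by
    show swp D (del s p) (del t q) (s p) = s p
    rw [swp_of_not_mem f1, del_mate]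
  have a3 : q ≠ s p := fun h => f1 (by rw [← h]; exact hq)
  have a4 : holes s0 = {q, s p} := by
    show holes (swp D (del s p) (del t q)) = _
    rw [holes_swp]
    have b1 : holes (del s p) = {p, s p} := by
      rw [holes_del, holes_eq_empty.2 hne, Finset.empty_union]
    have b2 : holes (del t q) = {q, t q} := by
      rw [holes_del, holes_eq_empty.2 hne', Finset.empty_union]
    rw [b1, b2]
    have hpD : p ∈ D := self_mem_comp
    ext x
    simp only [mem_union, mem_inter, mem_insert, mem_singleton, mem_sdiff]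
    constructor
    · rintro (⟨rfl | rfl, h⟩ | ⟨rfl | rfl, h⟩)
      · exact Or.inl rfl
      · exact absurd h f2
      · exact absurd hpD h
      · exact Or.inr rfl
    · rintro (rfl | rfl)
      · exact Or.inl ⟨Or.inl rfl, hq⟩
      · exact Or.inr ⟨Or.inr rfl, f1⟩
  refine ⟨hI, a1, a2, a3, a4, ?_⟩
  rw [← st_empty, mem_st]
  refine ⟨Inv.add hI a1 a2, ?_⟩
  rw [holes_add a3, a4, Finset.sdiff_self]

theorem comp_two (hs : s ∈ pms V) (ht : t ∈ pms V) (hq : q ∈ comp (del s p) (del t q) p) :
    comp (del t q) (del s p) q = comp (del s p) (del t q) p := by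
  rw [comp_comm]
  exact comp_eq (Inv.of_pms hs).del (Inv.of_pms ht).del hq

theorem two_mem (hs : s ∈ pms V) (ht : t ∈ pms V) (hq : q ∈ comp (del s p) (del t q) p) :
    two1 s t p q ∈ pms V ∧ two2 s t p q ∈ pms V := by
  refine ⟨(two_half hs ht hq).2.2.2.2.2, ?_⟩
  have hc := comp_two hs ht hq
  have hp : p ∈ comp (del t q) (del s p) q := by rw [hc]; exact self_mem_comp
  have := (two_half ht hs hp).2.2.2.2.2
  simp only [hc] at this
  exact this

theorem candTwo_fwd (hs : s ∈ pms V) (ht : t ∈ pms V) :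
    Mov.candTwo p (s p) q (t q) (s, t) = (two1 s t p q, two2 s t p q) := by
  unfold Mov.candTwo
  rw [if_pos ⟨rfl, rfl⟩]
  show (Mov.join (Mov.mix (Mov.comp (Mov.cut s p (s p)) (Mov.cut t q (t q)) p)
      (Mov.cut s p (s p)) (Mov.cut t q (t q))) q (s p),
    Mov.join (Mov.mix (Mov.comp (Mov.cut s p (s p)) (Mov.cut t q (t q)) p)
      (Mov.cut t q (t q)) (Mov.cut s p (s p))) p (t q)) = _
  rw [cut_eq rfl, cut_eq rfl, comp_eq_movComp (Inv.of_pms hs).del (Inv.of_pms ht).del]
  rfl

theorem candTwo_bwd (hs : s ∈ pms V) (ht : t ∈ pms V) (hq : q ∈ comp (del s p) (del t q) p)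
    (hpq : p ≠ q) :
    Mov.candTwo p (s p) q (t q) (two1 s t p q, two2 s t p q) = (s, t) := by
  have hc := comp_two hs ht hq
  have hp : p ∈ comp (del t q) (del s p) q := by rw [hc]; exact self_mem_comp
  obtain ⟨hI, a1, a2, a3, -, -⟩ := two_half hs ht hq
  obtain ⟨hI', b1, b2, b3, -, -⟩ := two_half ht hs hp
  rw [hc] at hI' b1 b2
  obtain ⟨m1, m2⟩ := two_mem hs ht hq
  set D := comp (del s p) (del t q) p with hD
  have e1 : two1 s t p q = add (swp D (del s p) (del t q)) q (s p) := rfl
  have e2 : two2 s t p q = add (swp D (del t q) (del s p)) p (t q) := rfl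
  have x1 : two1 s t p q q = s p := by rw [e1, add_left]
  have x2 : two2 s t p q p = t q := by rw [e2, add_left]
  have x3 : ¬ two1 s t p q p = s p := by
    intro h
    rw [← x1] at h
    exact hpq ((Inv.of_pms m1).injective h)
  unfold Mov.candTwo
  simp only
  rw [if_neg (fun h => x3 h.1), if_pos ⟨x1, x2⟩, cut_eq x1, cut_eq x2]
  have y1 : del (two1 s t p q) q = swp D (del s p) (del t q) := by
    rw [e1]; exact del_add a1 a2
  have y2 : del (two2 s t p q) p = swp D (del t q) (del s p) := by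
    rw [e2]; exact del_add b1 b2
  rw [y1, y2, comp_eq_movComp hI hI', comp_swp,
    comp_eq (Inv.of_pms hs).del (Inv.of_pms ht).del hq, ← hD, mix_eq, mix_eq, swp_swp, swp_swp,
    join_eq, join_eq, add_del (Inv.of_pms hs), add_del (Inv.of_pms ht)]

end Two

open Classical in
theorem E2_le {g : V → V → ℝ} (hg : ∀ u v, 0 < g u v) (f : (V → V) → ℝ) :
    E2 g f ≤ ∑ u : V, ∑ v : V, ∑ x : V, ∑ y : V, ∑ z, el g f ((3 : Fin 4), u, v, x, y) z := by
  have h1 : E2 g f ≤ ∑ z : Mov.Om V × Mov.Om V, ∑ p : V, ∑ q : V,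
      (if q ∈ comp (del z.1.1 p) (del z.2.1 q) p then
        el g f ((3 : Fin 4), p, z.1.1 p, q, z.2.1 q) z else 0) := by
    unfold E2
    rw [sum_pms, Fintype.sum_prod_type]
    refine Finset.sum_le_sum fun s _ => ?_
    rw [sum_pms]
    refine Finset.sum_le_sum fun t _ => Finset.sum_le_sum fun p _ => Finset.sum_le_sum fun q _ => ?_
    by_cases h : q ∈ comp (del s.1 p) (del t.1 q) p
    · rw [if_pos h]
      simp only
      rw [if_pos h]
      have hs := mem_pms_iff.2 s.2
      have ht := mem_pms_iff.2 t.2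
      obtain ⟨m1, m2⟩ := two_mem hs ht h
      by_cases hpq : p = q
      · subst hpq
        have hD : ∀ x ∈ comp (del s.1 p) (del t.1 p) p, x = p := by
          intro x hx
          have : comp (del s.1 p) (del t.1 p) p ⊆ {p} :=
            comp_subset (Finset.mem_singleton_self p)
              (fun y hy => by rw [Finset.mem_singleton.1 hy, del_self]; exact Finset.mem_singleton_self p)
              (fun y hy => by rw [Finset.mem_singleton.1 hy, del_self]; exact Finset.mem_singleton_self p)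
          exact Finset.mem_singleton.1 (this hx)
        have hsw : ∀ a b : V → V, a p = p → b p = p →
            swp (comp (del s.1 p) (del t.1 p) p) a b = a := by
          intro a b ha hb
          funext x
          by_cases hx : x ∈ comp (del s.1 p) (del t.1 p) p
          · rw [swp_of_mem hx, hD x hx, ha, hb]
          · rw [swp_of_not_mem hx]
        have e1 : two1 s.1 t.1 p p = s.1 := by
          unfold two1
          rw [hsw _ _ del_self del_self, add_del (Inv.of_pms hs)]
        have e2 : two2 s.1 t.1 p p = t.1 := by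
          unfold two2
          rw [hsw _ _ del_self del_self, add_del (Inv.of_pms ht)]
        rw [e1, e2]
        have : (f s.1 + f t.1 - f s.1 - f t.1) ^ 2 = 0 := by ring
        rw [this, mul_zero]
        exact el_nonneg hg f _ _
      · refine le_of_eq ?_
        rw [el_of_cand (g := g) f ((3 : Fin 4), p, s.1 p, q, t.1 q) (s, t) m1 m2]
        · exact candTwo_fwd hs ht
        · exact candTwo_bwd hs ht h hpq
    · rw [if_neg h]
      simp only
      rw [if_neg h]
  refine h1.trans ?_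
  have h2 : ∀ z : Mov.Om V × Mov.Om V, ∑ p : V, ∑ q : V,
      (if q ∈ comp (del z.1.1 p) (del z.2.1 q) p then
        el g f ((3 : Fin 4), p, z.1.1 p, q, z.2.1 q) z else 0) ≤
      ∑ u : V, ∑ v : V, ∑ x : V, ∑ y : V, el g f ((3 : Fin 4), u, v, x, y) z := fun z =>
    sum_inj_labels hg f 3 z z.1.1 z.2.1 (fun p q => q ∈ comp (del z.1.1 p) (del z.2.1 q) p)
  refine (Finset.sum_le_sum fun z _ => h2 z).trans (le_of_eq ?_)
  rw [Finset.sum_comm]
  refine Finset.sum_congr rfl fun u _ => ?_
  rw [Finset.sum_comm]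
  refine Finset.sum_congr rfl fun v _ => ?_
  rw [Finset.sum_comm]
  refine Finset.sum_congr rfl fun x _ => ?_
  rw [Finset.sum_comm]

/-- **En versus the labelled involutions** -/
theorem En_le_EL {g : V → V → ℝ} (hg : ∀ u v, 0 < g u v) (f : (V → V) → ℝ) :
    En g f ≤ EL g f := by
  have h0 := Eex_le hg f
  have h1 := Esw_le hg f
  have h3 := E2_le hg f
  have h2 : 0 ≤ ∑ u : V, ∑ v : V, ∑ x : V, ∑ y : V, ∑ z, el g f ((2 : Fin 4), u, v, x, y) z :=
    Finset.sum_nonneg fun _ _ => Finset.sum_nonneg fun _ _ => Finset.sum_nonneg fun _ _ =>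
      Finset.sum_nonneg fun _ _ => Finset.sum_nonneg fun z _ => el_nonneg hg f _ z
  have hsum : EL g f = ∑ k : Fin 4, ∑ u : V, ∑ v : V, ∑ x : V, ∑ y : V,
      ∑ z, el g f (k, u, v, x, y) z := by
    unfold EL
    simp only [Fintype.sum_prod_type]
  rw [hsum, Fin.sum_univ_four]
  unfold En
  linarith

end Crest.Agent.R304.Lab922

end
end

-- ▼ part R304/Good922
section

/-!
# R304 / S0464: `GoodKernel` from Theorem L

Theorem L is used in the form
`∑ s ∈ pms V, ∑ t ∈ pms V, W g s * W g t * (f s - f t) ^ 2 ≤ K * En g f` for all `f`.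
-/

set_option autoImplicit false
set_option linter.unusedSectionVars false

noncomputable section

namespace Crest.Agent.R304.Good922

open Finset Lab922

variable {V : Type} [Fintype V] [DecidableEq V]

/-- weight of a perfect matching -/
def Wo (g : V → V → ℝ) (s : Mov.Om V) : ℝ := W g s.1

theorem Wo_pos {g : V → V → ℝ} (hg : ∀ u v, 0 < g u v) (s : Mov.Om V) : 0 < Wo g s :=
  W_pos hg _

/-- extension of a function on perfect matchings by zero -/
def ext (f : Mov.Om V → ℝ) (s : V → V) : ℝ :=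
  if h : ∀ v, s (s v) = v ∧ s v ≠ v then f ⟨s, h⟩ else 0

@[simp] theorem ext_coe (f : Mov.Om V → ℝ) (s : Mov.Om V) : ext f s.1 = f s := by
  unfold ext
  rw [dif_pos s.2]

/-- the variance as a double sum -/
theorem double_sum {Ω : Type*} [Fintype Ω] (w f : Ω → ℝ) :
    ∑ s, ∑ t, w s * w t * (f s - f t) ^ 2 =
      2 * (∑ s, w s) * (∑ s, w s * f s ^ 2) - 2 * (∑ s, w s * f s) ^ 2 := by
  have h : ∀ s t, w s * w t * (f s - f t) ^ 2 =
      w t * (w s * f s ^ 2) + w s * (w t * f t ^ 2) - 2 * ((w s * f s) * (w t * f t)) := by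
    intro s t; ring
  simp only [h, Finset.sum_sub_distrib, Finset.sum_add_distrib, ← Finset.mul_sum,
    ← Finset.sum_mul]
  ring

/-- **GoodKernel from Theorem L** -/
theorem goodKernel_of_L [Nonempty V] [Nonempty (Mov.Om V)] {g : V → V → ℝ} (hg : ∀ u v, 0 < g u v) {K : ℝ}
    (hK : 0 < K) (hL : ∀ f : (V → V) → ℝ,
      ∑ s ∈ pms V, ∑ t ∈ pms V, W g s * W g t * (f s - f t) ^ 2 ≤ K * En g f) :
    Pop.GoodKernel (GoodK.law (Wo g)) (GoodK.hb (GoodK.pw (Wo g)) (tauL (V := V)))
      (1 / (16 * K * (Fintype.card V : ℝ) ^ 4)) := by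
  have hne : Nonempty (LabT V) := ⟨((0 : Fin 4), Classical.arbitrary V, Classical.arbitrary V,
    Classical.arbitrary V, Classical.arbitrary V)⟩
  have hW := Wo_pos hg
  have key := GoodK.good_of_energy (Ω := Mov.Om V) (L := LabT V) hW (tauL (V := V)) tauL_tauL
    (C := K / 2) (by positivity) ?_
  · have hc : (1 : ℝ) / (8 * (K / 2) * (Fintype.card (LabT V) : ℝ)) =
        1 / (16 * K * (Fintype.card V : ℝ) ^ 4) := by
      rw [card_labT]
      push_cast
      congr 1
      ring
    rw [hc] at key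
    exact key
  · intro f hf
    have h1 := hL (ext f)
    have h2 := En_le_EL hg (ext f)
    set S : ℝ := ∑ y, Wo g y with hS
    have hSpos : 0 < S := sum_pos (fun y _ => hW y) univ_nonempty
    have h3 : ∑ s ∈ pms V, ∑ t ∈ pms V, W g s * W g t * (ext f s - ext f t) ^ 2 =
        ∑ s, ∑ t, Wo g s * Wo g t * (f s - f t) ^ 2 := by
      rw [sum_pms]
      refine Finset.sum_congr rfl fun s _ => ?_
      rw [sum_pms]
      refine Finset.sum_congr rfl fun t _ => ?_
      rw [ext_coe, ext_coe]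
      rfl
    rw [h3, double_sum] at h1
    have h4 : ∑ s, Wo g s * f s = 0 := by
      have : ∑ s, GoodK.law (Wo g) s * f s = (∑ s, Wo g s * f s) / S := by
        unfold GoodK.law
        rw [Finset.sum_div]
        refine Finset.sum_congr rfl fun s _ => ?_
        rw [← hS]; ring
      rw [this] at hf
      rcases div_eq_zero_iff.1 hf with h | h
      · exact h
      · exact absurd h hSpos.ne'
    have h5 : S ^ 2 * ∑ a, GoodK.law (Wo g) a * f a ^ 2 = S * ∑ s, Wo g s * f s ^ 2 := by
      have : ∑ a, GoodK.law (Wo g) a * f a ^ 2 = (∑ s, Wo g s * f s ^ 2) / S := by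
        unfold GoodK.law
        rw [Finset.sum_div]
        refine Finset.sum_congr rfl fun s _ => ?_
        rw [← hS]; ring
      rw [this]
      field_simp
    rw [h4] at h1
    have h6 : EL g (ext f) = ∑ l : LabT V, ∑ z : Mov.Om V × Mov.Om V,
        min (GoodK.pw (Wo g) z) (GoodK.pw (Wo g) (tauL l z)) *
          ((f z.1 + f z.2) - (f (tauL l z).1 + f (tauL l z).2)) ^ 2 := by
      unfold EL el wz Fz GoodK.pw Wo
      simp only [ext_coe]
    rw [h5, ← h6]
    have h7 : 2 * S * ∑ s, Wo g s * f s ^ 2 ≤ K * En g (ext f) := by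
      have : 2 * S * (∑ s, Wo g s * f s ^ 2) - 2 * (0 : ℝ) ^ 2 ≤ K * En g (ext f) := h1
      simpa using this
    nlinarith [mul_le_mul_of_nonneg_left h2 hK.le]

end Crest.Agent.R304.Good922

end
end

-- ▼ part R304/GK922

/-!
# R304 / S0464: well conditioned weights have a good pair kernel (assembly from Theorem L)
-/

set_option autoImplicit false
set_option linter.unusedSectionVars false

noncomputable section

namespace Crest.Agent.R304.GK922

open Finset Lab922 Good922

/-- Theorem L (delivered by the combinatorial part) as a hypothesis: `K c0` is the constant. -/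
def ThmL (n : ℕ) (K : ℝ → ℝ) : Prop :=
  ∀ a : Fin n → Fin n → ℝ, (∀ u v, 0 < a u v) → (∀ u v, a u v = a v u) → (∀ v, a v v = 1) →
    ∀ c0 : ℝ, 0 < c0 → c0 ≤ 1 → Nonempty (Nodes.NodeSys (Fin n) (lam a) c0) →
      ∀ f : (Fin n → Fin n) → ℝ,
        ∑ s ∈ pms (Fin n), ∑ t ∈ pms (Fin n), W a s * W a t * (f s - f t) ^ 2 ≤ K c0 * En a f

/-- the constant of the node system -/
def c0 (n : ℕ) (q : ℝ) : ℝ := 1 / (q * ((q ^ 2 + 1) * n))

theorem c0_pos {n : ℕ} (hn : 3 ≤ n) {q : ℝ} (hq : 1 ≤ q) : 0 < c0 n q := by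
  unfold c0
  have : (0 : ℝ) < n := by exact_mod_cast (by omega : 0 < n)
  positivity

theorem c0_le_one {n : ℕ} (hn : 3 ≤ n) {q : ℝ} (hq : 1 ≤ q) : c0 n q ≤ 1 := by
  unfold c0
  have h1 : (1 : ℝ) ≤ n := by exact_mod_cast (by omega : 1 ≤ n)
  have h2 : (1 : ℝ) ≤ q ^ 2 + 1 := by nlinarith [sq_nonneg q]
  have h3 : (1 : ℝ) ≤ (q ^ 2 + 1) * n := by nlinarith
  have h4 : (1 : ℝ) ≤ q * ((q ^ 2 + 1) * n) := by nlinarith
  rw [div_le_one (by linarith)]
  exact h4

/-- the weight of a perfect matching -/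
def wo {n : ℕ} (lam : Fin n → Fin n → ℝ) (s : Mov.Om (Fin n)) : ℝ := Br.wt lam s.1

theorem wo_pos {n : ℕ} {lam : Fin n → Fin n → ℝ} (h : ∀ u v, 0 < lam u v) (s : Mov.Om (Fin n)) :
    0 < wo lam s := Br.wt_pos h _

theorem wo_eq {n : ℕ} {lam : Fin n → Fin n → ℝ} (h : ∀ u v, 0 < lam u v)
    (hs : ∀ u v, lam u v = lam v u) : wo lam = Wo (Br.half lam) := by
  funext s
  exact Br.wt_eq_W h hs (fun v => (s.2 v).1)

theorem nonempty_Om {n : ℕ} (hev : Even n) : Nonempty (Mov.Om (Fin n)) := by
  have : 0 < Fintype.card (Mov.Om (Fin n)) := by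
    rw [Br.card_Om (by rwa [Fintype.card_fin])]
    exact Nat.doubleFactorial_pos _
  exact Fintype.card_pos_iff.1 this

/-- the gap constant -/
def gam (n : ℕ) (K : ℝ → ℝ) (q : ℝ) : ℝ := 1 / (16 * K (c0 n q) * (n : ℝ) ^ 4)


/-- **Well conditioned weights have a good pair kernel.** -/
theorem good_of_wc {n : ℕ} {lam : Fin n → Fin n → ℝ} (h : ∀ u v, 0 < lam u v)
    (hs : ∀ u v, lam u v = lam v u) (hn : 3 ≤ n) (hev : Even n) {q : ℝ} (hq : 1 ≤ q)
    (wc : ∀ u v, u ≠ v →
      Br.Zw lam ≤ q * ∑ s : Mov.Om (Fin n), (if s.1 u = v then Br.wt lam s.1 else 0))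
    {K : ℝ → ℝ} (hK : 0 < K (c0 n q)) (hL : ThmL n K) :
    Pop.GoodKernel (GoodK.law (wo lam)) (GoodK.hb (GoodK.pw (wo lam)) (tauL (V := Fin n)))
      (gam n K q) := by
  have hne : Nonempty (Mov.Om (Fin n)) := nonempty_Om hev
  have hneV : Nonempty (Fin n) := ⟨⟨0, by omega⟩⟩
  have hnodes := Br.nodes_of_wc h hs hn hev hq wc
  have key := goodKernel_of_L (V := Fin n) (g := Br.half lam) (Br.half_pos h) hK
    (hL (Br.half lam) (Br.half_pos h) (Br.half_symm hs) (Br.half_self lam) (c0 n q)
      (c0_pos hn hq) (c0_le_one hn hq) hnodes)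
  rw [← wo_eq h hs] at key
  have e : gam n K q = 1 / (16 * K (c0 n q) * (Fintype.card (Fin n) : ℝ) ^ 4) := by
    unfold gam; rw [Fintype.card_fin]
  rw [e]
  convert key

end Crest.Agent.R304.GK922

end
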