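import Crest.Agent.R309.Tape2
import Crest.Agent.R309.MCTape

/-!
# R304 / S0464, block L6 (helper168): a calculus of approximate sampling from tapes

`Approx R r enc p d` says: the randomised program `R`, reading `r` fresh uniform bits, outputs an
element of `S` whose law is within `d` (functional total variation form) of the law `p` on the
finite type `α`, where elements of `α` are represented in `S` by `enc`.
-/

set_option autoImplicit false

namespace Crest.Agent.R304.L6

open Finset Crest.Agent.R309.Tape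

variable {α β : Type*} [Fintype α] [Fintype β] {S S' T : Type*}

/-- `R` reads `r` bits and samples from `p` up to an error `d`. -/
def Approx (R : List Bool → S) (r : ℕ) (enc : α → S) (p : α → ℝ) (d : ℝ) : Prop :=
  ∀ φ : S → ℝ, (∀ s, |φ s| ≤ 1) → |avg r (fun l => φ (R l)) - ∑ x, p x * φ (enc x)| ≤ d

theorem Approx.mono {R : List Bool → S} {r : ℕ} {enc : α → S} {p : α → ℝ} {d d' : ℝ}
    (h : Approx R r enc p d) (hd : d ≤ d') : Approx R r enc p d' :=
  fun φ hφ => (h φ hφ).trans hd

theorem Approx.congr {R R' : List Bool → S} {r : ℕ} {enc : α → S} {p : α → ℝ} {d : ℝ}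
    (h : Approx R r enc p d) (hR : ∀ l : List Bool, l.length = r → R' l = R l) :
    Approx R' r enc p d := by
  intro φ hφ
  rw [show avg r (fun l => φ (R' l)) = avg r (fun l => φ (R l)) from
    avg_congr fun l hl => by rw [hR l hl]]
  exact h φ hφ

theorem Approx.congr_law {R : List Bool → S} {r : ℕ} {enc : α → S} {p p' : α → ℝ} {d : ℝ}
    (h : Approx R r enc p d) (hp : ∀ x, p' x = p x) : Approx R r enc p' d := by
  have : p' = p := funext hp
  rw [this]; exact h

theorem Approx.nonneg {R : List Bool → S} {r : ℕ} {enc : α → S} {p : α → ℝ} {d : ℝ}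
    (h : Approx R r enc p d) : 0 ≤ d :=
  (abs_nonneg _).trans (h (fun _ => 0) (fun _ => by simp))

/-- change of the ideal law -/
theorem Approx.change {R : List Bool → S} {r : ℕ} {enc : α → S} {p p' : α → ℝ} {d d' : ℝ}
    (h : Approx R r enc p d) (hp : ∑ x, |p x - p' x| ≤ d') : Approx R r enc p' (d + d') := by
  intro φ hφ
  have h1 : |∑ x, p x * φ (enc x) - ∑ x, p' x * φ (enc x)| ≤ d' := by
    rw [← sum_sub_distrib]
    refine (abs_sum_le_sum_abs _ _).trans ((sum_le_sum fun x _ => ?_).trans hp)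
    rw [← sub_mul, abs_mul]
    calc |p x - p' x| * |φ (enc x)| ≤ |p x - p' x| * 1 :=
          mul_le_mul_of_nonneg_left (hφ _) (abs_nonneg _)
      _ = |p x - p' x| := mul_one _
  exact (abs_sub_le _ _ _).trans (add_le_add (h φ hφ) h1)

/-- post-processing -/
theorem Approx.map {R : List Bool → S} {r : ℕ} {enc : α → S} {p : α → ℝ} {d : ℝ}
    (h : Approx R r enc p d) (g : S → S') : Approx (fun l => g (R l)) r (fun x => g (enc x)) p d :=
  fun φ hφ => h (fun s => φ (g s)) (fun s => hφ (g s))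

/-- push the ideal law forward -/
theorem Approx.push [DecidableEq β] {R : List Bool → S} {r : ℕ} {f : α → β} {enc : β → S}
    {p : α → ℝ} {d : ℝ} (h : Approx R r (fun x => enc (f x)) p d) :
    Approx R r enc (fun y => ∑ x, if f x = y then p x else 0) d := by
  intro φ hφ
  have e : ∑ y, (∑ x, if f x = y then p x else 0) * φ (enc y) = ∑ x, p x * φ (enc (f x)) := by
    simp only [sum_mul]
    rw [sum_comm]
    refine sum_congr rfl fun x _ => ?_
    simp only [ite_mul, zero_mul]
    rw [sum_ite_eq]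
    simp
  rw [e]
  exact h φ hφ


/-- sequential composition -/
theorem Approx.bind {R1 : List Bool → S} {r1 : ℕ} {enc : α → S} {p : α → ℝ} {d1 : ℝ}
    {R2 : S → List Bool → S'} {r2 : ℕ} {enc' : β → S'} {K : α → β → ℝ} {d2 : ℝ}
    (h1 : Approx R1 r1 enc p d1) (hp : ∀ x, 0 ≤ p x) (hp1 : ∑ x, p x ≤ 1)
    (hd2 : 0 ≤ d2) (h2 : ∀ x, Approx (R2 (enc x)) r2 enc' (K x) d2) :
    Approx (fun l => R2 (R1 (l.take r1)) (l.drop r1)) (r1 + r2) enc'
      (fun y => ∑ x, p x * K x y) (d1 + d2) := by
  intro φ hφ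
  rw [avg_take_drop r1 r2 (fun l l' => φ (R2 (R1 l) l'))]
  set ψ : S → ℝ := fun s => avg r2 (fun l' => φ (R2 s l')) with hψ
  have hψ1 : ∀ s, |ψ s| ≤ 1 := fun s =>
    (abs_avg_le _ _).trans (avg_le_const fun l _ => hφ _)
  have a1 := h1 ψ hψ1
  have a2 : |∑ x, p x * ψ (enc x) - ∑ y, (∑ x, p x * K x y) * φ (enc' y)| ≤ d2 := by
    have e : ∑ y, (∑ x, p x * K x y) * φ (enc' y) = ∑ x, p x * ∑ y, K x y * φ (enc' y) := by
      simp only [sum_mul, mul_sum]
      rw [sum_comm]
      exact sum_congr rfl fun x _ => sum_congr rfl fun y _ => by ring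
    rw [e, ← sum_sub_distrib]
    refine (abs_sum_le_sum_abs _ _).trans ?_
    calc ∑ x, |p x * ψ (enc x) - p x * ∑ y, K x y * φ (enc' y)|
        ≤ ∑ x, p x * d2 := by
          refine sum_le_sum fun x _ => ?_
          rw [← mul_sub, abs_mul, abs_of_nonneg (hp x)]
          exact mul_le_mul_of_nonneg_left (h2 x φ hφ) (hp x)
      _ = (∑ x, p x) * d2 := by rw [sum_mul]
      _ ≤ 1 * d2 := mul_le_mul_of_nonneg_right hp1 hd2
      _ = d2 := one_mul _
  exact (abs_sub_le _ _ _).trans (add_le_add a1 a2)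

/-- independent pairs -/
theorem Approx.prod {R1 : List Bool → S} {r1 : ℕ} {enc : α → S} {p : α → ℝ} {d1 : ℝ}
    {R2 : List Bool → S'} {r2 : ℕ} {enc' : β → S'} {p' : β → ℝ} {d2 : ℝ}
    (h1 : Approx R1 r1 enc p d1) (hp : ∀ x, 0 ≤ p x) (hp1 : ∑ x, p x ≤ 1)
    (h2 : Approx R2 r2 enc' p' d2) :
    Approx (fun l => (R1 (l.take r1), R2 (l.drop r1))) (r1 + r2)
      (fun z : α × β => (enc z.1, enc' z.2)) (fun z => p z.1 * p' z.2) (d1 + d2) := by
  intro φ hφ
  rw [avg_take_drop r1 r2 (fun l l' => φ (R1 l, R2 l'))]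
  have a1 := h1 (fun s => avg r2 (fun l' => φ (s, R2 l')))
    (fun s => (abs_avg_le _ _).trans (avg_le_const fun l _ => hφ _))
  have a2 : |∑ x, p x * avg r2 (fun l' => φ (enc x, R2 l')) -
      ∑ z : α × β, p z.1 * p' z.2 * φ (enc z.1, enc' z.2)| ≤ d2 := by
    rw [Fintype.sum_prod_type, ← sum_sub_distrib]
    refine (abs_sum_le_sum_abs _ _).trans ?_
    calc ∑ x, |p x * avg r2 (fun l' => φ (enc x, R2 l')) -
            ∑ y, p x * p' y * φ (enc x, enc' y)|
        ≤ ∑ x, p x * d2 := by
          refine sum_le_sum fun x _ => ?_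
          have : ∑ y, p x * p' y * φ (enc x, enc' y) = p x * ∑ y, p' y * φ (enc x, enc' y) := by
            rw [mul_sum]; exact sum_congr rfl fun y _ => by ring
          rw [this, ← mul_sub, abs_mul, abs_of_nonneg (hp x)]
          exact mul_le_mul_of_nonneg_left (h2 (fun t => φ (enc x, t)) (fun t => hφ _)) (hp x)
      _ = (∑ x, p x) * d2 := by rw [sum_mul]
      _ ≤ 1 * d2 := mul_le_mul_of_nonneg_right hp1 h2.nonneg
      _ = d2 := one_mul _
  exact (abs_sub_le _ _ _).trans (add_le_add a1 a2)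

/-- reading a prefix of a longer tape -/
theorem Approx.take {R : List Bool → S} {r : ℕ} {enc : α → S} {p : α → ℝ} {d : ℝ}
    (h : Approx R r enc p d) {r' : ℕ} (hr : r ≤ r') :
    Approx (fun l => R (l.take r)) r' enc p d := by
  intro φ hφ
  rw [avg_take hr (fun l => φ (R l))]
  exact h φ hφ

/-- probabilities of events -/
theorem Approx.pr_le {R : List Bool → S} {r : ℕ} {enc : α → S} {p : α → ℝ} {d : ℝ}
    (h : Approx R r enc p d) (E : S → Prop) :
    pr r (fun l => E (R l)) ≤ (∑ x, p x * ind (E (enc x))) + d := by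
  have h1 := h (fun s => ind (E s)) (fun s => by
    rw [abs_of_nonneg (ind_nonneg _)]; exact ind_le_one _)
  have h2 := (abs_le.1 h1).2
  have h3 : pr r (fun l => E (R l)) = avg r (fun l => ind (E (R l))) := rfl
  rw [h3]
  linarith


/-! ### `k` independent samples -/

/-- product law on `Fin k → α` -/
def prodLaw {k : ℕ} (p : α → ℝ) (x : Fin k → α) : ℝ := ∏ i, p (x i)

theorem prodLaw_nonneg {k : ℕ} {p : α → ℝ} (hp : ∀ x, 0 ≤ p x) (x : Fin k → α) :
    0 ≤ prodLaw p x := prod_nonneg fun i _ => hp _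

theorem sum_prodLaw (k : ℕ) (p : α → ℝ) : ∑ x : Fin k → α, prodLaw p x = (∑ x, p x) ^ k := by
  unfold prodLaw
  rw [← Fintype.piFinset_univ, ← Finset.prod_univ_sum]
  simp

theorem sum_prodLaw_one (k : ℕ) {p : α → ℝ} (hp : ∑ x, p x = 1) :
    ∑ x : Fin k → α, prodLaw p x = 1 := by
  rw [sum_prodLaw, hp, one_pow]

theorem sum_fin_succ_cons {k : ℕ} (F : (Fin (k + 1) → α) → ℝ) :
    ∑ x : Fin (k + 1) → α, F x = ∑ a : α, ∑ y : Fin k → α, F (Fin.cons a y) := by
  rw [← (Fin.consEquiv (fun _ : Fin (k + 1) => α)).sum_comp, Fintype.sum_prod_type]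
  rfl

theorem prodLaw_cons {k : ℕ} (p : α → ℝ) (a : α) (y : Fin k → α) :
    prodLaw p (Fin.cons a y : Fin (k + 1) → α) = p a * prodLaw p y := by
  unfold prodLaw
  rw [Fin.prod_univ_succ]
  simp

/-- `k` independent samples from disjoint blocks of the tape -/
theorem Approx.blocks {R : List Bool → S} {r : ℕ} {enc : α → S} {p : α → ℝ} {d : ℝ}
    (h : Approx R r enc p d) (hp : ∀ x, 0 ≤ p x) (hp1 : ∑ x, p x = 1) (k : ℕ) :
    Approx (fun l => (Crest.Agent.R309.Tape.blocks r k l).map R) (k * r)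
      (fun x : Fin k → α => List.ofFn (fun i => enc (x i))) (prodLaw p) (k * d) := by
  induction k with
  | zero =>
    intro φ _
    simp [prodLaw]
  | succ k ih =>
    have h2 := Approx.prod h hp hp1.le ih
    have h3 := h2.map (fun z => z.1 :: z.2)
    intro φ hφ
    have h4 := h3 φ hφ
    rw [show (k + 1) * r = r + k * r by ring, sum_fin_succ_cons]
    rw [Fintype.sum_prod_type] at h4
    simp only [blocks_succ, List.map_cons, List.ofFn_succ, Fin.cons_zero, Fin.cons_succ,
      prodLaw_cons]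
    refine h4.trans (le_of_eq ?_)
    push_cast; ring

/-! ### runs over a list of stages -/

/-- run the steps `f t` for the parameters `t` of a list, each step reading `r` bits -/
def runL (f : T → S → List Bool → S) (r : ℕ) : List T → S → List Bool → S
  | [], s, _ => s
  | t :: ts, s, l => runL f r ts (f t s (l.take r)) (l.drop r)

/-- push a law through a kernel -/
def pushK (K : α → α → ℝ) (p : α → ℝ) (y : α) : ℝ := ∑ x, p x * K x y

/-- law after a list of kernels -/
def lawL (K : T → α → α → ℝ) : List T → (α → ℝ) → α → ℝ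
  | [], p => p
  | t :: ts, p => lawL K ts (pushK (K t) p)




theorem lawL_append (K : T → α → α → ℝ) (ts us : List T) (p : α → ℝ) :
    lawL K (ts ++ us) p = lawL K us (lawL K ts p) := by
  induction ts generalizing p with
  | nil => rfl
  | cons t ts ih => exact ih _

theorem pushK_nonneg {K : α → α → ℝ} (hK : ∀ x y, 0 ≤ K x y) {p : α → ℝ} (hp : ∀ x, 0 ≤ p x)
    (y : α) : 0 ≤ pushK K p y := sum_nonneg fun x _ => mul_nonneg (hp x) (hK x y)

theorem sum_pushK {K : α → α → ℝ} (hK : ∀ x, ∑ y, K x y = 1) (p : α → ℝ) :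
    ∑ y, pushK K p y = ∑ x, p x := by
  unfold pushK
  rw [sum_comm]
  exact sum_congr rfl fun x _ => by rw [← mul_sum, hK, mul_one]



/-- **A run over a list of stages** -/
theorem Approx.runL {R : List Bool → S} {r0 : ℕ} {enc : α → S} {p : α → ℝ} {d0 : ℝ}
    (h : Approx R r0 enc p d0) (hp : ∀ x, 0 ≤ p x) (hp1 : ∑ x, p x = 1)
    {f : T → S → List Bool → S} {r : ℕ} {K : T → α → α → ℝ} {d : ℝ} (hd : 0 ≤ d) (ts : List T)
    (hK0 : ∀ t ∈ ts, ∀ x y, 0 ≤ K t x y) (hK1 : ∀ t ∈ ts, ∀ x, ∑ y, K t x y = 1)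
    (hf : ∀ t ∈ ts, ∀ x, Approx (f t (enc x)) r enc (K t x) d) :
    Approx (fun l => L6.runL f r ts (R (l.take r0)) (l.drop r0)) (r0 + ts.length * r) enc
      (lawL K ts p) (d0 + ts.length * d) := by
  induction ts generalizing R r0 p d0 with
  | nil =>
    simp only [L6.runL, lawL, List.length_nil, Nat.cast_zero, zero_mul, add_zero]
    exact h.congr fun l hl => by rw [← hl, List.take_length]
  | cons t ts ih =>
    have h1 := h.bind hp hp1.le hd (hf t (List.mem_cons_self ..))
    have h2 := ih h1 (pushK_nonneg (hK0 t (List.mem_cons_self ..)) hp)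
      (by rw [show (∑ x, ∑ x_1, p x_1 * K t x_1 x) = ∑ x, pushK (K t) p x from rfl,
            sum_pushK (hK1 t (List.mem_cons_self ..)), hp1])
      (fun t' ht' => hK0 t' (List.mem_cons_of_mem _ ht'))
      (fun t' ht' => hK1 t' (List.mem_cons_of_mem _ ht'))
      (fun t' ht' => hf t' (List.mem_cons_of_mem _ ht'))
    intro φ hφ
    have h3 := h2 φ hφ
    simp only [List.length_cons, lawL]
    have e : r0 + (ts.length + 1) * r = r0 + r + ts.length * r := by ring
    rw [e]
    have e2 : (fun l : List Bool => φ (L6.runL f r (t :: ts) (R (l.take r0)) (l.drop r0))) =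
        fun l => φ (L6.runL f r ts (f t (R ((l.take (r0 + r)).take r0)) ((l.take (r0 + r)).drop r0))
          (l.drop (r0 + r))) := by
      funext l
      simp only [L6.runL]
      congr 2
      · congr 1
        · rw [List.take_take, min_eq_left (Nat.le_add_right r0 r)]
        · rw [List.drop_take]
          congr 1
          omega
      · rw [List.drop_drop]
    rw [e2]
    refine h3.trans (le_of_eq ?_)
    push_cast; ring

end Crest.Agent.R304.L6
private theorem rz_485938e467 : type_of% @_root_.Crest.Agent.R304.L6.lawL.eq_def := @_root_.Crest.Agent.R304.L6.lawL.eq_def -- L231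
private theorem rz_7af62358ac : type_of% @_root_.Crest.Agent.R304.L6.lawL.eq_1 := @_root_.Crest.Agent.R304.L6.lawL.eq_1 -- L231
private theorem rz_620902cafc : type_of% @_root_.Crest.Agent.R304.L6.runL.eq_def := @_root_.Crest.Agent.R304.L6.runL.eq_def -- L223
private theorem rz_8cc15f9060 : type_of% @_root_.Crest.Agent.R304.L6.runL.eq_1 := @_root_.Crest.Agent.R304.L6.runL.eq_1 -- L223
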