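import Crest.Agent.R304.L6Step
import Crest.Agent.R304.L6Law
import Crest.Agent.R304.GoodK922
import Crest.Agent.R304.Fine922
import Crest.Agent.R304.Start555
import Crest.Agent.R304.Loop180

-- ▼ part R304/L6Kern
section

/-!
# R304 / S0464, block L6 (helper168): the index kernel is the population kernel `popK`
-/

set_option autoImplicit false
set_option linter.unusedSectionVars false

namespace Crest.Agent.R304.L6

open Finset Crest.Agent.R309.Tape

/-! ### sums over mixed-radix indices -/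

theorem sum_range_mod_div {M : Type*} [AddCommMonoid M] (a b : ℕ) (F : ℕ → ℕ → M) :
    ∑ i ∈ range (a * b), F (i % a) (i / a) = ∑ y ∈ range b, ∑ x ∈ range a, F x y := by
  induction b with
  | zero => simp
  | succ b ih =>
    rw [mul_add, mul_one, sum_range_add, ih, sum_range_succ]
    congr 1
    refine sum_congr rfl fun x hx => ?_
    have hx' := mem_range.1 hx
    have ha : 0 < a := by omega
    rw [Nat.mul_add_mod, Nat.mod_eq_of_lt hx', Nat.mul_add_div ha, Nat.div_eq_of_lt hx', add_zero]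

theorem sum_range_shift (k : ℕ) (G : ℕ → ℝ) (c : ℕ) :
    ∑ d ∈ range k, G ((c + d) % k) = ∑ d ∈ range k, G d := by
  induction c with
  | zero =>
    exact sum_congr rfl fun d hd => by rw [zero_add, Nat.mod_eq_of_lt (mem_range.1 hd)]
  | succ c ih =>
    rw [← ih]
    have h1 := sum_range_succ (fun d => G ((c + d) % k)) k
    have h2 := sum_range_succ' (fun d => G ((c + d) % k)) k
    have e : ∑ d ∈ range k, G ((c + 1 + d) % k) = ∑ d ∈ range k, G ((c + (d + 1)) % k) :=
      sum_congr rfl fun d _ => by rw [show c + 1 + d = c + (d + 1) by ring]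
    rw [e]
    have h3 : G ((c + k) % k) = G ((c + 0) % k) := by rw [Nat.add_mod_right, add_zero]
    linarith

theorem sum_range_others {k p : ℕ} (hp : p < k) (G : ℕ → ℝ) :
    ∑ d ∈ range (k - 1), G ((p + 1 + d) % k) = ∑ q ∈ range k, if p ≠ q then G q else 0 := by
  have h1 := sum_range_shift k G (p + 1)
  have hk : k = (k - 1) + 1 := by omega
  have h2 : ∑ d ∈ range k, G ((p + 1 + d) % k) =
      ∑ d ∈ range (k - 1), G ((p + 1 + d) % k) + G p := by
    conv_lhs => rw [show range k = range ((k - 1) + 1) by rw [← hk]]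
    rw [sum_range_succ]
    congr 2
    rw [show p + 1 + (k - 1) = p + k by omega, Nat.add_mod_right, Nat.mod_eq_of_lt hp]
  have h3 : ∑ q ∈ range k, G q = ∑ q ∈ range k, (if p ≠ q then G q else 0) + G p := by
    have e : ∀ q, G q = (if p ≠ q then G q else 0) + (if q = p then G q else 0) := by
      intro q
      by_cases h : q = p
      · subst h; simp
      · rw [if_pos (fun h' => h h'.symm), if_neg h, add_zero]
    calc ∑ q ∈ range k, G q
        = ∑ q ∈ range k, ((if p ≠ q then G q else 0) + (if q = p then G q else 0)) :=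
          sum_congr rfl fun q _ => e q
      _ = _ := by rw [sum_add_distrib, sum_ite_eq', if_pos (mem_range.2 hp)]
  linarith

/-! ### the general identification -/

section

variable {Ω : Type} [Fintype Ω] [DecidableEq Ω] {L : Type} [Fintype L]

/-- the move with replicas `p`, `q` and label `l` on a population -/
def popMove {k : ℕ} (tau : L → Ω × Ω → Ω × Ω) (p q : Fin k) (l : L) (x : Fin k → Ω) : Fin k → Ω :=
  upd2 x p q (tau l (x p, x q))

theorem sum_popK_mul {k : ℕ} (K : Ω × Ω → Ω × Ω → ℝ) (x : Fin k → Ω) (ψ : (Fin k → Ω) → ℝ) :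
    ∑ y, Pop.popK K x y * ψ y =
      (∑ p, ∑ q, if p ≠ q then ∑ z, K (x p, x q) z * ψ (upd2 x p q z) else 0) /
        ((k : ℝ) * ((k : ℝ) - 1)) := by
  unfold Pop.popK
  simp only [div_mul_eq_mul_div]
  rw [← sum_div]
  congr 1
  simp only [sum_mul]
  rw [sum_comm]
  refine sum_congr rfl fun p _ => ?_
  rw [sum_comm]
  refine sum_congr rfl fun q _ => ?_
  by_cases h : p ≠ q
  · simp only [if_pos h]
    exact sum_pairK_mul K h x ψ
  · simp only [if_neg h, zero_mul, sum_const_zero]

theorem sum_hb_mul (w : Ω × Ω → ℝ) (tau : L → Ω × Ω → Ω × Ω) (z : Ω × Ω) (ψ : Ω × Ω → ℝ) :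
    ∑ z', GoodK.hb w tau z z' * ψ z' =
      (∑ l, (w (tau l z) / (w z + w (tau l z)) * ψ (tau l z) +
        w z / (w z + w (tau l z)) * ψ z)) / (Fintype.card L : ℝ) := by
  unfold GoodK.hb
  simp only [div_mul_eq_mul_div]
  rw [← sum_div]
  congr 1
  simp only [sum_mul]
  rw [sum_comm]
  refine sum_congr rfl fun l _ => ?_
  rw [GoodK.hb1_sum]
  ring

/-- a kernel on a finite type is determined by its action on functions -/
theorem ker_ext {α : Type*} [Fintype α] [DecidableEq α] {K K' : α → α → ℝ} {x : α}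
    (h : ∀ ψ : α → ℝ, ∑ y, K x y * ψ y = ∑ y, K' x y * ψ y) (y : α) : K x y = K' x y := by
  have := h (fun z => if z = y then 1 else 0)
  simpa using this

/-- **The index kernel is the population kernel.** -/
theorem hbK_eq_popK {k : ℕ} (N : ℕ) (hN : (N : ℝ) = (k : ℝ) * (k - 1) * (Fintype.card L : ℝ))
    (tau : L → Ω × Ω → Ω × Ω) (w : Ω → ℕ) (decP decQ : ℕ → Fin k) (decL : ℕ → L)
    (hdec : ∀ F : Fin k → Fin k → L → ℝ, ∑ i ∈ range N, F (decP i) (decQ i) (decL i) =
      ∑ p, ∑ q, if p ≠ q then ∑ l, F p q l else 0)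
    (mv : ℕ → (Fin k → Ω) → (Fin k → Ω)) (a b : ℕ → (Fin k → Ω) → ℕ)
    (hmv : ∀ i < N, ∀ x, mv i x = popMove tau (decP i) (decQ i) (decL i) x)
    (ha : ∀ i < N, ∀ x, a i x = w (x (decP i)) * w (x (decQ i)))
    (hb : ∀ i < N, ∀ x, b i x = w (tau (decL i) (x (decP i), x (decQ i))).1 *
      w (tau (decL i) (x (decP i), x (decQ i))).2) (x y : Fin k → Ω) :
    hbK N mv a b x y =
      Pop.popK (GoodK.hb (GoodK.pw fun s => (w s : ℝ)) tau) x y := by
  refine ker_ext (K := hbK N mv a b)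
    (K' := Pop.popK (GoodK.hb (GoodK.pw fun s => (w s : ℝ)) tau)) (fun ψ => ?_) y
  rw [sum_hbK_mul, sum_popK_mul]
  set F : Fin k → Fin k → L → ℝ := fun p q l =>
        GoodK.pw (fun s => (w s : ℝ)) (tau l (x p, x q)) /
            (GoodK.pw (fun s => (w s : ℝ)) (x p, x q) +
              GoodK.pw (fun s => (w s : ℝ)) (tau l (x p, x q))) * ψ (upd2 x p q (tau l (x p, x q)))
          + GoodK.pw (fun s => (w s : ℝ)) (x p, x q) /
            (GoodK.pw (fun s => (w s : ℝ)) (x p, x q) +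
              GoodK.pw (fun s => (w s : ℝ)) (tau l (x p, x q))) * ψ x with hF
  have h1 : ∀ i ∈ range N, (b i x : ℝ) / (a i x + b i x) * ψ (mv i x) +
      (a i x : ℝ) / (a i x + b i x) * ψ x = F (decP i) (decQ i) (decL i) := by
    intro i hi
    have hi' := mem_range.1 hi
    rw [hmv i hi', ha i hi', hb i hi', hF]
    simp only [GoodK.pw, popMove]
    push_cast
    rfl
  rw [sum_congr rfl h1, hdec F, hN]
  have h2 : ∀ p q : Fin k, (if p ≠ q then ∑ z, GoodK.hb (GoodK.pw fun s => (w s : ℝ)) tau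
      (x p, x q) z * ψ (upd2 x p q z) else 0) =
      (if p ≠ q then ∑ l, (GoodK.pw (fun s => (w s : ℝ)) (tau l (x p, x q)) /
            (GoodK.pw (fun s => (w s : ℝ)) (x p, x q) +
              GoodK.pw (fun s => (w s : ℝ)) (tau l (x p, x q))) * ψ (upd2 x p q (tau l (x p, x q)))
          + GoodK.pw (fun s => (w s : ℝ)) (x p, x q) /
            (GoodK.pw (fun s => (w s : ℝ)) (x p, x q) +
              GoodK.pw (fun s => (w s : ℝ)) (tau l (x p, x q))) * ψ x) else 0) /
        (Fintype.card L : ℝ) := by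
    intro p q
    by_cases h : p ≠ q
    · rw [if_pos h, if_pos h,
        sum_hb_mul (GoodK.pw fun s => (w s : ℝ)) tau (x p, x q) (fun z => ψ (upd2 x p q z)),
        upd2_self h]
    · rw [if_neg h, if_neg h, zero_div]
  simp only [h2]
  simp only [← sum_div]
  rw [div_div, mul_comm ((k : ℝ) * (k - 1))]

end

/-! ### the concrete decoding -/

/-- number of indices -/
def idxN (n k : ℕ) : ℕ := k * (k - 1) * (4 * n ^ 4)

theorem idxN_cast {n k : ℕ} (hk : 1 ≤ k) :
    (idxN n k : ℝ) = (k : ℝ) * (k - 1) * (Fintype.card (Fin 4 × Fin n × Fin n × Fin n × Fin n) : ℝ) := by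
  unfold idxN
  simp only [Fintype.card_prod, Fintype.card_fin]
  push_cast [Nat.cast_sub hk]
  ring

theorem sum_fin_ofNat {n : ℕ} [NeZero n] {M : Type*} [AddCommMonoid M] (F : Fin n → M) :
    ∑ x ∈ range n, F (Fin.ofNat n x) = ∑ x : Fin n, F x := by
  rw [Finset.sum_range]
  refine sum_congr rfl fun x _ => ?_
  congr 1
  exact Fin.ext (by simp [Fin.ofNat, Nat.mod_eq_of_lt x.2])

/-- **The mod/div decoding enumerates all ordered pairs of replicas and all labels.** -/
theorem sum_idx (n k : ℕ) [NeZero n] [NeZero k]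
    (F : Fin k → Fin k → Fin 4 × Fin n × Fin n × Fin n × Fin n → ℝ) :
    ∑ i ∈ range (idxN n k), F (Fin.ofNat k (i % k))
        (Fin.ofNat k ((i % k + 1 + i / k % (k - 1)) % k))
        (Fin.ofNat 4 (i / k / (k - 1) % 4), Fin.ofNat n (i / k / (k - 1) / 4 % n),
          Fin.ofNat n (i / k / (k - 1) / 4 / n % n), Fin.ofNat n (i / k / (k - 1) / 4 / n / n % n),
          Fin.ofNat n (i / k / (k - 1) / 4 / n / n / n % n)) =
      ∑ p, ∑ q, if p ≠ q then ∑ l, F p q l else 0 := by
  have e1 : idxN n k = k * ((k - 1) * (4 * (n * (n * (n * n))))) := by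
    unfold idxN; ring
  rw [e1]
  rw [sum_range_mod_div k _ (fun p r => F (Fin.ofNat k p)
        (Fin.ofNat k ((p + 1 + r % (k - 1)) % k))
        (Fin.ofNat 4 (r / (k - 1) % 4), Fin.ofNat n (r / (k - 1) / 4 % n),
          Fin.ofNat n (r / (k - 1) / 4 / n % n), Fin.ofNat n (r / (k - 1) / 4 / n / n % n),
          Fin.ofNat n (r / (k - 1) / 4 / n / n / n % n)))]
  rw [sum_comm]
  rw [← sum_fin_ofNat (n := k) (fun p => ∑ q, if p ≠ q then ∑ l, F p q l else 0)]
  refine sum_congr rfl fun p hp => ?_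
  have hp' := mem_range.1 hp
  rw [sum_range_mod_div (k - 1) _ (fun d r => F (Fin.ofNat k p)
        (Fin.ofNat k ((p + 1 + d) % k))
        (Fin.ofNat 4 (r % 4), Fin.ofNat n (r / 4 % n),
          Fin.ofNat n (r / 4 / n % n), Fin.ofNat n (r / 4 / n / n % n),
          Fin.ofNat n (r / 4 / n / n / n % n)))]
  rw [sum_comm]
  rw [sum_range_others hp' (fun q => ∑ r ∈ range (4 * (n * (n * (n * n)))),
    F (Fin.ofNat k p) (Fin.ofNat k q)
        (Fin.ofNat 4 (r % 4), Fin.ofNat n (r / 4 % n),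
          Fin.ofNat n (r / 4 / n % n), Fin.ofNat n (r / 4 / n / n % n),
          Fin.ofNat n (r / 4 / n / n / n % n)))]
  rw [← sum_fin_ofNat (n := k) (fun q => if Fin.ofNat k p ≠ q then ∑ l, F (Fin.ofNat k p) q l else 0)]
  refine sum_congr rfl fun q hq => ?_
  have hq' := mem_range.1 hq
  have hpq : (Fin.ofNat k p ≠ Fin.ofNat k q) ↔ p ≠ q := by
    rw [not_iff_not, Fin.ext_iff]
    simp [Fin.ofNat, Nat.mod_eq_of_lt hp', Nat.mod_eq_of_lt hq']
  by_cases h : p ≠ q
  · rw [if_pos h, if_pos (hpq.2 h)]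
    rw [sum_range_mod_div 4 _ (fun c r => F (Fin.ofNat k p) (Fin.ofNat k q)
        (Fin.ofNat 4 c, Fin.ofNat n (r % n),
          Fin.ofNat n (r / n % n), Fin.ofNat n (r / n / n % n),
          Fin.ofNat n (r / n / n / n % n)))]
    rw [sum_comm]
    simp only [Fintype.sum_prod_type]
    rw [← sum_fin_ofNat (n := 4)]
    refine sum_congr rfl fun c _ => ?_
    rw [sum_range_mod_div n _ (fun u r => F (Fin.ofNat k p) (Fin.ofNat k q)
        (Fin.ofNat 4 c, Fin.ofNat n u,
          Fin.ofNat n (r % n), Fin.ofNat n (r / n % n),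
          Fin.ofNat n (r / n / n % n)))]
    rw [sum_comm, ← sum_fin_ofNat (n := n)]
    refine sum_congr rfl fun u _ => ?_
    rw [sum_range_mod_div n _ (fun v r => F (Fin.ofNat k p) (Fin.ofNat k q)
        (Fin.ofNat 4 c, Fin.ofNat n u,
          Fin.ofNat n v, Fin.ofNat n (r % n),
          Fin.ofNat n (r / n % n)))]
    rw [sum_comm, ← sum_fin_ofNat (n := n)]
    refine sum_congr rfl fun v _ => ?_
    rw [sum_range_mod_div n _ (fun w r => F (Fin.ofNat k p) (Fin.ofNat k q)
        (Fin.ofNat 4 c, Fin.ofNat n u,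
          Fin.ofNat n v, Fin.ofNat n w,
          Fin.ofNat n (r % n)))]
    rw [sum_comm, ← sum_fin_ofNat (n := n)]
    refine sum_congr rfl fun w _ => ?_
    rw [← sum_fin_ofNat (n := n)]
    refine sum_congr rfl fun y hy => ?_
    rw [Nat.mod_eq_of_lt (mem_range.1 hy)]
  · rw [if_neg h, if_neg (fun h' => h (hpq.1 h'))]

end Crest.Agent.R304.L6
end

-- ▼ part R304/L6Pop

/-!
# R304 / S0464, block L6 (helper168): the population of the program samples from the product law
-/

set_option autoImplicit false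
set_option linter.unusedSectionVars false

namespace Crest.Agent.R304.L6

open Finset Crest.Agent.R309.Tape
open Crest.Agent.R304.Samp Crest.Agent.R304.Sim Crest.Agent.R304.Loop
open Crest.Agent.R304.Lab922 Crest.Agent.R304.GK922 Crest.Agent.R304.Fine922

noncomputable section

/-! ### list plumbing -/

theorem runL_map {S T U : Type*} (f : T → S → List Bool → S) (g : U → T) (r : ℕ) (us : List U)
    (s : S) (l : List Bool) :
    L6.runL f r (us.map g) s l = L6.runL (fun u => f (g u)) r us s l := by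
  induction us generalizing s l with
  | nil => rfl
  | cons u us ih => simp only [List.map_cons, L6.runL]; exact ih _ _

theorem stages_map {T U : Type*} (g : U → T) (τ : ℕ) (us : List U) :
    stages τ (us.map g) = (stages τ us).map g := by
  unfold stages
  rw [List.flatMap_map, List.map_flatMap]
  congr 1
  funext u
  rw [List.map_replicate]

theorem stages_stO (H t τ : ℕ) : stages τ (stO H t) = (reps (t * H) τ).map some := by
  unfold stO reps
  rw [stages_map]
  rfl

theorem length_stO (H t : ℕ) : (stO H t).length = t * H := by simp [stO]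

/-! ### the kernel of the program -/

section ker

variable {n k : ℕ} [NeZero n] [NeZero k]

theorem nIdx_eq (n k : ℕ) : LM.nIdx n k = idxN n k := by
  unfold LM.nIdx idxN; rfl

theorem ofNat_mod {a : ℕ} [NeZero a] (i : ℕ) : Fin.ofNat a (i % a) = Fin.ofNat a i :=
  Fin.ext (by simp [Fin.ofNat])

/-- the decoded label -/
def decL (n k : ℕ) [NeZero n] (i : ℕ) : LabT (Fin n) :=
  (Fin.ofNat 4 (i / k / (k - 1) % 4), Fin.ofNat n (i / k / (k - 1) / 4 % n),
    Fin.ofNat n (i / k / (k - 1) / 4 / n % n), Fin.ofNat n (i / k / (k - 1) / 4 / n / n % n),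
    Fin.ofNat n (i / k / (k - 1) / 4 / n / n / n % n))

theorem lab_decL (i : ℕ) : lab (decL n k i) = lF n k i := by
  unfold lab decL lF
  simp only [ofNat_mod]
  refine Prod.ext ?_ rfl
  simp [Fin.ofNat]

/-- **The kernel of one pair move of the program.** -/
theorem hbK_prog (hk : 2 ≤ k) (lam : ℕ → ℕ → ℕ) (x y : Fin k → Mov.Om (Fin n)) :
    hbK (LM.nIdx n k) mvA (aA lam) (bA lam) x y =
      Pop.popK (GoodK.hb (GoodK.pw fun s : Mov.Om (Fin n) => (wtN lam s.1 : ℝ))
        (tauL (V := Fin n))) x y := by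
  have h := hbK_eq_popK (Ω := Mov.Om (Fin n)) (L := LabT (Fin n)) (k := k) (LM.nIdx n k)
    (by rw [nIdx_eq]; exact idxN_cast (by omega)) (tauL (V := Fin n))
    (fun s => wtN lam s.1) (fun i => Fin.ofNat k (i % k))
    (fun i => Fin.ofNat k ((i % k + 1 + i / k % (k - 1)) % k)) (decL n k)
    (fun F => by rw [nIdx_eq]; exact sum_idx n k F)
    mvA (aA lam) (bA lam)
    (fun i _ x => by
      unfold mvA popMove upd2 newA tauL
      rw [lab_decL]
      simp only [ofNat_mod]
      rfl)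
    (fun i _ x => by
      unfold aA
      simp only [ofNat_mod]
      rfl)
    (fun i _ x => by
      unfold bA newA tauL
      rw [lab_decL]
      simp only [ofNat_mod]
      rfl) x y
  exact h

end ker

/-! ### scaling of the weights -/

theorem wtN_eq_wt {n : ℕ} {lamN : ℕ → ℕ → ℕ} {lam : Fin n → Fin n → ℝ} {c : ℝ}
    (h : ∀ u v : Fin n, u < v → (lamN u v : ℝ) = c * lam u v) (s : Mov.Om (Fin n)) :
    (wtN lamN s.1 : ℝ) = c ^ (n / 2) * wo lam s := by
  unfold wtN wo Br.wt
  have h1 : ∏ v ∈ univ.filter (fun v => v < s.1 v), (lamN v (s.1 v) : ℝ) =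
      ∏ v ∈ univ.filter (fun v => v < s.1 v), (c * lam v (s.1 v)) :=
    prod_congr rfl fun v hv => h _ _ (mem_filter.1 hv).2
  have h3 : (∏ v ∈ univ.filter (fun v => v < s.1 v), (lamN v (s.1 v) : ℝ)) =
      c ^ (n / 2) * ∏ v ∈ univ.filter (fun v => v < s.1 v), lam v (s.1 v) := by
    rw [h1, prod_mul_distrib, prod_const, Br.card_low s]
  rw [← h3, prod_filter, Nat.cast_prod]
  exact prod_congr rfl fun v _ => by split_ifs <;> simp

theorem pw_smul {Ω : Type*} (c : ℝ) (w : Ω → ℝ) (z : Ω × Ω) :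
    GoodK.pw (fun s => c * w s) z = c ^ 2 * GoodK.pw w z := by
  unfold GoodK.pw; ring

/-- the program kernel is the ideal kernel -/
theorem ker_eq {n : ℕ} {lamN : ℕ → ℕ → ℕ} {lam : Fin n → Fin n → ℝ} {c : ℝ} (hc : 0 < c)
    (h : ∀ u v : Fin n, u < v → (lamN u v : ℝ) = c * lam u v) :
    GoodK.hb (GoodK.pw fun s : Mov.Om (Fin n) => (wtN lamN s.1 : ℝ)) (tauL (V := Fin n)) =
      GoodK.hb (GoodK.pw (wo lam)) (tauL (V := Fin n)) := by
  have e : (GoodK.pw fun s : Mov.Om (Fin n) => (wtN lamN s.1 : ℝ)) =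
      fun z => (c ^ (n / 2)) ^ 2 * GoodK.pw (wo lam) z := by
    funext z
    have h1 : (fun s : Mov.Om (Fin n) => (wtN lamN s.1 : ℝ)) =
        fun s => c ^ (n / 2) * wo lam s := funext fun s => wtN_eq_wt h s
    rw [h1, pw_smul]
  funext z z'
  rw [e]
  exact GoodK.hb_smul (by positivity) z z'

/-! ### the population -/

theorem law_const {n : ℕ} {lam : Fin n → Fin n → ℝ} {c : ℝ} (hc : 0 < c)
    (h : ∀ u v, lam u v = c) (s : Mov.Om (Fin n)) :
    GoodK.law (wo lam) s = 1 / (Fintype.card (Mov.Om (Fin n)) : ℝ) := by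
  have e : ∀ s : Mov.Om (Fin n), wo lam s = c ^ (n / 2) := by
    intro s
    unfold wo Br.wt
    simp only [h, prod_const, Br.card_low s]
  unfold GoodK.law
  simp only [e, sum_const, card_univ, nsmul_eq_mul]
  have : (0 : ℝ) < c ^ (n / 2) := by positivity
  rw [mul_comm, ← div_div, div_self this.ne']

/-- total error of one population -/
def popErr (n k B0 B τ H t : ℕ) (γ ε : ℝ) : ℝ :=
  k * (n * (2 * n / 2 ^ B)) + (t * H : ℕ) * τ * (2 * (LM.nIdx n k : ℕ) / 2 ^ B0 + 2 / 2 ^ B) +
    annErr k τ (t * H) γ ε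

/-- **The population of the program samples from the product law.** -/
theorem approx_pop (hPA : Pop.PopAnneal) (P : Prm) (hn : 3 ≤ P.n) (hk : 2 ≤ P.k)
    (hH : 0 < P.H) (h : List Mv) {m : ℕ} {q : ℝ} {Lm : ℕ → Fin P.n → Fin P.n → ℝ}
    (M : Macro P.n m h.length q Lm) {c : ℝ} (hc : 0 < c)
    (hLm : ∀ j ≤ h.length, ∀ u v : Fin P.n, u < v →
      (lamN P (h.take j) u v : ℝ) = c * Lm j u v)
    (hpos : ∀ j ≤ h.length, ∀ u v : ℕ, 0 < lamN P (h.take j) u v)
    {c1 : ℝ} (hc1 : 0 < c1) (hconst : ∀ u v, Lm 0 u v = c1)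
    {γ : ℝ} (hγ : 0 < γ) (hγ1 : γ ≤ 1) (hkγ : 6400 ≤ γ ^ 2 * P.k)
    (hε : (P.k : ℝ) * (4 * P.n / (m * P.H)) ^ 2 ≤ 1)
    (hgood : ∀ o ∈ stO P.H h.length, Pop.GoodKernel (piO Lm P.H o) (kerO Lm P.H o) γ)
    (hlen : sampLen P.n P.k P.B0 P.B (movesOf P h) ≤ blk P) :
    Approx (popOf P h) (blk P) (encP (n := P.n) (K := P.k))
      (prodLaw (GoodK.law (wo (Lm h.length))))
      (popErr P.n P.k P.B0 P.B P.τ P.H h.length γ (4 * P.n / (m * P.H))) := by
  have hn0 : NeZero P.n := ⟨by omega⟩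
  have hk0 : NeZero P.k := ⟨by omega⟩
  set f : Option ℕ → List (List ℕ) → List Bool → List (List ℕ) :=
    fun o => stepL P.n P.k P.B0 P.B (fineN P h (o.getD 0)) with hf
  -- fine tables
  have hfine : ∀ s < h.length * P.H, ∀ u v : Fin P.n, u < v →
      (fineN P h s u v : ℝ) = c * fine Lm P.H s u v := by
    intro s hs u v huv
    have h1 : s / P.H < h.length := by
      rw [Nat.div_lt_iff_lt_mul hH]; exact hs
    unfold fineN fine
    push_cast [hLm _ h1.le u v huv, hLm _ (Nat.succ_le_of_lt h1) u v huv]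
    ring
  have hfpos : ∀ s < h.length * P.H, ∀ u v : ℕ, 0 < fineN P h s u v := by
    intro s hs u v
    have h1 : s / P.H < h.length := by
      rw [Nat.div_lt_iff_lt_mul hH]; exact hs
    unfold fineN
    have := hpos _ (Nat.succ_le_of_lt h1) u v
    positivity
  -- steps
  have hstep : ∀ o ∈ stO P.H h.length, ∀ x : Fin P.k → Mov.Om (Fin P.n),
      Approx (f o (encP x)) (P.B0 + P.B) encP (Pop.popK (kerO Lm P.H o) x)
        (2 * (LM.nIdx P.n P.k : ℕ) / 2 ^ P.B0 + 2 / 2 ^ P.B) := by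
    intro o ho x
    unfold stO at ho
    rw [List.mem_map] at ho
    obtain ⟨i, hi, rfl⟩ := ho
    rw [List.mem_range] at hi
    have h1 := approx_stepL (n := P.n) (k := P.k) (B0 := P.B0) (B := P.B)
      (lam := fineN P h i) hk (hfpos i hi) x
    refine h1.congr_law fun y => ?_
    rw [hbK_prog hk, ker_eq hc (hfine i hi)]
    rfl
  -- start
  have hstart : Approx (initL P.n P.k P.B) (P.k * (P.n / 2 * P.B)) (encP (n := P.n) (K := P.k))
      (prodLaw (piO Lm P.H none)) (P.k * (P.n * (2 * P.n / 2 ^ P.B))) := by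
    refine (Start.approx_initL' M.even P.k P.B).congr_law fun x => ?_
    unfold prodLaw
    refine prod_congr rfl fun i _ => ?_
    exact law_const hc1 hconst _
  have hd : (0 : ℝ) ≤ 2 * (LM.nIdx P.n P.k : ℕ) / 2 ^ P.B0 + 2 / 2 ^ P.B := by positivity
  have hmain := approx_anneal hPA (S := List (List ℕ)) P.k P.τ γ (4 * P.n / (m * P.H))
    (piO Lm P.H) (kerO Lm P.H) none (stO P.H h.length) hγ hγ1 hkγ (by positivity) hε
    (fun o ho s => M.piO_pos hH le_rfl o ho s) (fun o ho => M.piO_sum hH le_rfl o ho)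
    hgood (M.chain hH (h.length * P.H) le_rfl) hstart (f := f) hd hstep
  rw [M.piO_last hH, length_stO] at hmain
  have e1 : stages P.τ (stO P.H h.length) = (reps (h.length * P.H) P.τ).map some :=
    stages_stO P.H h.length P.τ
  have hlen2 : P.k * (P.n / 2 * P.B) + h.length * P.H * P.τ * (P.B0 + P.B) =
      sampLen P.n P.k P.B0 P.B (movesOf P h) := rfl
  rw [hlen2] at hmain
  have h2 := hmain.take hlen
  refine (h2.congr fun l _ => ?_).mono (le_of_eq ?_)
  · unfold popOf sampL
    rw [e1, runL_map]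
    rfl
  · unfold popErr; rfl

end

end Crest.Agent.R304.L6
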