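import Mathlib

/-!
# R304 / S0464, block L4: weighted inner products and reversible psd kernels on finite types
-/

set_option autoImplicit false

noncomputable section

namespace Crest.Agent.R304.Pop

open Finset

variable {X : Type*} [Fintype X]

/-- Weighted inner product. -/
def ip (w : X → ℝ) (F G : X → ℝ) : ℝ := ∑ x, w x * F x * G x

/-- Weighted `L²` norm. -/
def nm (w : X → ℝ) (F : X → ℝ) : ℝ := √(ip w F F)

/-- Action of a kernel on functions. -/
def op (K : X → X → ℝ) (F : X → ℝ) (x : X) : ℝ := ∑ y, K x y * F y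

theorem ip_comm (w F G : X → ℝ) : ip w F G = ip w G F := by
  unfold ip; exact sum_congr rfl fun x _ => by ring

theorem ip_add_left (w F G H : X → ℝ) : ip w (F + G) H = ip w F H + ip w G H := by
  unfold ip; rw [← sum_add_distrib]; exact sum_congr rfl fun x _ => by simp; ring

theorem ip_add_right (w F G H : X → ℝ) : ip w H (F + G) = ip w H F + ip w H G := by
  unfold ip; rw [← sum_add_distrib]; exact sum_congr rfl fun x _ => by simp; ring

theorem ip_sub_left (w F G H : X → ℝ) : ip w (F - G) H = ip w F H - ip w G H := by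
  unfold ip; rw [← sum_sub_distrib]; exact sum_congr rfl fun x _ => by simp; ring

theorem ip_sub_right (w F G H : X → ℝ) : ip w H (F - G) = ip w H F - ip w H G := by
  unfold ip; rw [← sum_sub_distrib]; exact sum_congr rfl fun x _ => by simp; ring

theorem ip_smul_left (w F G : X → ℝ) (c : ℝ) : ip w (c • F) G = c * ip w F G := by
  unfold ip; rw [mul_sum]; exact sum_congr rfl fun x _ => by simp; ring

theorem ip_smul_right (w F G : X → ℝ) (c : ℝ) : ip w F (c • G) = c * ip w F G := by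
  unfold ip; rw [mul_sum]; exact sum_congr rfl fun x _ => by simp; ring

theorem ip_self_nonneg {w : X → ℝ} (hw : ∀ x, 0 ≤ w x) (F : X → ℝ) : 0 ≤ ip w F F := by
  unfold ip
  exact sum_nonneg fun x _ => by
    rw [mul_assoc]; exact mul_nonneg (hw x) (mul_self_nonneg _)

theorem ip_cs {w : X → ℝ} (hw : ∀ x, 0 ≤ w x) (F G : X → ℝ) :
    ip w F G ^ 2 ≤ ip w F F * ip w G G := by
  have h := Finset.sum_mul_sq_le_sq_mul_sq Finset.univ (fun x => √(w x) * F x)
    (fun x => √(w x) * G x)
  have e1 : ∑ x, (√(w x) * F x) * (√(w x) * G x) = ip w F G := by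
    unfold ip; exact sum_congr rfl fun x _ => by
      rw [show √(w x) * F x * (√(w x) * G x) = (√(w x) * √(w x)) * F x * G x by ring,
        Real.mul_self_sqrt (hw x)]
  have e2 : ∀ F : X → ℝ, ∑ x, (√(w x) * F x) ^ 2 = ip w F F := by
    intro F; unfold ip; exact sum_congr rfl fun x _ => by
      rw [show (√(w x) * F x) ^ 2 = (√(w x) * √(w x)) * F x * F x by ring,
        Real.mul_self_sqrt (hw x)]
  rw [e1, e2, e2] at h
  exact h

theorem nm_nonneg (w F : X → ℝ) : 0 ≤ nm w F := Real.sqrt_nonneg _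

theorem nm_sq {w : X → ℝ} (hw : ∀ x, 0 ≤ w x) (F : X → ℝ) : nm w F ^ 2 = ip w F F :=
  Real.sq_sqrt (ip_self_nonneg hw F)

theorem ip_le_nm {w : X → ℝ} (hw : ∀ x, 0 ≤ w x) (F G : X → ℝ) :
    |ip w F G| ≤ nm w F * nm w G := by
  apply abs_le_of_sq_le_sq _ (mul_nonneg (nm_nonneg _ _) (nm_nonneg _ _))
  rw [mul_pow, nm_sq hw, nm_sq hw]
  exact ip_cs hw F G

theorem nm_add {w : X → ℝ} (hw : ∀ x, 0 ≤ w x) (F G : X → ℝ) :
    nm w (F + G) ≤ nm w F + nm w G := by
  apply Real.sqrt_le_iff.2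
  refine ⟨add_nonneg (nm_nonneg _ _) (nm_nonneg _ _), ?_⟩
  have h1 : ip w (F + G) (F + G) = ip w F F + 2 * ip w F G + ip w G G := by
    rw [ip_add_left, ip_add_right, ip_add_right, ip_comm w G F]; ring
  rw [h1, add_sq, nm_sq hw, nm_sq hw]
  have := le_of_abs_le (ip_le_nm hw F G)
  nlinarith

theorem nm_neg (w F : X → ℝ) : nm w (-F) = nm w F := by
  unfold nm ip; congr 1; exact sum_congr rfl fun x _ => by simp

theorem nm_sub {w : X → ℝ} (hw : ∀ x, 0 ≤ w x) (F G : X → ℝ) :
    nm w (F - G) ≤ nm w F + nm w G := by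
  have := nm_add hw F (-G)
  rwa [nm_neg, ← sub_eq_add_neg] at this


theorem nm_le_of_sq {w : X → ℝ} (F : X → ℝ) {c : ℝ} (hc : 0 ≤ c) (h : ip w F F ≤ c ^ 2) :
    nm w F ≤ c := Real.sqrt_le_iff.2 ⟨hc, h⟩

theorem sum_abs_le_nm {w : X → ℝ} (hw : ∀ x, 0 ≤ w x) (h1 : ∑ x, w x = 1) (F : X → ℝ) :
    ∑ x, w x * |F x| ≤ nm w F := by
  have h := le_of_abs_le (ip_le_nm hw (fun _ => (1:ℝ)) (fun x => |F x|))
  have e1 : nm w (fun _ => (1:ℝ)) = 1 := by
    unfold nm ip; simp [h1]
  have e2 : nm w (fun x => |F x|) = nm w F := by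
    unfold nm ip; congr 1; exact sum_congr rfl fun x _ => by
      rw [mul_assoc, abs_mul_abs_self, mul_assoc]
  rw [e1, e2, one_mul] at h
  unfold ip at h
  simpa using h

/-! ### Kernels -/

theorem op_add (K : X → X → ℝ) (F G : X → ℝ) : op K (F + G) = op K F + op K G := by
  funext x; simp only [op, Pi.add_apply]; rw [← sum_add_distrib]
  exact sum_congr rfl fun y _ => by ring


theorem op_smul (K : X → X → ℝ) (c : ℝ) (F : X → ℝ) : op K (c • F) = c • op K F := by
  funext x; simp only [op, Pi.smul_apply, smul_eq_mul]; rw [mul_sum]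
  exact sum_congr rfl fun y _ => by ring

/-- Reversible positive semidefinite Markov kernel. -/
structure RevPsd (w : X → ℝ) (K : X → X → ℝ) : Prop where
  w_nonneg : ∀ x, 0 ≤ w x
  nonneg : ∀ x y, 0 ≤ K x y
  sum_one : ∀ x, ∑ y, K x y = 1
  rev : ∀ x y, w x * K x y = w y * K y x
  psd : ∀ F : X → ℝ, 0 ≤ ip w F (op K F)

namespace RevPsd

variable {w : X → ℝ} {K : X → X → ℝ}

theorem adj (h : RevPsd w K) (F G : X → ℝ) : ip w F (op K G) = ip w (op K F) G := by
  unfold ip op
  have e1 : ∀ x, w x * F x * ∑ y, K x y * G y = ∑ y, w x * K x y * F x * G y := by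
    intro x; rw [mul_sum]; exact sum_congr rfl fun y _ => by ring
  have e2 : ∀ x, w x * (∑ y, K x y * F y) * G x = ∑ y, w x * K x y * F y * G x := by
    intro x; rw [mul_sum, sum_mul]; exact sum_congr rfl fun y _ => by ring
  simp only [e1, e2]
  rw [sum_comm]
  exact sum_congr rfl fun x _ => sum_congr rfl fun y _ => by rw [h.rev y x]; 

theorem op_const (h : RevPsd w K) (c : ℝ) : op K (fun _ => c) = fun _ => c := by
  funext x; simp only [op]; rw [← sum_mul, h.sum_one, one_mul]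

theorem contr (h : RevPsd w K) (F : X → ℝ) : ip w (op K F) (op K F) ≤ ip w F F := by
  have hj : ∀ x, (op K F x) ^ 2 ≤ ∑ y, K x y * F y ^ 2 := by
    intro x
    have := Finset.sum_mul_sq_le_sq_mul_sq Finset.univ (fun y => √(K x y))
      (fun y => √(K x y) * F y)
    have e1 : ∑ y, √(K x y) * (√(K x y) * F y) = op K F x := by
      unfold op; exact sum_congr rfl fun y _ => by
        rw [← mul_assoc, Real.mul_self_sqrt (h.nonneg x y)]
    have e2 : ∑ y, √(K x y) ^ 2 = 1 := by
      rw [← h.sum_one x]; exact sum_congr rfl fun y _ => Real.sq_sqrt (h.nonneg x y)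
    have e3 : ∑ y, (√(K x y) * F y) ^ 2 = ∑ y, K x y * F y ^ 2 :=
      sum_congr rfl fun y _ => by rw [mul_pow, Real.sq_sqrt (h.nonneg x y)]
    rw [e1, e2, e3, one_mul] at this
    exact this
  calc ip w (op K F) (op K F) = ∑ x, w x * (op K F x) ^ 2 := by
        unfold ip; exact sum_congr rfl fun x _ => by ring
    _ ≤ ∑ x, w x * ∑ y, K x y * F y ^ 2 :=
        sum_le_sum fun x _ => mul_le_mul_of_nonneg_left (hj x) (h.w_nonneg x)
    _ = ∑ x, ∑ y, w y * K y x * F y ^ 2 := by
        refine sum_congr rfl fun x _ => ?_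
        rw [mul_sum]; exact sum_congr rfl fun y _ => by rw [← h.rev x y]; ring
    _ = ∑ y, w y * F y ^ 2 := by
        rw [sum_comm]; refine sum_congr rfl fun y _ => ?_
        rw [← sum_mul, ← mul_sum, h.sum_one, mul_one]
    _ = ip w F F := by unfold ip; exact sum_congr rfl fun x _ => by ring

/-- Cauchy-Schwarz for the psd form `⟨F, K G⟩`. -/
theorem psd_cs (h : RevPsd w K) (F G : X → ℝ) :
    ip w F (op K G) ^ 2 ≤ ip w F (op K F) * ip w G (op K G) := by
  have hq : ∀ t : ℝ, 0 ≤ ip w G (op K G) * (t * t) + (2 * ip w F (op K G)) * t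
      + ip w F (op K F) := by
    intro t
    have := h.psd (F + t • G)
    rw [op_add, op_smul, ip_add_left, ip_add_right, ip_add_right, ip_smul_left, ip_smul_left,
      ip_smul_right, ip_smul_right] at this
    have e : ip w G (op K F) = ip w F (op K G) := by rw [h.adj G F, ip_comm]
    rw [e] at this
    nlinarith
  have hd := discrim_le_zero hq
  unfold discrim at hd
  nlinarith

theorem sq_le (h : RevPsd w K) (F : X → ℝ) : ip w (op K F) (op K F) ≤ ip w F (op K F) := by
  set a := ip w (op K F) (op K F) with ha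
  have ha0 : 0 ≤ a := ip_self_nonneg h.w_nonneg _
  have h1 : ip w F (op K (op K F)) = a := by rw [h.adj]
  have h2 := h.psd_cs F (op K F)
  rw [h1] at h2
  have h3 : ip w (op K F) (op K (op K F)) ≤ a := by
    have := le_of_abs_le (ip_le_nm h.w_nonneg (op K F) (op K (op K F)))
    have h4 : nm w (op K (op K F)) ≤ nm w (op K F) := Real.sqrt_le_sqrt (h.contr _)
    calc ip w (op K F) (op K (op K F)) ≤ nm w (op K F) * nm w (op K (op K F)) := this
      _ ≤ nm w (op K F) * nm w (op K F) := mul_le_mul_of_nonneg_left h4 (nm_nonneg _ _)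
      _ = a := by rw [← sq, nm_sq h.w_nonneg]
  have h5 : 0 ≤ ip w F (op K F) := h.psd F
  rcases ha0.eq_or_lt with h0 | h0
  · rw [← h0]; exact h5
  · have : a ^ 2 ≤ ip w F (op K F) * a := h2.trans (mul_le_mul_of_nonneg_left h3 h5)
    nlinarith

/-- The Dirichlet form `⟨F, (1-K) F⟩`. -/
theorem dirichlet (h : RevPsd w K) (F : X → ℝ) :
    ip w F (F - op K F) = (1 / 2) * ∑ x, ∑ y, w x * K x y * (F x - F y) ^ 2 := by
  have e1 : ∑ x, ∑ y, w x * K x y * (F x - F y) ^ 2 =
      ∑ x, ∑ y, w x * K x y * F x ^ 2 - 2 * ∑ x, ∑ y, w x * K x y * (F x * F y)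
      + ∑ x, ∑ y, w x * K x y * F y ^ 2 := by
    rw [mul_sum, ← sum_sub_distrib, ← sum_add_distrib]
    refine sum_congr rfl fun x _ => ?_
    rw [mul_sum, ← sum_sub_distrib, ← sum_add_distrib]
    exact sum_congr rfl fun y _ => by ring
  have e2 : ∑ x, ∑ y, w x * K x y * F x ^ 2 = ip w F F := by
    unfold ip; refine sum_congr rfl fun x _ => ?_
    rw [← sum_mul, ← mul_sum, h.sum_one]; ring
  have e3 : ∑ x, ∑ y, w x * K x y * F y ^ 2 = ip w F F := by
    rw [← e2, sum_comm]
    exact sum_congr rfl fun x _ => sum_congr rfl fun y _ => by rw [h.rev y x]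
  have e4 : ∑ x, ∑ y, w x * K x y * (F x * F y) = ip w F (op K F) := by
    unfold ip op; refine sum_congr rfl fun x _ => ?_
    rw [mul_sum]; exact sum_congr rfl fun y _ => by ring
  rw [e1, e2, e3, e4, ip_sub_right]; ring


theorem dirichlet_le (h : RevPsd w K) (F : X → ℝ) : ip w F (F - op K F) ≤ ip w F F := by
  rw [ip_sub_right]; have := h.psd F; linarith

/-- `‖F - K F‖² ≤ ‖F‖²`. -/
theorem sub_contr (h : RevPsd w K) (F : X → ℝ) :
    ip w (F - op K F) (F - op K F) ≤ ip w F F := by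
  rw [ip_sub_left, ip_sub_right, ip_sub_right, ip_comm w (op K F) F]
  have := h.sq_le F; have := h.psd F; linarith

theorem nm_op_le (h : RevPsd w K) (F : X → ℝ) : nm w (op K F) ≤ nm w F :=
  Real.sqrt_le_sqrt (h.contr F)

/-- `(1-K)`-energy of a sum: `E(G) ≤ 2 E(F+G) + 2 E(F)`. -/
theorem dirichlet_le_two (h : RevPsd w K) (F G : X → ℝ) :
    ip w G (G - op K G) ≤
      2 * ip w (F + G) ((F + G) - op K (F + G)) + 2 * ip w F (F - op K F) := by
  rw [h.dirichlet, h.dirichlet, h.dirichlet]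
  have : ∑ x, ∑ y, w x * K x y * (G x - G y) ^ 2 ≤
      2 * ∑ x, ∑ y, w x * K x y * ((F + G) x - (F + G) y) ^ 2
      + 2 * ∑ x, ∑ y, w x * K x y * (F x - F y) ^ 2 := by
    rw [mul_sum, mul_sum, ← sum_add_distrib]
    refine sum_le_sum fun x _ => ?_
    rw [mul_sum, mul_sum, ← sum_add_distrib]
    refine sum_le_sum fun y _ => ?_
    have h1 : 0 ≤ w x * K x y := mul_nonneg (h.w_nonneg x) (h.nonneg x y)
    have h2 : (G x - G y) ^ 2 ≤ 2 * ((F + G) x - (F + G) y) ^ 2 + 2 * (F x - F y) ^ 2 := by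
      simp only [Pi.add_apply]; nlinarith [sq_nonneg ((F x - F y) * 2 + (G x - G y))]
    calc w x * K x y * (G x - G y) ^ 2
        ≤ w x * K x y * (2 * ((F + G) x - (F + G) y) ^ 2 + 2 * (F x - F y) ^ 2) :=
          mul_le_mul_of_nonneg_left h2 h1
      _ = _ := by ring
  linarith

end RevPsd

end Crest.Agent.R304.Pop
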