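import Mathlib
import Crest.Agent.R304.Hyb

/-!
# R304 / S0464 : the alternating cycle as a sequence

`wk s t v` is the alternating walk from `v` with first step `s`:
`wk 0 = v`, `wk (i+1) = s (wk i)` for even `i`, `t (wk i)` for odd `i`; `per s t v` its period.
`arc s t v i j = {wk i, ..., wk (j-1)}`.
-/

set_option autoImplicit false
set_option linter.unusedSectionVars false

namespace Crest.Agent.R304

open Finset

section Walk
variable {V : Type*}

/-- alternating walk starting at `v` with first step `s` -/
def wk (s t : V → V) (v : V) : ℕ → V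
  | 0 => v
  | n + 1 => if Even n then s (wk s t v n) else t (wk s t v n)

/-- the period of the alternating walk -/
noncomputable def per (s t : V → V) (v : V) : ℕ := 2 * Function.minimalPeriod (t ∘ s) v

variable {s t : V → V} {v : V}

@[simp] theorem wk_zero : wk s t v 0 = v := rfl

theorem wk_succ_even {n : ℕ} (h : Even n) : wk s t v (n + 1) = s (wk s t v n) := by
  simp [wk, h]

theorem wk_succ_odd {n : ℕ} (h : Odd n) : wk s t v (n + 1) = t (wk s t v n) := by
  have : ¬ Even n := Nat.not_even_iff_odd.2 h
  simp [wk, this]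

theorem wk_two_mul (m : ℕ) : wk s t v (2 * m) = (t ∘ s)^[m] v := by
  induction m with
  | zero => rfl
  | succ m ih =>
    rw [show 2 * (m + 1) = 2 * m + 1 + 1 by ring, wk_succ_odd ⟨m, rfl⟩,
      wk_succ_even (even_two_mul m), ih, Function.iterate_succ_apply']
    rfl

theorem wk_two_mul_add_one (m : ℕ) : wk s t v (2 * m + 1) = s ((t ∘ s)^[m] v) := by
  rw [wk_succ_even (even_two_mul m), wk_two_mul]

theorem s_wk_even (_hs : Inv s) {n : ℕ} (h : Even n) : s (wk s t v n) = wk s t v (n + 1) :=
  (wk_succ_even h).symm

theorem s_wk_succ (hs : Inv s) {n : ℕ} (h : Even n) : s (wk s t v (n + 1)) = wk s t v n := by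
  rw [wk_succ_even h, hs]

theorem t_wk_odd (_ht : Inv t) {n : ℕ} (h : Odd n) : t (wk s t v n) = wk s t v (n + 1) :=
  (wk_succ_odd h).symm

theorem t_wk_succ (ht : Inv t) {n : ℕ} (h : Odd n) : t (wk s t v (n + 1)) = wk s t v n := by
  rw [wk_succ_odd h, ht]

section Fin
variable [Fintype V] [DecidableEq V]

theorem per_pos (hs : Inv s) (ht : Inv t) : 0 < Function.minimalPeriod (t ∘ s) v :=
  Function.minimalPeriod_pos_of_mem_periodicPts ((ht.injective.comp hs.injective).mem_periodicPts v)

theorem two_le_per (hs : Inv s) (ht : Inv t) : 2 ≤ per s t v := by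
  have := per_pos (v := v) hs ht
  unfold per; omega

theorem even_per : Even (per s t v) := even_two_mul _

theorem wk_add_per (i : ℕ) : wk s t v (i + per s t v) = wk s t v i := by
  unfold per
  set k := Function.minimalPeriod (t ∘ s) v with hk
  rcases Nat.even_or_odd' i with ⟨m, rfl | rfl⟩
  · rw [← Nat.mul_add, wk_two_mul, wk_two_mul, Function.iterate_add_apply]
    congr 1
    exact Function.iterate_minimalPeriod
  · rw [show 2 * m + 1 + 2 * k = 2 * (m + k) + 1 by ring, wk_two_mul_add_one, wk_two_mul_add_one,
      Function.iterate_add_apply]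
    congr 2
    exact Function.iterate_minimalPeriod

theorem wk_per : wk s t v (per s t v) = v := by
  have := wk_add_per (s := s) (t := t) (v := v) 0
  rwa [Nat.zero_add] at this

/-- `(t s)^m x ≠ s x` for fixed point free involutions -/
theorem iterate_ne (hs : Inv s) (ht : Inv t) (hs' : ∀ v, s v ≠ v) (ht' : ∀ v, t v ≠ v) :
    ∀ (m : ℕ) (x : V), (t ∘ s)^[m] x ≠ s x := by
  intro m
  induction m using Nat.strong_induction_on with
  | _ m ih =>
    intro x hx
    match m, ih, hx with
    | 0, _, hx => exact hs' x hx.symm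
    | 1, _, hx => exact ht' (s x) hx
    | m + 2, ih, hx =>
      refine ih m (by omega) (t (s x)) ?_
      rw [Function.iterate_succ_apply'] at hx
      have h1 : (t ∘ s)^[m + 1] x = (t ∘ s)^[m] (t (s x)) := by
        rw [Function.iterate_succ_apply]; rfl
      rw [h1] at hx
      -- t (s y) = s x, y = (ts)^m (t s x)
      have h2 : s ((t ∘ s)^[m] (t (s x))) = t (s x) := by
        have := congrArg t hx
        rwa [Function.comp_apply, ht] at this
      rw [← h2, hs]
      rw [h2]

theorem wk_inj (hs : Inv s) (ht : Inv t) (hs' : ∀ v, s v ≠ v) (ht' : ∀ v, t v ≠ v)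
    {i j : ℕ} (hi : i < per s t v) (hj : j < per s t v) (h : wk s t v i = wk s t v j) : i = j := by
  unfold per at hi hj
  set k := Function.minimalPeriod (t ∘ s) v with hk
  have hinj : Function.Injective (t ∘ s) := ht.injective.comp hs.injective
  have hev : ∀ a b, a < k → b < k → (t ∘ s)^[a] v = (t ∘ s)^[b] v → a = b := fun a b ha hb hab =>
    Function.iterate_injOn_Iio_minimalPeriod (f := t ∘ s) (x := v) ha hb hab
  have hne : ∀ a b, (t ∘ s)^[a] v ≠ s ((t ∘ s)^[b] v) := by
    intro a b hab
    have hpos : 0 < k := per_pos hs ht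
    -- replace a by a + b * k ≥ b
    have h1 : (t ∘ s)^[a + b * k] v = (t ∘ s)^[a] v := by
      rw [Function.iterate_add_apply]
      congr 1
      exact (Function.isPeriodicPt_minimalPeriod (t ∘ s) v).const_mul b
    have hle : b ≤ b * k := Nat.le_mul_of_pos_right b hpos
    have h2 : a + b * k = (a + b * k - b) + b := by omega
    rw [← h1, h2, Function.iterate_add_apply] at hab
    exact iterate_ne hs ht hs' ht' _ _ hab
  rcases Nat.even_or_odd' i with ⟨a, rfl | rfl⟩ <;> rcases Nat.even_or_odd' j with ⟨b, rfl | rfl⟩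
  · rw [wk_two_mul, wk_two_mul] at h
    rw [hev a b (by omega) (by omega) h]
  · rw [wk_two_mul, wk_two_mul_add_one] at h
    exact absurd h (hne a b)
  · rw [wk_two_mul, wk_two_mul_add_one] at h
    exact absurd h.symm (hne b a)
  · rw [wk_two_mul_add_one, wk_two_mul_add_one] at h
    rw [hev a b (by omega) (by omega) (hs.injective h)]

theorem t_wk_zero (hs : Inv s) (ht : Inv t) : t (wk s t v 0) = wk s t v (per s t v - 1) := by
  have h0 := two_le_per (v := v) hs ht
  have h : wk s t v (per s t v - 1 + 1) = t (wk s t v (per s t v - 1)) :=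
    wk_succ_odd (by
      have := even_per (s := s) (t := t) (v := v)
      rcases this with ⟨m, hm⟩
      exact ⟨m - 1, by omega⟩)
  rw [Nat.sub_add_cancel (by omega), wk_per] at h
  rw [wk_zero]
  conv_lhs => rw [h, ht]

/-- the arc `{wk i, ..., wk (j-1)}` -/
def arc (s t : V → V) (v : V) (i j : ℕ) : Finset V := (Finset.Ico i j).image (wk s t v)

theorem mem_arc {i j : ℕ} {x : V} : x ∈ arc s t v i j ↔ ∃ a, i ≤ a ∧ a < j ∧ wk s t v a = x := by
  simp [arc, and_assoc]

theorem wk_mem_arc' {i j a : ℕ} (h1 : i ≤ a) (h2 : a < j) : wk s t v a ∈ arc s t v i j :=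
  mem_arc.2 ⟨a, h1, h2, rfl⟩

theorem wk_mem_arc (hs : Inv s) (ht : Inv t) (hs' : ∀ v, s v ≠ v) (ht' : ∀ v, t v ≠ v)
    {i j a : ℕ} (hj : j ≤ per s t v) (ha : a < per s t v) :
    wk s t v a ∈ arc s t v i j ↔ i ≤ a ∧ a < j := by
  refine ⟨fun h => ?_, fun h => wk_mem_arc' h.1 h.2⟩
  obtain ⟨b, h1, h2, h3⟩ := mem_arc.1 h
  have := wk_inj hs ht hs' ht' (by omega) ha h3
  omega

theorem arc_union {i k j : ℕ} (h1 : i ≤ k) (h2 : k ≤ j) :
    arc s t v i k ∪ arc s t v k j = arc s t v i j := by
  unfold arc
  rw [← Finset.image_union, Finset.Ico_union_Ico_eq_Ico h1 h2]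


theorem arc_single {i : ℕ} : arc s t v i (i + 1) = {wk s t v i} := by
  unfold arc
  simp

/-- description of the cut pair: `D` is the set of cut positions (`0` and `per` denote the same
edge, the `t`-edge at `wk 0`); `N1`, `N2` are `s`, `t` with the cut edges removed. -/
structure CutAt (s t : V → V) (v : V) (D : Finset ℕ) (N1 N2 : V → V) : Prop where
  le : ∀ m ∈ D, m ≤ per s t v
  fix1 : ∀ m ∈ D, Odd m → ∀ x, x = wk s t v m ∨ s x = wk s t v m → N1 x = x
  keep1 : ∀ x, (∀ m ∈ D, Odd m → x ≠ wk s t v m ∧ s x ≠ wk s t v m) → N1 x = s x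
  fix2 : ∀ m ∈ D, Even m → ∀ x, x = wk s t v m ∨ t x = wk s t v m → N2 x = x
  keep2 : ∀ x, (∀ m ∈ D, Even m → x ≠ wk s t v m ∧ t x ≠ wk s t v m) → N2 x = t x

theorem CutAt.one {D : Finset ℕ} {N1 N2 : V → V} (h : CutAt s t v D N1 N2) (x : V) :
    N1 x = x ∨ N1 x = s x := by
  by_cases hx : ∀ m ∈ D, Odd m → x ≠ wk s t v m ∧ s x ≠ wk s t v m
  · exact Or.inr (h.keep1 x hx)
  · push Not at hx
    obtain ⟨m, hm, hodd, h'⟩ := hx
    left
    by_cases h2 : x = wk s t v m
    · exact h.fix1 m hm hodd x (Or.inl h2)
    · exact h.fix1 m hm hodd x (Or.inr (h' h2))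

theorem CutAt.two {D : Finset ℕ} {N1 N2 : V → V} (h : CutAt s t v D N1 N2) (x : V) :
    N2 x = x ∨ N2 x = t x := by
  by_cases hx : ∀ m ∈ D, Even m → x ≠ wk s t v m ∧ t x ≠ wk s t v m
  · exact Or.inr (h.keep2 x hx)
  · push Not at hx
    obtain ⟨m, hm, hodd, h'⟩ := hx
    left
    by_cases h2 : x = wk s t v m
    · exact h.fix2 m hm hodd x (Or.inl h2)
    · exact h.fix2 m hm hodd x (Or.inr (h' h2))

/-- after cutting, an arc between two neighbouring cut positions is a component -/
theorem CutAt.comp_eq_arc (hs : Inv s) (ht : Inv t) (hs' : ∀ v, s v ≠ v) (ht' : ∀ v, t v ≠ v)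
    {D : Finset ℕ} {N1 N2 : V → V} (h : CutAt s t v D N1 N2) {i j : ℕ} (hij : i < j)
    (hj : j ≤ per s t v) (hi' : i ∈ D ∨ (i = 0 ∧ per s t v ∈ D))
    (hj' : j ∈ D ∨ (j = per s t v ∧ 0 ∈ D)) (hD : ∀ m ∈ D, ¬ (i < m ∧ m < j)) :
    comp N1 N2 (wk s t v i) = arc s t v i j := by
  have hp : Even (per s t v) := even_per
  have h2p := two_le_per (v := v) hs ht
  have hwper : wk s t v (per s t v) = wk s t v 0 := by rw [wk_per, wk_zero]
  refine Finset.Subset.antisymm (comp_subset (wk_mem_arc' le_rfl hij) ?_ ?_) ?_
  · -- closed under N1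
    intro x hx
    obtain ⟨a, h1, h2, rfl⟩ := mem_arc.1 hx
    rcases Nat.even_or_odd a with he | ho
    · by_cases hlast : a + 1 = j
      · have hjo : Odd j := hlast ▸ he.add_one
        have hjD : j ∈ D := by
          rcases hj' with h3 | h3
          · exact h3
          · exact absurd (h3.1 ▸ hjo) (Nat.not_odd_iff_even.2 hp)
        rw [h.fix1 j hjD hjo _ (Or.inr (by rw [s_wk_even hs he, hlast]))]
        exact hx
      · rcases h.one (wk s t v a) with h3 | h3
        · rw [h3]; exact hx
        · rw [h3, s_wk_even hs he]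
          exact wk_mem_arc' (by omega) (by omega)
    · by_cases hfirst : a = i
      · have hiD : i ∈ D := by
          rcases hi' with h3 | h3
          · exact h3
          · rw [hfirst, h3.1] at ho; exact absurd ho (by decide)
        rw [h.fix1 i hiD (hfirst ▸ ho) _ (Or.inl (by rw [hfirst]))]
        exact hx
      · rcases h.one (wk s t v a) with h3 | h3
        · rw [h3]; exact hx
        · obtain ⟨b, hb⟩ := ho
          have hb' : a = 2 * b + 1 := hb
          rw [h3, hb', s_wk_succ hs (even_two_mul b)]
          exact wk_mem_arc' (by omega) (by omega)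
  · -- closed under N2
    intro x hx
    obtain ⟨a, h1, h2, rfl⟩ := mem_arc.1 hx
    rcases Nat.even_or_odd a with he | ho
    · by_cases hfirst : a = i
      · have : N2 (wk s t v a) = wk s t v a := by
          rcases hi' with h3 | ⟨h3, h4⟩
          · exact h.fix2 i h3 (hfirst ▸ he) _ (Or.inl (by rw [hfirst]))
          · exact h.fix2 _ h4 hp _ (Or.inl (by rw [hfirst, h3, hwper]))
        rw [this]; exact hx
      · rcases h.two (wk s t v a) with h3 | h3
        · rw [h3]; exact hx
        · have hb : ∃ b, a = b + 1 := ⟨a - 1, by omega⟩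
          obtain ⟨b, rfl⟩ := hb
          have hbo : Odd b := by
            rcases Nat.even_or_odd b with h5 | h5
            · exact absurd he (Nat.not_even_iff_odd.2 h5.add_one)
            · exact h5
          rw [h3, t_wk_succ ht hbo]
          exact wk_mem_arc' (by omega) (by omega)
    · by_cases hlast : a + 1 = j
      · have hje : Even j := hlast ▸ ho.add_one
        have : N2 (wk s t v a) = wk s t v a := by
          rcases hj' with h3 | ⟨h3, h4⟩
          · exact h.fix2 j h3 hje _ (Or.inr (by rw [t_wk_odd ht ho, hlast]))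
          · exact h.fix2 0 h4 (by decide) _ (Or.inr (by rw [t_wk_odd ht ho, hlast, h3, hwper]))
        rw [this]; exact hx
      · rcases h.two (wk s t v a) with h3 | h3
        · rw [h3]; exact hx
        · rw [h3, t_wk_odd ht ho]
          exact wk_mem_arc' (by omega) (by omega)
  · -- connected
    intro x hx
    obtain ⟨a, h1, h2, rfl⟩ := mem_arc.1 hx
    clear hx
    induction a, h1 using Nat.le_induction with
    | base => exact self_mem_comp
    | succ a h1 ih =>
      have ih := ih (by omega)
      rcases Nat.even_or_odd a with he | ho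
      · have : N1 (wk s t v a) = wk s t v (a + 1) := by
          rw [← s_wk_even hs he]
          refine h.keep1 _ fun m hm hmo => ?_
          have hml := h.le m hm
          have hmlt : m < per s t v := by
            rcases hml.lt_or_eq with h3 | h3
            · exact h3
            · exact absurd (h3 ▸ hmo) (Nat.not_odd_iff_even.2 hp)
          constructor
          · intro h3
            have := wk_inj hs ht hs' ht' (by omega) hmlt h3
            rw [this] at he
            exact absurd hmo (Nat.not_odd_iff_even.2 he)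
          · intro h3
            rw [s_wk_even hs he] at h3
            have := wk_inj hs ht hs' ht' (by omega) hmlt h3
            exact hD m hm ⟨by omega, by omega⟩
        rw [← this]; exact comp_cl_left _ ih
      · have : N2 (wk s t v a) = wk s t v (a + 1) := by
          rw [← t_wk_odd ht ho]
          refine h.keep2 _ fun m hm hme => ?_
          have hml := h.le m hm
          constructor
          · intro h3
            rcases hml.lt_or_eq with h4 | h4
            · have := wk_inj hs ht hs' ht' (by omega) h4 h3
              rw [this] at ho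
              exact absurd hme (Nat.not_even_iff_odd.2 ho)
            · rw [h4, hwper] at h3
              have := wk_inj hs ht hs' ht' (by omega) (by omega) h3
              rw [this] at ho; exact absurd ho (by decide)
          · intro h3
            rw [t_wk_odd ht ho] at h3
            rcases hml.lt_or_eq with h4 | h4
            · have := wk_inj hs ht hs' ht' (by omega) h4 h3
              exact hD m hm ⟨by omega, by omega⟩
            · rw [h4, hwper] at h3
              have := wk_inj hs ht hs' ht' (by omega) (by omega) h3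
              omega
        rw [← this]; exact comp_cl_right _ ih

theorem cutAt_empty : CutAt s t v ∅ s t where
  le := by simp
  fix1 := by simp
  keep1 := fun _ _ => rfl
  fix2 := by simp
  keep2 := fun _ _ => rfl

/-- the full cycle is the component of the start -/
theorem arc_full (hs : Inv s) (ht : Inv t) :
    arc s t v 0 (per s t v) = comp s t v := by
  have hp : Even (per s t v) := even_per
  have h2p := two_le_per (v := v) hs ht
  have hwper : wk s t v (per s t v) = wk s t v 0 := by rw [wk_per, wk_zero]
  refine Finset.Subset.antisymm ?_ (comp_subset (mem_arc.2 ⟨0, by omega, by omega, rfl⟩) ?_ ?_)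
  · intro x hx
    obtain ⟨a, h1, h2, rfl⟩ := mem_arc.1 hx
    clear hx h1 h2
    induction a with
    | zero => exact self_mem_comp
    | succ a ih =>
      rcases Nat.even_or_odd a with he | ho
      · rw [wk_succ_even he]; exact comp_cl_left _ ih
      · rw [wk_succ_odd ho]; exact comp_cl_right _ ih
  · intro x hx
    obtain ⟨a, h1, h2, rfl⟩ := mem_arc.1 hx
    rcases Nat.even_or_odd a with he | ho
    · rw [s_wk_even hs he]
      refine wk_mem_arc' (by omega) ?_
      by_contra hc
      have : a + 1 = per s t v := by omega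
      exact absurd (this ▸ he.add_one) (Nat.not_odd_iff_even.2 hp)
    · obtain ⟨b, hb⟩ := ho
      have hb' : a = 2 * b + 1 := hb
      rw [hb', s_wk_succ hs (even_two_mul b)]
      exact wk_mem_arc' (by omega) (by omega)
  · intro x hx
    obtain ⟨a, h1, h2, rfl⟩ := mem_arc.1 hx
    rcases Nat.even_or_odd a with he | ho
    · rcases Nat.eq_zero_or_pos a with h0 | h0
      · rw [h0, t_wk_zero hs ht]
        exact wk_mem_arc' (by omega) (by omega)
      · obtain ⟨b, rfl⟩ : ∃ b, a = b + 1 := ⟨a - 1, by omega⟩
        have hbo : Odd b := by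
          rcases Nat.even_or_odd b with h5 | h5
          · exact absurd he (Nat.not_even_iff_odd.2 h5.add_one)
          · exact h5
        rw [t_wk_succ ht hbo]
        exact wk_mem_arc' (by omega) (by omega)
    · rw [t_wk_odd ht ho]
      by_cases hlast : a + 1 = per s t v
      · rw [hlast, hwper]; exact wk_mem_arc' le_rfl (by omega)
      · exact wk_mem_arc' (by omega) (by omega)

theorem per_le_card (hs : Inv s) (ht : Inv t) (hs' : ∀ v, s v ≠ v) (ht' : ∀ v, t v ≠ v) :
    per s t v ≤ Fintype.card V := by
  have h : (arc s t v 0 (per s t v)).card = per s t v := by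
    unfold arc
    rw [Finset.card_image_of_injOn, Nat.card_Ico, Nat.sub_zero]
    intro x hx y hy hxy
    simp only [Finset.coe_Ico, Set.mem_Ico] at hx hy
    exact wk_inj hs ht hs' ht' hx.2 hy.2 hxy
  rw [← h]
  exact Finset.card_le_univ _

end Fin
end Walk
end Crest.Agent.R304
private theorem rz_0a828ffabf : type_of% @_root_.Crest.Agent.R304.wk.eq_def := @_root_.Crest.Agent.R304.wk.eq_def -- L23
private theorem rz_2b5580067d : type_of% @_root_.Crest.Agent.R304.wk.eq_1 := @_root_.Crest.Agent.R304.wk.eq_1 -- L23
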