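import Crest.Agent.R304.ConfQ6
import Mathlib
import Crest.Agent.R304.Hyb
import Crest.Agent.R304.ConfDefs
import Crest.Agent.R304.Walk
import Crest.Agent.R304.Nodes
import Crest.Agent.R304.ConfQ3
import Crest.Agent.R304.GK922
import Crest.Agent.R304.Fine922
import Crest.Agent.Lib.PT.Iter

-- ▼ part R304/ConfQ7
section

/-!
# R304 / S0464: Lemma Q
-/

set_option autoImplicit false
set_option linter.unusedSectionVars false
set_option linter.unusedVariables false

namespace Crest.Agent.R304

open Finset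

namespace CQ

variable {V : Type*} [Fintype V] [DecidableEq V]

section main
variable {g : V → V → ℝ} {c0 : ℝ} (hsym : ∀ u v, g u v = g v u) (hpos : ∀ u v, 0 < g u v)
  (hc : 0 < c0) (hc1 : c0 ≤ 1) (hN : NodeA g c0) (f : (V → V) → ℝ)

/-- the nine classes -/
def P9 : Finset (ℕ × ℕ) := {(0,0), (1,1), (2,0), (0,2), (2,2), (1,3), (3,1), (4,0), (0,4)}

theorem mem_P9 {i j : ℕ} (h : i + j ≤ 4) (hp : i % 2 = j % 2) : (i, j) ∈ P9 := by
  have hi : i ≤ 4 := by omega
  have hj : j ≤ 4 := by omega
  interval_cases i <;> interval_cases j <;> first | (exfalso; omega) | decide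

/-- centred sum over the configurations with a defect at `v` -/
noncomputable def Tv (g : V → V → ℝ) (f : (V → V) → ℝ) (v : V) : ℝ :=
  ∑ N ∈ (Conf V).filter (fun N => N.1 v = v ∨ N.2 v = v), dT g f v N

include hpos hc hc1 in
theorem RB_nonneg : 0 ≤ RB g c0 f := by
  have h1 := Zh_nn (g := g) hpos
  have h2 := Esw_nonneg (g := g) hpos f
  have h3 := kap_pos (V := V) hc hc1
  unfold RB Krep
  positivity

include hsym hpos hc hc1 hN in
theorem Sij_all (v : V) : ∀ p ∈ P9, Sij g f v p.1 p.2 ≤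
    9 * kap V c0 ^ 2 * CB g c0 f v + 24 * kap V c0 * RB g c0 f := by
  have hk := one_le_kap (V := V) hc hc1
  have hR := RB_nonneg (V := V) (g := g) hpos hc hc1 f
  have hC := CB_nonneg (V := V) (g := g) hpos hc f v
  set κ := kap V c0
  set R := RB g c0 f
  set C := CB g c0 f v
  have h00 : Sij g f v 0 0 ≤ C := Sij_base hsym hpos hc hc1 hN f v 0 (by norm_num)
  have h11 : Sij g f v 1 1 ≤ C := Sij_base hsym hpos hc hc1 hN f v 1 le_rfl
  have h20 : Sij g f v 2 0 ≤ 3 * κ * Sij g f v 0 0 + 6 * R :=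
    Sij_left hsym hpos hc hc1 hN f v 0 0 (by norm_num)
  have h02 : Sij g f v 0 2 ≤ κ * Sij g f v 0 0 := Sij_right hsym hpos hc hc1 hN f v 0 0
  have h22 : Sij g f v 2 2 ≤ κ * Sij g f v 2 0 := Sij_right hsym hpos hc hc1 hN f v 2 0
  have h13 : Sij g f v 1 3 ≤ κ * Sij g f v 1 1 := Sij_right hsym hpos hc hc1 hN f v 1 1
  have h31 : Sij g f v 3 1 ≤ 3 * κ * Sij g f v 1 1 + 6 * R :=
    Sij_left hsym hpos hc hc1 hN f v 1 1 (by norm_num)
  have h40 : Sij g f v 4 0 ≤ 3 * κ * Sij g f v 2 0 + 6 * R :=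
    Sij_left hsym hpos hc hc1 hN f v 2 0 (by norm_num)
  have h04 : Sij g f v 0 4 ≤ κ * Sij g f v 0 2 := Sij_right hsym hpos hc hc1 hN f v 0 2
  have hκ0 : 0 ≤ κ := by linarith
  have a1 : C ≤ κ * C := by nlinarith
  have a2 : κ * C ≤ κ ^ 2 * C := by
    rw [pow_two, mul_assoc]; exact le_mul_of_one_le_left (mul_nonneg hκ0 hC) hk
  have a3 : R ≤ κ * R := by nlinarith
  have b00 : κ * Sij g f v 0 0 ≤ κ * C := mul_le_mul_of_nonneg_left h00 hκ0
  have b11 : κ * Sij g f v 1 1 ≤ κ * C := mul_le_mul_of_nonneg_left h11 hκ0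
  have b02 : κ * Sij g f v 0 2 ≤ κ * (κ * C) :=
    mul_le_mul_of_nonneg_left (h02.trans b00) hκ0
  have b20 : κ * Sij g f v 2 0 ≤ κ * (3 * (κ * C) + 6 * R) :=
    mul_le_mul_of_nonneg_left (by linarith) hκ0
  have e1 : κ * (κ * C) = κ ^ 2 * C := by ring
  have e2 : κ * (3 * (κ * C) + 6 * R) = 3 * (κ ^ 2 * C) + 6 * (κ * R) := by ring
  have e3 : 9 * κ ^ 2 * C + 24 * κ * R = 9 * (κ ^ 2 * C) + 24 * (κ * R) := by ring
  rw [e1] at b02
  rw [e2] at b20
  intro p hp
  rw [e3]
  simp only [P9, mem_insert, mem_singleton] at hp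
  rcases hp with h | h | h | h | h | h | h | h | h <;> subst h <;> simp only <;> linarith

include hsym hpos hc hc1 hN in
theorem Tv_le (v : V) : Tv g f v ≤
    9 * (9 * kap V c0 ^ 2 * CB g c0 f v + 24 * kap V c0 * RB g c0 f) := by
  have hmaps : ∀ N ∈ (Conf V).filter (fun N => N.1 v = v ∨ N.2 v = v),
      ((holes N.1 \ comp N.1 N.2 v).card, (holes N.2 \ comp N.1 N.2 v).card) ∈ P9 := by
    intro N hN'
    rw [mem_filter] at hN'
    obtain ⟨h0, h5⟩ := hN'
    simp only [Conf, mem_filter, mem_product, mem_invs] at h0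
    obtain ⟨⟨h1, h2⟩, ⟨k, hk⟩, ⟨l, hl⟩, h6⟩ := h0
    have d := defects_of h1 h2 h5
    have c1 := card_split N.1 (comp N.1 N.2 v)
    have c2 := card_split N.2 (comp N.1 N.2 v)
    exact mem_P9 (by omega) (by omega)
  unfold Tv
  rw [← Finset.sum_fiberwise_of_maps_to hmaps]
  calc _ ≤ ∑ p ∈ P9, Sij g f v p.1 p.2 := by
        refine Finset.sum_le_sum fun p _ => ?_
        refine Finset.sum_le_sum_of_subset_of_nonneg ?_ fun N _ _ => dT_nonneg hpos f v N
        intro N hN'
        rw [mem_filter, mem_filter] at hN'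
        obtain ⟨⟨h0, h5⟩, h6⟩ := hN'
        simp only [Conf, mem_filter, mem_product, mem_invs] at h0
        obtain ⟨⟨h1, h2⟩, h3, h4, h7⟩ := h0
        rw [mem_DS, ← h6]
        exact ⟨h1, h2, h3, h4, h5, rfl, rfl⟩
    _ ≤ ∑ p ∈ P9, (9 * kap V c0 ^ 2 * CB g c0 f v + 24 * kap V c0 * RB g c0 f) :=
        Finset.sum_le_sum (Sij_all hsym hpos hc hc1 hN f v)
    _ = _ := by
        rw [Finset.sum_const, nsmul_eq_mul]
        have : P9.card = 9 := by decide
        rw [this]; norm_num

include hsym hpos hc hc1 hN in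
theorem sum_Tv_le : ∑ v, Tv g f v ≤ 72738 * kap V c0 ^ 9 * En g f := by
  have hk := one_le_kap (V := V) hc hc1
  have hk0 : 0 ≤ kap V c0 := by linarith
  have hE := En_nonneg (g := g) f hpos
  have hE2 := E2_nonneg (g := g) f hpos
  have hEx := Eex_nonneg (g := g) f hpos
  have hZE := ZEsw_le_En (g := g) f hpos
  have hZE0 : 0 ≤ Zh g ∅ * Esw g f := mul_nonneg (Zh_nn hpos) (Esw_nonneg hpos f)
  have hci : 0 ≤ c0⁻¹ := inv_nonneg.2 hc.le
  have h1 : ∑ v, CB g c0 f v = (Fintype.card V : ℝ) * (c0⁻¹ ^ 2 * E2 g f) +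
      2 * (c0⁻¹ * (Fintype.card V * Eex g f)) := by
    unfold CB
    rw [Finset.sum_add_distrib, ← Finset.mul_sum, ← Finset.mul_sum, ← Finset.mul_sum,
      ← Finset.mul_sum, sum_EexV]
    simp only [Finset.sum_const, Finset.card_univ, nsmul_eq_mul]
    ring
  have hn := card_V_inv_le_kap (V := V) hc hc1
  have hi := inv_le_kap (V := V) hc hc1
  have hn' : (Fintype.card V : ℝ) ≤ kap V c0 := by
    refine le_trans ?_ hn
    have := one_le_inv hc hc1
    have h0 : (0 : ℝ) ≤ Fintype.card V := Nat.cast_nonneg _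
    nlinarith
  have h2 : ∑ v, CB g c0 f v ≤ 2 * kap V c0 ^ 2 * En g f := by
    rw [h1]
    have q1 : (Fintype.card V : ℝ) * (c0⁻¹ ^ 2 * E2 g f) ≤ kap V c0 ^ 2 * E2 g f := by
      have : (Fintype.card V : ℝ) * (c0⁻¹ ^ 2 * E2 g f) =
          ((c0⁻¹ * Fintype.card V) * c0⁻¹) * E2 g f := by ring
      rw [this, pow_two]
      exact mul_le_mul_of_nonneg_right (mul_le_mul hn hi hci hk0) hE2
    have q2 : c0⁻¹ * (Fintype.card V * Eex g f) ≤ kap V c0 ^ 2 * Eex g f := by
      have : c0⁻¹ * (Fintype.card V * Eex g f) = (c0⁻¹ * Fintype.card V) * Eex g f := by ring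
      rw [this]
      refine mul_le_mul_of_nonneg_right (hn.trans ?_) hEx
      nlinarith
    have q3 : E2 g f + Eex g f ≤ En g f := by unfold En; linarith
    have q4 := mul_le_mul_of_nonneg_left q3 (show 0 ≤ kap V c0 ^ 2 by positivity)
    have q5 : 0 ≤ kap V c0 ^ 2 * E2 g f := by positivity
    linarith
  have h3 : ∑ v : V, RB g c0 f ≤ kap V c0 * (Krep V c0 * En g f) := by
    simp only [Finset.sum_const, Finset.card_univ, nsmul_eq_mul]
    have hK : 0 ≤ Krep V c0 := by unfold Krep; positivity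
    unfold RB
    exact mul_le_mul hn' (mul_le_mul_of_nonneg_left hZE hK) (mul_nonneg hK hZE0) hk0
  calc ∑ v, Tv g f v ≤ ∑ v, 9 * (9 * kap V c0 ^ 2 * CB g c0 f v + 24 * kap V c0 * RB g c0 f) :=
        Finset.sum_le_sum fun v _ => Tv_le hsym hpos hc hc1 hN f v
    _ = 81 * kap V c0 ^ 2 * ∑ v, CB g c0 f v + 216 * kap V c0 * ∑ v : V, RB g c0 f := by
        rw [← Finset.mul_sum, Finset.sum_add_distrib, ← Finset.mul_sum, ← Finset.mul_sum]; ring
    _ ≤ 81 * kap V c0 ^ 2 * (2 * kap V c0 ^ 2 * En g f) +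
        216 * kap V c0 * (kap V c0 * (Krep V c0 * En g f)) :=
        add_le_add (mul_le_mul_of_nonneg_left h2 (by positivity))
          (mul_le_mul_of_nonneg_left h3 (by positivity))
    _ = (162 * kap V c0 ^ 4 + 72576 * kap V c0 ^ 9) * En g f := by unfold Krep; ring
    _ ≤ _ := by
        refine mul_le_mul_of_nonneg_right ?_ hE
        have : kap V c0 ^ 4 ≤ kap V c0 ^ 9 := pow_le_pow_right₀ hk (by norm_num)
        linarith

include hpos in
/-- the defect of the exchange of two components -/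
theorem diff_eq {N : (V → V) × (V → V)} (h1 : Inv N.1) (h2 : Inv N.2) {x y : V}
    (hy : y ∉ comp N.1 N.2 x) :
    W g N.1 * W g N.2 * (f (jn N.1) + f (jn (swp (comp N.1 N.2 y) (swp (comp N.1 N.2 x) N.1 N.2)
      (swp (comp N.1 N.2 x) N.2 N.1))) - f (jn (swp (comp N.1 N.2 x) N.1 N.2)) -
      f (jn (swp (comp N.1 N.2 y) N.1 N.2))) ^ 2 ≤
    2 * dT g f y (sq x N) + 2 * dT g f y N := by
  have hd := comp_disjoint h1 h2 hy
  have e1 : Db g f (sq x N).1 (sq x N).2 y = Db g f N.1 N.2 y := by
    refine Db_congr g f fun z hz => ?_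
    have hz' : z ∉ comp N.1 N.2 x := Finset.disjoint_left.1 hd hz
    exact ⟨swp_of_not_mem hz', swp_of_not_mem hz'⟩
  have e2 : Gf f (sq x N).1 (sq x N).2 y = f (jn (swp (comp N.1 N.2 y)
      (swp (comp N.1 N.2 x) N.1 N.2) (swp (comp N.1 N.2 x) N.2 N.1))) -
      f (jn (swp (comp N.1 N.2 x) N.1 N.2)) := by
    unfold Gf
    rw [comp_sq]
    rfl
  unfold dT
  rw [W_sq, e1, e2]
  unfold Gf
  have hω : 0 ≤ W g N.1 * W g N.2 := mul_nonneg (W_pos hpos _).le (W_pos hpos _).le
  set ω := W g N.1 * W g N.2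
  set D := Db g f N.1 N.2 y
  set x1 := f (jn N.1)
  set x2 := f (jn (swp (comp N.1 N.2 y)
    (swp (comp N.1 N.2 x) N.1 N.2) (swp (comp N.1 N.2 x) N.2 N.1)))
  set x3 := f (jn (swp (comp N.1 N.2 x) N.1 N.2))
  set x4 := f (jn (swp (comp N.1 N.2 y) N.1 N.2))
  have key : (x1 + x2 - x3 - x4) ^ 2 ≤ 2 * (x2 - x3 - D) ^ 2 + 2 * (x4 - x1 - D) ^ 2 := by
    nlinarith [sq_nonneg ((x2 - x3 - D) + (x4 - x1 - D))]
  have := mul_le_mul_of_nonneg_left key hω
  linarith

include hpos in
/-- for fixed `x`, `y` -/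
theorem pair_le (x y : V) :
    ∑ N ∈ Conf V, (if (N.1 x = x ∨ N.2 x = x) ∧ (N.1 y = y ∨ N.2 y = y) ∧
        y ∉ comp N.1 N.2 x then
      W g N.1 * W g N.2 * (f (jn N.1) + f (jn (swp (comp N.1 N.2 y)
        (swp (comp N.1 N.2 x) N.1 N.2) (swp (comp N.1 N.2 x) N.2 N.1))) -
        f (jn (swp (comp N.1 N.2 x) N.1 N.2)) - f (jn (swp (comp N.1 N.2 y) N.1 N.2))) ^ 2
      else 0) ≤ 4 * Tv g f y := by
  classical
  rw [← Finset.sum_filter]
  set A := (Conf V).filter (fun N => (N.1 x = x ∨ N.2 x = x) ∧ (N.1 y = y ∨ N.2 y = y) ∧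
        y ∉ comp N.1 N.2 x) with hA
  have hmem : ∀ N ∈ A, N ∈ Conf V ∧ Inv N.1 ∧ Inv N.2 ∧ (N.1 y = y ∨ N.2 y = y) ∧
      y ∉ comp N.1 N.2 x := by
    intro N hN'
    rw [hA, mem_filter] at hN'
    obtain ⟨h0, h1, h2, h3⟩ := hN'
    have h0' := h0
    simp only [Conf, mem_filter, mem_product, mem_invs] at h0'
    exact ⟨h0, h0'.1.1, h0'.1.2, h2, h3⟩
  have h1 : ∑ N ∈ A, (W g N.1 * W g N.2 * (f (jn N.1) + f (jn (swp (comp N.1 N.2 y)
        (swp (comp N.1 N.2 x) N.1 N.2) (swp (comp N.1 N.2 x) N.2 N.1))) -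
        f (jn (swp (comp N.1 N.2 x) N.1 N.2)) - f (jn (swp (comp N.1 N.2 y) N.1 N.2))) ^ 2) ≤
      ∑ N ∈ A, (2 * dT g f y (sq x N) + 2 * dT g f y N) :=
    Finset.sum_le_sum fun N hN' => by
      obtain ⟨-, a1, a2, -, a3⟩ := hmem N hN'
      exact diff_eq hpos f a1 a2 a3
  refine h1.trans ?_
  rw [Finset.sum_add_distrib, ← Finset.mul_sum, ← Finset.mul_sum]
  have h2 : ∑ N ∈ A, dT g f y N ≤ Tv g f y := by
    refine Finset.sum_le_sum_of_subset_of_nonneg ?_ fun N _ _ => dT_nonneg hpos f y N
    intro N hN'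
    obtain ⟨a0, a1, a2, a3, a4⟩ := hmem N hN'
    rw [mem_filter]
    exact ⟨a0, a3⟩
  have h3 : ∑ N ∈ A, dT g f y (sq x N) ≤ Tv g f y := by
    rw [← Finset.sum_image (f := fun N => dT g f y N) (g := sq x) (s := A)
      (fun u _ w _ huw => by
        have := congrArg (sq x) huw
        rwa [sq_sq, sq_sq] at this)]
    refine Finset.sum_le_sum_of_subset_of_nonneg ?_ fun N _ _ => dT_nonneg hpos f y N
    intro N hN'
    obtain ⟨M, hM, rfl⟩ := Finset.mem_image.1 hN'
    obtain ⟨a0, a1, a2, a3, a4⟩ := hmem M hM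
    rw [mem_filter]
    refine ⟨sq_Conf a0, ?_⟩
    show swp (comp M.1 M.2 x) M.1 M.2 y = y ∨ swp (comp M.1 M.2 x) M.2 M.1 y = y
    rw [swp_of_not_mem a4, swp_of_not_mem a4]
    exact a3
  linarith

/-- constant of Lemma Q -/
noncomputable def KQ (V : Type*) [Fintype V] (c0 : ℝ) : ℝ := 290952 * kap V c0 ^ 10

end main

end CQ

open CQ in
/-- **Lemma Q.** -/
theorem lemmaQ {V : Type*} [Fintype V] [DecidableEq V] {g : V → V → ℝ} {c0 : ℝ}
    (hsym : ∀ u v, g u v = g v u) (hpos : ∀ u v, 0 < g u v)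
    (hc : 0 < c0) (hc1 : c0 ≤ 1) (hN : NodeA g c0) (f : (V → V) → ℝ) :
    ∑ N ∈ Conf V, ∑ x, ∑ y, (if (N.1 x = x ∨ N.2 x = x) ∧ (N.1 y = y ∨ N.2 y = y) ∧
        y ∉ comp N.1 N.2 x then
      W g N.1 * W g N.2 * (f (jn N.1) + f (jn (swp (comp N.1 N.2 y)
        (swp (comp N.1 N.2 x) N.1 N.2) (swp (comp N.1 N.2 x) N.2 N.1))) -
        f (jn (swp (comp N.1 N.2 x) N.1 N.2)) - f (jn (swp (comp N.1 N.2 y) N.1 N.2))) ^ 2
      else 0) ≤ KQ V c0 * En g f := by
  have hk0 := kap_pos (V := V) hc hc1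
  have hE := En_nonneg (g := g) f hpos
  have h1 := sum_Tv_le hsym hpos hc hc1 hN f
  have hn' : (Fintype.card V : ℝ) ≤ kap V c0 := by
    refine le_trans ?_ (card_V_inv_le_kap (V := V) hc hc1)
    have := one_le_inv hc hc1
    have h0 : (0 : ℝ) ≤ Fintype.card V := Nat.cast_nonneg _
    nlinarith
  rw [Finset.sum_comm]
  calc _ ≤ ∑ x : V, ∑ y : V, 4 * Tv g f y := by
        refine Finset.sum_le_sum fun x _ => ?_
        rw [Finset.sum_comm]
        exact Finset.sum_le_sum fun y _ => pair_le hpos f x y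
    _ = 4 * (Fintype.card V : ℝ) * ∑ y : V, Tv g f y := by
        simp only [Finset.sum_const, Finset.card_univ, nsmul_eq_mul, ← Finset.mul_sum]
        ring
    _ ≤ 4 * (Fintype.card V : ℝ) * (72738 * kap V c0 ^ 9 * En g f) :=
        mul_le_mul_of_nonneg_left h1 (by positivity)
    _ ≤ 4 * kap V c0 * (72738 * kap V c0 ^ 9 * En g f) :=
        mul_le_mul_of_nonneg_right (by linarith) (by positivity)
    _ = KQ V c0 * En g f := by unfold KQ; ring

end Crest.Agent.R304
end

-- ▼ part R304/Flip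
section

/-!
# R304 / S0464 : flipping the components one after another
-/

set_option autoImplicit false
set_option linter.unusedSectionVars false

namespace Crest.Agent.R304

open Finset

variable {V : Type*} [Fintype V] [DecidableEq V]

theorem swp_mem_pms {s t : V → V} {A : Finset V} (hs : s ∈ pms V) (ht : t ∈ pms V)
    (h1 : Cl A s) (h2 : Cl A t) : swp A s t ∈ pms V := by
  rw [mem_pms] at *
  refine ⟨hs.1.swp ht.1 h1 h2, fun v => ?_⟩
  by_cases h : v ∈ A
  · rw [swp_of_mem h]; exact ht.2 v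
  · rw [swp_of_not_mem h]; exact hs.2 v

/-- weight preserving change of variables: swap both replicas on a closed set `A s t` that only
depends on the superposition -/
theorem sum_flip (a : V → V → ℝ) (A : (V → V) → (V → V) → Finset V)
    (hA1 : ∀ s ∈ pms V, ∀ t ∈ pms V, Cl (A s t) s) (hA2 : ∀ s ∈ pms V, ∀ t ∈ pms V, Cl (A s t) t)
    (hinv : ∀ s ∈ pms V, ∀ t ∈ pms V, A (swp (A s t) s t) (swp (A s t) t s) = A s t)
    (F : (V → V) → (V → V) → ℝ) :
    ∑ s ∈ pms V, ∑ t ∈ pms V, W a s * W a t * F (swp (A s t) s t) (swp (A s t) t s)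
      = ∑ s ∈ pms V, ∑ t ∈ pms V, W a s * W a t * F s t := by
  rw [← Finset.sum_product', ← Finset.sum_product']
  refine Finset.sum_nbij' (fun p => (swp (A p.1 p.2) p.1 p.2, swp (A p.1 p.2) p.2 p.1))
    (fun p => (swp (A p.1 p.2) p.1 p.2, swp (A p.1 p.2) p.2 p.1)) ?_ ?_ ?_ ?_ ?_
  · rintro ⟨s, t⟩ hp
    obtain ⟨hs, ht⟩ := Finset.mem_product.1 hp
    exact Finset.mem_product.2 ⟨swp_mem_pms hs ht (hA1 s hs t ht) (hA2 s hs t ht),
      swp_mem_pms ht hs (hA2 s hs t ht) (hA1 s hs t ht)⟩
  · rintro ⟨s, t⟩ hp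
    obtain ⟨hs, ht⟩ := Finset.mem_product.1 hp
    exact Finset.mem_product.2 ⟨swp_mem_pms hs ht (hA1 s hs t ht) (hA2 s hs t ht),
      swp_mem_pms ht hs (hA2 s hs t ht) (hA1 s hs t ht)⟩
  · rintro ⟨s, t⟩ hp
    obtain ⟨hs, ht⟩ := Finset.mem_product.1 hp
    simp only
    rw [hinv s hs t ht, swp_swp, swp_swp]
  · rintro ⟨s, t⟩ hp
    obtain ⟨hs, ht⟩ := Finset.mem_product.1 hp
    simp only
    rw [hinv s hs t ht, swp_swp, swp_swp]
  · rintro ⟨s, t⟩ hp
    simp only
    rw [W_swp_mul]

/-- union of the components of the points of `S` -/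
noncomputable def comps (S : Finset V) (s t : V → V) : Finset V := S.biUnion (comp s t)

theorem comps_cl_left {S : Finset V} {s t : V → V} : Cl (comps S s t) s := fun v hv => by
  obtain ⟨x, hx, hv⟩ := Finset.mem_biUnion.1 hv
  exact Finset.mem_biUnion.2 ⟨x, hx, comp_cl_left v hv⟩

theorem comps_cl_right {S : Finset V} {s t : V → V} : Cl (comps S s t) t := fun v hv => by
  obtain ⟨x, hx, hv⟩ := Finset.mem_biUnion.1 hv
  exact Finset.mem_biUnion.2 ⟨x, hx, comp_cl_right v hv⟩

theorem comps_swp {S : Finset V} {s t : V → V} {A : Finset V} :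
    comps S (swp A s t) (swp A t s) = comps S s t := by
  unfold comps
  congr 1
  funext v
  exact comp_swp

/-- energy of flipping the component of `v` -/
noncomputable def flipE (a : V → V → ℝ) (f : (V → V) → ℝ) (v : V) : ℝ :=
  ∑ s ∈ pms V, ∑ t ∈ pms V, W a s * W a t * (f s - f (swp (comp s t v) s t)) ^ 2


theorem add_sq_le (m x y : ℝ) (hm : 0 < m) : (x + y) ^ 2 ≤ (1 + 1 / m) * x ^ 2 + (1 + m) * y ^ 2 := by
  have h : 0 ≤ (x - m * y) ^ 2 / m := div_nonneg (sq_nonneg _) hm.le
  have e : (x - m * y) ^ 2 / m = (1 + 1 / m) * x ^ 2 + (1 + m) * y ^ 2 - (x + y) ^ 2 := by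
    field_simp; ring
  linarith

theorem var_le_flip_aux {a : V → V → ℝ} (ha : ∀ u v, 0 < a u v) (f : (V → V) → ℝ) (S : Finset V) :
    ∑ s ∈ pms V, ∑ t ∈ pms V, W a s * W a t * (f s - f (swp (comps S s t) s t)) ^ 2
      ≤ S.card * ∑ v ∈ S, flipE a f v := by
  induction S using Finset.induction_on with
  | empty => simp [comps, swp_empty]
  | @insert v S hv ih =>
    rw [Finset.sum_insert hv, Finset.card_insert_of_notMem hv]
    -- second step
    have h2 : ∑ s ∈ pms V, ∑ t ∈ pms V, W a s * W a t *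
        (f (swp (comps S s t) s t) - f (swp (comps (insert v S) s t) s t)) ^ 2 ≤ flipE a f v := by
      have e := sum_flip a (comps S) (fun s _ t _ => comps_cl_left) (fun s _ t _ => comps_cl_right)
        (fun s _ t _ => comps_swp) (fun s t => (f s - f (swp (comp s t v) s t)) ^ 2)
      unfold flipE
      rw [← e]
      refine Finset.sum_le_sum fun s hs => Finset.sum_le_sum fun t ht => ?_
      rw [mem_pms] at hs ht
      refine mul_le_mul_of_nonneg_left ?_ (mul_nonneg (W_pos ha _).le (W_pos ha _).le)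
      rw [comp_swp]
      by_cases hvS : v ∈ comps S s t
      · have hsub : comp s t v ⊆ comps S s t := comp_subset hvS comps_cl_left comps_cl_right
        have : comps (insert v S) s t = comps S s t := by
          unfold comps
          rw [Finset.biUnion_insert]
          exact Finset.union_eq_right.2 hsub
        rw [this]
        simpa using sq_nonneg _
      · have hdis : Disjoint (comps S s t) (comp s t v) := by
          rw [Finset.disjoint_left]
          intro x hx hx'
          obtain ⟨y, hy, hxy⟩ := Finset.mem_biUnion.1 hx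
          exact hvS (Finset.mem_biUnion.2 ⟨y, hy,
            comp_trans (comp_symm hs.1 ht.1 hx') hxy⟩)
        have : comps (insert v S) s t = comps S s t ∪ comp s t v := by
          unfold comps
          rw [Finset.biUnion_insert, Finset.union_comm]
        rw [this, ← swp_swp_union hdis]
    rcases Finset.eq_empty_or_nonempty S with hS | hS
    · subst hS
      have : ∀ s t : V → V, swp (comps ∅ s t) s t = s := fun s t => by simp [comps, swp_empty]
      simp only [this] at h2
      simpa using h2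
    · have hm : (0 : ℝ) < S.card := by exact_mod_cast hS.card_pos
      have hkey : ∑ s ∈ pms V, ∑ t ∈ pms V,
          W a s * W a t * (f s - f (swp (comps (insert v S) s t) s t)) ^ 2
          ≤ (1 + 1 / (S.card : ℝ)) * (∑ s ∈ pms V, ∑ t ∈ pms V,
              W a s * W a t * (f s - f (swp (comps S s t) s t)) ^ 2)
            + (1 + (S.card : ℝ)) * (∑ s ∈ pms V, ∑ t ∈ pms V, W a s * W a t *
              (f (swp (comps S s t) s t) - f (swp (comps (insert v S) s t) s t)) ^ 2) := by
        simp only [Finset.mul_sum]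
        rw [← Finset.sum_add_distrib]
        refine Finset.sum_le_sum fun s _ => ?_
        rw [← Finset.sum_add_distrib]
        refine Finset.sum_le_sum fun t _ => ?_
        have hw : 0 ≤ W a s * W a t := mul_nonneg (W_pos ha _).le (W_pos ha _).le
        have := mul_le_mul_of_nonneg_left (add_sq_le (S.card : ℝ)
          (f s - f (swp (comps S s t) s t))
          (f (swp (comps S s t) s t) - f (swp (comps (insert v S) s t) s t)) hm) hw
        calc _ = W a s * W a t * ((f s - f (swp (comps S s t) s t))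
              + (f (swp (comps S s t) s t) - f (swp (comps (insert v S) s t) s t))) ^ 2 := by
              congr 2; ring
          _ ≤ _ := this
          _ = _ := by ring
      calc _ ≤ _ := hkey
        _ ≤ (1 + 1 / (S.card : ℝ)) * (S.card * ∑ v ∈ S, flipE a f v)
            + (1 + (S.card : ℝ)) * flipE a f v := by gcongr
        _ = _ := by
          push_cast
          field_simp
          ring

/-- flipping the components one after another -/
theorem var_le_flip {a : V → V → ℝ} (ha : ∀ u v, 0 < a u v) (f : (V → V) → ℝ) :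
    ∑ s ∈ pms V, ∑ t ∈ pms V, W a s * W a t * (f s - f t) ^ 2
      ≤ Fintype.card V * ∑ v, flipE a f v := by
  have h := var_le_flip_aux ha f (univ : Finset V)
  have e : ∀ s t : V → V, comps univ s t = univ := fun s t =>
    Finset.eq_univ_iff_forall.2 fun x => Finset.mem_biUnion.2 ⟨x, Finset.mem_univ x, self_mem_comp⟩
  simp only [e, swp_univ] at h
  rwa [Finset.card_univ] at h

end Crest.Agent.R304
end

-- ▼ part R304/Ear
section

/-!
# R304 / S0464 : the max-level recursion (abstract)

`L i` = level of the edge `d_i`, `P i o` = "the path of `d_i` contains the node `o`",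
`top i` = top node of `d_i`.  `g i j` = value of `f` at the arc `[i, j)`.
-/

set_option autoImplicit false

namespace Crest.Agent.R304

/-- the max-level recursion: all arcs inside `[0, N)` whose inner edges have smaller level than the
two outer ones have `g i j` close to `g0`. -/
theorem ear_recursion {O : Type*} (N : ℕ) (L : ℕ → ℝ) (P : ℕ → O → Prop) (top : ℕ → O)
    (g : ℕ → ℕ → ℝ) (g0 M : ℝ)
    (hmeet : ∀ i < N, ∃ o, P i o ∧ P (i + 1) o)
    (htop : ∀ i ≤ N, P i (top i))
    (hear : ∀ i j, i ≤ N → j ≤ N → L i ≤ L j → (∃ o, P i o ∧ P j o) → P j (top i))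
    (hg : ∀ i < N, g i (i + 1) = g0)
    (hrel : ∀ i k j, i < k → k < j → j ≤ N → ∀ o, P i o → P k o → P j o →
      |g0 + g i j - g i k - g k j| ≤ M) :
    ∀ (m i j : ℕ), j = i + m → 0 < m → j ≤ N →
      (∀ k, i < k → k < j → L k ≤ L i ∧ L k ≤ L j) →
      |g i j - g0| ≤ (m - 1 : ℕ) * M ∧ ∃ o, P i o ∧ P j o := by
  intro m
  induction m using Nat.strong_induction_on with
  | _ m ih =>
    intro i j hj hm hN hL
    rcases Nat.lt_or_ge m 2 with h2 | h2
    · have hm1 : m = 1 := by omega
      subst hm1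
      subst hj
      rw [hg i (by omega)]
      refine ⟨by simp, hmeet i (by omega)⟩
    · -- choose the index of maximal level strictly inside
      obtain ⟨k, hk, hkmax⟩ := Finset.exists_max_image (Finset.Ioo i j) L
        ⟨i + 1, Finset.mem_Ioo.2 ⟨by omega, by omega⟩⟩
      rw [Finset.mem_Ioo] at hk
      have hLk := hL k hk.1 hk.2
      obtain ⟨h1, o1, ho1, ho1'⟩ := ih (k - i) (by omega) i k (by omega) (by omega) (by omega)
        (fun l hl hl' => ⟨(hL l hl (by omega)).1,
          hkmax l (Finset.mem_Ioo.2 ⟨hl, by omega⟩)⟩)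
      obtain ⟨h2', o2, ho2, ho2'⟩ := ih (j - k) (by omega) k j (by omega) (by omega) (by omega)
        (fun l hl hl' => ⟨hkmax l (Finset.mem_Ioo.2 ⟨by omega, hl'⟩),
          (hL l (by omega) hl').2⟩)
      have e1 : P i (top k) := hear k i (by omega) (by omega) hLk.1 ⟨o1, ho1', ho1⟩
      have e2 : P j (top k) := hear k j (by omega) (by omega) hLk.2 ⟨o2, ho2, ho2'⟩
      have e3 : P k (top k) := htop k (by omega)
      refine ⟨?_, top k, e1, e2⟩
      have h3 := hrel i k j hk.1 hk.2 hN (top k) e1 e3 e2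
      have hc : ((m - 1 : ℕ) : ℝ) = ((k - i - 1 : ℕ) : ℝ) + ((j - k - 1 : ℕ) : ℝ) + 1 := by
        have : m - 1 = (k - i - 1) + (j - k - 1) + 1 := by omega
        rw [this]; push_cast; ring
      rw [hc]
      have e : g i j - g0 = (g0 + g i j - g i k - g k j) + (g i k - g0) + (g k j - g0) := by ring
      rw [e]
      calc _ ≤ |g0 + g i j - g i k - g k j| + |g i k - g0| + |g k j - g0| := abs_add_three _ _ _
        _ ≤ M + ((k - i - 1 : ℕ) : ℝ) * M + ((j - k - 1 : ℕ) : ℝ) * M := by gcongr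
        _ = _ := by ring

/-- the value at the full cycle -/
theorem ear_conclusion {O : Type*} (N : ℕ) (hN : 0 < N) (L : ℕ → ℝ) (P : ℕ → O → Prop)
    (top : ℕ → O) (g : ℕ → ℕ → ℝ) (g0 M : ℝ)
    (hmeet : ∀ i < N, ∃ o, P i o ∧ P (i + 1) o)
    (htop : ∀ i ≤ N, P i (top i))
    (hear : ∀ i j, i ≤ N → j ≤ N → L i ≤ L j → (∃ o, P i o ∧ P j o) → P j (top i))
    (hg : ∀ i < N, g i (i + 1) = g0)
    (hrel : ∀ i k j, i < k → k < j → j ≤ N → ∀ o, P i o → P k o → P j o →
      |g0 + g i j - g i k - g k j| ≤ M)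
    (h0 : ∀ k, k ≤ N → L k ≤ L 0) (h0N : L N = L 0) :
    |g 0 N - g0| ≤ (N - 1 : ℕ) * M :=
  (ear_recursion N L P top g g0 M hmeet htop hear hg hrel N 0 N (by simp) hN le_rfl
    (fun k _ hk => ⟨h0 k hk.le, h0N ▸ h0 k hk.le⟩)).1

end Crest.Agent.R304
end

-- ▼ part R304/RelA147
section

/-!
# R304 / S0464, block (iv): the relations (Rear) and (Rpair) from Lemma Q and repair

Let `p = (s, t)` be a pair of perfect matchings, cut in at most three edges (labels
`c = (r, u, v)`: the edge `uv` of replica `r`), giving `N = cutAll cs p`.  If `A` is a union of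
components of `N`, then `hyb A s t` is obtained from `swp A N.1 N.2` by adding back some of the
cut edges.  Every addition costs a `repair` term, so Lemma Q for `N` gives the relation
`f s + f (M (U ∪ W)) ≈ f (M U) + f (M W)` for the canonical states `M A = jn (hyb A s t)`.
-/

set_option autoImplicit false
set_option linter.unusedSectionVars false

namespace Crest.Agent.R304.Rel

open Finset

variable {V : Type*} [Fintype V] [DecidableEq V]

/-- labels of edges: `(r, u, v)` is the edge `uv` of replica `r` -/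
abbrev Lb (V : Type*) := Bool × V × V

/-- the edge with label `c` is present in the pair -/
def has (c : Lb V) (p : (V → V) × (V → V)) : Prop :=
  (if c.1 then p.2 else p.1) c.2.1 = c.2.2 ∧ c.2.1 ≠ c.2.2

/-- remove the edge with label `c` -/
def cutp (c : Lb V) (p : (V → V) × (V → V)) : (V → V) × (V → V) :=
  if c.1 then (p.1, del p.2 c.2.1) else (del p.1 c.2.1, p.2)

/-- add the edge with label `c` -/
def addp (c : Lb V) (p : (V → V) × (V → V)) : (V → V) × (V → V) :=
  if c.1 then (p.1, add p.2 c.2.1 c.2.2) else (add p.1 c.2.1 c.2.2, p.2)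

/-- all edges are present, each one after the previous ones have been removed -/
def hasAll : List (Lb V) → (V → V) × (V → V) → Prop
  | [], _ => True
  | c :: cs, p => has c p ∧ hasAll cs (cutp c p)

/-- remove all edges of the list -/
def cutAll : List (Lb V) → (V → V) × (V → V) → (V → V) × (V → V)
  | [], p => p
  | c :: cs, p => cutAll cs (cutp c p)

@[simp] theorem hasAll_nil (p : (V → V) × (V → V)) : hasAll [] p ↔ True := Iff.rfl
@[simp] theorem hasAll_cons (c : Lb V) (cs : List (Lb V)) (p : (V → V) × (V → V)) :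
    hasAll (c :: cs) p ↔ has c p ∧ hasAll cs (cutp c p) := Iff.rfl
@[simp] theorem cutAll_nil (p : (V → V) × (V → V)) : cutAll [] p = p := rfl
@[simp] theorem cutAll_cons (c : Lb V) (cs : List (Lb V)) (p : (V → V) × (V → V)) :
    cutAll (c :: cs) p = cutAll cs (cutp c p) := rfl

/-- both members are involutions -/
def Inv2 (p : (V → V) × (V → V)) : Prop := Inv p.1 ∧ Inv p.2

theorem Inv2.cutp {p : (V → V) × (V → V)} (h : Inv2 p) (c : Lb V) : Inv2 (cutp c p) := by
  unfold Rel.cutp
  split_ifs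
  · exact ⟨h.1, h.2.del⟩
  · exact ⟨h.1.del, h.2⟩

theorem Inv2.cutAll {p : (V → V) × (V → V)} (h : Inv2 p) (cs : List (Lb V)) :
    Inv2 (cutAll cs p) := by
  induction cs generalizing p with
  | nil => exact h
  | cons c cs ih => exact ih (h.cutp c)

theorem addp_cutp {p : (V → V) × (V → V)} (h : Inv2 p) {c : Lb V} (hc : has c p) :
    addp c (cutp c p) = p := by
  obtain ⟨r, u, v⟩ := c
  obtain ⟨s, t⟩ := p
  cases r
  · simp only [has, cutp, addp] at *
    simp only [Bool.false_eq_true, if_false] at *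
    have : v = s u := hc.1.symm
    subst this
    rw [add_del h.1]
  · simp only [has, cutp, addp] at *
    simp only [if_true] at *
    have : v = t u := hc.1.symm
    subst this
    rw [add_del h.2]

theorem cutAll_inj {cs : List (Lb V)} {p q : (V → V) × (V → V)} (hp : Inv2 p) (hq : Inv2 q)
    (h1 : hasAll cs p) (h2 : hasAll cs q) (h : cutAll cs p = cutAll cs q) : p = q := by
  induction cs generalizing p q with
  | nil => exact h
  | cons c cs ih =>
    have := ih (hp.cutp c) (hq.cutp c) h1.2 h2.2 h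
    rw [← addp_cutp hp h1.1, ← addp_cutp hq h2.1, this]

/-! ### weights -/

section Weight
variable (a : V → V → ℝ) (b : V → ℝ)

/-- weight of a partial matching with hole activities `b` -/
def om (s : V → V) : ℝ := W a s * ∏ v ∈ holes s, b v

/-- weight of a pair -/
def om2 (p : (V → V) × (V → V)) : ℝ := om a b p.1 * om a b p.2

variable {a b}

theorem om_pos (ha : ∀ u v, 0 < a u v) (hb : ∀ v, 0 < b v) (s : V → V) : 0 < om a b s :=
  mul_pos (W_pos ha s) (Finset.prod_pos fun _ _ => hb _)

theorem om2_pos (ha : ∀ u v, 0 < a u v) (hb : ∀ v, 0 < b v) (p : (V → V) × (V → V)) :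
    0 < om2 a b p := mul_pos (om_pos ha hb _) (om_pos ha hb _)


/-- adding an edge multiplies the weight by `lam / (b b)` -/
theorem om_add (h1 : ∀ v, a v v = 1) {s : V → V} {u v : V} (huv : u ≠ v)
    (hu : s u = u) (hv : s v = v) : om a b (add s u v) * (b u * b v) = om a b s * lam a u v := by
  unfold om
  rw [W_add h1 huv hu hv, holes_add huv]
  have hsub : ({u, v} : Finset V) ⊆ holes s := by
    intro x hx
    rcases Finset.mem_insert.1 hx with h | h
    · rw [h]; exact mem_holes.2 hu
    · rw [Finset.mem_singleton.1 h]; exact mem_holes.2 hv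
  rw [← Finset.prod_sdiff hsub, Finset.prod_pair huv]
  ring

theorem om_del (h1 : ∀ v, a v v = 1) {s : V → V} (hs : Inv s) {u : V} (hu : s u ≠ u) :
    om a b s * (b u * b (s u)) = om a b (del s u) * lam a u (s u) := by
  have := om_add (b := b) h1 (s := del s u) hu.symm del_self del_mate
  rwa [add_del hs] at this

theorem om2_cutp (h1 : ∀ v, a v v = 1) {p : (V → V) × (V → V)} (hp : Inv2 p) {c : Lb V}
    (hc : has c p) :
    om2 a b p * (b c.2.1 * b c.2.2) = om2 a b (cutp c p) * lam a c.2.1 c.2.2 := by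
  obtain ⟨r, u, v⟩ := c
  obtain ⟨s, t⟩ := p
  cases r
  · simp only [has, cutp] at *
    simp only [Bool.false_eq_true, if_false] at *
    have e : v = s u := hc.1.symm
    subst e
    have := om_del (b := b) h1 hp.1 (u := u) hc.2.symm
    simp only [om2]
    linear_combination (om a b t) * this
  · simp only [has, cutp] at *
    simp only [if_true] at *
    have e : v = t u := hc.1.symm
    subst e
    have := om_del (b := b) h1 hp.2 (u := u) hc.2.symm
    simp only [om2]
    linear_combination (om a b s) * this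

/-- cutting an edge of the node does not decrease the weight -/
theorem om2_le_cutp (ha : ∀ u v, 0 < a u v) (hb : ∀ v, 0 < b v) (h1 : ∀ v, a v v = 1)
    {p : (V → V) × (V → V)} (hp : Inv2 p) {c : Lb V}
    (hc : has c p) (hle : lam a c.2.1 c.2.2 ≤ b c.2.1 * b c.2.2) :
    om2 a b p ≤ om2 a b (cutp c p) := by
  have h := om2_cutp (b := b) h1 hp hc
  have hbb : 0 < b c.2.1 * b c.2.2 := mul_pos (hb _) (hb _)
  have hpos := om2_pos ha hb (cutp c p)
  by_contra hlt
  push Not at hlt
  have h3 : om2 a b (cutp c p) * lam a c.2.1 c.2.2 ≤ om2 a b (cutp c p) * (b c.2.1 * b c.2.2) :=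
    mul_le_mul_of_nonneg_left hle hpos.le
  have h4 : om2 a b (cutp c p) * (b c.2.1 * b c.2.2) < om2 a b p * (b c.2.1 * b c.2.2) :=
    mul_lt_mul_of_pos_right hlt hbb
  linarith

theorem om2_swp (A : Finset V) (p : (V → V) × (V → V)) :
    om2 a b (swp A p.1 p.2, swp A p.2 p.1) = om2 a b p := by
  unfold om2 om
  have hW := W_swp_mul (A := A) (s := p.1) (t := p.2) a
  have hB : (∏ v ∈ holes (swp A p.1 p.2), b v) * (∏ v ∈ holes (swp A p.2 p.1), b v)
      = (∏ v ∈ holes p.1, b v) * (∏ v ∈ holes p.2, b v) := by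
    rw [holes_swp, holes_swp, Finset.prod_union, Finset.prod_union,
      ← Finset.prod_inter_mul_prod_sdiff (holes p.1) A, ← Finset.prod_inter_mul_prod_sdiff (holes p.2) A]
    · ring
    · exact Finset.disjoint_left.2 fun x hx hy =>
        (Finset.mem_sdiff.1 hy).2 (Finset.mem_inter.1 hx).2
    · exact Finset.disjoint_left.2 fun x hx hy =>
        (Finset.mem_sdiff.1 hy).2 (Finset.mem_inter.1 hx).2
  calc _ = (W a (swp A p.1 p.2) * W a (swp A p.2 p.1)) *
        ((∏ v ∈ holes (swp A p.1 p.2), b v) * (∏ v ∈ holes (swp A p.2 p.1), b v)) := by ring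
    _ = _ := by rw [hW, hB]; ring

end Weight

/-! ### number of holes -/

/-- total number of holes -/
def nh (p : (V → V) × (V → V)) : ℕ := (holes p.1).card + (holes p.2).card

theorem card_holes_add {s : V → V} {u v : V} (huv : u ≠ v) (hu : s u = u) (hv : s v = v) :
    (holes (add s u v)).card + 2 = (holes s).card := by
  rw [holes_add huv]
  have hsub : ({u, v} : Finset V) ⊆ holes s := by
    intro x hx
    rcases Finset.mem_insert.1 hx with h | h
    · rw [h]; exact mem_holes.2 hu
    · rw [Finset.mem_singleton.1 h]; exact mem_holes.2 hv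
  have h2 := Finset.card_sdiff_add_card_eq_card hsub
  rw [Finset.card_pair huv] at h2
  exact h2

theorem card_holes_del {s : V → V} (hs : Inv s) {u : V} (hu : s u ≠ u) :
    (holes (del s u)).card = (holes s).card + 2 := by
  have := card_holes_add (s := del s u) hu.symm del_self del_mate
  rw [add_del hs] at this
  exact this.symm

theorem nh_cutp {p : (V → V) × (V → V)} (hp : Inv2 p) {c : Lb V} (hc : has c p) :
    nh (cutp c p) = nh p + 2 := by
  obtain ⟨r, u, v⟩ := c
  obtain ⟨s, t⟩ := p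
  cases r
  · simp only [has, cutp] at *
    simp only [Bool.false_eq_true, if_false] at *
    have e : v = s u := hc.1.symm
    subst e
    have := card_holes_del hp.1 (u := u) hc.2.symm
    simp only [nh] at *
    omega
  · simp only [has, cutp] at *
    simp only [if_true] at *
    have e : v = t u := hc.1.symm
    subst e
    have := card_holes_del hp.2 (u := u) hc.2.symm
    simp only [nh] at *
    omega

theorem nh_swp (A : Finset V) (p : (V → V) × (V → V)) :
    nh (swp A p.1 p.2, swp A p.2 p.1) = nh p := by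
  simp only [nh]
  rw [holes_swp, holes_swp, Finset.card_union_of_disjoint, Finset.card_union_of_disjoint]
  · have h1 := Finset.card_inter_add_card_sdiff (holes p.1) A
    have h2 := Finset.card_inter_add_card_sdiff (holes p.2) A
    omega
  · exact Finset.disjoint_left.2 fun x hx hy =>
      (Finset.mem_sdiff.1 hy).2 (Finset.mem_inter.1 hx).2
  · exact Finset.disjoint_left.2 fun x hx hy =>
      (Finset.mem_sdiff.1 hy).2 (Finset.mem_inter.1 hx).2

/-! ### hybrids and cuts -/

/-- the cut edge `c` reappears in the hybrid along `A` -/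
def keep (A : Finset V) (c : Lb V) : Bool :=
  if c.1 then decide (c.2.1 ∈ A ∧ c.2.2 ∈ A) else decide (c.2.1 ∉ A ∧ c.2.2 ∉ A)

theorem hyb_cutp {p : (V → V) × (V → V)} (hp : Inv2 p) {c : Lb V} (hc : has c p) (A : Finset V) :
    hyb A p.1 p.2 = if keep A c then add (hyb A (cutp c p).1 (cutp c p).2) c.2.1 c.2.2
      else hyb A (cutp c p).1 (cutp c p).2 := by
  obtain ⟨r, u, v⟩ := c
  obtain ⟨s, t⟩ := p
  have hs := hp.1
  have ht := hp.2
  simp only at hs ht
  cases r
  · simp only [has, cutp, keep] at *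
    simp only [Bool.false_eq_true, if_false] at *
    obtain ⟨h1, h2⟩ := hc
    have h3 : s v = u := by rw [← h1, hs]
    funext x
    by_cases hu : u ∈ A <;> by_cases hv : v ∈ A
    · simp only [hu, hv, not_true, and_self, decide_false, Bool.false_eq_true, if_false]
      unfold hyb
      by_cases hx : x ∈ A
      · simp only [hx, if_true]
      · simp only [hx, if_false]
        have hxu : x ≠ u := fun h => hx (h ▸ hu)
        have hxv : x ≠ v := fun h => hx (h ▸ hv)
        rw [del_of_ne hxu (by rw [h1]; exact hxv)]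
    · simp only [hu, hv, not_true, not_false_iff, and_true, decide_false, Bool.false_eq_true, if_false]
      unfold hyb
      by_cases hx : x ∈ A
      · simp only [hx, if_true]
      · simp only [hx, if_false]
        have hxu : x ≠ u := fun h => hx (h ▸ hu)
        by_cases hxv : x = v
        · subst hxv
          have : del s u x = x := by unfold del; rw [if_pos (Or.inr h1.symm)]
          rw [this, h3]
          simp [hu, hv]
        · rw [del_of_ne hxu (by rw [h1]; exact hxv)]
    · simp only [hu, hv, not_true, not_false_iff, and_false, decide_false, Bool.false_eq_true, if_false]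
      unfold hyb
      by_cases hx : x ∈ A
      · simp only [hx, if_true]
      · simp only [hx, if_false]
        have hxv : x ≠ v := fun h => hx (h ▸ hv)
        by_cases hxu : x = u
        · subst hxu
          have : del s x x = x := del_self
          rw [this, h1]
          simp [hu, hv]
        · rw [del_of_ne hxu (by rw [h1]; exact hxv)]
    · simp only [hu, hv, not_false_iff, and_self, decide_true, if_true]
      by_cases hxu : x = u
      · subst hxu
        rw [add_left]
        unfold hyb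
        simp [hu, h1, hv]
      · by_cases hxv : x = v
        · subst hxv
          rw [add_right]
          unfold hyb
          simp [hv, h3, hu]
        · rw [add_of_ne hxu hxv]
          unfold hyb
          rw [del_of_ne hxu (by rw [h1]; exact hxv)]
  · simp only [has, cutp, keep] at *
    simp only [if_true] at *
    obtain ⟨h1, h2⟩ := hc
    have h3 : t v = u := by rw [← h1, ht]
    funext x
    by_cases hu : u ∈ A <;> by_cases hv : v ∈ A
    · simp only [hu, hv, and_self, decide_true, if_true]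
      by_cases hxu : x = u
      · subst hxu
        rw [add_left]
        unfold hyb
        simp [hu, h1, hv]
      · by_cases hxv : x = v
        · subst hxv
          rw [add_right]
          unfold hyb
          simp [hv, h3, hu]
        · rw [add_of_ne hxu hxv]
          unfold hyb
          rw [del_of_ne hxu (by rw [h1]; exact hxv)]
    · simp only [hu, hv, and_false, decide_false, Bool.false_eq_true, if_false]
      unfold hyb
      by_cases hx : x ∈ A
      · simp only [hx, if_true]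
        have hxv : x ≠ v := fun h => hv (h ▸ hx)
        by_cases hxu : x = u
        · subst hxu
          have : del t x x = x := del_self
          rw [this, h1]
          simp [hu, hv]
        · rw [del_of_ne hxu (by rw [h1]; exact hxv)]
      · simp only [hx, if_false]
    · simp only [hu, hv, and_true, decide_false, Bool.false_eq_true, if_false]
      unfold hyb
      by_cases hx : x ∈ A
      · simp only [hx, if_true]
        have hxu : x ≠ u := fun h => hu (h ▸ hx)
        by_cases hxv : x = v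
        · subst hxv
          have : del t u x = x := by unfold del; rw [if_pos (Or.inr h1.symm)]
          rw [this, h3]
          simp [hu, hv]
        · rw [del_of_ne hxu (by rw [h1]; exact hxv)]
      · simp only [hx, if_false]
    · simp only [hu, hv, and_self, decide_false, Bool.false_eq_true, if_false]
      unfold hyb
      by_cases hx : x ∈ A
      · simp only [hx, if_true]
        have hxu : x ≠ u := fun h => hu (h ▸ hx)
        have hxv : x ≠ v := fun h => hv (h ▸ hx)
        rw [del_of_ne hxu (by rw [h1]; exact hxv)]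
      · simp only [hx, if_false]

/-- if the cut edge reappears, its ends are holes of the hybrid of the cut pair -/
theorem hyb_cutp_hole {p : (V → V) × (V → V)} (hp : Inv2 p) {c : Lb V} (hc : has c p)
    {A : Finset V} (hk : keep A c = true) :
    hyb A (cutp c p).1 (cutp c p).2 c.2.1 = c.2.1 ∧ hyb A (cutp c p).1 (cutp c p).2 c.2.2 = c.2.2 := by
  obtain ⟨r, u, v⟩ := c
  obtain ⟨s, t⟩ := p
  cases r
  · simp only [has, cutp, keep] at *
    simp only [Bool.false_eq_true, if_false, decide_eq_true_eq] at *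
    obtain ⟨h1, h2⟩ := hc
    have h4 : del s u v = v := by unfold del; rw [if_pos (Or.inr h1.symm)]
    constructor
    · unfold hyb; simp [hk.1, del_self]
    · unfold hyb; simp [hk.2, h4]
  · simp only [has, cutp, keep] at *
    simp only [if_true, decide_eq_true_eq] at *
    obtain ⟨h1, h2⟩ := hc
    have h4 : del t u v = v := by unfold del; rw [if_pos (Or.inr h1.symm)]
    constructor
    · unfold hyb; simp [hk.1, del_self]
    · unfold hyb; simp [hk.2, h4]

/-! ### the chain from `swp A N.1 N.2` to `hyb A p.1 p.2` -/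

theorem Inv2.hyb {p : (V → V) × (V → V)} (hp : Inv2 p) (A : Finset V) :
    Inv (Crest.Agent.R304.hyb A p.1 p.2) := Inv.hyb hp.1 hp.2

theorem om_hyb_le {a : V → V → ℝ} {b : V → ℝ} (ha : ∀ u v, 0 < a u v) (hb : ∀ v, 0 < b v)
    (h1 : ∀ v, a v v = 1) {cs : List (Lb V)} {p : (V → V) × (V → V)} (hp : Inv2 p)
    (hc : hasAll cs p) (hle : ∀ c ∈ cs, lam a c.2.1 c.2.2 ≤ b c.2.1 * b c.2.2) {A : Finset V}
    (hA1 : Cl A (cutAll cs p).1) (hA2 : Cl A (cutAll cs p).2) :
    om2 a b p ≤ om a b (hyb A p.1 p.2) * om a b (swp A (cutAll cs p).2 (cutAll cs p).1) := by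
  induction cs generalizing p with
  | nil =>
    simp only [cutAll_nil] at *
    rw [hyb_eq_swp hp.1 hA1 hA2, ← om2_swp A p, om2]
  | cons c cs ih =>
    simp only [cutAll_cons, hasAll_cons] at *
    have hih := ih (hp.cutp c) hc.2 (fun c' hc' => hle c' (List.mem_cons_of_mem _ hc')) hA1 hA2
    have hle0 := hle c List.mem_cons_self
    rw [hyb_cutp hp hc.1 A]
    by_cases hk : keep A c = true
    · rw [if_pos hk]
      have hh := hyb_cutp_hole hp hc.1 hk
      have e1 := om_add (b := b) h1 hc.1.2 hh.1 hh.2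
      have e2 := om2_cutp (b := b) h1 hp hc.1
      have hbb : 0 < b c.2.1 * b c.2.2 := mul_pos (hb _) (hb _)
      have hl := lam_pos ha c.2.1 c.2.2
      refine le_of_mul_le_mul_right ?_ hbb
      rw [e2]
      calc _ ≤ (om a b (hyb A (cutp c p).1 (cutp c p).2) *
              om a b (swp A (cutAll cs (cutp c p)).2 (cutAll cs (cutp c p)).1)) *
              lam a c.2.1 c.2.2 := mul_le_mul_of_nonneg_right hih hl.le
        _ = _ := by
          linear_combination
            (-om a b (swp A (cutAll cs (cutp c p)).2 (cutAll cs (cutp c p)).1)) * e1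
    · rw [if_neg hk]
      exact (om2_le_cutp ha hb h1 hp hc.1 hle0).trans hih

theorem holes_hyb_le {cs : List (Lb V)} {p : (V → V) × (V → V)} (hp : Inv2 p)
    (hc : hasAll cs p) {A : Finset V}
    (hA1 : Cl A (cutAll cs p).1) (hA2 : Cl A (cutAll cs p).2) :
    (holes (hyb A p.1 p.2)).card + (holes (swp A (cutAll cs p).2 (cutAll cs p).1)).card
      ≤ nh p + 2 * cs.length := by
  induction cs generalizing p with
  | nil =>
    simp only [cutAll_nil] at *
    rw [hyb_eq_swp hp.1 hA1 hA2, ← nh_swp A p]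
    simp [nh]
  | cons c cs ih =>
    simp only [cutAll_cons, hasAll_cons] at *
    have hih := ih (hp.cutp c) hc.2 hA1 hA2
    have hn := nh_cutp hp hc.1
    rw [List.length_cons]
    rw [hyb_cutp hp hc.1 A]
    by_cases hk : keep A c = true
    · rw [if_pos hk]
      have hh := hyb_cutp_hole hp hc.1 hk
      have := card_holes_add hc.1.2 hh.1 hh.2
      omega
    · rw [if_neg hk]
      omega

/-- remove the re-added edges again -/
def unst : List (Lb V) → List Bool → (V → V) → V → V
  | c :: cs, k :: ks, r => unst cs ks (if k then del r c.2.1 else r)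
  | _, _, r => r

theorem unst_hyb {cs : List (Lb V)} {p : (V → V) × (V → V)} (hp : Inv2 p)
    (hc : hasAll cs p) {A : Finset V}
    (hA1 : Cl A (cutAll cs p).1) (hA2 : Cl A (cutAll cs p).2) :
    unst cs (cs.map (keep A)) (hyb A p.1 p.2) = swp A (cutAll cs p).1 (cutAll cs p).2 := by
  induction cs generalizing p with
  | nil =>
    simp only [cutAll_nil, unst] at *
    rw [hyb_eq_swp hp.1 hA1 hA2]
  | cons c cs ih =>
    simp only [cutAll_cons, hasAll_cons, List.map_cons, unst] at *
    rw [← ih (hp.cutp c) hc.2 hA1 hA2, hyb_cutp hp hc.1 A]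
    congr 1
    by_cases hk : keep A c = true
    · rw [if_pos hk, if_pos hk]
      have hh := hyb_cutp_hole hp hc.1 hk
      exact del_add hh.1 hh.2
    · rw [if_neg hk, if_neg hk]

/-- a rule choosing a union of components -/
structure SetRule (As : (V → V) × (V → V) → Finset V) : Prop where
  cl1 : ∀ N, Inv2 N → Cl (As N) N.1
  cl2 : ∀ N, Inv2 N → Cl (As N) N.2
  inv : ∀ N, As (swp (As N) N.1 N.2, swp (As N) N.2 N.1) = As N

theorem setRule_empty : SetRule (fun _ : (V → V) × (V → V) => (∅ : Finset V)) :=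
  ⟨fun _ _ => by intro v hv; simp at hv, fun _ _ => by intro v hv; simp at hv, fun _ => rfl⟩

theorem setRule_comp (x : V) : SetRule (fun N : (V → V) × (V → V) => comp N.1 N.2 x) :=
  ⟨fun _ _ => comp_cl_left, fun _ _ => comp_cl_right, fun _ => comp_swp⟩

theorem setRule_union (x y : V) :
    SetRule (fun N : (V → V) × (V → V) => comp N.1 N.2 x ∪ comp N.1 N.2 y) :=
  ⟨fun _ _ => comp_cl_left.union comp_cl_left, fun _ _ => comp_cl_right.union comp_cl_right,
    fun N => by simp only; rw [comp_swp, comp_swp]⟩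

/-- the pair reached in one repair step determines the original pair -/
theorem chain_inj {As : (V → V) × (V → V) → Finset V} (hAs : SetRule As) {cs : List (Lb V)}
    {p q : (V → V) × (V → V)} (hp : Inv2 p) (hq : Inv2 q) (h1 : hasAll cs p) (h2 : hasAll cs q)
    (hk : cs.map (keep (As (cutAll cs p))) = cs.map (keep (As (cutAll cs q))))
    (hS : hyb (As (cutAll cs p)) p.1 p.2 = hyb (As (cutAll cs q)) q.1 q.2)
    (hT : swp (As (cutAll cs p)) (cutAll cs p).2 (cutAll cs p).1
      = swp (As (cutAll cs q)) (cutAll cs q).2 (cutAll cs q).1) : p = q := by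
  refine cutAll_inj hp hq h1 h2 ?_
  have hNp := hp.cutAll cs
  have hNq := hq.cutAll cs
  have e1 : swp (As (cutAll cs p)) (cutAll cs p).1 (cutAll cs p).2
      = swp (As (cutAll cs q)) (cutAll cs q).1 (cutAll cs q).2 := by
    rw [← unst_hyb hp h1 (hAs.cl1 _ hNp) (hAs.cl2 _ hNp),
      ← unst_hyb hq h2 (hAs.cl1 _ hNq) (hAs.cl2 _ hNq), hk, hS]
  have e2 : As (cutAll cs p) = As (cutAll cs q) := by
    rw [← hAs.inv (cutAll cs p), ← hAs.inv (cutAll cs q), e1, hT]
  rw [e2] at e1 hT
  refine Prod.ext ?_ ?_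
  · rw [← swp_swp (A := As (cutAll cs q)) (s := (cutAll cs p).1) (t := (cutAll cs p).2), e1, hT,
      swp_swp]
  · rw [← swp_swp (A := As (cutAll cs q)) (s := (cutAll cs p).2) (t := (cutAll cs p).1), e1, hT,
      swp_swp]


end Crest.Agent.R304.Rel
private theorem rz_bd9a4fb552 : type_of% @_root_.Crest.Agent.R304.Rel.unst.eq_def := @_root_.Crest.Agent.R304.Rel.unst.eq_def -- L448
private theorem rz_b3ec028854 : type_of% @_root_.Crest.Agent.R304.Rel.unst.eq_1 := @_root_.Crest.Agent.R304.Rel.unst.eq_1 -- L448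
end

-- ▼ part R304/RelB147
section

/-!
# R304 / S0464, block (iv), second part: the chain of repairs, sums

`rel_core`: the relation for pairs of partial matchings, given the bounds of Lemma Q and repair.
-/

set_option autoImplicit false
set_option linter.unusedSectionVars false

namespace Crest.Agent.R304.Rel

open Finset

variable {V : Type*} [Fintype V] [DecidableEq V]

/-! ### sums -/

theorem five_sq (s0 s1 s2 s3 t0 t1 t2 t3 : ℝ) :
    (s0 + s1 - s2 - s3) ^ 2 ≤ 5 * ((t0 + t1 - t2 - t3) ^ 2 + ((s0 - t0) ^ 2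
          + (s1 - t1) ^ 2 + (s2 - t2) ^ 2 + (s3 - t3) ^ 2)) := by
  obtain ⟨z, hz⟩ : ∃ z, z = t0 + t1 - t2 - t3 := ⟨_, rfl⟩
  obtain ⟨x0, h0⟩ : ∃ x, x = s0 - t0 := ⟨_, rfl⟩
  obtain ⟨x1, h1⟩ : ∃ x, x = s1 - t1 := ⟨_, rfl⟩
  obtain ⟨x2, h2⟩ : ∃ x, x = s2 - t2 := ⟨_, rfl⟩
  obtain ⟨x3, h3⟩ : ∃ x, x = s3 - t3 := ⟨_, rfl⟩
  have e : s0 + s1 - s2 - s3 = z + x0 + x1 - x2 - x3 := by rw [hz, h0, h1, h2, h3]; ring
  rw [e, ← hz, ← h0, ← h1, ← h2, ← h3]
  have : 5 * (z ^ 2 + (x0 ^ 2 + x1 ^ 2 + x2 ^ 2 + x3 ^ 2)) - (z + x0 + x1 - x2 - x3) ^ 2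
      = (z - x0) ^ 2 + (z - x1) ^ 2 + (z + x2) ^ 2 + (z + x3) ^ 2 + (x0 - x1) ^ 2 + (x0 + x2) ^ 2
        + (x0 + x3) ^ 2 + (x1 + x2) ^ 2 + (x1 + x3) ^ 2 + (x2 - x3) ^ 2 := by ring
  have h : 0 ≤ (z - x0) ^ 2 + (z - x1) ^ 2 + (z + x2) ^ 2 + (z + x3) ^ 2 + (x0 - x1) ^ 2
        + (x0 + x2) ^ 2
        + (x0 + x3) ^ 2 + (x1 + x2) ^ 2 + (x1 + x3) ^ 2 + (x2 - x3) ^ 2 := by positivity
  linarith

/-- comparison of sums along a map which is injective on every class of a pattern -/
theorem sum_le_fib {ι κ : Type*} [DecidableEq κ] {D : Finset ι} {T : Finset κ} {g : ι → κ}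
    {pat : ι → List Bool} {m : ℕ} (hlen : ∀ i ∈ D, (pat i).length = m) {F : ι → ℝ} {h : κ → ℝ}
    (hh : ∀ k ∈ T, 0 ≤ h k) (hg : ∀ i ∈ D, g i ∈ T) (hF : ∀ i ∈ D, F i ≤ h (g i))
    (hinj : ∀ i ∈ D, ∀ j ∈ D, pat i = pat j → g i = g j → i = j) :
    ∑ i ∈ D, F i ≤ 2 ^ m * ∑ k ∈ T, h k := by
  classical
  have hT : 0 ≤ ∑ k ∈ T, h k := Finset.sum_nonneg hh
  set P : Finset (List Bool) := (Finset.univ : Finset (Fin m → Bool)).image List.ofFn with hP
  have hPc : P.card ≤ 2 ^ m := by
    refine Finset.card_image_le.trans ?_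
    simp
  have hmem : ∀ l : List Bool, l.length = m → l ∈ P := by
    intro l hl
    subst hl
    exact Finset.mem_image.2 ⟨l.get, Finset.mem_univ _, List.ofFn_get l⟩
  calc ∑ i ∈ D, F i ≤ ∑ i ∈ D, h (g i) := Finset.sum_le_sum hF
    _ = ∑ x ∈ D.image (fun i => (pat i, g i)), h x.2 := by
        rw [Finset.sum_image]
        intro i hi j hj hij
        exact hinj i hi j hj (congrArg Prod.fst hij) (congrArg Prod.snd hij)
    _ ≤ ∑ x ∈ P ×ˢ T, h x.2 := by
        refine Finset.sum_le_sum_of_subset_of_nonneg ?_ ?_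
        · intro x hx
          obtain ⟨i, hi, rfl⟩ := Finset.mem_image.1 hx
          exact Finset.mem_product.2 ⟨hmem _ (hlen i hi), hg i hi⟩
        · intro x hx _
          exact hh _ (Finset.mem_product.1 hx).2
    _ = P.card * ∑ k ∈ T, h k := by
        rw [Finset.sum_product]
        simp
    _ ≤ 2 ^ m * ∑ k ∈ T, h k := by
        refine mul_le_mul_of_nonneg_right ?_ hT
        exact_mod_cast hPc

theorem sum_le_inj {ι κ : Type*} {D : Finset ι} {T : Finset κ} {g : ι → κ}
    {F : ι → ℝ} {h : κ → ℝ}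
    (hh : ∀ k ∈ T, 0 ≤ h k) (hg : ∀ i ∈ D, g i ∈ T) (hF : ∀ i ∈ D, F i ≤ h (g i))
    (hinj : ∀ i ∈ D, ∀ j ∈ D, g i = g j → i = j) :
    ∑ i ∈ D, F i ≤ ∑ k ∈ T, h k := by
  classical
  have := sum_le_fib (pat := fun _ => []) (m := 0) (fun _ _ => rfl) hh hg hF
    (fun i hi j hj _ => hinj i hi j hj)
  simpa using this

open Classical in
/-- the pairs from which all edges of `cs` can be cut, with at most six holes afterwards -/
noncomputable def dom (cs : List (Lb V)) : Finset ((V → V) × (V → V)) :=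
  Finset.univ.filter fun p => Inv2 p ∧ Even (holes p.1).card ∧ Even (holes p.2).card ∧
    nh p + 2 * cs.length ≤ 6 ∧ hasAll cs p

theorem mem_dom {cs : List (Lb V)} {p : (V → V) × (V → V)} :
    p ∈ dom cs ↔ Inv2 p ∧ Even (holes p.1).card ∧ Even (holes p.2).card ∧
      nh p + 2 * cs.length ≤ 6 ∧ hasAll cs p := by
  simp [dom]

theorem even_holes_iff {s t : V → V} (hs : Inv s) (ht : Inv t) :
    Even (holes s).card ↔ Even (holes t).card := by
  rw [Nat.even_iff, Nat.even_iff, card_holes_mod hs, card_holes_mod ht]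

theorem cutp_mem_dom {c : Lb V} {cs : List (Lb V)} {p : (V → V) × (V → V)}
    (h : p ∈ dom (c :: cs)) : cutp c p ∈ dom cs := by
  rw [mem_dom] at *
  obtain ⟨hi, he1, he2, hn, hc⟩ := h
  refine ⟨hi.cutp c, (even_holes_iff hi.1 (hi.cutp c).1).1 he1,
    (even_holes_iff hi.2 (hi.cutp c).2).1 he2, ?_, hc.2⟩
  rw [nh_cutp hi hc.1]
  rw [List.length_cons] at hn
  omega

theorem cutAll_mem_dom {cs : List (Lb V)} {p : (V → V) × (V → V)}
    (h : p ∈ dom cs) : cutAll cs p ∈ dom [] := by
  induction cs generalizing p with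
  | nil => exact h
  | cons c cs ih => exact ih (cutp_mem_dom h)

section Bounds
variable {a : V → V → ℝ} {b : V → ℝ} (ha : ∀ u v, 0 < a u v) (hb : ∀ v, 0 < b v)
  (h1 : ∀ v, a v v = 1) (fb : (V → V) → ℝ)

include ha hb h1

open Classical in
theorem step_bound {CR : ℝ}
    (hR : ∑ p ∈ dom (V := V) [], ∑ u, ∑ v, (if u ≠ v ∧ p.1 u = u ∧ p.1 v = v then
      om2 a b p * (fb (add p.1 u v) - fb p.1) ^ 2 else 0) ≤ CR)
    {As : (V → V) × (V → V) → Finset V} (hAs : SetRule As) (c : Lb V) (cs : List (Lb V))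
    (hle : ∀ c' ∈ c :: cs, lam a c'.2.1 c'.2.2 ≤ b c'.2.1 * b c'.2.2) :
    ∑ p ∈ dom (c :: cs), om2 a b p *
      (fb (hyb (As (cutAll (c :: cs) p)) p.1 p.2)
        - fb (hyb (As (cutAll (c :: cs) p)) (cutp c p).1 (cutp c p).2)) ^ 2
      ≤ 2 ^ cs.length * CR := by
  set D := (dom (c :: cs)).filter fun p => keep (As (cutAll (c :: cs) p)) c = true with hD
  set h : (V → V) × (V → V) → ℝ := fun q => if c.2.1 ≠ c.2.2 ∧ q.1 c.2.1 = c.2.1 ∧
    q.1 c.2.2 = c.2.2 then om2 a b q * (fb (add q.1 c.2.1 c.2.2) - fb q.1) ^ 2 else 0 with hh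
  have hh0 : ∀ q, 0 ≤ h q := by
    intro q
    simp only [hh]
    split_ifs
    · exact mul_nonneg (om2_pos ha hb q).le (sq_nonneg _)
    · exact le_refl _
  have e1 : ∑ p ∈ dom (c :: cs), om2 a b p *
      (fb (hyb (As (cutAll (c :: cs) p)) p.1 p.2)
        - fb (hyb (As (cutAll (c :: cs) p)) (cutp c p).1 (cutp c p).2)) ^ 2
      = ∑ p ∈ D, om2 a b p *
      (fb (hyb (As (cutAll (c :: cs) p)) p.1 p.2)
        - fb (hyb (As (cutAll (c :: cs) p)) (cutp c p).1 (cutp c p).2)) ^ 2 := by
    rw [hD, Finset.sum_filter]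
    refine Finset.sum_congr rfl fun p hp => ?_
    rw [mem_dom] at hp
    split_ifs with hk
    · rfl
    · rw [hyb_cutp hp.1 hp.2.2.2.2.1, if_neg hk]
      simp
  rw [e1]
  have e2 : ∑ q ∈ dom (V := V) [], h q ≤ CR := by
    refine le_trans ?_ hR
    refine Finset.sum_le_sum fun q _ => ?_
    have hnn : ∀ u v : V, 0 ≤ (if u ≠ v ∧ q.1 u = u ∧ q.1 v = v then
      om2 a b q * (fb (add q.1 u v) - fb q.1) ^ 2 else 0) := by
      intro u v
      split_ifs
      · exact mul_nonneg (om2_pos ha hb q).le (sq_nonneg _)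
      · exact le_refl _
    calc h q ≤ ∑ v, (if c.2.1 ≠ v ∧ q.1 c.2.1 = c.2.1 ∧ q.1 v = v then
          om2 a b q * (fb (add q.1 c.2.1 v) - fb q.1) ^ 2 else 0) :=
          Finset.single_le_sum (f := fun v => if c.2.1 ≠ v ∧ q.1 c.2.1 = c.2.1 ∧ q.1 v = v then
            om2 a b q * (fb (add q.1 c.2.1 v) - fb q.1) ^ 2 else 0)
            (fun v _ => hnn c.2.1 v) (Finset.mem_univ c.2.2)
      _ ≤ _ := Finset.single_le_sum (f := fun u => ∑ v, if u ≠ v ∧ q.1 u = u ∧ q.1 v = v then
            om2 a b q * (fb (add q.1 u v) - fb q.1) ^ 2 else 0)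
            (fun u _ => Finset.sum_nonneg fun v _ => hnn u v) (Finset.mem_univ c.2.1)
  have e3 := sum_le_fib (D := D) (T := dom (V := V) [])
    (g := fun p => (hyb (As (cutAll (c :: cs) p)) (cutp c p).1 (cutp c p).2,
      swp (As (cutAll (c :: cs) p)) (cutAll (c :: cs) p).2 (cutAll (c :: cs) p).1))
    (pat := fun p => cs.map (keep (As (cutAll (c :: cs) p)))) (m := cs.length)
    (fun _ _ => List.length_map _)
    (F := fun p => om2 a b p *
      (fb (hyb (As (cutAll (c :: cs) p)) p.1 p.2)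
        - fb (hyb (As (cutAll (c :: cs) p)) (cutp c p).1 (cutp c p).2)) ^ 2)
    (h := h) (fun k _ => hh0 k) ?_ ?_ ?_
  · refine e3.trans (mul_le_mul_of_nonneg_left e2 (by positivity))
  · -- the target is a configuration
    intro p hp
    rw [hD, Finset.mem_filter] at hp
    obtain ⟨hp, hk⟩ := hp
    have hp' := cutp_mem_dom hp
    rw [mem_dom] at hp hp' ⊢
    have hN := hp.1.cutAll (c :: cs)
    have i1 : Inv (hyb (As (cutAll (c :: cs) p)) (cutp c p).1 (cutp c p).2) :=
      Inv.hyb hp'.1.1 hp'.1.2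
    have i2 : Inv (swp (As (cutAll (c :: cs) p)) (cutAll (c :: cs) p).2 (cutAll (c :: cs) p).1) :=
      Inv.swp hN.2 hN.1 (hAs.cl2 _ hN) (hAs.cl1 _ hN)
    refine ⟨⟨i1, i2⟩, (even_holes_iff hp.1.1 i1).1 hp.2.1, (even_holes_iff hp.1.1 i2).1 hp.2.1,
      ?_, trivial⟩
    have hle' := holes_hyb_le hp'.1 hp'.2.2.2.2 (A := As (cutAll (c :: cs) p))
      (hAs.cl1 _ hN) (hAs.cl2 _ hN)
    simp only [nh, List.length_nil, cutAll_cons] at *
    have := hp'.2.2.2.1
    omega
  · -- the weight
    intro p hp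
    rw [hD, Finset.mem_filter] at hp
    obtain ⟨hp, hk⟩ := hp
    have hp' := cutp_mem_dom hp
    rw [mem_dom] at hp hp'
    have hN := hp.1.cutAll (c :: cs)
    have hc := hp.2.2.2.2.1
    have hh2 := hyb_cutp_hole hp.1 hc hk
    simp only [hh]
    rw [if_pos ⟨hc.2, hh2.1, hh2.2⟩]
    rw [hyb_cutp hp.1 hc, if_pos hk]
    refine mul_le_mul_of_nonneg_right ?_ (sq_nonneg _)
    refine (om2_le_cutp ha hb h1 hp.1 hc (hle c List.mem_cons_self)).trans ?_
    exact om_hyb_le ha hb h1 hp'.1 hp'.2.2.2.2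
      (fun c' hc' => hle c' (List.mem_cons_of_mem _ hc')) (hAs.cl1 _ hN) (hAs.cl2 _ hN)
  · -- injectivity
    intro p hp q hq hpat hg
    rw [hD, Finset.mem_filter] at hp hq
    obtain ⟨hp, hk⟩ := hp
    obtain ⟨hq, hk'⟩ := hq
    have hp' := cutp_mem_dom hp
    have hq' := cutp_mem_dom hq
    rw [mem_dom] at hp hp' hq hq'
    have := chain_inj hAs hp'.1 hq'.1 hp'.2.2.2.2 hq'.2.2.2.2 hpat (congrArg Prod.fst hg)
      (congrArg Prod.snd hg)
    rw [← addp_cutp hp.1 hp.2.2.2.2.1, ← addp_cutp hq.1 hq.2.2.2.2.1, this]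

/-- constants of the chain -/
def Bc : ℕ → ℝ
  | 0 => 0
  | m + 1 => 2 * 2 ^ m + 2 * Bc m

open Classical in
theorem chain_bound {CR : ℝ}
    (hR : ∑ p ∈ dom (V := V) [], ∑ u, ∑ v, (if u ≠ v ∧ p.1 u = u ∧ p.1 v = v then
      om2 a b p * (fb (add p.1 u v) - fb p.1) ^ 2 else 0) ≤ CR)
    {As : (V → V) × (V → V) → Finset V} (hAs : SetRule As) (cs : List (Lb V))
    (hle : ∀ c ∈ cs, lam a c.2.1 c.2.2 ≤ b c.2.1 * b c.2.2) :
    ∑ p ∈ dom cs, om2 a b p *
      (fb (hyb (As (cutAll cs p)) p.1 p.2)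
        - fb (swp (As (cutAll cs p)) (cutAll cs p).1 (cutAll cs p).2)) ^ 2
      ≤ Bc cs.length * CR := by
  induction cs with
  | nil =>
    refine le_of_eq ?_
    rw [List.length_nil, Bc, zero_mul]
    refine Finset.sum_eq_zero fun p hp => ?_
    rw [mem_dom] at hp
    rw [cutAll_nil, hyb_eq_swp hp.1.1 (hAs.cl1 _ hp.1) (hAs.cl2 _ hp.1)]
    simp
  | cons c cs ih =>
    have ih' := ih (fun c' hc' => hle c' (List.mem_cons_of_mem _ hc'))
    have hs := step_bound ha hb h1 fb hR hAs c cs hle
    have h2 : ∑ p ∈ dom (c :: cs), om2 a b p *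
        (fb (hyb (As (cutAll (c :: cs) p)) (cutp c p).1 (cutp c p).2)
          - fb (swp (As (cutAll (c :: cs) p)) (cutAll (c :: cs) p).1 (cutAll (c :: cs) p).2)) ^ 2
        ≤ Bc cs.length * CR := by
      refine le_trans ?_ ih'
      refine sum_le_inj (g := cutp c) (fun q _ => mul_nonneg (om2_pos ha hb q).le (sq_nonneg _))
        (fun p hp => cutp_mem_dom hp) ?_ ?_
      · intro p hp
        rw [mem_dom] at hp
        simp only [cutAll_cons]
        refine mul_le_mul_of_nonneg_right ?_ (sq_nonneg _)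
        exact om2_le_cutp ha hb h1 hp.1 hp.2.2.2.2.1 (hle c List.mem_cons_self)
      · intro p hp q hq h
        rw [mem_dom] at hp hq
        rw [← addp_cutp hp.1 hp.2.2.2.2.1, ← addp_cutp hq.1 hq.2.2.2.2.1, h]
    have h3 : ∀ p ∈ dom (c :: cs), om2 a b p *
        (fb (hyb (As (cutAll (c :: cs) p)) p.1 p.2)
          - fb (swp (As (cutAll (c :: cs) p)) (cutAll (c :: cs) p).1 (cutAll (c :: cs) p).2)) ^ 2
        ≤ 2 * (om2 a b p *
          (fb (hyb (As (cutAll (c :: cs) p)) p.1 p.2)
            - fb (hyb (As (cutAll (c :: cs) p)) (cutp c p).1 (cutp c p).2)) ^ 2)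
          + 2 * (om2 a b p *
          (fb (hyb (As (cutAll (c :: cs) p)) (cutp c p).1 (cutp c p).2)
          - fb (swp (As (cutAll (c :: cs) p)) (cutAll (c :: cs) p).1 (cutAll (c :: cs) p).2)) ^ 2) := by
      intro p _
      have hpos := (om2_pos ha hb p).le
      set x := fb (hyb (As (cutAll (c :: cs) p)) p.1 p.2)
      set y := fb (hyb (As (cutAll (c :: cs) p)) (cutp c p).1 (cutp c p).2)
      set z := fb (swp (As (cutAll (c :: cs) p)) (cutAll (c :: cs) p).1 (cutAll (c :: cs) p).2)
      have : (x - z) ^ 2 ≤ 2 * (x - y) ^ 2 + 2 * (y - z) ^ 2 := by nlinarith [sq_nonneg (x - 2 * y + z)]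
      calc om2 a b p * (x - z) ^ 2 ≤ om2 a b p * (2 * (x - y) ^ 2 + 2 * (y - z) ^ 2) :=
            mul_le_mul_of_nonneg_left this hpos
        _ = _ := by ring
    calc _ ≤ _ := Finset.sum_le_sum h3
      _ = _ := Finset.sum_add_distrib
      _ ≤ 2 * (2 ^ cs.length * CR) + 2 * (Bc cs.length * CR) := by
          rw [← Finset.mul_sum, ← Finset.mul_sum]
          linarith
      _ = Bc (c :: cs).length * CR := by
          rw [List.length_cons, Bc]; ring

open Classical in
/-- the conclusion of Lemma Q, restated for pairs -/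
theorem rel_core {CR CQ : ℝ}
    (hR : ∑ p ∈ dom (V := V) [], ∑ u, ∑ v, (if u ≠ v ∧ p.1 u = u ∧ p.1 v = v then
      om2 a b p * (fb (add p.1 u v) - fb p.1) ^ 2 else 0) ≤ CR)
    (hQ : ∑ N ∈ dom (V := V) [], ∑ x, ∑ y, (if (N.1 x = x ∨ N.2 x = x) ∧ (N.1 y = y ∨ N.2 y = y) ∧
        y ∉ comp N.1 N.2 x then om2 a b N *
        (fb N.1 + fb (swp (comp N.1 N.2 x ∪ comp N.1 N.2 y) N.1 N.2)
          - fb (swp (comp N.1 N.2 x) N.1 N.2) - fb (swp (comp N.1 N.2 y) N.1 N.2)) ^ 2 else 0) ≤ CQ)
    (cs : List (Lb V)) (hlen : cs.length ≤ 3)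
    (hle : ∀ c ∈ cs, lam a c.2.1 c.2.2 ≤ b c.2.1 * b c.2.2) :
    ∑ p ∈ dom cs, ∑ x, ∑ y, (if ((cutAll cs p).1 x = x ∨ (cutAll cs p).2 x = x) ∧
        ((cutAll cs p).1 y = y ∨ (cutAll cs p).2 y = y) ∧
        y ∉ comp (cutAll cs p).1 (cutAll cs p).2 x then om2 a b p *
        (fb p.1 + fb (hyb (comp (cutAll cs p).1 (cutAll cs p).2 x ∪
              comp (cutAll cs p).1 (cutAll cs p).2 y) p.1 p.2)
          - fb (hyb (comp (cutAll cs p).1 (cutAll cs p).2 x) p.1 p.2)
          - fb (hyb (comp (cutAll cs p).1 (cutAll cs p).2 y) p.1 p.2)) ^ 2 else 0)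
      ≤ 5 * (CQ + 96 * (Fintype.card V : ℝ) ^ 2 * CR) := by
  have hCR : 0 ≤ CR := by
    refine le_trans (Finset.sum_nonneg fun p _ => Finset.sum_nonneg fun u _ =>
      Finset.sum_nonneg fun v _ => ?_) hR
    split_ifs
    · exact mul_nonneg (om2_pos ha hb p).le (sq_nonneg _)
    · exact le_refl _
  have hBc : Bc cs.length ≤ 24 := by
    interval_cases h : cs.length <;> simp [Bc] <;> norm_num
  -- the four chain errors
  set E : ((V → V) × (V → V) → Finset V) → (V → V) × (V → V) → ℝ := fun As p =>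
    om2 a b p * (fb (hyb (As (cutAll cs p)) p.1 p.2)
        - fb (swp (As (cutAll cs p)) (cutAll cs p).1 (cutAll cs p).2)) ^ 2 with hE
  have hE0 : ∀ As p, 0 ≤ E As p := fun As p => mul_nonneg (om2_pos ha hb p).le (sq_nonneg _)
  have hEb : ∀ As, SetRule As → ∑ p ∈ dom cs, E As p ≤ 24 * CR := by
    intro As hAs
    refine (chain_bound ha hb h1 fb hR hAs cs hle).trans ?_
    exact mul_le_mul_of_nonneg_right hBc hCR
  set q : (V → V) × (V → V) → V → V → ℝ := fun N x y =>
    if (N.1 x = x ∨ N.2 x = x) ∧ (N.1 y = y ∨ N.2 y = y) ∧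
        y ∉ comp N.1 N.2 x then om2 a b N *
        (fb N.1 + fb (swp (comp N.1 N.2 x ∪ comp N.1 N.2 y) N.1 N.2)
          - fb (swp (comp N.1 N.2 x) N.1 N.2) - fb (swp (comp N.1 N.2 y) N.1 N.2)) ^ 2 else 0 with hq
  have hq0 : ∀ N x y, 0 ≤ q N x y := by
    intro N x y
    simp only [hq]
    split_ifs
    · exact mul_nonneg (om2_pos ha hb N).le (sq_nonneg _)
    · exact le_refl _
  have hle_cut : ∀ p ∈ dom cs, om2 a b p ≤ om2 a b (cutAll cs p) := by
    have : ∀ (l : List (Lb V)), (∀ c ∈ l, lam a c.2.1 c.2.2 ≤ b c.2.1 * b c.2.2) →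
        ∀ p, Inv2 p → hasAll l p → om2 a b p ≤ om2 a b (cutAll l p) := by
      intro l
      induction l with
      | nil => intro _ p _ _; exact le_refl _
      | cons c l ih =>
        intro hl p hp hc
        refine (om2_le_cutp ha hb h1 hp hc.1 (hl c List.mem_cons_self)).trans ?_
        exact ih (fun c' hc' => hl c' (List.mem_cons_of_mem _ hc')) _ (hp.cutp c) hc.2
    intro p hp
    rw [mem_dom] at hp
    exact this cs hle p hp.1 hp.2.2.2.2
  have hQ' : ∑ p ∈ dom cs, ∑ x, ∑ y, q (cutAll cs p) x y ≤ CQ := by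
    refine le_trans ?_ hQ
    refine sum_le_inj (g := cutAll cs) (h := fun N => ∑ x, ∑ y, q N x y)
      (fun N _ => Finset.sum_nonneg fun x _ => Finset.sum_nonneg fun y _ => hq0 N x y)
      (fun p hp => cutAll_mem_dom hp) (fun p _ => le_refl _) ?_
    intro p hp p' hp' h
    rw [mem_dom] at hp hp'
    exact cutAll_inj hp.1 hp'.1 hp.2.2.2.2 hp'.2.2.2.2 h
  -- pointwise bound
  have hpt : ∀ p ∈ dom cs, ∀ x y, (if ((cutAll cs p).1 x = x ∨ (cutAll cs p).2 x = x) ∧
        ((cutAll cs p).1 y = y ∨ (cutAll cs p).2 y = y) ∧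
        y ∉ comp (cutAll cs p).1 (cutAll cs p).2 x then om2 a b p *
        (fb p.1 + fb (hyb (comp (cutAll cs p).1 (cutAll cs p).2 x ∪
              comp (cutAll cs p).1 (cutAll cs p).2 y) p.1 p.2)
          - fb (hyb (comp (cutAll cs p).1 (cutAll cs p).2 x) p.1 p.2)
          - fb (hyb (comp (cutAll cs p).1 (cutAll cs p).2 y) p.1 p.2)) ^ 2 else 0)
      ≤ 5 * (q (cutAll cs p) x y + (E (fun _ => ∅) p + E (fun N => comp N.1 N.2 x ∪ comp N.1 N.2 y) p
          + E (fun N => comp N.1 N.2 x) p + E (fun N => comp N.1 N.2 y) p)) := by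
    intro p hp x y
    have hsum : 0 ≤ E (fun _ => ∅) p + E (fun N => comp N.1 N.2 x ∪ comp N.1 N.2 y) p
          + E (fun N => comp N.1 N.2 x) p + E (fun N => comp N.1 N.2 y) p := by
      have h1 := hE0 (fun _ => ∅) p
      have h2 := hE0 (fun N => comp N.1 N.2 x ∪ comp N.1 N.2 y) p
      have h3 := hE0 (fun N => comp N.1 N.2 x) p
      have h4 := hE0 (fun N => comp N.1 N.2 y) p
      linarith
    split_ifs with hcond
    · have hqe : q (cutAll cs p) x y = om2 a b (cutAll cs p) *
          (fb (cutAll cs p).1 + fb (swp (comp (cutAll cs p).1 (cutAll cs p).2 x ∪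
            comp (cutAll cs p).1 (cutAll cs p).2 y) (cutAll cs p).1 (cutAll cs p).2)
          - fb (swp (comp (cutAll cs p).1 (cutAll cs p).2 x) (cutAll cs p).1 (cutAll cs p).2)
          - fb (swp (comp (cutAll cs p).1 (cutAll cs p).2 y) (cutAll cs p).1 (cutAll cs p).2)) ^ 2 := by
        simp only [hq]
        rw [if_pos hcond]
      have hqle : om2 a b p *
          (fb (cutAll cs p).1 + fb (swp (comp (cutAll cs p).1 (cutAll cs p).2 x ∪
            comp (cutAll cs p).1 (cutAll cs p).2 y) (cutAll cs p).1 (cutAll cs p).2)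
          - fb (swp (comp (cutAll cs p).1 (cutAll cs p).2 x) (cutAll cs p).1 (cutAll cs p).2)
          - fb (swp (comp (cutAll cs p).1 (cutAll cs p).2 y) (cutAll cs p).1 (cutAll cs p).2)) ^ 2
          ≤ q (cutAll cs p) x y := by
        rw [hqe]
        exact mul_le_mul_of_nonneg_right (hle_cut p hp) (sq_nonneg _)
      simp only [hE]
      rw [hyb_empty, swp_empty]
      have hpos := (om2_pos ha hb p).le
      set w := om2 a b p
      set X := comp (cutAll cs p).1 (cutAll cs p).2 x
      set Y := comp (cutAll cs p).1 (cutAll cs p).2 y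
      set s0 := fb p.1
      set s1 := fb (hyb (X ∪ Y) p.1 p.2)
      set s2 := fb (hyb X p.1 p.2)
      set s3 := fb (hyb Y p.1 p.2)
      set t0 := fb (cutAll cs p).1
      set t1 := fb (swp (X ∪ Y) (cutAll cs p).1 (cutAll cs p).2)
      set t2 := fb (swp X (cutAll cs p).1 (cutAll cs p).2)
      set t3 := fb (swp Y (cutAll cs p).1 (cutAll cs p).2)
      have key : (s0 + s1 - s2 - s3) ^ 2 ≤ 5 * ((t0 + t1 - t2 - t3) ^ 2 + ((s0 - t0) ^ 2
          + (s1 - t1) ^ 2 + (s2 - t2) ^ 2 + (s3 - t3) ^ 2)) := five_sq _ _ _ _ _ _ _ _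
      calc w * (s0 + s1 - s2 - s3) ^ 2
          ≤ w * (5 * ((t0 + t1 - t2 - t3) ^ 2 + ((s0 - t0) ^ 2
          + (s1 - t1) ^ 2 + (s2 - t2) ^ 2 + (s3 - t3) ^ 2))) :=
            mul_le_mul_of_nonneg_left key hpos
        _ = 5 * (w * (t0 + t1 - t2 - t3) ^ 2 + (w * (s0 - t0) ^ 2
          + w * (s1 - t1) ^ 2 + w * (s2 - t2) ^ 2 + w * (s3 - t3) ^ 2)) := by ring
        _ ≤ _ := by linarith
    · have := hq0 (cutAll cs p) x y
      linarith
  calc _ ≤ ∑ p ∈ dom cs, ∑ x, ∑ y, 5 * (q (cutAll cs p) x y +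
          (E (fun _ => ∅) p + E (fun N => comp N.1 N.2 x ∪ comp N.1 N.2 y) p
          + E (fun N => comp N.1 N.2 x) p + E (fun N => comp N.1 N.2 y) p)) :=
        Finset.sum_le_sum fun p hp => Finset.sum_le_sum fun x _ => Finset.sum_le_sum fun y _ =>
          hpt p hp x y
    _ = 5 * (∑ p ∈ dom cs, ∑ x, ∑ y, q (cutAll cs p) x y +
          ∑ x : V, ∑ y : V, (∑ p ∈ dom cs, E (fun _ => ∅) p
            + ∑ p ∈ dom cs, E (fun N => comp N.1 N.2 x ∪ comp N.1 N.2 y) p
          + ∑ p ∈ dom cs, E (fun N => comp N.1 N.2 x) p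
          + ∑ p ∈ dom cs, E (fun N => comp N.1 N.2 y) p)) := by
        simp only [← Finset.mul_sum, Finset.sum_add_distrib]
        congr 2
        congr 1
        · congr 1
          · congr 1
            · rw [Finset.sum_comm]
              refine Finset.sum_congr rfl fun x _ => ?_
              rw [Finset.sum_comm]
            · rw [Finset.sum_comm]
              refine Finset.sum_congr rfl fun x _ => ?_
              rw [Finset.sum_comm]
          · rw [Finset.sum_comm]
            refine Finset.sum_congr rfl fun x _ => ?_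
            rw [Finset.sum_comm]
        · rw [Finset.sum_comm]
          refine Finset.sum_congr rfl fun x _ => ?_
          rw [Finset.sum_comm]
    _ ≤ 5 * (CQ + ∑ x : V, ∑ y : V, 96 * CR) := by
        refine mul_le_mul_of_nonneg_left (add_le_add hQ' ?_) (by norm_num)
        refine Finset.sum_le_sum fun x _ => Finset.sum_le_sum fun y _ => ?_
        have b1 := hEb _ setRule_empty
        have b2 := hEb _ (setRule_union x y)
        have b3 := hEb _ (setRule_comp x)
        have b4 := hEb _ (setRule_comp y)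
        linarith
    _ = _ := by
        simp only [Finset.sum_const, Finset.card_univ, nsmul_eq_mul]
        ring

end Bounds

end Crest.Agent.R304.Rel
private theorem rz_57065639b0 : type_of% @_root_.Crest.Agent.R304.Rel.Bc.eq_def := @_root_.Crest.Agent.R304.Rel.Bc.eq_def -- L227
private theorem rz_0fba707bb8 : type_of% @_root_.Crest.Agent.R304.Rel.Bc.eq_1 := @_root_.Crest.Agent.R304.Rel.Bc.eq_1 -- L227
end

-- ▼ part R304/RelC147
section

/-!
# R304 / S0464, block (iv), final form

`rel_of`: the relations (Rear) (three cut edges) and (Rpair) (two cut edges) in one statement,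
for pairs of perfect matchings, with one weight function `g` (node weights on the diagonal),
from the bounds of `repair` and `lemmaQ` (in the form of `ConfDefs`).
-/

set_option autoImplicit false
set_option linter.unusedSectionVars false

namespace Crest.Agent.R304.Rel

open Finset

variable {V : Type*} [Fintype V] [DecidableEq V]

/-- the edge with label `c` is present in the pair -/
def pres (c : Bool × V × V) (p : (V → V) × (V → V)) : Prop :=
  c.2.1 ≠ c.2.2 ∧ (if c.1 then p.2 c.2.1 = c.2.2 else p.1 c.2.1 = c.2.2)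

/-- remove all edges of the list -/
def cutL : List (Bool × V × V) → (V → V) × (V → V) → (V → V) × (V → V)
  | [], p => p
  | c :: L, p => cutL L (cutp c p)

/-- all edges are present, each one after the previous ones have been removed -/
def presL : List (Bool × V × V) → (V → V) × (V → V) → Prop
  | [], _ => True
  | c :: L, p => pres c p ∧ presL L (cutp c p)

theorem pres_iff {c : Bool × V × V} {p : (V → V) × (V → V)} : pres c p ↔ has c p := by
  unfold pres has
  split_ifs <;> exact and_comm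

theorem cutL_eq (L : List (Bool × V × V)) (p : (V → V) × (V → V)) : cutL L p = cutAll L p := by
  induction L generalizing p with
  | nil => rfl
  | cons c L ih => exact ih _

theorem presL_iff {L : List (Bool × V × V)} {p : (V → V) × (V → V)} :
    presL L p ↔ hasAll L p := by
  induction L generalizing p with
  | nil => exact Iff.rfl
  | cons c L ih =>
    change pres c p ∧ presL L (cutp c p) ↔ has c p ∧ hasAll L (cutp c p)
    rw [pres_iff, ih]

/-- off-diagonal part of the weight function -/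
def offd (g : V → V → ℝ) (u v : V) : ℝ := if u = v then 1 else g u v

theorem offd_pos {g : V → V → ℝ} (hpos : ∀ u v, 0 < g u v) (u v : V) : 0 < offd g u v := by
  unfold offd
  split_ifs
  · exact one_pos
  · exact hpos u v

theorem offd_self {g : V → V → ℝ} (v : V) : offd g v v = 1 := by simp [offd]

theorem lam_offd {g : V → V → ℝ} (hsym : ∀ u v, g u v = g v u) {u v : V} (h : u ≠ v) :
    lam (offd g) u v = g u v ^ 2 := by
  unfold lam offd
  rw [if_neg h, if_neg h.symm, hsym v u]
  ring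

theorem om_offd {g : V → V → ℝ} (s : V → V) :
    om (offd g) (fun v => g v v) s = W g s := by
  unfold om W holes
  rw [Finset.prod_filter, ← Finset.prod_mul_distrib]
  refine Finset.prod_congr rfl fun v _ => ?_
  unfold offd
  by_cases h : s v = v
  · rw [if_pos h.symm, if_pos h, h]
    ring
  · rw [if_neg (Ne.symm h), if_neg h]
    ring

theorem om2_offd {g : V → V → ℝ} (p : (V → V) × (V → V)) :
    om2 (offd g) (fun v => g v v) p = W g p.1 * W g p.2 := by
  unfold om2
  rw [om_offd, om_offd]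

theorem dom_nil_eq : dom (V := V) [] = Conf V := by
  ext p
  rw [mem_dom]
  simp only [Conf, Finset.mem_filter, Finset.mem_product, invs, Finset.mem_univ, true_and, Inv2, nh,
    List.length_nil, Nat.mul_zero, Nat.add_zero, hasAll_nil, and_true]

theorem pm_mem_dom {L : List (Bool × V × V)} (hL : L.length ≤ 3) {s t : V → V} (hs : s ∈ pms V)
    (ht : t ∈ pms V) (hp : presL L (s, t)) : (s, t) ∈ dom L := by
  have h1 := (mem_pms.1 hs)
  have h2 := (mem_pms.1 ht)
  have e1 : holes s = ∅ := holes_eq_empty.2 h1.2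
  have e2 : holes t = ∅ := holes_eq_empty.2 h2.2
  rw [mem_dom]
  refine ⟨⟨h1.1, h2.1⟩, ?_, ?_, ?_, presL_iff.1 hp⟩
  · rw [e1]; exact ⟨0, rfl⟩
  · rw [e2]; exact ⟨0, rfl⟩
  · simp only [nh, e1, e2, Finset.card_empty]
    omega

open Classical in
/-- (Rear) and (Rpair) in one statement, from the bounds of `repair` (`hR`) and `lemmaQ` (`hQ`) -/
theorem rel_of {g : V → V → ℝ} (hsym : ∀ u v, g u v = g v u) (hpos : ∀ u v, 0 < g u v)
    (f : (V → V) → ℝ) {CR CQ : ℝ}
    (hR : ∑ N ∈ Conf V, ∑ u : V, ∑ w : V, (if u ∈ holes N.1 ∧ w ∈ holes N.1 ∧ u ≠ w then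
      W g N.1 * W g N.2 * (f (jn (add N.1 u w)) - f (jn N.1)) ^ 2 else 0) ≤ CR)
    (hQ : ∑ N ∈ Conf V, ∑ x : V, ∑ y : V,
      (if (N.1 x = x ∨ N.2 x = x) ∧ (N.1 y = y ∨ N.2 y = y) ∧ y ∉ comp N.1 N.2 x then
        W g N.1 * W g N.2 *
          (f (jn N.1) + f (jn (swp (comp N.1 N.2 y) (swp (comp N.1 N.2 x) N.1 N.2)
              (swp (comp N.1 N.2 x) N.2 N.1)))
            - f (jn (swp (comp N.1 N.2 x) N.1 N.2)) - f (jn (swp (comp N.1 N.2 y) N.1 N.2))) ^ 2
        else 0) ≤ CQ)
    {path : V → V → Prop} (hpath : ∀ u v, u ≠ v → path u v → g u v ^ 2 ≤ g u u * g v v)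
    (L : List (Bool × V × V)) (hL : L.length ≤ 3) :
    ∑ s ∈ pms V, ∑ t ∈ pms V, ∑ x : V, ∑ y : V,
      (if presL L (s, t) ∧ (∀ c ∈ L, path c.2.1 c.2.2) ∧
          ((cutL L (s, t)).1 x = x ∨ (cutL L (s, t)).2 x = x) ∧
          ((cutL L (s, t)).1 y = y ∨ (cutL L (s, t)).2 y = y) ∧
          y ∉ comp (cutL L (s, t)).1 (cutL L (s, t)).2 x then
        W g s * W g t *
          (f s + f (jn (hyb (comp (cutL L (s, t)).1 (cutL L (s, t)).2 x ∪
                comp (cutL L (s, t)).1 (cutL L (s, t)).2 y) s t))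
            - f (jn (hyb (comp (cutL L (s, t)).1 (cutL L (s, t)).2 x) s t))
            - f (jn (hyb (comp (cutL L (s, t)).1 (cutL L (s, t)).2 y) s t))) ^ 2
        else 0)
      ≤ 5 * (CQ + 96 * (Fintype.card V : ℝ) ^ 2 * CR) := by
  have hCR : 0 ≤ CR := by
    refine le_trans (Finset.sum_nonneg fun p _ => Finset.sum_nonneg fun u _ =>
      Finset.sum_nonneg fun v _ => ?_) hR
    split_ifs
    · exact mul_nonneg (mul_nonneg (W_pos hpos _).le (W_pos hpos _).le) (sq_nonneg _)
    · exact le_refl _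
  have hCQ : 0 ≤ CQ := by
    refine le_trans (Finset.sum_nonneg fun p _ => Finset.sum_nonneg fun u _ =>
      Finset.sum_nonneg fun v _ => ?_) hQ
    split_ifs
    · exact mul_nonneg (mul_nonneg (W_pos hpos _).le (W_pos hpos _).le) (sq_nonneg _)
    · exact le_refl _
  by_cases hp : ∀ c ∈ L, path c.2.1 c.2.2
  swap
  · refine le_trans (le_of_eq ?_) (by positivity)
    refine Finset.sum_eq_zero fun s _ => Finset.sum_eq_zero fun t _ =>
      Finset.sum_eq_zero fun x _ => Finset.sum_eq_zero fun y _ => ?_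
    rw [if_neg (fun h => hp h.2.1)]
  by_cases hne : ∀ c ∈ L, c.2.1 ≠ c.2.2
  swap
  · refine le_trans (le_of_eq ?_) (by positivity)
    refine Finset.sum_eq_zero fun s _ => Finset.sum_eq_zero fun t _ =>
      Finset.sum_eq_zero fun x _ => Finset.sum_eq_zero fun y _ => ?_
    rw [if_neg]
    rintro ⟨h, -⟩
    apply hne
    have : ∀ (l : List (Bool × V × V)) (q : (V → V) × (V → V)), presL l q →
        ∀ c ∈ l, c.2.1 ≠ c.2.2 := by
      intro l
      induction l with
      | nil => intro q _ c hc; simp at hc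
      | cons d l ih =>
        intro q hq c hc
        rcases List.mem_cons.1 hc with rfl | hc
        · exact hq.1.1
        · exact ih _ hq.2 c hc
    exact this L _ h
  have hR' : ∑ p ∈ dom (V := V) [], ∑ u, ∑ v, (if u ≠ v ∧ p.1 u = u ∧ p.1 v = v then
      om2 (offd g) (fun v => g v v) p * (f (jn (add p.1 u v)) - f (jn p.1)) ^ 2 else 0) ≤ CR := by
    rw [dom_nil_eq]
    refine le_trans (le_of_eq ?_) hR
    refine Finset.sum_congr rfl fun N _ => Finset.sum_congr rfl fun u _ =>
      Finset.sum_congr rfl fun v _ => ?_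
    rw [om2_offd]
    refine if_congr ?_ rfl rfl
    rw [mem_holes, mem_holes]
    tauto
  have hQ' : ∑ N ∈ dom (V := V) [], ∑ x, ∑ y, (if (N.1 x = x ∨ N.2 x = x) ∧
        (N.1 y = y ∨ N.2 y = y) ∧ y ∉ comp N.1 N.2 x then
        om2 (offd g) (fun v => g v v) N *
        (f (jn N.1) + f (jn (swp (comp N.1 N.2 x ∪ comp N.1 N.2 y) N.1 N.2))
          - f (jn (swp (comp N.1 N.2 x) N.1 N.2)) - f (jn (swp (comp N.1 N.2 y) N.1 N.2))) ^ 2
        else 0) ≤ CQ := by
    rw [dom_nil_eq]
    refine le_trans (le_of_eq ?_) hQ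
    refine Finset.sum_congr rfl fun N hN => Finset.sum_congr rfl fun x _ =>
      Finset.sum_congr rfl fun y _ => ?_
    rw [om2_offd]
    by_cases hc : (N.1 x = x ∨ N.2 x = x) ∧ (N.1 y = y ∨ N.2 y = y) ∧ y ∉ comp N.1 N.2 x
    · rw [if_pos hc, if_pos hc]
      have hN2 : Inv2 N := by
        rw [← dom_nil_eq, mem_dom] at hN
        exact hN.1
      have hd : Disjoint (comp N.1 N.2 x) (comp N.1 N.2 y) :=
        (comp_disjoint hN2.1 hN2.2 hc.2.2).symm
      rw [swp_swp_union hd]
    · rw [if_neg hc, if_neg hc]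
  have hle : ∀ c ∈ L, lam (offd g) c.2.1 c.2.2 ≤ (fun v => g v v) c.2.1 * (fun v => g v v) c.2.2 := by
    intro c hc
    rw [lam_offd hsym (hne c hc)]
    exact hpath _ _ (hne c hc) (hp c hc)
  have hmain := rel_core (a := offd g) (b := fun v => g v v) (offd_pos hpos) (fun v => hpos v v)
    offd_self (fun s => f (jn s)) hR' hQ' L hL hle
  refine le_trans ?_ hmain
  rw [← Finset.sum_product']
  refine le_trans (le_of_eq (Finset.sum_filter_of_ne (p := fun p => presL L p) ?_).symm) ?_
  · intro p _ h0 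
    by_contra hcon
    apply h0
    refine Finset.sum_eq_zero fun x _ => Finset.sum_eq_zero fun y _ => ?_
    rw [if_neg]
    rintro ⟨h, -⟩
    exact hcon h
  have hsub : ((pms V ×ˢ pms V).filter fun p => presL L p) ⊆ dom L := by
    intro p hp'
    rw [Finset.mem_filter, Finset.mem_product] at hp'
    exact pm_mem_dom hL hp'.1.1 hp'.1.2 hp'.2
  refine le_trans ?_ (Finset.sum_le_sum_of_subset_of_nonneg hsub ?_)
  · refine Finset.sum_le_sum fun p hp' => Finset.sum_le_sum fun x _ =>
      Finset.sum_le_sum fun y _ => ?_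
    rw [Finset.mem_filter, Finset.mem_product] at hp'
    obtain ⟨⟨h1, h2⟩, h3⟩ := hp'
    obtain ⟨s, t⟩ := p
    simp only [cutL_eq] at *
    refine le_of_eq ?_
    rw [om2_offd]
    have e1 : jn s = s := jn_of_le (by rw [holes_eq_empty.2 (mem_pms.1 h1).2]; simp)
    simp only [e1]
    refine if_congr ?_ rfl rfl
    constructor
    · rintro ⟨-, -, h⟩; exact h
    · intro h; exact ⟨h3, hp, h⟩
  · intro p _ _
    refine Finset.sum_nonneg fun x _ => Finset.sum_nonneg fun y _ => ?_
    split_ifs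
    · rw [om2_offd]
      exact mul_nonneg (mul_nonneg (W_pos hpos _).le (W_pos hpos _).le) (sq_nonneg _)
    · exact le_refl _

open Classical in
/-- the form for fixed `x`, `y` -/
theorem rel_of_xy {g : V → V → ℝ} (hsym : ∀ u v, g u v = g v u) (hpos : ∀ u v, 0 < g u v)
    (f : (V → V) → ℝ) {CR CQ : ℝ}
    (hR : ∑ N ∈ Conf V, ∑ u : V, ∑ w : V, (if u ∈ holes N.1 ∧ w ∈ holes N.1 ∧ u ≠ w then
      W g N.1 * W g N.2 * (f (jn (add N.1 u w)) - f (jn N.1)) ^ 2 else 0) ≤ CR)
    (hQ : ∑ N ∈ Conf V, ∑ x : V, ∑ y : V,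
      (if (N.1 x = x ∨ N.2 x = x) ∧ (N.1 y = y ∨ N.2 y = y) ∧ y ∉ comp N.1 N.2 x then
        W g N.1 * W g N.2 *
          (f (jn N.1) + f (jn (swp (comp N.1 N.2 y) (swp (comp N.1 N.2 x) N.1 N.2)
              (swp (comp N.1 N.2 x) N.2 N.1)))
            - f (jn (swp (comp N.1 N.2 x) N.1 N.2)) - f (jn (swp (comp N.1 N.2 y) N.1 N.2))) ^ 2
        else 0) ≤ CQ)
    {path : V → V → Prop} (hpath : ∀ u v, u ≠ v → path u v → g u v ^ 2 ≤ g u u * g v v)
    (L : List (Bool × V × V)) (hL : L.length ≤ 3) (x y : V) :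
    ∑ s ∈ pms V, ∑ t ∈ pms V,
      (if presL L (s, t) ∧ (∀ c ∈ L, path c.2.1 c.2.2) ∧
          ((cutL L (s, t)).1 x = x ∨ (cutL L (s, t)).2 x = x) ∧
          ((cutL L (s, t)).1 y = y ∨ (cutL L (s, t)).2 y = y) ∧
          y ∉ comp (cutL L (s, t)).1 (cutL L (s, t)).2 x then
        W g s * W g t *
          (f s + f (jn (hyb (comp (cutL L (s, t)).1 (cutL L (s, t)).2 x ∪
                comp (cutL L (s, t)).1 (cutL L (s, t)).2 y) s t))
            - f (jn (hyb (comp (cutL L (s, t)).1 (cutL L (s, t)).2 x) s t))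
            - f (jn (hyb (comp (cutL L (s, t)).1 (cutL L (s, t)).2 y) s t))) ^ 2
        else 0)
      ≤ 5 * (CQ + 96 * (Fintype.card V : ℝ) ^ 2 * CR) := by
  refine le_trans ?_ (rel_of hsym hpos f hR hQ hpath L hL)
  refine Finset.sum_le_sum fun s _ => Finset.sum_le_sum fun t _ => ?_
  set F : V → V → ℝ := fun x y => (if presL L (s, t) ∧ (∀ c ∈ L, path c.2.1 c.2.2) ∧
          ((cutL L (s, t)).1 x = x ∨ (cutL L (s, t)).2 x = x) ∧
          ((cutL L (s, t)).1 y = y ∨ (cutL L (s, t)).2 y = y) ∧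
          y ∉ comp (cutL L (s, t)).1 (cutL L (s, t)).2 x then
        W g s * W g t *
          (f s + f (jn (hyb (comp (cutL L (s, t)).1 (cutL L (s, t)).2 x ∪
                comp (cutL L (s, t)).1 (cutL L (s, t)).2 y) s t))
            - f (jn (hyb (comp (cutL L (s, t)).1 (cutL L (s, t)).2 x) s t))
            - f (jn (hyb (comp (cutL L (s, t)).1 (cutL L (s, t)).2 y) s t))) ^ 2
        else 0) with hF
  have hF0 : ∀ x y, 0 ≤ F x y := by
    intro x y
    simp only [hF]
    split_ifs
    · exact mul_nonneg (mul_nonneg (W_pos hpos _).le (W_pos hpos _).le) (sq_nonneg _)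
    · exact le_refl _
  calc F x y ≤ ∑ y, F x y :=
        Finset.single_le_sum (f := fun y => F x y) (fun y _ => hF0 x y) (Finset.mem_univ y)
    _ ≤ ∑ x, ∑ y, F x y :=
        Finset.single_le_sum (f := fun x => ∑ y, F x y)
          (fun x _ => Finset.sum_nonneg fun y _ => hF0 x y) (Finset.mem_univ x)

end Crest.Agent.R304.Rel
private theorem rz_d3089445a4 : type_of% @_root_.Crest.Agent.R304.Rel.cutL.eq_def := @_root_.Crest.Agent.R304.Rel.cutL.eq_def -- L25
private theorem rz_8b79a9eff5 : type_of% @_root_.Crest.Agent.R304.Rel.cutL.eq_1 := @_root_.Crest.Agent.R304.Rel.cutL.eq_1 -- L25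
private theorem rz_8b23c00475 : type_of% @_root_.Crest.Agent.R304.Rel.presL.eq_def := @_root_.Crest.Agent.R304.Rel.presL.eq_def -- L30
private theorem rz_d2bf325358 : type_of% @_root_.Crest.Agent.R304.Rel.presL.eq_1 := @_root_.Crest.Agent.R304.Rel.presL.eq_1 -- L30
end

-- ▼ part R304/CycleE
section

/-!
# R304 / S0464 : Theorem L from the relations for arcs

`Rel.cutp c p` deletes the edge of the label `c = (r, u, v)` (`r = false` : first replica,
`r = true` : second replica), `Rel.pres c p` : the edge `u v` is present.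
-/

set_option autoImplicit false
set_option linter.unusedSectionVars false

namespace Crest.Agent.R304

open Finset
open _root_.Crest.Agent.R304.Rel (cutp pres cutL presL)

section Cut
variable {V : Type*} [DecidableEq V]

/-- exchange the two replicas in a label -/
def flipc (c : Bool × V × V) : Bool × V × V := (!c.1, c.2)

theorem cutp_flip (c : Bool × V × V) (p : (V → V) × (V → V)) :
    cutp (flipc c) p.swap = (cutp c p).swap := by
  rcases c with ⟨b, u, v⟩
  cases b <;> simp [cutp, flipc]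

theorem pres_flip (c : Bool × V × V) (p : (V → V) × (V → V)) :
    pres (flipc c) p.swap ↔ pres c p := by
  rcases c with ⟨b, u, v⟩
  cases b <;> simp [pres, flipc]

theorem cutL_flip (L : List (Bool × V × V)) : ∀ p : (V → V) × (V → V),
    cutL (L.map flipc) p.swap = (cutL L p).swap := by
  induction L with
  | nil => intro p; rfl
  | cons c L ih =>
    intro p
    simp only [List.map_cons, cutL]
    rw [cutp_flip, ih]

theorem presL_flip (L : List (Bool × V × V)) : ∀ p : (V → V) × (V → V),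
    presL (L.map flipc) p.swap ↔ presL L p := by
  induction L with
  | nil => intro p; rfl
  | cons c L ih =>
    intro p
    simp only [List.map_cons, presL]
    rw [cutp_flip, ih, pres_flip]

end Cut

section WalkCut
variable {V : Type*} [Fintype V] [DecidableEq V] {s t : V → V} {v : V}

/-- the other end of the edge at position `i` -/
noncomputable def prv (s t : V → V) (v : V) (i : ℕ) : V := wk s t v (i + per s t v - 1)

/-- label of the edge at position `i` -/
noncomputable def lab (s t : V → V) (v : V) (i : ℕ) : Bool × V × V :=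
  (decide (Even i), prv s t v i, wk s t v i)

theorem wk_add_per_mul (i m : ℕ) (_hs : Inv s) (_ht : Inv t) :
    wk s t v (i + m * per s t v) = wk s t v i := by
  induction m with
  | zero => simp
  | succ m ih => rw [Nat.succ_mul, ← Nat.add_assoc, wk_add_per, ih]

theorem wk_mod (hs : Inv s) (ht : Inv t) (i : ℕ) : wk s t v (i % per s t v) = wk s t v i := by
  conv_rhs => rw [← Nat.mod_add_div' i (per s t v)]
  rw [wk_add_per_mul _ _ hs ht]

theorem wk_eq_mod (hs : Inv s) (ht : Inv t) (hs' : ∀ v, s v ≠ v) (ht' : ∀ v, t v ≠ v)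
    {i j : ℕ} (h : wk s t v i = wk s t v j) : i % per s t v = j % per s t v := by
  have h2 := two_le_per (v := v) hs ht
  rw [← wk_mod hs ht i, ← wk_mod hs ht j] at h
  exact wk_inj hs ht hs' ht' (Nat.mod_lt _ (by omega)) (Nat.mod_lt _ (by omega)) h

theorem wk_eq_parity (hs : Inv s) (ht : Inv t) (hs' : ∀ v, s v ≠ v) (ht' : ∀ v, t v ≠ v)
    {i j : ℕ} (h : wk s t v i = wk s t v j) : Even i ↔ Even j := by
  have h1 := wk_eq_mod hs ht hs' ht' h
  have hp : Even (per s t v) := even_per
  rw [Nat.even_iff, Nat.even_iff]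
  have e1 : i % per s t v % 2 = i % 2 := Nat.mod_mod_of_dvd _ hp.two_dvd
  have e2 : j % per s t v % 2 = j % 2 := Nat.mod_mod_of_dvd _ hp.two_dvd
  rw [← e1, ← e2, h1]

theorem t_wk_even (hs : Inv s) (ht : Inv t) {i : ℕ} (h : Even i) :
    t (wk s t v i) = prv s t v i := by
  have h2 := two_le_per (v := v) hs ht
  have hp : Even (per s t v) := even_per
  have e : wk s t v i = wk s t v (i + per s t v - 1 + 1) := by
    rw [Nat.sub_add_cancel (by omega), wk_add_per]
  rw [e, t_wk_succ ht]
  · rfl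
  · rcases hp with ⟨a, ha⟩
    rcases h with ⟨b, hb⟩
    exact ⟨b + a - 1, by omega⟩

theorem t_prv (hs : Inv s) (ht : Inv t) {i : ℕ} (h : Even i) :
    t (prv s t v i) = wk s t v i := by
  rw [← t_wk_even hs ht h, ht]

theorem s_wk_odd (hs : Inv s) (ht : Inv t) {i : ℕ} (h : Odd i) :
    s (wk s t v i) = prv s t v i := by
  have h2 := two_le_per (v := v) hs ht
  have hp : Even (per s t v) := even_per
  have e : wk s t v i = wk s t v (i + per s t v - 1 + 1) := by
    rw [Nat.sub_add_cancel (by omega), wk_add_per]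
  rw [e, s_wk_succ hs]
  · rfl
  · rcases hp with ⟨a, ha⟩
    rcases h with ⟨b, hb⟩
    exact ⟨b + a, by omega⟩

theorem s_prv (hs : Inv s) (ht : Inv t) {i : ℕ} (h : Odd i) :
    s (prv s t v i) = wk s t v i := by
  rw [← s_wk_odd hs ht h, hs]

theorem prv_ne (hs : Inv s) (ht : Inv t) (hs' : ∀ v, s v ≠ v) (ht' : ∀ v, t v ≠ v) (i : ℕ) :
    prv s t v i ≠ wk s t v i := by
  rcases Nat.even_or_odd i with h | h
  · rw [← t_wk_even hs ht h]; exact ht' _
  · rw [← s_wk_odd hs ht h]; exact hs' _

theorem prv_succ (i : ℕ) : prv s t v (i + 1) = wk s t v i := by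
  unfold prv
  rw [show i + 1 + per s t v - 1 = i + per s t v by omega, wk_add_per]

theorem prv_ne_wk (hs : Inv s) (ht : Inv t) (hs' : ∀ v, s v ≠ v) (ht' : ∀ v, t v ≠ v) {i m : ℕ}
    (h : Even i ↔ Even m) : prv s t v i ≠ wk s t v m := by
  intro h'
  have h2 := two_le_per (v := v) hs ht
  have hp : Even (per s t v) := even_per
  have h3 := wk_eq_parity hs ht hs' ht' h'
  rw [← h, Nat.even_sub (by omega), Nat.even_add] at h3
  simp only [hp, iff_true, Nat.not_even_one, iff_false] at h3
  tauto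

/-- one more cut -/
theorem CutAt.step (hs : Inv s) (ht : Inv t) (hs' : ∀ v, s v ≠ v) (ht' : ∀ v, t v ≠ v)
    {D : Finset ℕ} {p : (V → V) × (V → V)} (h : CutAt s t v D p.1 p.2) {i : ℕ}
    (hi : i ≤ per s t v) (hD : ∀ m ∈ D, wk s t v m ≠ wk s t v i) :
    CutAt s t v (insert i D) (cutp (lab s t v i) p).1 (cutp (lab s t v i) p).2 ∧
      pres (lab s t v i) p := by
  rcases Nat.even_or_odd i with he | ho
  · have hodd : ¬ Odd i := Nat.not_odd_iff_even.2 he
    have hkeep : p.2 (prv s t v i) = wk s t v i := by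
      rw [h.keep2 (prv s t v i) (fun m hm hme => ⟨prv_ne_wk hs ht hs' ht' (by simp [he, hme]), by
        rw [t_prv hs ht he]; exact (hD m hm).symm⟩), t_prv hs ht he]
    have ec : cutp (lab s t v i) p = (p.1, del p.2 (prv s t v i)) := by
      simp [cutp, lab, he]
    refine ⟨?_, prv_ne hs ht hs' ht' i, by simp [lab, he, hkeep]⟩
    rw [ec]
    refine ⟨?_, ?_, ?_, ?_, ?_⟩
    · intro m hm
      rcases Finset.mem_insert.1 hm with h1 | h1
      · rw [h1]; exact hi
      · exact h.le m h1
    · intro m hm hmo x hx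
      rcases Finset.mem_insert.1 hm with h1 | h1
      · exact absurd (h1 ▸ hmo) hodd
      · exact h.fix1 m h1 hmo x hx
    · intro x hx
      exact h.keep1 x fun m hm hmo => hx m (Finset.mem_insert_of_mem hm) hmo
    · intro m hm hme x hx
      show del p.2 (prv s t v i) x = x
      unfold del
      by_cases hc : x = prv s t v i ∨ x = p.2 (prv s t v i)
      · rw [if_pos hc]
      · rw [if_neg hc]
        rcases Finset.mem_insert.1 hm with h1 | h1
        · exfalso
          apply hc
          subst h1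
          rcases hx with hx | hx
          · right; rw [hkeep, hx]
          · left; rw [← t_wk_even hs ht he, ← hx, ht]
        · exact h.fix2 m h1 hme x hx
    · intro x hx
      show del p.2 (prv s t v i) x = t x
      have h1 := hx i (Finset.mem_insert_self _ _) he
      rw [del_of_ne]
      · exact h.keep2 x fun m hm hme => hx m (Finset.mem_insert_of_mem hm) hme
      · intro h3
        apply h1.2
        rw [h3, t_prv hs ht he]
      · rw [hkeep]; exact h1.1
  · have heven : ¬ Even i := Nat.not_even_iff_odd.2 ho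
    have hkeep : p.1 (prv s t v i) = wk s t v i := by
      rw [h.keep1 (prv s t v i) (fun m hm hme => ⟨prv_ne_wk hs ht hs' ht'
        (by simp [heven, Nat.not_even_iff_odd.2 hme]), by
        rw [s_prv hs ht ho]; exact (hD m hm).symm⟩), s_prv hs ht ho]
    have ec : cutp (lab s t v i) p = (del p.1 (prv s t v i), p.2) := by
      simp [cutp, lab, heven]
    refine ⟨?_, prv_ne hs ht hs' ht' i, by simp [lab, heven, hkeep]⟩
    rw [ec]
    refine ⟨?_, ?_, ?_, ?_, ?_⟩
    · intro m hm
      rcases Finset.mem_insert.1 hm with h1 | h1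
      · rw [h1]; exact hi
      · exact h.le m h1
    · intro m hm hme x hx
      show del p.1 (prv s t v i) x = x
      unfold del
      by_cases hc : x = prv s t v i ∨ x = p.1 (prv s t v i)
      · rw [if_pos hc]
      · rw [if_neg hc]
        rcases Finset.mem_insert.1 hm with h1 | h1
        · exfalso
          apply hc
          subst h1
          rcases hx with hx | hx
          · right; rw [hkeep, hx]
          · left; rw [← s_wk_odd hs ht ho, ← hx, hs]
        · exact h.fix1 m h1 hme x hx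
    · intro x hx
      show del p.1 (prv s t v i) x = s x
      have h1 := hx i (Finset.mem_insert_self _ _) ho
      rw [del_of_ne]
      · exact h.keep1 x fun m hm hme => hx m (Finset.mem_insert_of_mem hm) hme
      · intro h3
        apply h1.2
        rw [h3, s_prv hs ht ho]
      · rw [hkeep]; exact h1.1
    · intro m hm hmo x hx
      rcases Finset.mem_insert.1 hm with h1 | h1
      · exact absurd (h1 ▸ hmo) heven
      · exact h.fix2 m h1 hmo x hx
    · intro x hx
      exact h.keep2 x fun m hm hmo => hx m (Finset.mem_insert_of_mem hm) hmo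

theorem CutAt.defect {D : Finset ℕ} {N1 N2 : V → V} (h : CutAt s t v D N1 N2) {i : ℕ}
    (hi : i ∈ D) : N1 (wk s t v i) = wk s t v i ∨ N2 (wk s t v i) = wk s t v i := by
  rcases Nat.even_or_odd i with he | ho
  · exact Or.inr (h.fix2 i hi he _ (Or.inl rfl))
  · exact Or.inl (h.fix1 i hi ho _ (Or.inl rfl))

/-- the recursion in the frame `(s, t)`, root edge `{v, t v}` -/
theorem frame_bound {O : Type*} (hs : Inv s) (ht : Inv t) (hs' : ∀ v, s v ≠ v)
    (ht' : ∀ v, t v ≠ v) (path : O → V → V → Prop) (level : V → V → ℝ) (top : V → V → O)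
    (path_symm : ∀ o u v, path o u v → path o v u)
    (top_mem : ∀ u v, u ≠ v → path (top u v) u v)
    (ear : ∀ u v x y, u ≠ v → x ≠ y → level u v ≤ level x y →
      (∃ o, path o u v ∧ path o x y) → path (top u v) x y)
    (share : ∀ u v x, u ≠ v → u ≠ x → ∃ o, path o u v ∧ path o u x)
    (G : Finset V → ℝ) (g0 M : ℝ) (hG : ∀ y, G {y} = g0)
    (hrel : ∀ o, ∀ L : List (Bool × V × V), L.length = 2 ∨ L.length = 3 → presL L (s, t) →
      (∀ c ∈ L, path o c.2.1 c.2.2) → ∀ x y,
      ((cutL L (s, t)).1 x = x ∨ (cutL L (s, t)).2 x = x) →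
      ((cutL L (s, t)).1 y = y ∨ (cutL L (s, t)).2 y = y) →
      y ∉ comp (cutL L (s, t)).1 (cutL L (s, t)).2 x →
      |g0 + G (comp (cutL L (s, t)).1 (cutL L (s, t)).2 x ∪
          comp (cutL L (s, t)).1 (cutL L (s, t)).2 y)
        - G (comp (cutL L (s, t)).1 (cutL L (s, t)).2 x)
        - G (comp (cutL L (s, t)).1 (cutL L (s, t)).2 y)| ≤ M)
    (hmax : ∀ k, k ≤ per s t v →
      level (prv s t v k) (wk s t v k) ≤ level (prv s t v 0) (wk s t v 0)) :
    |G (comp s t v) - g0| ≤ (per s t v - 1 : ℕ) * M := by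
  have h2 := two_le_per (v := v) hs ht
  have hp : Even (per s t v) := even_per
  have hwper : wk s t v (per s t v) = wk s t v 0 := by rw [wk_per, wk_zero]
  have hpper : prv s t v (per s t v) = prv s t v 0 := by
    rw [← t_wk_even hs ht hp, hwper, t_wk_even hs ht (by decide)]
  rw [← arc_full (v := v) hs ht]
  refine ear_conclusion (per s t v) (by omega)
    (fun i => level (prv s t v i) (wk s t v i))
    (fun i o => path o (prv s t v i) (wk s t v i))
    (fun i => top (prv s t v i) (wk s t v i))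
    (fun i j => G (arc s t v i j)) g0 M ?_ ?_ ?_ ?_ ?_ hmax (by rw [hpper, hwper])
  · intro i _
    obtain ⟨o, h1, h2⟩ := share (wk s t v i) (prv s t v i) (wk s t v (i + 1))
      (prv_ne hs ht hs' ht' i).symm (by
        have := prv_ne (v := v) hs ht hs' ht' (i + 1)
        rwa [prv_succ] at this)
    refine ⟨o, path_symm _ _ _ h1, ?_⟩
    rw [prv_succ]; exact h2
  · intro i _
    exact top_mem _ _ (prv_ne hs ht hs' ht' i)
  · intro i j _ _ hl ho
    exact ear _ _ _ _ (prv_ne hs ht hs' ht' i) (prv_ne hs ht hs' ht' j) hl ho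
  · intro i _
    rw [arc_single, hG]
  · intro i k j hik hkj hj o h1 h2' h3
    by_cases hroot : i = 0 ∧ j = per s t v
    · obtain ⟨hi0, hjp⟩ := hroot
      subst hi0
      -- two cuts
      have c0 : CutAt s t v ∅ (s, t).1 (s, t).2 := cutAt_empty
      obtain ⟨c1, p1⟩ := c0.step hs ht hs' ht' (i := 0) (by omega) (by simp)
      obtain ⟨c2, p2⟩ := c1.step hs ht hs' ht' (i := k) (by omega) (by
        intro m hm
        simp only [Finset.mem_insert, Finset.notMem_empty, or_false] at hm
        subst hm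
        intro h
        have := wk_inj hs ht hs' ht' (by omega) (by omega) h
        omega)
      have hrel' := hrel o [lab s t v 0, lab s t v k] (Or.inl rfl) ⟨p1, p2, trivial⟩
        (by
          intro c hc
          simp only [List.mem_cons, List.not_mem_nil, or_false] at hc
          rcases hc with hc | hc
          · subst hc; exact h1
          · subst hc; exact h2')
        (wk s t v 0) (wk s t v k)
        (c2.defect (by simp)) (c2.defect (by simp))
      have e1 := c2.comp_eq_arc hs ht hs' ht' (i := 0) (j := k) hik (by omega)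
        (Or.inl (by simp)) (Or.inl (by simp)) (by
          intro m hm
          simp only [Finset.mem_insert, Finset.notMem_empty, or_false] at hm
          omega)
      have e2 := c2.comp_eq_arc hs ht hs' ht' (i := k) (j := j) hkj hj
        (Or.inl (by simp)) (Or.inr ⟨hjp, by simp⟩) (by
          intro m hm
          simp only [Finset.mem_insert, Finset.notMem_empty, or_false] at hm
          omega)
      simp only [cutL] at hrel'
      rw [e1, e2, arc_union hik.le hkj.le] at hrel'
      exact hrel' (fun h => by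
        have := (wk_mem_arc hs ht hs' ht' (by omega) (by omega)).1 h
        omega)
    · have hij : wk s t v i ≠ wk s t v j := by
        intro h
        rcases hj.lt_or_eq with h5 | h5
        · have := wk_inj hs ht hs' ht' (by omega) h5 h
          omega
        · rw [h5, hwper] at h
          have := wk_inj hs ht hs' ht' (by omega) (by omega) h
          exact hroot ⟨this, h5⟩
      have hkj' : wk s t v k ≠ wk s t v j := by
        intro h
        rcases hj.lt_or_eq with h5 | h5
        · have := wk_inj hs ht hs' ht' (by omega) h5 h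
          omega
        · rw [h5, hwper] at h
          have := wk_inj hs ht hs' ht' (by omega) (by omega) h
          omega
      have hik' : wk s t v i ≠ wk s t v k := by
        intro h
        have := wk_inj hs ht hs' ht' (by omega) (by omega) h
        omega
      have c0 : CutAt s t v ∅ (s, t).1 (s, t).2 := cutAt_empty
      obtain ⟨c1, p1⟩ := c0.step hs ht hs' ht' (i := i) (by omega) (by simp)
      obtain ⟨c2, p2⟩ := c1.step hs ht hs' ht' (i := k) (by omega) (by
        intro m hm
        simp only [Finset.mem_insert, Finset.notMem_empty, or_false] at hm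
        subst hm
        exact hik')
      obtain ⟨c3, p3⟩ := c2.step hs ht hs' ht' (i := j) hj (by
        intro m hm
        simp only [Finset.mem_insert, Finset.notMem_empty, or_false] at hm
        rcases hm with hm | hm
        · subst hm; exact hkj'
        · subst hm; exact hij)
      have hrel' := hrel o [lab s t v i, lab s t v k, lab s t v j] (Or.inr rfl)
        ⟨p1, p2, p3, trivial⟩
        (by
          intro c hc
          simp only [List.mem_cons, List.not_mem_nil, or_false] at hc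
          rcases hc with hc | hc | hc
          · subst hc; exact h1
          · subst hc; exact h2'
          · subst hc; exact h3)
        (wk s t v i) (wk s t v k)
        (c3.defect (by simp)) (c3.defect (by simp))
      have e1 := c3.comp_eq_arc hs ht hs' ht' (i := i) (j := k) hik (by omega)
        (Or.inl (by simp)) (Or.inl (by simp)) (by
          intro m hm
          simp only [Finset.mem_insert, Finset.notMem_empty, or_false] at hm
          omega)
      have e2 := c3.comp_eq_arc hs ht hs' ht' (i := k) (j := j) hkj hj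
        (Or.inl (by simp)) (Or.inl (by simp)) (by
          intro m hm
          simp only [Finset.mem_insert, Finset.notMem_empty, or_false] at hm
          omega)
      simp only [cutL] at hrel'
      rw [e1, e2, arc_union hik.le hkj.le] at hrel'
      exact hrel' (fun h => by
        have := (wk_mem_arc hs ht hs' ht' (by omega) (by omega)).1 h
        omega)

theorem wk_mem_comp (i : ℕ) : wk s t v i ∈ comp s t v := by
  induction i with
  | zero => exact self_mem_comp
  | succ i ih =>
    rcases Nat.even_or_odd i with h | h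
    · rw [wk_succ_even h]; exact comp_cl_left _ ih
    · rw [wk_succ_odd h]; exact comp_cl_right _ ih

end WalkCut

section Final
variable {V : Type} [Fintype V] [DecidableEq V]

theorem jn_of_pm {s : V → V} (h : ∀ v, s v ≠ v) : jn s = s :=
  jn_of_le (by rw [holes_eq_empty.2 h]; simp)

theorem hyb_singleton {s t : V → V} (hs : Inv s) (ht' : ∀ v, t v ≠ v) (y : V) :
    hyb {y} s t = del s y := by
  funext x
  unfold hyb del
  by_cases hx : x = y
  · subst hx
    simp [ht' x]
  · have e : s x = y ↔ x = s y := hs.eq_iff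
    simp [hx, e]

theorem jn_hyb_singleton {s t : V → V} (hs : Inv s) (hs' : ∀ v, s v ≠ v) (ht' : ∀ v, t v ≠ v)
    (y : V) : jn (hyb {y} s t) = s := by
  rw [hyb_singleton hs ht']
  have hh : holes (del s y) = {y, s y} := by
    rw [holes_del, holes_eq_empty.2 hs', Finset.empty_union]
  have h1 : 1 < (holes (del s y)).card := by
    rw [hh, Finset.card_pair (hs' y).symm]; norm_num
  rw [jn_of_lt h1]
  have a1 := pick_fst _ h1
  have a2 := pick_snd _ h1
  have a3 := pick_ne _ h1
  generalize (pick (holes (del s y)) h1).1 = u at *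
  generalize (pick (holes (del s y)) h1).2 = w at *
  rw [hh] at a1 a2
  simp only [Finset.mem_insert, Finset.mem_singleton] at a1 a2
  have e : add (del s y) u w = s := by
    rcases a1 with rfl | rfl
    · rcases a2 with rfl | rfl
      · exact absurd rfl a3
      · exact add_del hs
    · rcases a2 with rfl | rfl
      · rw [add_comm' , add_del hs]
      · exact absurd rfl a3
  rw [e, jn_of_pm hs']

theorem jn_hyb_comp {s t : V → V} (hs : Inv s) (ht : Inv t) (hs' : ∀ v, s v ≠ v)
    (ht' : ∀ v, t v ≠ v) (v : V) : jn (hyb (comp s t v) s t) = swp (comp s t v) s t := by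
  rw [hyb_eq_swp hs comp_cl_left comp_cl_right, jn_of_pm]
  have h := swp_mem_pms (mem_pms.2 ⟨hs, hs'⟩) (mem_pms.2 ⟨ht, ht'⟩)
    (comp_cl_left (v := v)) comp_cl_right
  exact (mem_pms.1 h).2

open Classical in
/-- the relation defect of `(L, x, y)` at `(s, t)` -/
noncomputable def relT (path : V → V → Prop) (f : (V → V) → ℝ) (L : List (Bool × V × V))
    (x y : V) (s t : V → V) : ℝ :=
  if presL L (s, t) ∧ (∀ c ∈ L, path c.2.1 c.2.2) ∧
      ((cutL L (s, t)).1 x = x ∨ (cutL L (s, t)).2 x = x) ∧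
      ((cutL L (s, t)).1 y = y ∨ (cutL L (s, t)).2 y = y) ∧
      y ∉ comp (cutL L (s, t)).1 (cutL L (s, t)).2 x then
    (f s + f (jn (hyb (comp (cutL L (s, t)).1 (cutL L (s, t)).2 x ∪
          comp (cutL L (s, t)).1 (cutL L (s, t)).2 y) s t))
        - f (jn (hyb (comp (cutL L (s, t)).1 (cutL L (s, t)).2 x) s t))
        - f (jn (hyb (comp (cutL L (s, t)).1 (cutL L (s, t)).2 y) s t))) ^ 2
  else 0

theorem relT_nonneg (path : V → V → Prop) (f : (V → V) → ℝ) (L : List (Bool × V × V))
    (x y : V) (s t : V → V) : 0 ≤ relT path f L x y s t := by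
  unfold relT
  split_ifs
  · exact sq_nonneg _
  · exact le_rfl

/-- total relation defect at `(s, t)` -/
noncomputable def totT {O : Type*} [Fintype O] (path : O → V → V → Prop) (f : (V → V) → ℝ)
    (s t : V → V) : ℝ :=
  ∑ o, ∑ x, ∑ y, ((∑ c1, ∑ c2, relT (path o) f [c1, c2] x y s t) +
    ∑ c1, ∑ c2, ∑ c3, relT (path o) f [c1, c2, c3] x y s t)

theorem relT_le_totT {O : Type*} [Fintype O] (path : O → V → V → Prop) (f : (V → V) → ℝ)
    (s t : V → V) (o : O) (L : List (Bool × V × V)) (hL : L.length = 2 ∨ L.length = 3)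
    (x y : V) : relT (path o) f L x y s t ≤ totT path f s t := by
  have nn := fun (o : O) (L : List (Bool × V × V)) (x y : V) =>
    relT_nonneg (path o) f L x y s t
  have n2 : ∀ o x y, 0 ≤ ∑ c1, ∑ c2, relT (path o) f [c1, c2] x y s t := fun o x y =>
    Finset.sum_nonneg fun _ _ => Finset.sum_nonneg fun _ _ => nn _ _ _ _
  have n3 : ∀ o x y, 0 ≤ ∑ c1, ∑ c2, ∑ c3, relT (path o) f [c1, c2, c3] x y s t :=
    fun o x y => Finset.sum_nonneg fun _ _ => Finset.sum_nonneg fun _ _ =>
      Finset.sum_nonneg fun _ _ => nn _ _ _ _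
  have step : relT (path o) f L x y s t ≤ (∑ c1, ∑ c2, relT (path o) f [c1, c2] x y s t) +
      ∑ c1, ∑ c2, ∑ c3, relT (path o) f [c1, c2, c3] x y s t := by
    rcases hL with hL | hL
    · obtain ⟨c1, c2, rfl⟩ := List.length_eq_two.1 hL
      have h1 : relT (path o) f [c1, c2] x y s t ≤ ∑ c2, relT (path o) f [c1, c2] x y s t :=
        Finset.single_le_sum (f := fun c2 => relT (path o) f [c1, c2] x y s t)
          (fun _ _ => nn _ _ _ _) (Finset.mem_univ c2)
      have h2 : ∑ c2, relT (path o) f [c1, c2] x y s t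
          ≤ ∑ c1, ∑ c2, relT (path o) f [c1, c2] x y s t :=
        Finset.single_le_sum (f := fun c1 => ∑ c2, relT (path o) f [c1, c2] x y s t)
          (fun _ _ => Finset.sum_nonneg fun _ _ => nn _ _ _ _) (Finset.mem_univ c1)
      linarith [n3 o x y]
    · obtain ⟨c1, c2, c3, rfl⟩ := List.length_eq_three.1 hL
      have h1 : relT (path o) f [c1, c2, c3] x y s t
          ≤ ∑ c3, relT (path o) f [c1, c2, c3] x y s t :=
        Finset.single_le_sum (f := fun c3 => relT (path o) f [c1, c2, c3] x y s t)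
          (fun _ _ => nn _ _ _ _) (Finset.mem_univ c3)
      have h2 : ∑ c3, relT (path o) f [c1, c2, c3] x y s t
          ≤ ∑ c2, ∑ c3, relT (path o) f [c1, c2, c3] x y s t :=
        Finset.single_le_sum (f := fun c2 => ∑ c3, relT (path o) f [c1, c2, c3] x y s t)
          (fun _ _ => Finset.sum_nonneg fun _ _ => nn _ _ _ _) (Finset.mem_univ c2)
      have h3 : ∑ c2, ∑ c3, relT (path o) f [c1, c2, c3] x y s t
          ≤ ∑ c1, ∑ c2, ∑ c3, relT (path o) f [c1, c2, c3] x y s t :=
        Finset.single_le_sum (f := fun c1 => ∑ c2, ∑ c3, relT (path o) f [c1, c2, c3] x y s t)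
          (fun _ _ => Finset.sum_nonneg fun _ _ => Finset.sum_nonneg fun _ _ => nn _ _ _ _)
          (Finset.mem_univ c1)
      linarith [n2 o x y]
  refine step.trans ?_
  have i1 := Finset.single_le_sum (f := fun y =>
      ((∑ c1, ∑ c2, relT (path o) f [c1, c2] x y s t) +
        ∑ c1, ∑ c2, ∑ c3, relT (path o) f [c1, c2, c3] x y s t))
    (fun y _ => add_nonneg (n2 o x y) (n3 o x y)) (Finset.mem_univ y)
  have i2 := Finset.single_le_sum (f := fun x => ∑ y,
      ((∑ c1, ∑ c2, relT (path o) f [c1, c2] x y s t) +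
        ∑ c1, ∑ c2, ∑ c3, relT (path o) f [c1, c2, c3] x y s t))
    (fun x _ => Finset.sum_nonneg fun y _ => add_nonneg (n2 o x y) (n3 o x y)) (Finset.mem_univ x)
  have i3 := Finset.single_le_sum (f := fun o => ∑ x, ∑ y,
      ((∑ c1, ∑ c2, relT (path o) f [c1, c2] x y s t) +
        ∑ c1, ∑ c2, ∑ c3, relT (path o) f [c1, c2, c3] x y s t))
    (fun o _ => Finset.sum_nonneg fun x _ => Finset.sum_nonneg fun y _ =>
      add_nonneg (n2 o x y) (n3 o x y)) (Finset.mem_univ o)
  exact (i1.trans i2).trans i3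

theorem totT_nonneg {O : Type*} [Fintype O] (path : O → V → V → Prop) (f : (V → V) → ℝ)
    (s t : V → V) : 0 ≤ totT path f s t :=
  Finset.sum_nonneg fun _ _ => Finset.sum_nonneg fun _ _ => Finset.sum_nonneg fun _ _ =>
    add_nonneg (Finset.sum_nonneg fun _ _ => Finset.sum_nonneg fun _ _ => relT_nonneg _ _ _ _ _ _ _)
      (Finset.sum_nonneg fun _ _ => Finset.sum_nonneg fun _ _ => Finset.sum_nonneg fun _ _ =>
        relT_nonneg _ _ _ _ _ _ _)

/-- flipping one component is controlled by the relation defects -/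
theorem flip_term_le {lamv : V → V → ℝ} {c0 : ℝ} (N : Nodes.NodeSys V lamv c0)
    (f : (V → V) → ℝ) {s t : V → V} (hs : Inv s) (ht : Inv t) (hs' : ∀ v, s v ≠ v)
    (ht' : ∀ v, t v ≠ v) (v : V) :
    (f s - f (swp (comp s t v) s t)) ^ 2 ≤
      (Fintype.card V : ℝ) ^ 2 * (letI := N.finO; totT N.path f s t) := by
  let _ := N.finO
  show _ ≤ (Fintype.card V : ℝ) ^ 2 * totT N.path f s t
  set T := totT N.path f s t with hT
  have hT0 : 0 ≤ T := totT_nonneg _ _ _ _
  have key : |f (swp (comp s t v) s t) - f s| ≤ (Fintype.card V : ℝ) * Real.sqrt T := by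
    obtain ⟨⟨z, b⟩, hz, hzmax⟩ := Finset.exists_max_image
      (comp s t v ×ˢ (Finset.univ : Finset Bool))
      (fun q : V × Bool => N.level q.1 (if q.2 then t q.1 else s q.1))
      ⟨(v, true), Finset.mem_product.2 ⟨self_mem_comp, Finset.mem_univ _⟩⟩
    have hzc : z ∈ comp s t v := (Finset.mem_product.1 hz).1
    have hcz : comp s t z = comp s t v := comp_eq hs ht hzc
    have hmx : ∀ y ∈ comp s t v, ∀ b' : Bool,
        N.level y (if b' then t y else s y) ≤ N.level z (if b then t z else s z) :=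
      fun y hy b' => hzmax (y, b') (Finset.mem_product.2 ⟨hy, Finset.mem_univ _⟩)
    have hG : ∀ y, f (jn (hyb {y} s t)) = f s := fun y => by rw [jn_hyb_singleton hs hs' ht']
    have hcv : f (jn (hyb (comp s t v) s t)) = f (swp (comp s t v) s t) := by
      rw [jn_hyb_comp hs ht hs' ht']
    have fin : ∀ p : ℕ, p ≤ Fintype.card V → ((p - 1 : ℕ) : ℝ) * Real.sqrt T
        ≤ (Fintype.card V : ℝ) * Real.sqrt T := by
      intro p hp
      refine mul_le_mul_of_nonneg_right ?_ (Real.sqrt_nonneg _)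
      have : p - 1 ≤ Fintype.card V := by omega
      exact_mod_cast this
    cases b with
    | true =>
      have h := frame_bound (s := s) (t := t) (v := z) hs ht hs' ht' N.path N.level N.top
        N.path_symm N.top_mem N.ear N.share (fun A => f (jn (hyb A s t))) (f s) (Real.sqrt T) hG
        (by
          intro o L hL hpres hpath x y hx hy hny
          refine Real.abs_le_sqrt ?_
          refine le_trans (le_of_eq ?_) (relT_le_totT N.path f s t o L hL x y)
          unfold relT
          rw [if_pos ⟨hpres, hpath, hx, hy, hny⟩])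
        (by
          intro k _
          have e0 : prv s t z 0 = t z := (t_wk_even hs ht (by decide)).symm
          rw [e0, wk_zero, N.level_symm (t z) z]
          have hk : wk s t z k ∈ comp s t v := hcz ▸ wk_mem_comp k
          rcases Nat.even_or_odd k with h | h
          · rw [← t_wk_even hs ht h, N.level_symm (t (wk s t z k))]
            exact hmx _ hk true
          · rw [← s_wk_odd hs ht h, N.level_symm (s (wk s t z k))]
            exact hmx _ hk false)
      simp only [hcz, hcv] at h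
      exact h.trans (fin _ (per_le_card hs ht hs' ht'))
    | false =>
      have h := frame_bound (s := t) (t := s) (v := z) ht hs ht' hs' N.path N.level N.top
        N.path_symm N.top_mem N.ear N.share (fun A => f (jn (hyb A s t))) (f s) (Real.sqrt T) hG
        (by
          intro o L hL hpres hpath x y hx hy hny
          refine Real.abs_le_sqrt ?_
          refine le_trans (le_of_eq ?_) (relT_le_totT N.path f s t o (L.map flipc)
            (by simpa using hL) x y)
          have e1 : cutL (L.map flipc) (s, t) = (cutL L (t, s)).swap := cutL_flip L (t, s)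
          have e2 : presL (L.map flipc) (s, t) ↔ presL L (t, s) := presL_flip L (t, s)
          unfold relT
          rw [e1]
          simp only [Prod.fst_swap, Prod.snd_swap]
          have e3 : ∀ x, comp (cutL L (t, s)).2 (cutL L (t, s)).1 x
              = comp (cutL L (t, s)).1 (cutL L (t, s)).2 x := fun x => comp_comm
          rw [if_pos]
          · rw [e3, e3]
          refine ⟨e2.2 hpres, ?_, hx.symm, hy.symm, by rw [e3]; exact hny⟩
          intro c hc
          obtain ⟨c', hc', rfl⟩ := List.mem_map.1 hc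
          exact hpath c' hc')
        (by
          intro k _
          have e0 : prv t s z 0 = s z := (t_wk_even ht hs (by decide)).symm
          rw [e0, wk_zero, N.level_symm (s z) z]
          have hk : wk t s z k ∈ comp s t v := by
            rw [← hcz, comp_comm]; exact wk_mem_comp k
          rcases Nat.even_or_odd k with h | h
          · rw [← t_wk_even ht hs h, N.level_symm (s (wk t s z k))]
            exact hmx _ hk false
          · rw [← s_wk_odd ht hs h, N.level_symm (t (wk t s z k))]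
            exact hmx _ hk true)
      have hcz' : comp t s z = comp s t v := by rw [comp_comm, hcz]
      simp only [hcz', hcv] at h
      exact h.trans (fin _ (per_le_card ht hs ht' hs'))
  have h1 := pow_le_pow_left₀ (abs_nonneg _) key 2
  rw [sq_abs, mul_pow, Real.sq_sqrt hT0] at h1
  calc _ = (f (swp (comp s t v) s t) - f s) ^ 2 := by ring
    _ ≤ _ := h1

/-- **Theorem L** from the relations -/
theorem thmL {lamv : V → V → ℝ} {c0 : ℝ} (N : Nodes.NodeSys V lamv c0) {a : V → V → ℝ}
    (ha : ∀ u v, 0 < a u v) (f : (V → V) → ℝ) {E : ℝ} (hE : 0 ≤ E)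
    (hrel : ∀ o, ∀ L : List (Bool × V × V), L.length ≤ 3 → ∀ x y,
      ∑ s ∈ pms V, ∑ t ∈ pms V, W a s * W a t * relT (N.path o) f L x y s t ≤ E) :
    ∑ s ∈ pms V, ∑ t ∈ pms V, W a s * W a t * (f s - f t) ^ 2
      ≤ 12 * (Fintype.card V : ℝ) ^ 14 * E := by
  let _ := N.finO
  have hW : ∀ s t : V → V, 0 ≤ W a s * W a t := fun s t => mul_nonneg (W_pos ha _).le (W_pos ha _).le
  rcases Nat.eq_zero_or_pos (Fintype.card V) with h0 | h0
  · have hemp : IsEmpty V := Fintype.card_eq_zero_iff.1 h0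
    have : ∀ s t : V → V, s = t := fun s t => funext fun v => (hemp.false v).elim
    have hz : ∑ s ∈ pms V, ∑ t ∈ pms V, W a s * W a t * (f s - f t) ^ 2 = 0 :=
      Finset.sum_eq_zero fun s _ => Finset.sum_eq_zero fun t _ => by
        rw [this s t]; ring
    rw [hz]
    positivity
  set n : ℝ := (Fintype.card V : ℝ) with hn
  have hn1 : 1 ≤ n := by
    rw [hn]; exact_mod_cast (show 1 ≤ Fintype.card V from h0)
  set c : ℝ := (Fintype.card (Bool × V × V) : ℝ) with hc
  have hcn : c = 2 * n ^ 2 := by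
    rw [hc, Fintype.card_prod, Fintype.card_prod, Fintype.card_bool]
    push_cast; ring
  -- the sum of totT
  have htot : ∑ s ∈ pms V, ∑ t ∈ pms V, W a s * W a t * totT N.path f s t
      ≤ (Fintype.card N.O : ℝ) * (n * (n * ((c * (c * E)) + c * (c * (c * E))))) := by
    have e : ∑ s ∈ pms V, ∑ t ∈ pms V, W a s * W a t * totT N.path f s t
        = ∑ o, ∑ x, ∑ y, ((∑ c1, ∑ c2, ∑ s ∈ pms V, ∑ t ∈ pms V,
            W a s * W a t * relT (N.path o) f [c1, c2] x y s t) +
          ∑ c1, ∑ c2, ∑ c3, ∑ s ∈ pms V, ∑ t ∈ pms V,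
            W a s * W a t * relT (N.path o) f [c1, c2, c3] x y s t) := by
      have hpr : ∀ F : (V → V) → (V → V) → ℝ, ∑ s ∈ pms V, ∑ t ∈ pms V, F s t
          = ∑ p ∈ pms V ×ˢ pms V, F p.1 p.2 := fun F => (Finset.sum_product' _ _ _).symm
      simp only [totT, hpr]
      simp only [Finset.mul_sum, mul_add]
      rw [Finset.sum_comm]
      refine Finset.sum_congr rfl fun o _ => ?_
      rw [Finset.sum_comm]
      refine Finset.sum_congr rfl fun x _ => ?_
      rw [Finset.sum_comm]
      refine Finset.sum_congr rfl fun y _ => ?_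
      rw [Finset.sum_add_distrib]
      congr 1
      · rw [Finset.sum_comm]
        refine Finset.sum_congr rfl fun c1 _ => ?_
        rw [Finset.sum_comm]
      · rw [Finset.sum_comm]
        refine Finset.sum_congr rfl fun c1 _ => ?_
        rw [Finset.sum_comm]
        refine Finset.sum_congr rfl fun c2 _ => ?_
        rw [Finset.sum_comm]
    rw [e]
    have hsum : ∀ {ι : Type} [Fintype ι] (g : ι → ℝ) (B : ℝ), (∀ i, g i ≤ B) →
        ∑ i, g i ≤ (Fintype.card ι : ℝ) * B := by
      intro ι _ g B h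
      calc ∑ i, g i ≤ ∑ _i : ι, B := Finset.sum_le_sum fun i _ => h i
        _ = _ := by rw [Finset.sum_const, Finset.card_univ, nsmul_eq_mul]
    refine hsum _ _ fun o => hsum _ _ fun x => hsum _ _ fun y => add_le_add ?_ ?_
    · exact hsum _ _ fun c1 => hsum _ _ fun c2 => hrel o [c1, c2] (by simp) x y
    · exact hsum _ _ fun c1 => hsum _ _ fun c2 => hsum _ _ fun c3 =>
        hrel o [c1, c2, c3] (by simp) x y
  have hO : (Fintype.card N.O : ℝ) ≤ n ^ 2 := by
    have := N.card_le
    rw [hn]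
    exact_mod_cast this
  have hflip : ∀ v, flipE a f v ≤ n ^ 2 * ∑ s ∈ pms V, ∑ t ∈ pms V,
      W a s * W a t * totT N.path f s t := by
    intro v
    unfold flipE
    rw [Finset.mul_sum]
    refine Finset.sum_le_sum fun s hs => ?_
    rw [Finset.mul_sum]
    refine Finset.sum_le_sum fun t ht => ?_
    rw [mem_pms] at hs ht
    calc W a s * W a t * (f s - f (swp (comp s t v) s t)) ^ 2
        ≤ W a s * W a t * (n ^ 2 * totT N.path f s t) :=
          mul_le_mul_of_nonneg_left (flip_term_le N f hs.1 ht.1 hs.2 ht.2 v) (hW s t)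
      _ = _ := by ring
  set R : ℝ := ∑ s ∈ pms V, ∑ t ∈ pms V, W a s * W a t * totT N.path f s t with hR
  have hR0 : 0 ≤ R := Finset.sum_nonneg fun s _ => Finset.sum_nonneg fun t _ =>
    mul_nonneg (hW s t) (totT_nonneg _ _ _ _)
  have hRle : R ≤ 12 * n ^ 10 * E := by
    calc R ≤ (Fintype.card N.O : ℝ) * (n * (n * ((c * (c * E)) + c * (c * (c * E))))) := htot
      _ ≤ n ^ 2 * (n * (n * ((c * (c * E)) + c * (c * (c * E))))) := by
          refine mul_le_mul_of_nonneg_right hO ?_
          rw [hcn]; positivity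
      _ = (4 * n ^ 8 + 8 * n ^ 10) * E := by rw [hcn]; ring
      _ ≤ 12 * n ^ 10 * E := by
          refine mul_le_mul_of_nonneg_right ?_ hE
          have : n ^ 8 ≤ n ^ 10 := pow_le_pow_right₀ hn1 (by norm_num)
          linarith
  calc ∑ s ∈ pms V, ∑ t ∈ pms V, W a s * W a t * (f s - f t) ^ 2
      ≤ n * ∑ v, flipE a f v := var_le_flip ha f
    _ ≤ n * ∑ _v : V, n ^ 2 * R := by
        refine mul_le_mul_of_nonneg_left (Finset.sum_le_sum fun v _ => hflip v) (by linarith)
    _ = n ^ 4 * R := by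
        rw [Finset.sum_const, Finset.card_univ, nsmul_eq_mul, ← hn]; ring
    _ ≤ n ^ 4 * (12 * n ^ 10 * E) := mul_le_mul_of_nonneg_left hRle (by positivity)
    _ = 12 * n ^ 14 * E := by ring

end Final

end Crest.Agent.R304
end

-- ▼ part R304/ThmL256
section

/-!
# R304 / S0464 : Theorem L in the form needed by `GK922.ThmL`, from `lemmaQ`
-/

set_option autoImplicit false
set_option linter.unusedSectionVars false

namespace Crest.Agent.R304

open Finset
open _root_.Crest.Agent.R304.Rel (cutp pres cutL presL)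
open CQ (Krep)

section EnGd
variable {V : Type} [Fintype V] [DecidableEq V]

theorem W_congr_pms {a a' : V → V → ℝ} (h : ∀ u v, u ≠ v → a u v = a' u v) {s : V → V}
    (hs : s ∈ pms V) : W a s = W a' s :=
  Finset.prod_congr rfl fun v _ => h _ _ ((mem_pms.1 hs).2 v).symm

theorem Zh_congr {a a' : V → V → ℝ} (h : ∀ u v, u ≠ v → a u v = a' u v) :
    Zh a ∅ = Zh a' ∅ := by
  unfold Zh
  rw [st_empty]
  exact Finset.sum_congr rfl fun s hs => W_congr_pms h hs

/-- the energy on perfect matchings does not see the diagonal -/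
theorem En_congr {a a' : V → V → ℝ} (h : ∀ u v, u ≠ v → a u v = a' u v) (f : (V → V) → ℝ) :
    En a f = En a' f := by
  unfold En
  rw [Zh_congr h]
  congr 1
  · congr 1
    · congr 1
      unfold Esw
      refine Finset.sum_congr rfl fun s hs => Finset.sum_congr rfl fun u _ =>
        Finset.sum_congr rfl fun v _ => ?_
      split_ifs with hc
      · rw [W_congr_pms h hs, W_congr_pms h (Lab922.sw_mem_pms hs hc.1 hc.2)]
      · rfl
    · unfold Eex
      refine Finset.sum_congr rfl fun s hs => Finset.sum_congr rfl fun t ht =>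
        Finset.sum_congr rfl fun v _ => ?_
      rw [W_congr_pms h hs, W_congr_pms h ht]
  · unfold E2
    refine Finset.sum_congr rfl fun s hs => Finset.sum_congr rfl fun t ht =>
      Finset.sum_congr rfl fun p _ => Finset.sum_congr rfl fun q _ => ?_
    split_ifs with hc
    · have h2 := Lab922.two_mem hs ht hc
      rw [W_congr_pms h hs, W_congr_pms h ht, W_congr_pms h h2.1, W_congr_pms h h2.2]
    · rfl

theorem gd_off {a : V → V → ℝ} {b : V → ℝ} {u v : V} (h : u ≠ v) : gd a b u v = a u v := by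
  unfold gd; rw [if_neg h]

theorem gd_diag {a : V → V → ℝ} {b : V → ℝ} {v : V} : gd a b v v = b v := by
  unfold gd; rw [if_pos rfl]

theorem En_gd (a : V → V → ℝ) (b : V → ℝ) (f : (V → V) → ℝ) : En (gd a b) f = En a f :=
  En_congr (fun _ _ h => gd_off h) f

theorem En_nonneg' {a : V → V → ℝ} (ha : ∀ u v, 0 < a u v) (f : (V → V) → ℝ) : 0 ≤ En a f := by
  have h1 := fun s => (W_pos ha s : 0 < W a s).le
  unfold En
  refine add_nonneg (add_nonneg (mul_nonneg (Zh_nonneg ha _) ?_) ?_) ?_
  · refine Finset.sum_nonneg fun s _ => Finset.sum_nonneg fun u _ => Finset.sum_nonneg fun v _ => ?_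
    split_ifs
    · exact mul_nonneg (le_min (h1 _) (h1 _)) (sq_nonneg _)
    · exact le_rfl
  · exact Finset.sum_nonneg fun s _ => Finset.sum_nonneg fun u _ => Finset.sum_nonneg fun v _ =>
      mul_nonneg (mul_nonneg (h1 _) (h1 _)) (sq_nonneg _)
  · refine Finset.sum_nonneg fun s _ => Finset.sum_nonneg fun u _ => Finset.sum_nonneg fun v _ =>
      Finset.sum_nonneg fun q _ => ?_
    split_ifs
    · exact mul_nonneg (le_min (mul_nonneg (h1 _) (h1 _)) (mul_nonneg (h1 _) (h1 _))) (sq_nonneg _)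
    · exact le_rfl

end EnGd

/-- `lemmaQ` as a proposition; `KQ c0` is the constant -/
def LemmaQ (V : Type) [Fintype V] [DecidableEq V] (KQ : ℝ → ℝ) : Prop :=
  ∀ g : V → V → ℝ, (∀ u v, g u v = g v u) → (∀ u v, 0 < g u v) → ∀ c0 : ℝ, 0 < c0 → c0 ≤ 1 →
    NodeA g c0 → ∀ f : (V → V) → ℝ,
    ∑ N ∈ Conf V, ∑ x : V, ∑ y : V,
      (if (N.1 x = x ∨ N.2 x = x) ∧ (N.1 y = y ∨ N.2 y = y) ∧ y ∉ comp N.1 N.2 x then
        W g N.1 * W g N.2 *
          (f (jn N.1) + f (jn (swp (comp N.1 N.2 y) (swp (comp N.1 N.2 x) N.1 N.2)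
              (swp (comp N.1 N.2 x) N.2 N.1)))
            - f (jn (swp (comp N.1 N.2 x) N.1 N.2)) - f (jn (swp (comp N.1 N.2 y) N.1 N.2))) ^ 2
        else 0) ≤ KQ c0 * En g f

section Main
variable {V : Type} [Fintype V] [DecidableEq V]

/-- the constant of Theorem L -/
noncomputable def KL (n : ℕ) (KQ KR : ℝ → ℝ) (c0 : ℝ) : ℝ :=
  12 * (n : ℝ) ^ 14 * (5 * (KQ c0 + 96 * (n : ℝ) ^ 2 * KR c0))

/-- **Theorem L**, final form -/
theorem thmL_of_lemmaQ {KQ : ℝ → ℝ} (hQ : LemmaQ V KQ) {a : V → V → ℝ} (ha : ∀ u v, 0 < a u v)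
    (hsym : ∀ u v, a u v = a v u) {c0 : ℝ} (hc : 0 < c0) (hc1 : c0 ≤ 1)
    (N : Nodes.NodeSys V (lam a) c0) (f : (V → V) → ℝ) :
    ∑ s ∈ pms V, ∑ t ∈ pms V, W a s * W a t * (f s - f t) ^ 2
      ≤ KL (Fintype.card V) KQ (Krep V) c0 * En a f := by
  -- the relations
  have key : ∀ o, ∀ L : List (Bool × V × V), L.length ≤ 3 → ∀ x y,
      ∑ s ∈ pms V, ∑ t ∈ pms V, W a s * W a t * relT (N.path o) f L x y s t ≤
        5 * (KQ c0 * En a f + 96 * (Fintype.card V : ℝ) ^ 2 * (Krep V c0 * En a f)) := by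
    intro o L hL x y
    have gsym : ∀ u v, gd a (N.b o) u v = gd a (N.b o) v u := by
      intro u v
      by_cases h : u = v
      · rw [h]
      · rw [gd_off h, gd_off (Ne.symm h), hsym]
    have gpos : ∀ u v, 0 < gd a (N.b o) u v := by
      intro u v
      by_cases h : u = v
      · rw [h, gd_diag]; exact N.b_pos o v
      · rw [gd_off h]; exact ha u v
    have hA : NodeA (gd a (N.b o)) c0 := by
      intro u v h
      rw [gd_diag, gd_diag, gd_off h, pow_two]
      have := N.lower o u v h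
      unfold lam at this
      rwa [hsym v u] at this
    have hpath : ∀ u v, u ≠ v → N.path o u v →
        gd a (N.b o) u v ^ 2 ≤ gd a (N.b o) u u * gd a (N.b o) v v := by
      intro u v h hp
      rw [gd_diag, gd_diag, gd_off h, pow_two]
      have := N.upper o u v h hp
      unfold lam at this
      rwa [hsym v u] at this
    have h := Rel.rel_of_xy gsym gpos f (repair gsym gpos hc hc1 hA f)
      (hQ (gd a (N.b o)) gsym gpos c0 hc hc1 hA f) hpath L hL x y
    rw [En_gd] at h
    refine le_trans (le_of_eq ?_) h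
    refine Finset.sum_congr rfl fun s hs => Finset.sum_congr rfl fun t ht => ?_
    rw [W_congr_pms (a := gd a (N.b o)) (a' := a) (fun _ _ h => gd_off h) hs,
      W_congr_pms (a := gd a (N.b o)) (a' := a) (fun _ _ h => gd_off h) ht]
    unfold relT
    rw [mul_ite, mul_zero]
  have hE := En_nonneg' ha f
  rcases (lt_or_ge (5 * (KQ c0 * En a f + 96 * (Fintype.card V : ℝ) ^ 2 * (Krep V c0 * En a f))) 0)
    with hneg | hpos
  · -- impossible as the sums are nonnegative
    by_cases hO : Nonempty N.O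
    · obtain ⟨o⟩ := hO
      by_cases hV : Nonempty V
      · obtain ⟨v⟩ := hV
        have h1 := key o [] (by simp) v v
        have h2 : 0 ≤ ∑ s ∈ pms V, ∑ t ∈ pms V, W a s * W a t * relT (N.path o) f [] v v s t :=
          Finset.sum_nonneg fun s _ => Finset.sum_nonneg fun t _ =>
            mul_nonneg (mul_nonneg (W_pos ha _).le (W_pos ha _).le) (relT_nonneg _ _ _ _ _ _ _)
        linarith
      · have hemp : IsEmpty V := not_nonempty_iff.1 hV
        have hst : ∀ s t : V → V, s = t := fun s t => funext fun v => (hemp.false v).elim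
        have hz : ∑ s ∈ pms V, ∑ t ∈ pms V, W a s * W a t * (f s - f t) ^ 2 = 0 :=
          Finset.sum_eq_zero fun s _ => Finset.sum_eq_zero fun t _ => by
            rw [hst s t]; ring
        have hc0 : (Fintype.card V : ℝ) = 0 := by
          rw [Fintype.card_eq_zero]; simp
        rw [hz]
        unfold KL
        rw [hc0]; simp
    · -- no nodes: `V` has at most one element
      have hsub : ∀ u v : V, u = v := by
        intro u v
        by_contra h
        exact hO ⟨N.top u v⟩
      have hst : ∀ s t : V → V, s = t := fun s t => funext fun v => hsub _ _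
      have hz : ∑ s ∈ pms V, ∑ t ∈ pms V, W a s * W a t * (f s - f t) ^ 2 = 0 :=
        Finset.sum_eq_zero fun s _ => Finset.sum_eq_zero fun t _ => by
          rw [hst s t]; ring
      have hpm : pms V = ∅ ∨ IsEmpty V := by
        by_cases hV : Nonempty V
        · left
          rw [Finset.eq_empty_iff_forall_notMem]
          intro s hs
          obtain ⟨v⟩ := hV
          exact (mem_pms.1 hs).2 v (hsub _ _)
        · right; exact not_nonempty_iff.1 hV
      rw [hz]
      rcases hpm with hpm | hemp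
      · have hEn : En a f = 0 := by
          unfold En Zh Esw Eex E2
          rw [st_empty, hpm]; simp
        rw [hEn, mul_zero]
      · have hc0 : (Fintype.card V : ℝ) = 0 := by
          rw [Fintype.card_eq_zero]; simp
        unfold KL
        rw [hc0]; simp
  · have h := thmL N ha f hpos key
    refine h.trans (le_of_eq ?_)
    unfold KL
    ring

end Main

/-- Theorem L in the form of `GK922.ThmL` -/
theorem ThmL_of_lemmaQ {n : ℕ} {KQ : ℝ → ℝ} (hQ : LemmaQ (Fin n) KQ) :
    GK922.ThmL n (KL n KQ (Krep (Fin n))) := by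
  intro a ha hsym _ c0 hc hc1 hN f
  obtain ⟨N⟩ := hN
  have h := thmL_of_lemmaQ hQ ha hsym hc hc1 N f
  rwa [Fintype.card_fin] at h

end Crest.Agent.R304
end

-- ▼ part R304/GN922
section

/-!
# R304 / S0464: an explicit natural number `gN` with `GoodKernel ... (1 / gN)`
-/

set_option autoImplicit false
set_option linter.unusedSectionVars false

noncomputable section

namespace Crest.Agent.R304.GN922

open Finset Lab922 Good922 GK922 Fine922
open Crest.Agent.Lib.PT

theorem goodKernel_mono {Ω : Type*} [Fintype Ω] {π : Ω → ℝ} {K : Ω × Ω → Ω × Ω → ℝ} {γ γ' : ℝ}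
    (hπ : ∀ a, 0 ≤ π a) (h : Pop.GoodKernel π K γ) (hγ : γ' ≤ γ) : Pop.GoodKernel π K γ' := by
  refine ⟨h.nonneg, h.sum_one, h.rev, h.psd, fun f hf => ?_⟩
  refine le_trans ?_ (h.gap f hf)
  have h1 : 0 ≤ ∑ a, π a * f a ^ 2 := Finset.sum_nonneg fun a _ => mul_nonneg (hπ a) (sq_nonneg _)
  nlinarith

/-- the value of `kap` at `q = 128 n^2` -/
def kN (n : ℕ) : ℕ := (n ^ 2 + 1) * ((128 * n ^ 2) * (((128 * n ^ 2) ^ 2 + 1) * n))

/-- the inverse gap; `A`, `p` describe the constant of `lemmaQ` -/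
def gN (A p n : ℕ) : ℕ :=
  16 * (12 * n ^ 14 * (5 * (A * kN n ^ p + 96 * n ^ 2 * (336 * kN n ^ 7)))) * n ^ 4 + 1

theorem gN_pos (A p n : ℕ) : 0 < gN A p n := by unfold gN; omega


section pt
variable {α : Type} [PTCode α] {n : α → ℕ}

theorem ptu_kN (hn : PTU n) : PTU (fun a => kN (n a)) := by
  unfold kN
  exact PTU.mul (PTU.add (PTU.pow hn 2) (PTU.const 1))
    (PTU.mul (PTU.mul (PTU.const 128) (PTU.pow hn 2))
      (PTU.mul (PTU.add (PTU.pow (PTU.mul (PTU.const 128) (PTU.pow hn 2)) 2) (PTU.const 1)) hn))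

theorem ptu_gN (A p : ℕ) (hn : PTU n) : PTU (fun a => gN A p (n a)) := by
  unfold gN
  have hk := ptu_kN hn
  exact PTU.add (PTU.mul (PTU.mul (PTU.const 16) (PTU.mul (PTU.mul (PTU.const 12) (PTU.pow hn 14))
    (PTU.mul (PTU.const 5) (PTU.add (PTU.mul (PTU.const A) (PTU.pow hk p))
      (PTU.mul (PTU.mul (PTU.const 96) (PTU.pow hn 2)) (PTU.mul (PTU.const 336) (PTU.pow hk 7)))))))
    (PTU.pow hn 4)) (PTU.const 1)

end pt

theorem kap_eq (n : ℕ) :
    CQ.kap (Fin n) (c0 n (8 * (8 * (n : ℝ) ^ 2) * 2)) = (kN n : ℝ) := by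
  unfold CQ.kap c0 kN
  rw [Fintype.card_fin, one_div, inv_inv]
  push_cast
  ring

/-- the constant of Theorem L at `q = 128 n^2` -/
theorem K_le {A p n : ℕ} {KQ : ℝ → ℝ}
    (hKQ : KQ (c0 n (8 * (8 * (n : ℝ) ^ 2) * 2)) ≤
      A * CQ.kap (Fin n) (c0 n (8 * (8 * (n : ℝ) ^ 2) * 2)) ^ p) :
    16 * KL n KQ (CQ.Krep (Fin n)) (c0 n (8 * (8 * (n : ℝ) ^ 2) * 2)) * (n : ℝ) ^ 4 ≤
      (gN A p n : ℝ) := by
  unfold KL CQ.Krep
  rw [kap_eq] at hKQ ⊢
  unfold gN
  push_cast
  have h1 : 16 * (12 * (n : ℝ) ^ 14 * (5 * (KQ (c0 n (8 * (8 * (n : ℝ) ^ 2) * 2)) +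
      96 * (n : ℝ) ^ 2 * (336 * (kN n : ℝ) ^ 7)))) * (n : ℝ) ^ 4 ≤
      16 * (12 * (n : ℝ) ^ 14 * (5 * ((A : ℝ) * (kN n : ℝ) ^ p +
      96 * (n : ℝ) ^ 2 * (336 * (kN n : ℝ) ^ 7)))) * (n : ℝ) ^ 4 := by
    gcongr
  linarith

/-- the gap is at least `1 / gN` -/
theorem inv_gN_le {A p n : ℕ} {KQ : ℝ → ℝ} (hn : 3 ≤ n)
    (hKQ : KQ (c0 n (8 * (8 * (n : ℝ) ^ 2) * 2)) ≤
      A * CQ.kap (Fin n) (c0 n (8 * (8 * (n : ℝ) ^ 2) * 2)) ^ p)
    (hK : 0 < KL n KQ (CQ.Krep (Fin n)) (c0 n (8 * (8 * (n : ℝ) ^ 2) * 2))) :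
    1 / (gN A p n : ℝ) ≤ gam n (KL n KQ (CQ.Krep (Fin n))) (8 * (8 * (n : ℝ) ^ 2) * 2) := by
  unfold gam
  have h := K_le hKQ
  have hn' : (0 : ℝ) < n := by exact_mod_cast (by omega : 0 < n)
  exact one_div_le_one_div_of_le (by positivity) h

/-- **Final form for the annealing**: all stages are good with `γ = 1 / gN` -/
theorem good_stage {A p n m T : ℕ} {Lm : ℕ → Fin n → Fin n → ℝ} {KQ : ℝ → ℝ}
    (M : Macro n m T (8 * (8 * (n : ℝ) ^ 2)) Lm)
    (hL : ThmL n (KL n KQ (CQ.Krep (Fin n))))
    (hKQ : KQ (c0 n (8 * (8 * (n : ℝ) ^ 2) * 2)) ≤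
      A * CQ.kap (Fin n) (c0 n (8 * (8 * (n : ℝ) ^ 2) * 2)) ^ p)
    (hK : 0 < KL n KQ (CQ.Krep (Fin n)) (c0 n (8 * (8 * (n : ℝ) ^ 2) * 2)))
    {H : ℕ} (hH : 0 < H) {t : ℕ} (ht : t ≤ T) (o : Option ℕ) (ho : o ∈ stO H t) :
    Pop.GoodKernel (piO Lm H o) (kerO Lm H o) (1 / (gN A p n : ℝ)) :=
  goodKernel_mono (fun s => (M.piO_pos hH ht o (List.mem_cons_of_mem _ ho) s).le)
    (M.good_stage hK hL hH ht o ho) (inv_gN_le M.three hKQ hK)

theorem Krep_pos {n : ℕ} (hn : 3 ≤ n) {q : ℝ} (hq : 1 ≤ q) : 0 < CQ.Krep (Fin n) (c0 n q) := by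
  unfold CQ.Krep
  have := CQ.kap_pos (V := Fin n) (c0_pos hn hq) (c0_le_one hn hq)
  positivity

theorem KL_pos {n : ℕ} (hn : 3 ≤ n) {q : ℝ} (hq : 1 ≤ q) {KQ : ℝ → ℝ} (hKQ : 0 ≤ KQ (c0 n q)) :
    0 < KL n KQ (CQ.Krep (Fin n)) (c0 n q) := by
  unfold KL
  have h1 := Krep_pos hn hq
  have hn' : (0 : ℝ) < n := by exact_mod_cast (by omega : 0 < n)
  positivity

end Crest.Agent.R304.GN922

end
end

-- ▼ part R304/ThmL542

/-!
# R304 / S0464 : Theorem L, unconditional
-/

set_option autoImplicit false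

namespace Crest.Agent.R304

open Finset

/-- `lemmaQ` in the form of `ThmL256` -/
theorem lemmaQ_holds (V : Type) [Fintype V] [DecidableEq V] : LemmaQ V (CQ.KQ V) :=
  fun _ hsym hpos _ hc hc1 hN f => lemmaQ hsym hpos hc hc1 hN f

/-- **Theorem L**, unconditional -/
theorem thmL_holds (n : ℕ) : GK922.ThmL n (KL n (CQ.KQ (Fin n)) (CQ.Krep (Fin n))) :=
  ThmL_of_lemmaQ (lemmaQ_holds (Fin n))

theorem KQ_nonneg {V : Type} [Fintype V] {c0 : ℝ} : 0 ≤ CQ.KQ V c0 := by
  unfold CQ.KQ
  have : (0 : ℝ) ≤ CQ.kap V c0 ^ 10 := by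
    have : CQ.kap V c0 ^ 10 = (CQ.kap V c0 ^ 5) ^ 2 := by ring
    rw [this]; exact sq_nonneg _
  positivity

/-- the inverse gap -/
def gN542 (n : ℕ) : ℕ := GN922.gN 290952 10 n

theorem gN542_pos (n : ℕ) : 0 < gN542 n := GN922.gN_pos _ _ _

open Crest.Agent.Lib.PT in
theorem ptu_gN542 {α : Type} [PTCode α] {n : α → ℕ} (hn : PTU n) : PTU (fun a => gN542 (n a)) :=
  GN922.ptu_gN 290952 10 hn

open Fine922 in
/-- **All stages of the annealing have a good pair kernel**, unconditional -/
theorem good_stage_holds {n m T : ℕ} {Lm : ℕ → Fin n → Fin n → ℝ}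
    (M : Macro n m T (8 * (8 * (n : ℝ) ^ 2)) Lm)
    {H : ℕ} (hH : 0 < H) {t : ℕ} (ht : t ≤ T) (o : Option ℕ) (ho : o ∈ stO H t) :
    Pop.GoodKernel (piO Lm H o) (kerO Lm H o) (1 / (gN542 n : ℝ)) := by
  have h3 : 3 ≤ n := M.three
  have hq : (1 : ℝ) ≤ 8 * (8 * (n : ℝ) ^ 2) * 2 := by
    have : (1 : ℝ) ≤ n := by exact_mod_cast (by omega : 1 ≤ n)
    nlinarith
  refine GN922.good_stage (KQ := CQ.KQ (Fin n)) M (thmL_holds n) ?_ (GN922.KL_pos h3 hq KQ_nonneg)
    hH ht o ho
  unfold CQ.KQ
  push_cast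
  exact le_rfl

end Crest.Agent.R304
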