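import Crest.Agent.R304.PopDefs
import Crest.Agent.R304.PopIp
import Mathlib
import Crest.Agent.R304.GlueC168
import Crest.Agent.R304.L6Pop
import Crest.Agent.R304.ThmL542

-- ▼ part R304/PopSlice
section

/-!
# R304 / S0464, block L4: resampling identities, slices, the population kernel is reversible psd
-/

set_option autoImplicit false
set_option linter.unusedSectionVars false

noncomputable section

namespace Crest.Agent.R304.Pop

open Finset Function

variable {Ω : Type*} [Fintype Ω] [DecidableEq Ω] {k : ℕ}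

/-- The weight `π × π`. -/
def pw (π : Ω → ℝ) (z : Ω × Ω) : ℝ := π z.1 * π z.2

/-- Change two coordinates. -/
def upd2 (p q : Fin k) (x : Fin k → Ω) (z : Ω × Ω) : Fin k → Ω := update (update x p z.1) q z.2

/-- Slice of `F` in the coordinates `p`, `q`. -/
def sl (p q : Fin k) (F : (Fin k → Ω) → ℝ) (x : Fin k → Ω) (z : Ω × Ω) : ℝ := F (upd2 p q x z)

theorem prodW_nonneg {π : Ω → ℝ} (hπ : ∀ a, 0 ≤ π a) (x : Fin k → Ω) : 0 ≤ prodW π x :=
  prod_nonneg fun _ _ => hπ _


theorem sum_prodW {π : Ω → ℝ} (h1 : ∑ a, π a = 1) : ∑ x : Fin k → Ω, prodW π x = 1 := by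
  unfold prodW
  have := (Finset.prod_univ_sum (fun _ : Fin k => (Finset.univ : Finset Ω)) (fun _ a => π a)).symm
  simp only [Fintype.piFinset_univ] at this
  rw [this]; simp [h1]

theorem prodW_update (π : Ω → ℝ) (x : Fin k → Ω) (i : Fin k) (a : Ω) :
    prodW π (update x i a) * π (x i) = prodW π x * π a := by
  unfold prodW
  rw [← mul_prod_erase univ (fun j => π (update x i a j)) (mem_univ i),
    ← mul_prod_erase univ (fun j => π (x j)) (mem_univ i)]
  have : ∏ j ∈ univ.erase i, π (update x i a j) = ∏ j ∈ univ.erase i, π (x j) :=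
    prod_congr rfl fun j hj => by rw [update_of_ne (ne_of_mem_erase hj)]
  rw [this]; simp; ring

theorem resample {π : Ω → ℝ} (h1 : ∑ a, π a = 1) (i : Fin k) (Φ : (Fin k → Ω) → ℝ) :
    ∑ x, prodW π x * ∑ a, π a * Φ (update x i a) = ∑ x, prodW π x * Φ x := by
  have hinv : Function.Involutive
      (fun p : (Fin k → Ω) × Ω => (update p.1 i p.2, p.1 i)) := by
    rintro ⟨x, a⟩; simp
  have e1 : ∑ x, prodW π x * ∑ a, π a * Φ (update x i a) =
      ∑ p : (Fin k → Ω) × Ω, prodW π p.1 * π p.2 * Φ (update p.1 i p.2) := by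
    rw [Fintype.sum_prod_type]
    refine sum_congr rfl fun x _ => ?_
    rw [mul_sum]; exact sum_congr rfl fun a _ => by ring
  have e2 : ∑ x, prodW π x * Φ x =
      ∑ p : (Fin k → Ω) × Ω, prodW π p.1 * π p.2 * Φ p.1 := by
    rw [Fintype.sum_prod_type]
    refine sum_congr rfl fun x _ => ?_
    have : ∑ a, prodW π x * π a * Φ x = prodW π x * Φ x * ∑ a, π a := by
      rw [mul_sum]; exact sum_congr rfl fun a _ => by ring
    simp only [this, h1, mul_one]
  rw [e1, e2, ← Equiv.sum_comp hinv.toPerm (fun p : (Fin k → Ω) × Ω =>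
    prodW π p.1 * π p.2 * Φ p.1)]
  refine sum_congr rfl fun p _ => ?_
  simp only [Function.Involutive.coe_toPerm]
  rw [← prodW_update]

theorem resample2 {π : Ω → ℝ} (h1 : ∑ a, π a = 1) (p q : Fin k) (Φ : (Fin k → Ω) → ℝ) :
    ∑ x, prodW π x * ∑ z : Ω × Ω, pw π z * Φ (upd2 p q x z) = ∑ x, prodW π x * Φ x := by
  rw [← resample h1 q Φ, ← resample h1 p (fun x => ∑ b, π b * Φ (update x q b))]
  refine sum_congr rfl fun x _ => ?_
  congr 1
  rw [Fintype.sum_prod_type]
  refine sum_congr rfl fun a _ => ?_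
  rw [mul_sum]
  exact sum_congr rfl fun b _ => by simp only [pw, upd2]; ring

theorem upd2_fst {p q : Fin k} (hpq : p ≠ q) (x : Fin k → Ω) (z : Ω × Ω) :
    upd2 p q x z p = z.1 := by simp [upd2, hpq]

theorem upd2_snd {p q : Fin k} (x : Fin k → Ω) (z : Ω × Ω) :
    upd2 p q x z q = z.2 := by simp [upd2]

theorem upd2_ne {p q i : Fin k} (hp : i ≠ p) (hq : i ≠ q) (x : Fin k → Ω) (z : Ω × Ω) :
    upd2 p q x z i = x i := by simp [upd2, hp, hq]

theorem upd2_upd2 (p q : Fin k) (x : Fin k → Ω) (z z' : Ω × Ω) :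
    upd2 p q (upd2 p q x z) z' = upd2 p q x z' := by
  unfold upd2
  by_cases hpq : p = q
  · subst hpq; simp
  · funext i
    by_cases hi : i = q
    · subst hi; simp
    · by_cases hi' : i = p
      · subst hi'; simp [hi]
      · simp [hi, hi']

theorem upd2_self {p q : Fin k} (x : Fin k → Ω) :
    upd2 p q x (x p, x q) = x := by
  unfold upd2
  funext i
  by_cases hi : i = q
  · subst hi; simp
  · by_cases hi' : i = p
    · subst hi'; simp
    · simp [hi]

theorem sl_upd2 (p q : Fin k) (F : (Fin k → Ω) → ℝ) (x : Fin k → Ω) (z : Ω × Ω) :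
    sl p q F (upd2 p q x z) = sl p q F x := by
  funext z'; simp only [sl, upd2_upd2]

/-- Marginal of two coordinates. -/
theorem marg2 {π : Ω → ℝ} (h1 : ∑ a, π a = 1) {p q : Fin k} (hpq : p ≠ q) (φ : Ω → Ω → ℝ) :
    ∑ x : Fin k → Ω, prodW π x * φ (x p) (x q) = ∑ z : Ω × Ω, pw π z * φ z.1 z.2 := by
  have h := resample2 h1 p q (fun x : Fin k → Ω => φ (x p) (x q))
  simp only [upd2_fst hpq, upd2_snd] at h
  rw [← h, ← sum_mul, sum_prodW h1, one_mul]

theorem marg1 {π : Ω → ℝ} (h1 : ∑ a, π a = 1) (p : Fin k) (φ : Ω → ℝ) :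
    ∑ x : Fin k → Ω, prodW π x * φ (x p) = ∑ a, π a * φ a := by
  have h := resample h1 p (fun x : Fin k → Ω => φ (x p))
  simp only [update_self] at h
  rw [← h, ← sum_mul, sum_prodW h1, one_mul]

/-- If averaging in one coordinate kills `Φ`, its mean is zero. -/
theorem mean_zero_of {π : Ω → ℝ} (h1 : ∑ a, π a = 1) (i : Fin k) (Φ : (Fin k → Ω) → ℝ)
    (h : ∀ x, ∑ a, π a * Φ (update x i a) = 0) : ∑ x, prodW π x * Φ x = 0 := by
  rw [← resample h1 i Φ]
  exact sum_eq_zero fun x _ => by rw [h x, mul_zero]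

/-! ### The pair kernel on two coordinates -/

theorem op_pairK (K : Ω × Ω → Ω × Ω → ℝ) {p q : Fin k} (hpq : p ≠ q)
    (G : (Fin k → Ω) → ℝ) (x : Fin k → Ω) :
    op (pairK K p q) G x = op K (sl p q G x) (x p, x q) := by
  classical
  have e1 : ∀ y, pairK K p q x y * G y
      = if ∀ i, i ≠ p → i ≠ q → y i = x i then K (x p, x q) (y p, y q) * G y else 0 := by
    intro y
    unfold pairK
    by_cases hy : ∀ i, i ≠ p → i ≠ q → y i = x i
    · rw [if_pos hy, if_pos hy]
    · rw [if_neg hy, if_neg hy, zero_mul]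
  unfold op
  simp only [e1]
  rw [← sum_filter]
  symm
  refine Finset.sum_bij' (fun z _ => upd2 p q x z) (fun y _ => (y p, y q)) ?_ ?_ ?_ ?_ ?_
  · intro z _
    simp only [mem_filter, mem_univ, true_and]
    intro i hp hq; exact upd2_ne hp hq x z
  · intro y _; exact mem_univ _
  · intro z _
    simp only [upd2_fst hpq, upd2_snd]
  · intro y hy
    simp only [mem_filter, mem_univ, true_and] at hy
    funext i
    by_cases hi : i = p
    · subst hi; rw [upd2_fst hpq]
    · by_cases hi' : i = q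
      · subst hi'; rw [upd2_snd]
      · rw [upd2_ne hi hi', hy i hi hi']
  · intro z _
    simp only [upd2_fst hpq, upd2_snd, sl]

theorem sl_op_pairK (K : Ω × Ω → Ω × Ω → ℝ) {p q : Fin k} (hpq : p ≠ q)
    (G : (Fin k → Ω) → ℝ) (x : Fin k → Ω) :
    sl p q (op (pairK K p q) G) x = op K (sl p q G x) := by
  funext z
  simp only [sl]
  rw [op_pairK K hpq, sl_upd2, upd2_fst hpq, upd2_snd]

theorem ip_slice {π : Ω → ℝ} (h1 : ∑ a, π a = 1) (p q : Fin k) (F G : (Fin k → Ω) → ℝ) :
    ip (prodW π) F G = ∑ x, prodW π x * ip (pw π) (sl p q F x) (sl p q G x) := by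
  unfold ip
  rw [← show ∑ x, prodW π x * (F x * G x) = ∑ x, prodW π x * F x * G x from
    sum_congr rfl fun x _ => by ring]
  rw [← resample2 h1 p q (fun x => F x * G x)]
  refine sum_congr rfl fun x _ => ?_
  congr 1
  exact sum_congr rfl fun z _ => by simp only [sl]; ring

/-- `RevPsd` from `GoodKernel`. -/
theorem GoodKernel.revPsd {π : Ω → ℝ} {K : Ω × Ω → Ω × Ω → ℝ} {γ : ℝ}
    (h : GoodKernel π K γ) (hπ : ∀ a, 0 ≤ π a) : RevPsd (pw π) K where
  w_nonneg := fun z => mul_nonneg (hπ _) (hπ _)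
  nonneg := h.nonneg
  sum_one := h.sum_one
  rev := h.rev
  psd := by
    intro F
    have := h.psd F
    unfold ip op pw
    refine this.trans (le_of_eq (sum_congr rfl fun z _ => ?_))
    rw [mul_sum]; exact sum_congr rfl fun z' _ => by ring

theorem op_popK (K : Ω × Ω → Ω × Ω → ℝ) (G : (Fin k → Ω) → ℝ) (x : Fin k → Ω) :
    op (popK K) G x =
      (∑ p, ∑ q, if p ≠ q then op (pairK K p q) G x else 0) / ((k : ℝ) * ((k : ℝ) - 1)) := by
  unfold op popK
  have : ∀ y, (∑ p, ∑ q, if p ≠ q then pairK K p q x y else 0) / ((k : ℝ) * ((k : ℝ) - 1)) * G y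
      = (∑ p, ∑ q, if p ≠ q then pairK K p q x y * G y else 0) / ((k : ℝ) * ((k : ℝ) - 1)) := by
    intro y
    rw [div_mul_eq_mul_div, sum_mul]
    congr 1
    refine sum_congr rfl fun p _ => ?_
    rw [sum_mul]
    refine sum_congr rfl fun q _ => ?_
    split_ifs <;> simp
  simp only [this]
  rw [← sum_div]
  congr 1
  rw [sum_comm]
  refine sum_congr rfl fun p _ => ?_
  rw [sum_comm]
  refine sum_congr rfl fun q _ => ?_
  split_ifs <;> simp

theorem sum_ordered_pairs (c : ℝ) :
    (∑ p : Fin k, ∑ q : Fin k, if p ≠ q then c else 0) = (k : ℝ) * ((k : ℝ) - 1) * c := by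
  have : ∀ p : Fin k, (∑ q : Fin k, if p ≠ q then c else 0) = ((k : ℝ) - 1) * c := by
    intro p
    rw [← sum_filter, sum_const, filter_ne, card_erase_of_mem (mem_univ p), card_univ,
      Fintype.card_fin, nsmul_eq_mul]
    have hk : 1 ≤ k := by have := p.2; omega
    rw [Nat.cast_sub hk]; simp
  simp only [this]
  rw [sum_const, card_univ, Fintype.card_fin, nsmul_eq_mul]; ring

theorem ip_popK {π : Ω → ℝ} (h1 : ∑ a, π a = 1) (K : Ω × Ω → Ω × Ω → ℝ)
    (F G : (Fin k → Ω) → ℝ) :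
    ip (prodW π) F (op (popK K) G) =
      (∑ p, ∑ q, if p ≠ q then
        ∑ x, prodW π x * ip (pw π) (sl p q F x) (op K (sl p q G x)) else 0)
        / ((k : ℝ) * ((k : ℝ) - 1)) := by
  have e1 : ip (prodW π) F (op (popK K) G) =
      (∑ p, ∑ q, if p ≠ q then ip (prodW π) F (op (pairK K p q) G) else 0)
        / ((k : ℝ) * ((k : ℝ) - 1)) := by
    unfold ip
    simp only [op_popK]
    have : ∀ x, prodW π x * F x *
        ((∑ p, ∑ q, if p ≠ q then op (pairK K p q) G x else 0) / ((k : ℝ) * ((k : ℝ) - 1)))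
        = (∑ p, ∑ q, if p ≠ q then prodW π x * F x * op (pairK K p q) G x else 0)
          / ((k : ℝ) * ((k : ℝ) - 1)) := by
      intro x
      rw [mul_div_assoc', mul_sum]
      congr 1
      refine sum_congr rfl fun p _ => ?_
      rw [mul_sum]
      refine sum_congr rfl fun q _ => ?_
      split_ifs <;> simp
    simp only [this]
    rw [← sum_div]
    congr 1
    rw [sum_comm]
    refine sum_congr rfl fun p _ => ?_
    rw [sum_comm]
    refine sum_congr rfl fun q _ => ?_
    split_ifs <;> simp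
  rw [e1]
  congr 1
  refine sum_congr rfl fun p _ => sum_congr rfl fun q _ => ?_
  split_ifs with hpq
  · rw [ip_slice h1 p q]
    exact sum_congr rfl fun x _ => by rw [sl_op_pairK K hpq]
  · rfl

theorem popK_one (hk : 2 ≤ k) {w : Ω × Ω → ℝ} {K : Ω × Ω → Ω × Ω → ℝ} (h : RevPsd w K)
    (x : Fin k → Ω) : ∑ y, popK K x y = 1 := by
  have h0 : op (popK K) (fun _ => (1:ℝ)) x = ∑ y, popK K x y := by unfold op; simp
  rw [← h0, op_popK]
  have hkr : (2:ℝ) ≤ k := by exact_mod_cast hk
  have e : (∑ p : Fin k, ∑ q : Fin k, if p ≠ q then op (pairK K p q) (fun _ => (1:ℝ)) x else 0)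
      = ∑ p : Fin k, ∑ q : Fin k, if p ≠ q then (1:ℝ) else 0 := by
    refine sum_congr rfl fun p _ => sum_congr rfl fun q _ => ?_
    split_ifs with hpq
    · rw [op_pairK K hpq]
      have : sl p q (fun _ => (1:ℝ)) x = fun _ => (1:ℝ) := rfl
      rw [this, h.op_const]
    · rfl
  rw [e, sum_ordered_pairs, mul_one]
  have : (k:ℝ) * ((k:ℝ) - 1) ≠ 0 := by
    have : (0:ℝ) < (k:ℝ) * ((k:ℝ) - 1) := mul_pos (by linarith) (by linarith)
    exact this.ne'
  exact div_self this

theorem popK_nonneg (hk : 2 ≤ k) {K : Ω × Ω → Ω × Ω → ℝ} (h : ∀ z z', 0 ≤ K z z')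
    (x y : Fin k → Ω) : 0 ≤ popK K x y := by
  have hkr : (2:ℝ) ≤ k := by exact_mod_cast hk
  unfold popK
  refine div_nonneg (sum_nonneg fun p _ => sum_nonneg fun q _ => ?_)
    (mul_nonneg (by linarith) (by linarith))
  split_ifs
  · unfold pairK; split_ifs
    · exact h _ _
    · exact le_rfl
  · exact le_rfl

theorem popK_adj {π : Ω → ℝ} (h1 : ∑ a, π a = 1) {K : Ω × Ω → Ω × Ω → ℝ}
    (h : RevPsd (pw π) K) (F G : (Fin k → Ω) → ℝ) :
    ip (prodW π) F (op (popK K) G) = ip (prodW π) (op (popK K) F) G := by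
  rw [ip_comm _ (op (popK K) F) G, ip_popK h1, ip_popK h1]
  congr 1
  refine sum_congr rfl fun p _ => sum_congr rfl fun q _ => ?_
  split_ifs
  · exact sum_congr rfl fun x _ => by rw [h.adj, ip_comm]
  · rfl

theorem revPsd_popK (hk : 2 ≤ k) {π : Ω → ℝ} (hπ : ∀ a, 0 ≤ π a) (h1 : ∑ a, π a = 1)
    {K : Ω × Ω → Ω × Ω → ℝ} (h : RevPsd (pw π) K) :
    RevPsd (prodW π (k := k)) (popK K) where
  w_nonneg := prodW_nonneg hπ
  nonneg := popK_nonneg hk h.nonneg
  sum_one := popK_one hk h
  rev := by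
    intro x y
    have e := popK_adj h1 h (Pi.single x (1:ℝ)) (Pi.single y (1:ℝ))
    have l1 : ip (prodW π) (Pi.single x (1:ℝ)) (op (popK K) (Pi.single y (1:ℝ)))
        = prodW π x * popK K x y := by
      unfold ip op
      rw [sum_eq_single x]
      · simp [Pi.single_apply]
      · intro b _ hb; simp [Pi.single_apply, hb]
      · intro hx; exact absurd (mem_univ x) hx
    have l2 : ip (prodW π) (op (popK K) (Pi.single x (1:ℝ))) (Pi.single y (1:ℝ))
        = prodW π y * popK K y x := by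
      unfold ip op
      rw [sum_eq_single y]
      · simp [Pi.single_apply]
      · intro b _ hb; simp [Pi.single_apply, hb]
      · intro hx; exact absurd (mem_univ y) hx
    rw [l1, l2] at e; exact e
  psd := by
    intro F
    rw [ip_popK h1]
    have hkr : (2:ℝ) ≤ k := by exact_mod_cast hk
    refine div_nonneg (sum_nonneg fun p _ => sum_nonneg fun q _ => ?_)
      (mul_nonneg (by linarith) (by linarith))
    split_ifs
    · exact sum_nonneg fun x _ => mul_nonneg (prodW_nonneg hπ x) (h.psd _)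
    · exact le_rfl

end Crest.Agent.R304.Pop
end
end

-- ▼ part R304/PopSums
section

/-!
# R304 / S0464, block L4: symmetric sums `S1`, `S2`, `S3` and their norms
-/

set_option autoImplicit false
set_option linter.unusedSectionVars false

noncomputable section

namespace Crest.Agent.R304.Pop

open Finset Function

variable {Ω : Type*} [Fintype Ω] [DecidableEq Ω] {k : ℕ}

/-- `∑ i, f (x i)`. -/
def S1 (f : Ω → ℝ) (x : Fin k → Ω) : ℝ := ∑ i, f (x i)

/-- `∑ i ≠ j, h (x i, x j)`. -/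
def S2 (h : Ω × Ω → ℝ) (x : Fin k → Ω) : ℝ := ∑ i, ∑ j, if i = j then 0 else h (x i, x j)

/-- `∑ i, j, l` distinct, `t (x i) (x j) (x l)`. -/
def S3 (t : Ω → Ω → Ω → ℝ) (x : Fin k → Ω) : ℝ :=
  ∑ i, ∑ j, ∑ l, if i = j ∨ i = l ∨ j = l then 0 else t (x i) (x j) (x l)

/-- Mean zero. -/
def Mz (π : Ω → ℝ) (f : Ω → ℝ) : Prop := ∑ a, π a * f a = 0

/-- Symmetric canonical kernel functions. -/
structure Can (π : Ω → ℝ) (h : Ω × Ω → ℝ) : Prop where
  symm : ∀ a b, h (a, b) = h (b, a)
  mz : ∀ b, ∑ a, π a * h (a, b) = 0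

theorem Can.mz' {π : Ω → ℝ} {h : Ω × Ω → ℝ} (H : Can π h) (a : Ω) : ∑ b, π b * h (a, b) = 0 := by
  rw [← H.mz a]; exact sum_congr rfl fun b _ => by rw [H.symm]

variable {π : Ω → ℝ}

theorem ip_S1 (h1 : ∑ a, π a = 1) {f g : Ω → ℝ} (hg : Mz π g) :
    ip (prodW π) (S1 (k := k) f) (S1 g) = k * ip π f g := by
  have e1 : ip (prodW π) (S1 (k := k) f) (S1 g) =
      ∑ i : Fin k, ∑ j : Fin k, ∑ x : Fin k → Ω, prodW π x * (f (x i) * g (x j)) := by
    unfold ip S1
    have : ∀ x : Fin k → Ω, prodW π x * (∑ i, f (x i)) * ∑ j, g (x j) =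
        ∑ i, ∑ j, prodW π x * (f (x i) * g (x j)) := by
      intro x
      rw [mul_assoc, sum_mul_sum, mul_sum]
      exact sum_congr rfl fun i _ => mul_sum _ _ _
    simp only [this]
    rw [sum_comm]
    exact sum_congr rfl fun i _ => sum_comm
  have e2 : ∀ i j : Fin k, ∑ x, prodW π x * (f (x i) * g (x j)) =
      if i = j then ip π f g else 0 := by
    intro i j
    split_ifs with hij
    · subst hij
      rw [marg1 h1 i (fun a => f a * g a)]
      unfold ip; exact sum_congr rfl fun a _ => by ring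
    · refine mean_zero_of h1 j _ fun x => ?_
      simp only [update_self, update_of_ne hij]
      have : ∑ a, π a * (f (x i) * g a) = f (x i) * ∑ a, π a * g a := by
        rw [mul_sum]; exact sum_congr rfl fun a _ => by ring
      rw [this, hg, mul_zero]
  rw [e1]
  simp only [e2, sum_ite_eq, mem_univ, if_true, sum_const, card_univ, Fintype.card_fin,
    nsmul_eq_mul]

theorem ip_S2 (h1 : ∑ a, π a = 1) {h : Ω × Ω → ℝ} (H : Can π h) :
    ip (prodW π) (S2 (k := k) h) (S2 h) = 2 * (k * (k - 1)) * ip (pw π) h h := by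
  set N := ip (pw π) h h with hN
  have e1 : ip (prodW π) (S2 (k := k) h) (S2 h) =
      ∑ i : Fin k, ∑ j : Fin k, ∑ i' : Fin k, ∑ j' : Fin k, ∑ x : Fin k → Ω, prodW π x *
        ((if i = j then 0 else h (x i, x j)) * (if i' = j' then 0 else h (x i', x j'))) := by
    unfold ip S2
    have : ∀ x : Fin k → Ω, prodW π x * (∑ i, ∑ j, if i = j then 0 else h (x i, x j)) *
        (∑ i, ∑ j, if i = j then 0 else h (x i, x j)) =
        ∑ i, ∑ j, ∑ i', ∑ j', prodW π x *
        ((if i = j then 0 else h (x i, x j)) * (if i' = j' then 0 else h (x i', x j'))) := by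
      intro x
      rw [mul_assoc, sum_mul, mul_sum]
      refine sum_congr rfl fun i _ => ?_
      rw [sum_mul, mul_sum]
      refine sum_congr rfl fun j _ => ?_
      rw [mul_sum, mul_sum]
      refine sum_congr rfl fun i' _ => ?_
      rw [mul_sum, mul_sum]
    simp only [this]
    rw [sum_comm]
    refine sum_congr rfl fun i _ => ?_
    rw [sum_comm]
    refine sum_congr rfl fun j _ => ?_
    rw [sum_comm]
    refine sum_congr rfl fun i' _ => ?_
    rw [sum_comm]
  have e2 : ∀ i j : Fin k, ∑ i', ∑ j', ∑ x, prodW π x *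
        ((if i = j then 0 else h (x i, x j)) * (if i' = j' then 0 else h (x i', x j'))) =
        if i ≠ j then 2 * N else 0 := by
    intro i j
    by_cases hij : i = j
    · simp [hij]
    · rw [if_pos hij]
      simp only [if_neg hij]
      have e3 : ∀ i' j' : Fin k, ∑ x, prodW π x *
          (h (x i, x j) * (if i' = j' then 0 else h (x i', x j'))) =
          (if i' = i then (if j' = j then N else 0) else 0) +
          (if i' = j then (if j' = i then N else 0) else 0) := by
        intro i' j'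
        by_cases hi'j' : i' = j'
        · subst hi'j'
          simp only [if_true, mul_zero, sum_const_zero]
          by_cases c1 : i' = i
          · subst c1; simp [hij]
          · simp [c1]
        · simp only [if_neg hi'j']
          by_cases c1 : i' = i
          · subst c1
            by_cases c2 : j' = j
            · subst c2
              have hne : ¬ (i' = j') := hij
              simp only [if_true, if_neg hne, if_neg (Ne.symm hij), add_zero]
              rw [marg2 h1 hij (fun a b => h (a, b) * h (a, b)), hN]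
              unfold ip; exact sum_congr rfl fun z _ => by ring
            · simp only [if_true, if_neg c2, if_neg hij, add_zero]
              refine mean_zero_of h1 j' _ fun x => ?_
              simp only [update_self, update_of_ne hi'j', update_of_ne (Ne.symm c2)]
              have : ∑ a, π a * (h (x i', x j) * h (x i', a)) =
                  h (x i', x j) * ∑ a, π a * h (x i', a) := by
                rw [mul_sum]; exact sum_congr rfl fun a _ => by ring
              rw [this, H.mz', mul_zero]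
          · by_cases c3 : i' = j
            · subst c3
              by_cases c4 : j' = i
              · subst c4
                simp only [if_true, if_neg c1, zero_add]
                rw [marg2 h1 hij (fun a b => h (a, b) * h (b, a)), hN]
                unfold ip; exact sum_congr rfl fun z _ => by rw [← H.symm z.1 z.2]; ring
              · simp only [if_true, if_neg c1, if_neg c4, zero_add]
                refine mean_zero_of h1 j' _ fun x => ?_
                simp only [update_self, update_of_ne hi'j', update_of_ne (Ne.symm c4)]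
                have : ∑ a, π a * (h (x i, x i') * h (x i', a)) =
                    h (x i, x i') * ∑ a, π a * h (x i', a) := by
                  rw [mul_sum]; exact sum_congr rfl fun a _ => by ring
                rw [this, H.mz', mul_zero]
            · simp only [if_neg c1, if_neg c3, add_zero]
              refine mean_zero_of h1 i' _ fun x => ?_
              simp only [update_self, update_of_ne (Ne.symm hi'j'), update_of_ne (Ne.symm c1),
                update_of_ne (Ne.symm c3)]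
              have : ∑ a, π a * (h (x i, x j) * h (a, x j')) =
                  h (x i, x j) * ∑ a, π a * h (a, x j') := by
                rw [mul_sum]; exact sum_congr rfl fun a _ => by ring
              rw [this, H.mz, mul_zero]
      simp only [e3, sum_add_distrib, sum_ite_eq', mem_univ, if_true]
      have : ∀ i₀ j₀ : Fin k, ∑ i', ∑ j', (if i' = i₀ then (if j' = j₀ then N else 0) else 0)
          = N := by
        intro i₀ j₀
        rw [sum_eq_single i₀]
        · simp
        · intro b _ hb; simp [hb]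
        · intro hx; exact absurd (mem_univ _) hx
      rw [this, this]; ring
  rw [e1]
  simp only [e2]
  rw [sum_ordered_pairs]; ring

/-- Weighted sum over triples. -/
def n3 (π : Ω → ℝ) (t : Ω → Ω → Ω → ℝ) : ℝ := ∑ a, ∑ b, ∑ c, π a * π b * π c * t a b c ^ 2

theorem marg3 (h1 : ∑ a, π a = 1) {i j l : Fin k} (hij : i ≠ j) (hil : i ≠ l) (hjl : j ≠ l)
    (φ : Ω → Ω → Ω → ℝ) :
    ∑ x : Fin k → Ω, prodW π x * φ (x i) (x j) (x l) =
      ∑ a, ∑ b, ∑ c, π a * π b * π c * φ a b c := by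
  have ha := resample h1 l (fun x : Fin k → Ω => φ (x i) (x j) (x l))
  simp only [update_self, update_of_ne hil, update_of_ne hjl] at ha
  rw [← ha, marg2 h1 hij (fun a b => ∑ c, π c * φ a b c), Fintype.sum_prod_type]
  refine sum_congr rfl fun a _ => sum_congr rfl fun b _ => ?_
  rw [mul_sum]; exact sum_congr rfl fun c _ => by simp only [pw]; ring

theorem cross3 (hπ : ∀ a, 0 ≤ π a) (h1 : ∑ a, π a = 1) (t : Ω → Ω → Ω → ℝ)
    (ha : ∀ b c, ∑ a, π a * t a b c = 0) (hb : ∀ a c, ∑ b, π b * t a b c = 0)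
    (hc : ∀ a b, ∑ c, π c * t a b c = 0) {i j l i' j' l' : Fin k}
    (hij : i ≠ j) (hil : i ≠ l) (hjl : j ≠ l) (hij' : i' ≠ j') (hil' : i' ≠ l') (hjl' : j' ≠ l') :
    ∑ x : Fin k → Ω, prodW π x * (t (x i) (x j) (x l) * t (x i') (x j') (x l')) ≤
      if i' ∈ ({i, j, l} : Finset (Fin k)) ∧ j' ∈ ({i, j, l} : Finset (Fin k)) ∧
        l' ∈ ({i, j, l} : Finset (Fin k)) then n3 π t else 0 := by
  split_ifs with hs
  · have e : ∀ x : Fin k → Ω, prodW π x * (t (x i) (x j) (x l) * t (x i') (x j') (x l')) ≤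
        (1/2) * (prodW π x * t (x i) (x j) (x l) ^ 2) +
        (1/2) * (prodW π x * t (x i') (x j') (x l') ^ 2) := by
      intro x
      have h2 := prodW_nonneg hπ x
      nlinarith [mul_nonneg h2 (sq_nonneg (t (x i) (x j) (x l) - t (x i') (x j') (x l')))]
    refine (sum_le_sum fun x _ => e x).trans ?_
    rw [sum_add_distrib, ← mul_sum, ← mul_sum,
      marg3 h1 hij hil hjl (fun a b c => t a b c ^ 2),
      marg3 h1 hij' hil' hjl' (fun a b c => t a b c ^ 2)]
    unfold n3
    linarith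
  · simp only [mem_insert, mem_singleton, not_and_or, not_or] at hs
    refine le_of_eq ?_
    rcases hs with ⟨c1, c2, c3⟩ | ⟨c1, c2, c3⟩ | ⟨c1, c2, c3⟩
    · refine mean_zero_of h1 i' _ fun x => ?_
      simp only [update_self, update_of_ne (Ne.symm c1), update_of_ne (Ne.symm c2),
        update_of_ne (Ne.symm c3), update_of_ne (Ne.symm hij'), update_of_ne (Ne.symm hil')]
      have : ∑ a, π a * (t (x i) (x j) (x l) * t a (x j') (x l')) =
          t (x i) (x j) (x l) * ∑ a, π a * t a (x j') (x l') := by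
        rw [mul_sum]; exact sum_congr rfl fun a _ => by ring
      rw [this, ha, mul_zero]
    · refine mean_zero_of h1 j' _ fun x => ?_
      simp only [update_self, update_of_ne (Ne.symm c1), update_of_ne (Ne.symm c2),
        update_of_ne (Ne.symm c3), update_of_ne hij', update_of_ne (Ne.symm hjl')]
      have : ∑ a, π a * (t (x i) (x j) (x l) * t (x i') a (x l')) =
          t (x i) (x j) (x l) * ∑ a, π a * t (x i') a (x l') := by
        rw [mul_sum]; exact sum_congr rfl fun a _ => by ring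
      rw [this, hb, mul_zero]
    · refine mean_zero_of h1 l' _ fun x => ?_
      simp only [update_self, update_of_ne (Ne.symm c1), update_of_ne (Ne.symm c2),
        update_of_ne (Ne.symm c3), update_of_ne hil', update_of_ne hjl']
      have : ∑ a, π a * (t (x i) (x j) (x l) * t (x i') (x j') a) =
          t (x i) (x j) (x l) * ∑ a, π a * t (x i') (x j') a := by
        rw [mul_sum]; exact sum_congr rfl fun a _ => by ring
      rw [this, hc, mul_zero]

theorem count3 {s : Finset (Fin k)} (hs : s.card = 3) (c : ℝ) :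
    (∑ i', ∑ j', ∑ l', if i' = j' ∨ i' = l' ∨ j' = l' then (0:ℝ) else
      if i' ∈ s ∧ j' ∈ s ∧ l' ∈ s then c else 0) = 6 * c := by
  have e1 : ∀ i' j' : Fin k, (∑ l', if i' = j' ∨ i' = l' ∨ j' = l' then (0:ℝ) else
      if i' ∈ s ∧ j' ∈ s ∧ l' ∈ s then c else 0) =
      if i' ∈ s ∧ j' ∈ s ∧ i' ≠ j' then c else 0 := by
    intro i' j'
    split_ifs with hh
    · obtain ⟨hi, hj, hne⟩ := hh
      have : ∀ l', (if i' = j' ∨ i' = l' ∨ j' = l' then (0:ℝ) else
          if i' ∈ s ∧ j' ∈ s ∧ l' ∈ s then c else 0) =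
          if l' ∈ (s.erase i').erase j' then c else 0 := by
        intro l'
        simp only [mem_erase, hi, hj, true_and, hne, false_or]
        by_cases a1 : i' = l'
        · subst a1; simp
        · by_cases a2 : j' = l'
          · subst a2; simp
          · simp [a1, a2, Ne.symm a1, Ne.symm a2]
      simp only [this]
      rw [← sum_filter, filter_mem_eq_inter, univ_inter, sum_const,
        card_erase_of_mem (mem_erase.2 ⟨Ne.symm hne, hj⟩), card_erase_of_mem hi, hs]
      simp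
    · refine sum_eq_zero fun l' _ => ?_
      split_ifs with h2 h3
      · rfl
      · exact absurd ⟨h3.1, h3.2.1, fun e => h2 (Or.inl e)⟩ hh
      · rfl
  simp only [e1]
  have e2 : ∀ i' : Fin k, (∑ j', if i' ∈ s ∧ j' ∈ s ∧ i' ≠ j' then c else 0) =
      if i' ∈ s then 2 * c else 0 := by
    intro i'
    split_ifs with hi
    · have : ∀ j', (if i' ∈ s ∧ j' ∈ s ∧ i' ≠ j' then c else 0) =
          if j' ∈ s.erase i' then c else 0 := by
        intro j'
        by_cases a1 : i' = j'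
        · subst a1; simp
        · simp [hi, a1, Ne.symm a1]
      simp only [this]
      rw [← sum_filter, filter_mem_eq_inter, univ_inter, sum_const, card_erase_of_mem hi, hs]
      simp
    · exact sum_eq_zero fun j' _ => if_neg fun hh => hi hh.1
  simp only [e2]
  rw [← sum_filter, filter_mem_eq_inter, univ_inter, sum_const, hs]
  simp; ring

theorem sum_ordered_triples (c : ℝ) :
    (∑ i : Fin k, ∑ j : Fin k, ∑ l : Fin k, if i = j ∨ i = l ∨ j = l then (0:ℝ) else c) =
      (k : ℝ) * ((k : ℝ) - 1) * ((k : ℝ) - 2) * c := by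
  have e1 : ∀ i j : Fin k, (∑ l : Fin k, if i = j ∨ i = l ∨ j = l then (0:ℝ) else c) =
      if i ≠ j then ((k : ℝ) - 2) * c else 0 := by
    intro i j
    by_cases hij : i = j
    · simp [hij]
    · rw [if_pos hij]
      have : ∀ l, (if i = j ∨ i = l ∨ j = l then (0:ℝ) else c) =
          if l ∈ (univ.erase i).erase j then c else 0 := by
        intro l
        by_cases a1 : i = l
        · subst a1; simp
        · by_cases a2 : j = l
          · subst a2; simp
          · simp [hij, a1, a2, Ne.symm a1, Ne.symm a2]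
      simp only [this]
      rw [← sum_filter, filter_mem_eq_inter, univ_inter, sum_const,
        card_erase_of_mem (mem_erase.2 ⟨Ne.symm hij, mem_univ _⟩),
        card_erase_of_mem (mem_univ _), card_univ, Fintype.card_fin, nsmul_eq_mul]
      have hk : 2 ≤ k := by
        have h1 := i.2; have h2 := j.2
        by_contra hlt
        apply hij; apply Fin.ext; omega
      rw [show k - 1 - 1 = k - 2 by omega, Nat.cast_sub hk]; simp
  simp only [e1]
  rw [sum_ordered_pairs]; ring

theorem ip_S3_le (hπ : ∀ a, 0 ≤ π a) (h1 : ∑ a, π a = 1) (t : Ω → Ω → Ω → ℝ)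
    (ha : ∀ b c, ∑ a, π a * t a b c = 0) (hb : ∀ a c, ∑ b, π b * t a b c = 0)
    (hc : ∀ a b, ∑ c, π c * t a b c = 0) :
    ip (prodW π) (S3 (k := k) t) (S3 t) ≤
      6 * ((k : ℝ) * ((k : ℝ) - 1) * ((k : ℝ) - 2)) * n3 π t := by
  have e1 : ip (prodW π) (S3 (k := k) t) (S3 t) =
      ∑ i : Fin k, ∑ j : Fin k, ∑ l : Fin k, ∑ i' : Fin k, ∑ j' : Fin k, ∑ l' : Fin k,
        ∑ x : Fin k → Ω, prodW π x *
        ((if i = j ∨ i = l ∨ j = l then 0 else t (x i) (x j) (x l)) *
         (if i' = j' ∨ i' = l' ∨ j' = l' then 0 else t (x i') (x j') (x l'))) := by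
    unfold ip S3
    have : ∀ x : Fin k → Ω,
        prodW π x * (∑ i, ∑ j, ∑ l, if i = j ∨ i = l ∨ j = l then 0 else t (x i) (x j) (x l)) *
        (∑ i, ∑ j, ∑ l, if i = j ∨ i = l ∨ j = l then 0 else t (x i) (x j) (x l)) =
        ∑ i, ∑ j, ∑ l, ∑ i', ∑ j', ∑ l', prodW π x *
        ((if i = j ∨ i = l ∨ j = l then 0 else t (x i) (x j) (x l)) *
         (if i' = j' ∨ i' = l' ∨ j' = l' then 0 else t (x i') (x j') (x l'))) := by
      intro x
      rw [mul_assoc, sum_mul, mul_sum]
      refine sum_congr rfl fun i _ => ?_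
      rw [sum_mul, mul_sum]
      refine sum_congr rfl fun j _ => ?_
      rw [sum_mul, mul_sum]
      refine sum_congr rfl fun l _ => ?_
      rw [mul_sum, mul_sum]
      refine sum_congr rfl fun i' _ => ?_
      rw [mul_sum, mul_sum]
      refine sum_congr rfl fun j' _ => ?_
      rw [mul_sum, mul_sum]
    simp only [this]
    rw [sum_comm]
    refine sum_congr rfl fun i _ => ?_
    rw [sum_comm]
    refine sum_congr rfl fun j _ => ?_
    rw [sum_comm]
    refine sum_congr rfl fun l _ => ?_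
    rw [sum_comm]
    refine sum_congr rfl fun i' _ => ?_
    rw [sum_comm]
    refine sum_congr rfl fun j' _ => ?_
    rw [sum_comm]
  rw [e1]
  have e2 : ∀ i j l : Fin k, (∑ i', ∑ j', ∑ l', ∑ x, prodW π x *
        ((if i = j ∨ i = l ∨ j = l then 0 else t (x i) (x j) (x l)) *
         (if i' = j' ∨ i' = l' ∨ j' = l' then 0 else t (x i') (x j') (x l')))) ≤
      if i = j ∨ i = l ∨ j = l then 0 else 6 * n3 π t := by
    intro i j l
    by_cases hd : i = j ∨ i = l ∨ j = l
    · simp [hd]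
    · rw [if_neg hd]
      simp only [if_neg hd]
      have hd' := hd
      push Not at hd'
      obtain ⟨hij, hil, hjl⟩ := hd'
      have hcard : ({i, j, l} : Finset (Fin k)).card = 3 := by
        rw [card_insert_of_notMem (by simp [hij, hil]), card_insert_of_notMem (by simp [hjl]),
          card_singleton]
      rw [← count3 hcard (n3 π t)]
      refine sum_le_sum fun i' _ => sum_le_sum fun j' _ => sum_le_sum fun l' _ => ?_
      by_cases hd2 : i' = j' ∨ i' = l' ∨ j' = l'
      · simp [hd2]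
      · simp only [if_neg hd2]
        push Not at hd2
        exact cross3 hπ h1 t ha hb hc hij hil hjl hd2.1 hd2.2.1 hd2.2.2
  calc _ ≤ ∑ i : Fin k, ∑ j : Fin k, ∑ l : Fin k,
        (if i = j ∨ i = l ∨ j = l then (0:ℝ) else 6 * n3 π t) :=
        sum_le_sum fun i _ => sum_le_sum fun j _ => sum_le_sum fun l _ => e2 i j l
    _ = _ := by rw [sum_ordered_triples]; ring

end Crest.Agent.R304.Pop
end
end

-- ▼ part R304/PopEnergy
section

/-!
# R304 / S0464, block L4: coercivity of the population kernel on `S1 f` and `S2 h`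
-/

set_option autoImplicit false
set_option linter.unusedSectionVars false

noncomputable section

namespace Crest.Agent.R304.Pop

open Finset Function

variable {Ω : Type*} [Fintype Ω] [DecidableEq Ω] {k : ℕ}
variable {π : Ω → ℝ} {K : Ω × Ω → Ω × Ω → ℝ} {γ : ℝ}

theorem k_pos_aux (hk : 2 ≤ k) : (0:ℝ) < (k:ℝ) * ((k:ℝ) - 1) := by
  have hkr : (2:ℝ) ≤ k := by exact_mod_cast hk
  exact mul_pos (by linarith) (by linarith)

theorem energy_popK (hk : 2 ≤ k) (h1 : ∑ a, π a = 1) (F : (Fin k → Ω) → ℝ) :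
    ip (prodW π) F (F - op (popK K) F) =
      (∑ p, ∑ q, if p ≠ q then
        ∑ x, prodW π x * ip (pw π) (sl p q F x) (sl p q F x - op K (sl p q F x)) else 0)
        / ((k : ℝ) * ((k : ℝ) - 1)) := by
  have hk' := (k_pos_aux hk).ne'
  rw [ip_sub_right, ip_popK h1, eq_div_iff hk', sub_mul, div_mul_cancel₀ _ hk', mul_comm,
    ← sum_ordered_pairs, ← sum_sub_distrib]
  refine sum_congr rfl fun p _ => ?_
  rw [← sum_sub_distrib]
  refine sum_congr rfl fun q _ => ?_
  split_ifs
  · rw [ip_slice h1 p q, ← sum_sub_distrib]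
    exact sum_congr rfl fun x _ => by rw [ip_sub_right]; ring
  · ring

theorem RevPsd.energy_congr {X : Type*} [Fintype X] {w : X → ℝ} {K : X → X → ℝ}
    (h : RevPsd w K) {F G : X → ℝ} (c : ℝ) (hFG : ∀ x, F x = G x + c) :
    ip w F (F - op K F) = ip w G (G - op K G) := by
  rw [h.dirichlet, h.dirichlet]
  congr 1
  exact sum_congr rfl fun x _ => sum_congr rfl fun y _ => by rw [hFG, hFG]; ring

/-- The indices different from `p`, `q`. -/
def rest (p q : Fin k) : Finset (Fin k) := (univ.erase p).erase q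

theorem mem_rest {p q i : Fin k} : i ∈ rest p q ↔ i ≠ q ∧ i ≠ p := by
  simp [rest]

theorem card_rest {p q : Fin k} (hpq : p ≠ q) : ((rest p q).card : ℝ) = (k:ℝ) - 2 := by
  have hk : 2 ≤ k := by
    have h1 := p.2; have h2 := q.2
    by_contra hlt
    apply hpq; apply Fin.ext; omega
  rw [rest, card_erase_of_mem (mem_erase.2 ⟨Ne.symm hpq, mem_univ _⟩),
    card_erase_of_mem (mem_univ _), card_univ, Fintype.card_fin,
    show k - 1 - 1 = k - 2 by omega, Nat.cast_sub hk]
  simp

theorem sum_split {p q : Fin k} (hpq : p ≠ q) (G : Fin k → ℝ) :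
    ∑ i, G i = G p + G q + ∑ i ∈ rest p q, G i := by
  rw [rest, ← add_sum_erase univ G (mem_univ p),
    ← add_sum_erase (univ.erase p) G (mem_erase.2 ⟨Ne.symm hpq, mem_univ q⟩)]
  ring

/-- Two-variable additive function. -/
def dbl (f : Ω → ℝ) (z : Ω × Ω) : ℝ := f z.1 + f z.2

theorem sl_S1 {p q : Fin k} (hpq : p ≠ q) (f : Ω → ℝ) (x : Fin k → Ω) (z : Ω × Ω) :
    sl p q (S1 f) x z = dbl f z + ∑ i ∈ rest p q, f (x i) := by
  unfold sl S1 dbl
  rw [sum_split hpq, upd2_fst hpq, upd2_snd]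
  congr 1
  refine sum_congr rfl fun i hi => ?_
  rw [mem_rest] at hi
  rw [upd2_ne hi.2 hi.1]

/-- The mean field felt by `p`, `q`. -/
def psi (h : Ω × Ω → ℝ) (p q : Fin k) (x : Fin k → Ω) (a : Ω) : ℝ :=
  2 * ∑ l ∈ rest p q, h (a, x l)

theorem sl_S2 {p q : Fin k} (hpq : p ≠ q) {h : Ω × Ω → ℝ} (hs : ∀ a b, h (a, b) = h (b, a))
    (x : Fin k → Ω) (z : Ω × Ω) :
    sl p q (S2 h) x z = 2 * h z + dbl (psi h p q x) z +
      ∑ i ∈ rest p q, ∑ j ∈ rest p q, if i = j then 0 else h (x i, x j) := by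
  obtain ⟨a, b⟩ := z
  unfold sl S2
  set y := upd2 p q x (a, b) with hy
  have yp : y p = a := upd2_fst hpq x (a, b)
  have yq : y q = b := upd2_snd x (a, b)
  have yr : ∀ i ∈ rest p q, y i = x i := by
    intro i hi; rw [mem_rest] at hi; exact upd2_ne hi.2 hi.1 x (a, b)
  rw [sum_split hpq]
  have rp : (∑ j, if p = j then 0 else h (y p, y j)) = h (a, b) + ∑ l ∈ rest p q, h (a, x l) := by
    rw [sum_split hpq]
    simp only [if_true, if_neg hpq, yp, yq, zero_add]
    congr 1
    refine sum_congr rfl fun l hl => ?_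
    have hl' := mem_rest.1 hl
    rw [if_neg (Ne.symm hl'.2), yr l hl]
  have rq : (∑ j, if q = j then 0 else h (y q, y j)) = h (a, b) + ∑ l ∈ rest p q, h (b, x l) := by
    rw [sum_split hpq]
    simp only [if_true, if_neg (Ne.symm hpq), yp, yq, add_zero]
    rw [hs b a]
    congr 1
    refine sum_congr rfl fun l hl => ?_
    have hl' := mem_rest.1 hl
    rw [if_neg (Ne.symm hl'.1), yr l hl]
  have rr : ∀ i ∈ rest p q, (∑ j, if i = j then 0 else h (y i, y j)) =
      h (a, x i) + h (b, x i) + ∑ j ∈ rest p q, if i = j then 0 else h (x i, x j) := by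
    intro i hi
    have hi' := mem_rest.1 hi
    rw [sum_split hpq, if_neg hi'.2, if_neg hi'.1, yp, yq, yr i hi, hs (x i) a, hs (x i) b]
    congr 1
    refine sum_congr rfl fun j hj => ?_
    rw [yr j hj]
  rw [rp, rq, sum_congr rfl rr, sum_add_distrib, sum_add_distrib]
  unfold dbl psi
  ring

theorem psi_mz {h : Ω × Ω → ℝ} (H : Can π h) (p q : Fin k) (x : Fin k → Ω) :
    ∑ a, π a * psi h p q x a = 0 := by
  unfold psi
  have : ∀ a, π a * (2 * ∑ l ∈ rest p q, h (a, x l)) =
      2 * ∑ l ∈ rest p q, π a * h (a, x l) := by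
    intro a; rw [mul_left_comm, mul_sum]
  simp only [this]
  rw [← mul_sum, sum_comm]
  simp only [H.mz, sum_const_zero, mul_zero]

theorem psi_norm (h1 : ∑ a, π a = 1) {h : Ω × Ω → ℝ} (H : Can π h) {p q : Fin k} (hpq : p ≠ q) :
    ∑ x : Fin k → Ω, prodW π x * ∑ a, π a * psi h p q x a ^ 2 =
      4 * ((k:ℝ) - 2) * ip (pw π) h h := by
  have e1 : ∀ a, ∑ x : Fin k → Ω, prodW π x * psi h p q x a ^ 2 =
      4 * ((k:ℝ) - 2) * ∑ b, π b * h (a, b) ^ 2 := by
    intro a
    have e2 : ∀ x : Fin k → Ω, prodW π x * psi h p q x a ^ 2 =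
        4 * ∑ l ∈ rest p q, ∑ l' ∈ rest p q, prodW π x * (h (a, x l) * h (a, x l')) := by
      intro x
      unfold psi
      rw [mul_pow, sq (∑ l ∈ rest p q, h (a, x l)), sum_mul_sum]
      rw [show (2:ℝ) ^ 2 = 4 by norm_num, mul_left_comm, mul_sum]
      congr 1
      refine sum_congr rfl fun l _ => ?_
      rw [mul_sum]
    simp only [e2]
    rw [← mul_sum, sum_comm]
    have e3 : ∀ l ∈ rest p q, ∑ x : Fin k → Ω, ∑ l' ∈ rest p q,
        prodW π x * (h (a, x l) * h (a, x l')) = ∑ b, π b * h (a, b) ^ 2 := by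
      intro l hl
      rw [sum_comm]
      rw [sum_eq_single_of_mem l hl]
      · rw [marg1 h1 l (fun b => h (a, b) * h (a, b))]
        exact sum_congr rfl fun b _ => by ring
      · intro l' _ hne
        refine mean_zero_of h1 l' _ fun x => ?_
        simp only [update_self, update_of_ne (Ne.symm hne)]
        have : ∑ b, π b * (h (a, x l) * h (a, b)) = h (a, x l) * ∑ b, π b * h (a, b) := by
          rw [mul_sum]; exact sum_congr rfl fun b _ => by ring
        rw [this, H.mz', mul_zero]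
    rw [sum_congr rfl e3, sum_const, nsmul_eq_mul, card_rest hpq]; ring
  calc ∑ x : Fin k → Ω, prodW π x * ∑ a, π a * psi h p q x a ^ 2
      = ∑ a, π a * ∑ x : Fin k → Ω, prodW π x * psi h p q x a ^ 2 := by
        simp only [mul_sum]
        rw [sum_comm]
        exact sum_congr rfl fun a _ => sum_congr rfl fun x _ => by ring
    _ = ∑ a, π a * (4 * ((k:ℝ) - 2) * ∑ b, π b * h (a, b) ^ 2) := by simp only [e1]
    _ = 4 * ((k:ℝ) - 2) * ip (pw π) h h := by
        unfold ip pw
        rw [Fintype.sum_prod_type, mul_sum]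
        refine sum_congr rfl fun a _ => ?_
        rw [mul_sum, mul_sum, mul_sum]
        exact sum_congr rfl fun b _ => by simp only; ring

/-- The gap in terms of `dbl`. -/
theorem GoodKernel.gap_dbl (h : GoodKernel π K γ) (hπ : ∀ a, 0 ≤ π a) {f : Ω → ℝ}
    (hf : Mz π f) :
    2 * γ * ∑ a, π a * f a ^ 2 ≤ ip (pw π) (dbl f) (dbl f - op K (dbl f)) := by
  rw [(h.revPsd hπ).dirichlet]
  exact h.gap f hf

/-- Coercivity on `S1`. -/
theorem coer1 (hk : 2 ≤ k) (h1 : ∑ a, π a = 1) (hπ : ∀ a, 0 ≤ π a) (h : GoodKernel π K γ)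
    {f : Ω → ℝ} (hf : Mz π f) :
    2 * γ * ip π f f ≤ ip (prodW π) (S1 (k := k) f) (S1 f - op (popK K) (S1 f)) := by
  rw [energy_popK hk h1, le_div_iff₀ (k_pos_aux hk), mul_comm, ← sum_ordered_pairs]
  refine sum_le_sum fun p _ => sum_le_sum fun q _ => ?_
  split_ifs with hpq
  · have e : ∀ x : Fin k → Ω, 2 * γ * ip π f f ≤
        ip (pw π) (sl p q (S1 f) x) (sl p q (S1 f) x - op K (sl p q (S1 f) x)) := by
      intro x
      rw [(h.revPsd hπ).energy_congr _ (sl_S1 hpq f x)]
      refine le_trans (le_of_eq ?_) (h.gap_dbl hπ hf)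
      unfold ip; congr 1; exact sum_congr rfl fun a _ => by ring
    calc 2 * γ * ip π f f = ∑ x : Fin k → Ω, prodW π x * (2 * γ * ip π f f) := by
          rw [← sum_mul, sum_prodW h1, one_mul]
      _ ≤ _ := sum_le_sum fun x _ => mul_le_mul_of_nonneg_left (e x) (prodW_nonneg hπ x)
  · exact le_rfl

/-- Coercivity on `S2`. -/
theorem coer2 (hk : 2 ≤ k) (h1 : ∑ a, π a = 1) (hπ : ∀ a, 0 ≤ π a) (hK : GoodKernel π K γ)
    {h : Ω × Ω → ℝ} (H : Can π h) :
    4 * (γ * ((k:ℝ) - 2) - 1) * ip (pw π) h h ≤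
      ip (prodW π) (S2 (k := k) h) (S2 h - op (popK K) (S2 h)) := by
  have hR := hK.revPsd hπ
  rw [energy_popK hk h1, le_div_iff₀ (k_pos_aux hk), mul_comm, ← sum_ordered_pairs]
  refine sum_le_sum fun p _ => sum_le_sum fun q _ => ?_
  split_ifs with hpq
  · have e : ∀ x : Fin k → Ω, γ * (∑ a, π a * psi h p q x a ^ 2) - 4 * ip (pw π) h h ≤
        ip (pw π) (sl p q (S2 h) x) (sl p q (S2 h) x - op K (sl p q (S2 h) x)) := by
      intro x
      rw [hR.energy_congr (G := (2:ℝ) • h + dbl (psi h p q x))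
        (∑ i ∈ rest p q, ∑ j ∈ rest p q, if i = j then 0 else h (x i, x j)) (fun z => by
        rw [sl_S2 hpq H.symm]; simp)]
      have a1 := hR.dirichlet_le_two ((2:ℝ) • h) (dbl (psi h p q x))
      have a2 := hK.gap_dbl hπ (psi_mz H p q x)
      have a3 := hR.dirichlet_le ((2:ℝ) • h)
      rw [ip_smul_left ((pw π)) h ((2:ℝ) • h), ip_smul_right] at a3
      linarith
    calc 4 * (γ * ((k:ℝ) - 2) - 1) * ip (pw π) h h
        = ∑ x : Fin k → Ω, prodW π x *
          (γ * (∑ a, π a * psi h p q x a ^ 2) - 4 * ip (pw π) h h) := by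
          have : ∀ x : Fin k → Ω, prodW π x *
              (γ * (∑ a, π a * psi h p q x a ^ 2) - 4 * ip (pw π) h h) =
              γ * (prodW π x * ∑ a, π a * psi h p q x a ^ 2) -
              prodW π x * (4 * ip (pw π) h h) := by intro x; ring
          simp only [this]
          rw [sum_sub_distrib, ← mul_sum, ← sum_mul, psi_norm h1 H hpq, sum_prodW h1]; ring
      _ ≤ _ := sum_le_sum fun x _ => mul_le_mul_of_nonneg_left (e x) (prodW_nonneg hπ x)
  · exact le_rfl

end Crest.Agent.R304.Pop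
end
end

-- ▼ part R304/PopDecomp
section

/-!
# R304 / S0464, block L4: Hoeffding decomposition of `P (S1 f)` and `P (S2 h)`
-/

set_option autoImplicit false
set_option linter.unusedSectionVars false

noncomputable section

namespace Crest.Agent.R304.Pop

open Finset Function

variable {Ω : Type*} [Fintype Ω] [DecidableEq Ω] {k : ℕ}
variable {π : Ω → ℝ} {K : Ω × Ω → Ω × Ω → ℝ} {γ : ℝ}

/-- First marginal. -/
def m1 (π : Ω → ℝ) (g : Ω × Ω → ℝ) (a : Ω) : ℝ := ∑ b, π b * g (a, b)
/-- Second marginal. -/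
def m2 (π : Ω → ℝ) (g : Ω × Ω → ℝ) (b : Ω) : ℝ := ∑ a, π a * g (a, b)
/-- Canonical part. -/
def g0 (π : Ω → ℝ) (g : Ω × Ω → ℝ) (z : Ω × Ω) : ℝ := g z - m1 π g z.1 - m2 π g z.2
/-- Symmetrisation. -/
def sy (g : Ω × Ω → ℝ) (z : Ω × Ω) : ℝ := (g z + g (z.2, z.1)) / 2

/-- Mean zero for `π × π`. -/
def Mz2 (π : Ω → ℝ) (g : Ω × Ω → ℝ) : Prop := ∑ z, pw π z * g z = 0

theorem mz_m1 {g : Ω × Ω → ℝ} (hg : Mz2 π g) : Mz π (m1 π g) := by
  unfold Mz m1
  unfold Mz2 pw at hg
  rw [Fintype.sum_prod_type] at hg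
  rw [← hg]
  refine sum_congr rfl fun a _ => ?_
  rw [mul_sum]; exact sum_congr rfl fun b _ => by ring

theorem mz_m2 {g : Ω × Ω → ℝ} (hg : Mz2 π g) : Mz π (m2 π g) := by
  unfold Mz m2
  unfold Mz2 pw at hg
  rw [Fintype.sum_prod_type, sum_comm] at hg
  rw [← hg]
  refine sum_congr rfl fun a _ => ?_
  rw [mul_sum]; exact sum_congr rfl fun b _ => by ring

theorem g0_mz1 (h1 : ∑ a, π a = 1) {g : Ω × Ω → ℝ} (hg : Mz2 π g) (b : Ω) :
    ∑ a, π a * g0 π g (a, b) = 0 := by
  unfold g0
  have : ∀ a, π a * (g (a, b) - m1 π g a - m2 π g b) =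
      π a * g (a, b) - π a * m1 π g a - π a * m2 π g b := by intro a; ring
  simp only [this]
  rw [sum_sub_distrib, sum_sub_distrib, ← sum_mul, h1, mz_m1 hg]
  simp [m2]

theorem g0_mz2 (h1 : ∑ a, π a = 1) {g : Ω × Ω → ℝ} (hg : Mz2 π g) (a : Ω) :
    ∑ b, π b * g0 π g (a, b) = 0 := by
  unfold g0
  have : ∀ b, π b * (g (a, b) - m1 π g a - m2 π g b) =
      π b * g (a, b) - π b * m1 π g a - π b * m2 π g b := by intro a; ring
  simp only [this]
  rw [sum_sub_distrib, sum_sub_distrib, ← sum_mul, h1, mz_m2 hg]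
  simp [m1]

theorem ip_decomp (h1 : ∑ a, π a = 1) {g : Ω × Ω → ℝ} (hg : Mz2 π g) :
    ip (pw π) g g = ip π (m1 π g) (m1 π g) + ip π (m2 π g) (m2 π g)
      + ip (pw π) (g0 π g) (g0 π g) := by
  have c1 : ∑ a, ∑ b, π a * π b * (m1 π g a * m1 π g a) = ip π (m1 π g) (m1 π g) := by
    unfold ip
    refine sum_congr rfl fun a _ => ?_
    have : ∀ b, π a * π b * (m1 π g a * m1 π g a) = π b * (π a * m1 π g a * m1 π g a) := by
      intro b; ring
    simp only [this]
    rw [← sum_mul, h1, one_mul]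
  have c2 : ∑ a, ∑ b, π a * π b * (m2 π g b * m2 π g b) = ip π (m2 π g) (m2 π g) := by
    unfold ip
    rw [sum_comm]
    refine sum_congr rfl fun b _ => ?_
    have : ∀ a, π a * π b * (m2 π g b * m2 π g b) = π a * (π b * m2 π g b * m2 π g b) := by
      intro a; ring
    simp only [this]
    rw [← sum_mul, h1, one_mul]
  have c3 : ∑ a, ∑ b, π a * π b * (m1 π g a * g0 π g (a, b)) = 0 := by
    refine sum_eq_zero fun a _ => ?_
    have : ∀ b, π a * π b * (m1 π g a * g0 π g (a, b)) =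
        π a * m1 π g a * (π b * g0 π g (a, b)) := by intro b; ring
    simp only [this]
    rw [← mul_sum, g0_mz2 h1 hg, mul_zero]
  have c4 : ∑ a, ∑ b, π a * π b * (m2 π g b * g0 π g (a, b)) = 0 := by
    rw [sum_comm]
    refine sum_eq_zero fun b _ => ?_
    have : ∀ a, π a * π b * (m2 π g b * g0 π g (a, b)) =
        π b * m2 π g b * (π a * g0 π g (a, b)) := by intro a; ring
    simp only [this]
    rw [← mul_sum, g0_mz1 h1 hg, mul_zero]
  have c5 : ∑ a, ∑ b, π a * π b * (m1 π g a * m2 π g b) = 0 := by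
    refine sum_eq_zero fun a _ => ?_
    have : ∀ b, π a * π b * (m1 π g a * m2 π g b) =
        π a * m1 π g a * (π b * m2 π g b) := by intro b; ring
    simp only [this]
    rw [← mul_sum, mz_m2 hg, mul_zero]
  have key : ip (pw π) g g = ∑ a, ∑ b, π a * π b * (m1 π g a * m1 π g a) +
      ∑ a, ∑ b, π a * π b * (m2 π g b * m2 π g b) + ip (pw π) (g0 π g) (g0 π g) +
      2 * ∑ a, ∑ b, π a * π b * (m1 π g a * g0 π g (a, b)) +
      2 * ∑ a, ∑ b, π a * π b * (m2 π g b * g0 π g (a, b)) +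
      2 * ∑ a, ∑ b, π a * π b * (m1 π g a * m2 π g b) := by
    unfold ip pw
    rw [Fintype.sum_prod_type, Fintype.sum_prod_type]
    simp only [mul_sum, ← sum_add_distrib]
    refine sum_congr rfl fun a _ => sum_congr rfl fun b _ => ?_
    unfold g0
    ring
  rw [key, c1, c2, c3, c4, c5]; ring

theorem ip_m1_le (h1 : ∑ a, π a = 1) (hπ : ∀ a, 0 ≤ π a) {g : Ω × Ω → ℝ} (hg : Mz2 π g) :
    ip π (m1 π g) (m1 π g) + ip π (m2 π g) (m2 π g) ≤ ip (pw π) g g := by
  rw [ip_decomp h1 hg]
  have := ip_self_nonneg (w := pw π) (fun z => mul_nonneg (hπ _) (hπ _)) (g0 π g)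
  linarith

theorem ip_g0_le (h1 : ∑ a, π a = 1) (hπ : ∀ a, 0 ≤ π a) {g : Ω × Ω → ℝ} (hg : Mz2 π g) :
    ip (pw π) (g0 π g) (g0 π g) ≤ ip (pw π) g g := by
  rw [ip_decomp h1 hg]
  have := ip_self_nonneg hπ (m1 π g)
  have := ip_self_nonneg hπ (m2 π g)
  linarith

theorem ip_swap (g : Ω × Ω → ℝ) :
    ip (pw π) (fun z => g (z.2, z.1)) (fun z => g (z.2, z.1)) = ip (pw π) g g := by
  unfold ip pw
  rw [← Equiv.sum_comp (Equiv.prodComm Ω Ω) (fun z : Ω × Ω => π z.1 * π z.2 * g z * g z)]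
  refine sum_congr rfl fun z _ => ?_
  obtain ⟨a, b⟩ := z
  simp only [Equiv.prodComm_apply, Prod.swap_prod_mk]
  ring

theorem ip_sy_le (hπ : ∀ a, 0 ≤ π a) (g : Ω × Ω → ℝ) :
    ip (pw π) (sy g) (sy g) ≤ ip (pw π) g g := by
  have e : ip (pw π) (sy g) (sy g) ≤
      (1/2) * ip (pw π) g g + (1/2) * ip (pw π) (fun z => g (z.2, z.1)) (fun z => g (z.2, z.1)) := by
    unfold ip sy
    rw [mul_sum, mul_sum, ← sum_add_distrib]
    refine sum_le_sum fun z _ => ?_
    have : 0 ≤ pw π z := mul_nonneg (hπ _) (hπ _)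
    nlinarith [mul_nonneg this (sq_nonneg (g z - g (z.2, z.1)))]
  rw [ip_swap] at e; linarith

theorem can_sy {g : Ω × Ω → ℝ} (ha : ∀ b, ∑ a, π a * g (a, b) = 0)
    (hb : ∀ a, ∑ b, π b * g (a, b) = 0) : Can π (sy g) where
  symm := fun a b => by unfold sy; ring
  mz := fun b => by
    unfold sy
    have : ∀ a, π a * ((g (a, b) + g (b, a)) / 2) = (π a * g (a, b) + π a * g (b, a)) / 2 := by
      intro a; ring
    simp only [this]
    rw [← sum_div, sum_add_distrib, ha, hb]; simp

theorem Can.smul {h : Ω × Ω → ℝ} (H : Can π h) (c : ℝ) : Can π (c • h) where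
  symm := fun a b => by simp [H.symm a b]
  mz := fun b => by
    have : ∀ a, π a * (c • h) (a, b) = c * (π a * h (a, b)) := by
      intro a; simp only [Pi.smul_apply, smul_eq_mul]; ring
    simp only [this]
    rw [← mul_sum, H.mz, mul_zero]

theorem Can.add {h h' : Ω × Ω → ℝ} (H : Can π h) (H' : Can π h') : Can π (h + h') where
  symm := fun a b => by simp [H.symm a b, H'.symm a b]
  mz := fun b => by
    have : ∀ a, π a * (h + h') (a, b) = π a * h (a, b) + π a * h' (a, b) := by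
      intro a; simp only [Pi.add_apply]; ring
    simp only [this]
    rw [sum_add_distrib, H.mz, H'.mz, add_zero]

theorem Mz.smul {f : Ω → ℝ} (H : Mz π f) (c : ℝ) : Mz π (c • f) := by
  unfold Mz at *
  have : ∀ a, π a * (c • f) a = c * (π a * f a) := by
    intro a; simp only [Pi.smul_apply, smul_eq_mul]; ring
  simp only [this]
  rw [← mul_sum, H, mul_zero]

theorem Mz.add {f g : Ω → ℝ} (H : Mz π f) (H' : Mz π g) : Mz π (f + g) := by
  unfold Mz at *
  have : ∀ a, π a * (f + g) a = π a * f a + π a * g a := by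
    intro a; simp only [Pi.add_apply]; ring
  simp only [this]
  rw [sum_add_distrib, H, H', add_zero]

/-! ### linearity of the symmetric sums -/

theorem S1_add (f g : Ω → ℝ) : S1 (k := k) (f + g) = S1 f + S1 g := by
  funext x; simp only [S1, Pi.add_apply, sum_add_distrib]

theorem S1_smul (c : ℝ) (f : Ω → ℝ) : S1 (k := k) (c • f) = c • S1 f := by
  funext x; simp only [S1, Pi.smul_apply, smul_eq_mul, mul_sum]

theorem S2_add (f g : Ω × Ω → ℝ) : S2 (k := k) (f + g) = S2 f + S2 g := by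
  funext x; simp only [S2, Pi.add_apply]
  rw [← sum_add_distrib]; refine sum_congr rfl fun i _ => ?_
  rw [← sum_add_distrib]; refine sum_congr rfl fun j _ => ?_
  split_ifs <;> simp

theorem S2_smul (c : ℝ) (f : Ω × Ω → ℝ) : S2 (k := k) (c • f) = c • S2 f := by
  funext x; simp only [S2, Pi.smul_apply, smul_eq_mul, mul_sum]
  refine sum_congr rfl fun i _ => sum_congr rfl fun j _ => ?_
  split_ifs <;> simp

theorem S2_sy (g : Ω × Ω → ℝ) : S2 (k := k) (sy g) = S2 g := by
  funext x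
  have e1 : S2 (sy g) x = (1/2) * S2 g x + (1/2) * ∑ i, ∑ j, if i = j then 0 else g (x j, x i) := by
    unfold S2
    rw [mul_sum, mul_sum, ← sum_add_distrib]
    refine sum_congr rfl fun i _ => ?_
    rw [mul_sum, mul_sum, ← sum_add_distrib]
    refine sum_congr rfl fun j _ => ?_
    split_ifs
    · simp
    · unfold sy; ring
  have e2 : (∑ i, ∑ j, if i = j then 0 else g (x j, x i)) = S2 g x := by
    unfold S2
    rw [sum_comm]
    refine sum_congr rfl fun i _ => sum_congr rfl fun j _ => ?_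
    by_cases h : i = j
    · subst h; simp
    · rw [if_neg h, if_neg (Ne.symm h)]
  rw [e1, e2]; ring

theorem sum_ite_ne (i : Fin k) (c : ℝ) : (∑ j, if i = j then 0 else c) = ((k:ℝ) - 1) * c := by
  have : ∀ j, (if i = j then 0 else c) = c - (if i = j then c else 0) := by
    intro j; split_ifs <;> simp
  simp only [this]
  rw [sum_sub_distrib, sum_const, card_univ, Fintype.card_fin, nsmul_eq_mul]
  simp; ring

theorem S2_decomp (g : Ω × Ω → ℝ) :
    S2 (k := k) g = ((k:ℝ) - 1) • S1 (m1 π g + m2 π g) + S2 (g0 π g) := by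
  funext x
  have e1 : S2 g x = (∑ i, ∑ j, if i = j then 0 else m1 π g (x i)) +
      (∑ i, ∑ j, if i = j then 0 else m2 π g (x j)) + S2 (g0 π g) x := by
    unfold S2
    rw [← sum_add_distrib, ← sum_add_distrib]
    refine sum_congr rfl fun i _ => ?_
    rw [← sum_add_distrib, ← sum_add_distrib]
    refine sum_congr rfl fun j _ => ?_
    split_ifs
    · simp
    · unfold g0; ring
  have e2 : (∑ i, ∑ j, if i = j then 0 else m2 π g (x j)) =
      ∑ i, ∑ j, if i = j then 0 else m2 π g (x i) := by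
    rw [sum_comm]
    refine sum_congr rfl fun i _ => sum_congr rfl fun j _ => ?_
    by_cases h : i = j
    · subst h; simp
    · rw [if_neg h, if_neg (Ne.symm h)]
  rw [e1, e2]
  simp only [sum_ite_ne, Pi.add_apply, Pi.smul_apply, smul_eq_mul, S1, mul_sum, mul_add,
    sum_add_distrib]

theorem S3_split (t : Ω → Ω → Ω → ℝ) (u v : Ω × Ω → ℝ) (w : Ω → Ω → Ω → ℝ)
    (ht : ∀ a b c, t a b c = u (a, c) + v (b, c) + w a b c) :
    S3 (k := k) t = ((k:ℝ) - 2) • S2 (u + v) + S3 w := by
  funext x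
  have e1 : S3 t x = (∑ i, ∑ j, ∑ l, if i = j ∨ i = l ∨ j = l then 0 else u (x i, x l)) +
      (∑ i, ∑ j, ∑ l, if i = j ∨ i = l ∨ j = l then 0 else v (x j, x l)) + S3 w x := by
    unfold S3
    rw [← sum_add_distrib, ← sum_add_distrib]
    refine sum_congr rfl fun i _ => ?_
    rw [← sum_add_distrib, ← sum_add_distrib]
    refine sum_congr rfl fun j _ => ?_
    rw [← sum_add_distrib, ← sum_add_distrib]
    refine sum_congr rfl fun l _ => ?_
    split_ifs
    · simp
    · rw [ht]
  have e2 : (∑ i, ∑ j, ∑ l, if i = j ∨ i = l ∨ j = l then 0 else u (x i, x l)) =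
      ((k:ℝ) - 2) * S2 u x := by
    unfold S2
    rw [mul_sum]
    refine sum_congr rfl fun i _ => ?_
    rw [sum_comm, mul_sum]
    refine sum_congr rfl fun l _ => ?_
    by_cases hil : i = l
    · simp [hil]
    · rw [if_neg hil]
      have : ∀ j, (if i = j ∨ i = l ∨ j = l then 0 else u (x i, x l)) =
          if j ∈ rest i l then u (x i, x l) else 0 := by
        intro j
        simp only [mem_rest]
        by_cases c1 : i = j
        · subst c1; simp
        · by_cases c2 : j = l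
          · subst c2; simp
          · simp [c1, hil, c2, Ne.symm c1]
      simp only [this]
      rw [← sum_filter, filter_mem_eq_inter, univ_inter, sum_const, nsmul_eq_mul, card_rest hil]
  have e3 : (∑ i, ∑ j, ∑ l, if i = j ∨ i = l ∨ j = l then 0 else v (x j, x l)) =
      ((k:ℝ) - 2) * S2 v x := by
    unfold S2
    rw [sum_comm, mul_sum]
    refine sum_congr rfl fun j _ => ?_
    rw [sum_comm, mul_sum]
    refine sum_congr rfl fun l _ => ?_
    by_cases hil : j = l
    · simp [hil]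
    · rw [if_neg hil]
      have : ∀ i, (if i = j ∨ i = l ∨ j = l then 0 else v (x j, x l)) =
          if i ∈ rest j l then v (x j, x l) else 0 := by
        intro i
        simp only [mem_rest]
        by_cases c1 : i = j
        · subst c1; simp
        · by_cases c2 : i = l
          · subst c2; simp
          · simp [c1, hil, c2]
      simp only [this]
      rw [← sum_filter, filter_mem_eq_inter, univ_inter, sum_const, nsmul_eq_mul, card_rest hil]
  rw [e1, e2, e3, S2_add]
  simp only [Pi.add_apply, Pi.smul_apply, smul_eq_mul]; ring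

/-! ### the kernel -/

theorem sub_popK (hk : 2 ≤ k) (F : (Fin k → Ω) → ℝ) (x : Fin k → Ω) :
    F x - op (popK K) F x =
      (∑ p, ∑ q, if p = q then 0 else (sl p q F x - op K (sl p q F x)) (x p, x q))
        / ((k : ℝ) * ((k : ℝ) - 1)) := by
  have hk' := (k_pos_aux hk).ne'
  rw [op_popK, eq_div_iff hk', sub_mul, div_mul_cancel₀ _ hk', mul_comm,
    ← sum_ordered_pairs, ← sum_sub_distrib]
  refine sum_congr rfl fun p _ => ?_
  rw [← sum_sub_distrib]
  refine sum_congr rfl fun q _ => ?_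
  by_cases hpq : p = q
  · simp [hpq]
  · rw [if_neg hpq, if_pos hpq, if_pos hpq, op_pairK K hpq]
    simp only [Pi.sub_apply]
    congr 1
    simp only [sl, upd2_self]

theorem mz2_sub_op (hR : RevPsd (pw π) K) (φ : Ω × Ω → ℝ) : Mz2 π (φ - op K φ) := by
  have h := hR.adj (fun _ => (1:ℝ)) φ
  rw [hR.op_const] at h
  unfold Mz2
  unfold ip at h
  simp only [mul_one] at h
  have : ∀ z, pw π z * (φ - op K φ) z = pw π z * φ z - pw π z * op K φ z := by
    intro z; simp only [Pi.sub_apply]; ring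
  simp only [this]
  rw [sum_sub_distrib, h, sub_self]

theorem ip_dbl (h1 : ∑ a, π a = 1) {f : Ω → ℝ} (hf : Mz π f) :
    ip (pw π) (dbl f) (dbl f) = 2 * ip π f f := by
  have c1 : ∑ a, ∑ b, π a * π b * (f a * f a) = ip π f f := by
    unfold ip
    refine sum_congr rfl fun a _ => ?_
    have : ∀ b, π a * π b * (f a * f a) = π b * (π a * f a * f a) := by intro b; ring
    simp only [this]
    rw [← sum_mul, h1, one_mul]
  have c2 : ∑ a, ∑ b, π a * π b * (f b * f b) = ip π f f := by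
    unfold ip
    rw [sum_comm]
    refine sum_congr rfl fun b _ => ?_
    have : ∀ a, π a * π b * (f b * f b) = π a * (π b * f b * f b) := by intro a; ring
    simp only [this]
    rw [← sum_mul, h1, one_mul]
  have c5 : ∑ a, ∑ b, π a * π b * (f a * f b) = 0 := by
    refine sum_eq_zero fun a _ => ?_
    have : ∀ b, π a * π b * (f a * f b) = π a * f a * (π b * f b) := by intro b; ring
    simp only [this]
    rw [← mul_sum, hf, mul_zero]
  have key : ip (pw π) (dbl f) (dbl f) = ∑ a, ∑ b, π a * π b * (f a * f a) +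
      ∑ a, ∑ b, π a * π b * (f b * f b) + 2 * ∑ a, ∑ b, π a * π b * (f a * f b) := by
    unfold ip pw dbl
    rw [Fintype.sum_prod_type]
    simp only [mul_sum, ← sum_add_distrib]
    refine sum_congr rfl fun a _ => sum_congr rfl fun b _ => ?_
    ring
  rw [key, c1, c2, c5]; ring

theorem pw_nonneg (hπ : ∀ a, 0 ≤ π a) (z : Ω × Ω) : 0 ≤ pw π z := mul_nonneg (hπ _) (hπ _)

theorem cube_aux1 (hk : 2 ≤ k) {A : ℝ} (hA : 0 ≤ A) :
    4 / ((k:ℝ) * k * (k - 1)) * A ≤ 25 / (k:ℝ) ^ 3 * A := by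
  have hkr : (2:ℝ) ≤ k := by exact_mod_cast hk
  refine mul_le_mul_of_nonneg_right ?_ hA
  rw [div_le_div_iff₀ (mul_pos (by positivity) (by linarith)) (by positivity)]
  nlinarith [mul_pos (show (0:ℝ) < k by linarith) (show (0:ℝ) < k by linarith)]

end Crest.Agent.R304.Pop
end
end

-- ▼ part R304/PopStep
section

/-!
# R304 / S0464, block L4: one step of the population kernel on the levels 1 and 2
-/

set_option autoImplicit false
set_option linter.unusedSectionVars false

noncomputable section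

namespace Crest.Agent.R304.Pop

open Finset Function

variable {Ω : Type*} [Fintype Ω] [DecidableEq Ω] {k : ℕ}
variable {π : Ω → ℝ} {K : Ω × Ω → Ω × Ω → ℝ} {γ : ℝ}

theorem op_add_const {X : Type*} [Fintype X] {w : X → ℝ} {K : X → X → ℝ} (h : RevPsd w K)
    (F : X → ℝ) (c : ℝ) : op K (F + fun _ => c) = op K F + fun _ => c := by
  rw [op_add, h.op_const]

/-- `P (S1 f)`. -/
theorem sub_S1 (hk : 2 ≤ k) (hR : RevPsd (pw π) K) (f : Ω → ℝ) :
    S1 (k := k) f - op (popK K) (S1 f) =
      (1 / ((k:ℝ) * ((k:ℝ) - 1))) • S2 (dbl f - op K (dbl f)) := by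
  funext x
  simp only [Pi.sub_apply, Pi.smul_apply, smul_eq_mul]
  rw [sub_popK hk, div_eq_inv_mul, one_div]
  congr 1
  unfold S2
  refine sum_congr rfl fun p _ => sum_congr rfl fun q _ => ?_
  by_cases hpq : p = q
  · simp [hpq]
  · rw [if_neg hpq, if_neg hpq]
    have e : sl p q (S1 f) x = dbl f + fun _ => ∑ i ∈ rest p q, f (x i) := by
      funext z; rw [sl_S1 hpq]; rfl
    rw [e, op_add_const hR]
    simp only [Pi.sub_apply, Pi.add_apply]
    ring

/-- Kernel function `h_c a = h (a, c)`. -/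
def hc (h : Ω × Ω → ℝ) (c a : Ω) : ℝ := h (a, c)

/-- `g_c = (1 - K) (dbl h_c)`. -/
def gc (K : Ω × Ω → Ω × Ω → ℝ) (h : Ω × Ω → ℝ) (c : Ω) : Ω × Ω → ℝ :=
  dbl (hc h c) - op K (dbl (hc h c))

theorem op_sum {X ι : Type*} [Fintype X] (K : X → X → ℝ) (s : Finset ι) (F : ι → X → ℝ) :
    op K (∑ i ∈ s, F i) = ∑ i ∈ s, op K (F i) := by
  classical
  induction s using Finset.induction_on with
  | empty => funext x; simp [op]
  | insert a s ha ih => rw [sum_insert ha, sum_insert ha, op_add, ih]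

/-- `P (S2 h)`. -/
theorem sub_S2 (hk : 2 ≤ k) (hR : RevPsd (pw π) K) {h : Ω × Ω → ℝ}
    (hs : ∀ a b, h (a, b) = h (b, a)) :
    S2 (k := k) h - op (popK K) (S2 h) =
      (2 / ((k:ℝ) * ((k:ℝ) - 1))) •
        (S2 (h - op K h) + S3 fun a b c => gc K h c (a, b)) := by
  funext x
  simp only [Pi.sub_apply, Pi.smul_apply, smul_eq_mul]
  rw [sub_popK hk, div_eq_inv_mul, div_eq_inv_mul, mul_assoc]
  congr 1
  simp only [Pi.add_apply]
  rw [show S2 (h - op K h) x = ∑ i, ∑ j, if i = j then 0 else (h - op K h) (x i, x j) from rfl,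
    show S3 (fun a b c => gc K h c (a, b)) x =
      ∑ i, ∑ j, ∑ l, if i = j ∨ i = l ∨ j = l then 0 else gc K h (x l) (x i, x j) from rfl]
  rw [← sum_add_distrib, mul_sum]
  refine sum_congr rfl fun p _ => ?_
  rw [← sum_add_distrib, mul_sum]
  refine sum_congr rfl fun q _ => ?_
  by_cases hpq : p = q
  · simp [hpq]
  · rw [if_neg hpq, if_neg hpq]
    set c0 := ∑ i ∈ rest p q, ∑ j ∈ rest p q, if i = j then 0 else h (x i, x j) with hc0
    have e : sl p q (S2 h) x = (2:ℝ) • h + (2:ℝ) • (∑ l ∈ rest p q, dbl (hc h (x l)))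
        + fun _ => c0 := by
      funext z
      rw [sl_S2 hpq hs, ← hc0]
      simp only [Pi.add_apply, Pi.smul_apply, smul_eq_mul, Finset.sum_apply]
      congr 1
      congr 1
      unfold dbl psi hc
      rw [sum_add_distrib]; ring
    have e3 : (∑ l, if p = q ∨ p = l ∨ q = l then 0 else gc K h (x l) (x p, x q)) =
        ∑ l ∈ rest p q, gc K h (x l) (x p, x q) := by
      have : ∀ l, (if p = q ∨ p = l ∨ q = l then 0 else gc K h (x l) (x p, x q)) =
          if l ∈ rest p q then gc K h (x l) (x p, x q) else 0 := by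
        intro l
        simp only [mem_rest]
        by_cases c1 : p = l
        · subst c1; simp
        · by_cases c2 : q = l
          · subst c2; simp
          · simp [c1, c2, hpq, Ne.symm c1, Ne.symm c2]
      simp only [this]
      rw [← sum_filter, filter_mem_eq_inter, univ_inter]
    rw [e3, e, op_add_const hR, op_add, op_smul, op_smul, op_sum]
    simp only [Pi.sub_apply, Pi.add_apply, Pi.smul_apply, smul_eq_mul, Finset.sum_apply, gc]
    rw [sum_sub_distrib]
    ring

/-! ### level 1 -/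

theorem decomp1 (hk : 2 ≤ k) (h1 : ∑ a, π a = 1) (hπ : ∀ a, 0 ≤ π a) (hR : RevPsd (pw π) K)
    {f : Ω → ℝ} (hf : Mz π f) :
    ∃ f' h', Mz π f' ∧ Can π h' ∧ op (popK K) (S1 (k := k) f) = S1 f' + S2 h' ∧
      ip (prodW π) (S2 (k := k) h') (S2 h') ≤
        25 / (k:ℝ) ^ 3 * ip (prodW π) (S1 (k := k) f) (S1 f) := by
  have hkr : (2:ℝ) ≤ k := by exact_mod_cast hk
  set g := dbl f - op K (dbl f) with hg
  have hg0 : Mz2 π g := mz2_sub_op hR _
  have hC : Can π (sy (g0 π g)) := can_sy (g0_mz1 h1 hg0) (g0_mz2 h1 hg0)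
  refine ⟨f + (-(1/(k:ℝ))) • (m1 π g + m2 π g), (-(1 / ((k:ℝ) * ((k:ℝ) - 1)))) • sy (g0 π g),
    hf.add (((mz_m1 hg0).add (mz_m2 hg0)).smul _), hC.smul _, ?_, ?_⟩
  · have e := sub_S1 (k := k) hk hR f
    rw [← hg, S2_decomp (π := π) g] at e
    have e' : op (popK K) (S1 (k := k) f) = S1 f -
        (1 / ((k:ℝ) * ((k:ℝ) - 1))) • (((k:ℝ) - 1) • S1 (m1 π g + m2 π g) + S2 (g0 π g)) := by
      rw [← e]; abel
    rw [e']
    simp only [S1_add, S1_smul, S2_smul, S2_sy]
    funext x
    simp only [Pi.sub_apply, Pi.add_apply, Pi.smul_apply, smul_eq_mul]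
    have : ((k:ℝ) - 1) ≠ 0 := by linarith
    have : (k:ℝ) ≠ 0 := by linarith
    field_simp
    ring
  · rw [ip_S2 h1 (hC.smul _), ip_S1 h1 hf, ip_smul_left, ip_smul_right]
    have b1 : ip (pw π) (sy (g0 π g)) (sy (g0 π g)) ≤ 2 * ip π f f := by
      calc _ ≤ ip (pw π) (g0 π g) (g0 π g) := ip_sy_le hπ _
        _ ≤ ip (pw π) g g := ip_g0_le h1 hπ hg0
        _ ≤ ip (pw π) (dbl f) (dbl f) := hR.sub_contr _
        _ = 2 * ip π f f := ip_dbl h1 hf
    have hff : 0 ≤ ip π f f := ip_self_nonneg hπ f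
    have hpos := k_pos_aux hk
    have e1 : 2 * ((k:ℝ) * (k - 1)) * (-(1 / ((k:ℝ) * ((k:ℝ) - 1))) *
        (-(1 / ((k:ℝ) * ((k:ℝ) - 1))) * ip (pw π) (sy (g0 π g)) (sy (g0 π g)))) =
        2 / ((k:ℝ) * (k - 1)) * ip (pw π) (sy (g0 π g)) (sy (g0 π g)) := by
      have : ((k:ℝ) - 1) ≠ 0 := by linarith
      have : (k:ℝ) ≠ 0 := by linarith
      field_simp
    rw [e1]
    calc _ ≤ 2 / ((k:ℝ) * (k - 1)) * (2 * ip π f f) :=
          mul_le_mul_of_nonneg_left b1 (by positivity)
      _ = 4 / ((k:ℝ) * k * (k - 1)) * (k * ip π f f) := by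
          have : ((k:ℝ) - 1) ≠ 0 := by linarith
          have : (k:ℝ) ≠ 0 := by linarith
          field_simp
          ring
      _ ≤ _ := cube_aux1 hk (by positivity)

/-! ### level 2 -/

theorem gc_lin {h : Ω × Ω → ℝ} (H : Can π h) : ∑ c, π c • gc K h c = 0 := by
  have e1 : ∑ c, π c • dbl (hc h c) = (0 : Ω × Ω → ℝ) := by
    funext z
    simp only [Finset.sum_apply, Pi.smul_apply, smul_eq_mul, Pi.zero_apply, dbl, hc, mul_add]
    rw [sum_add_distrib, H.mz', H.mz', add_zero]
  have e2 : ∑ c, π c • gc K h c = ∑ c, π c • dbl (hc h c) - op K (∑ c, π c • dbl (hc h c)) := by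
    rw [op_sum, ← sum_sub_distrib]
    refine sum_congr rfl fun c _ => ?_
    rw [op_smul, gc, smul_sub]
  rw [e2, e1]
  funext z
  simp [op]

theorem gc_lin' {h : Ω × Ω → ℝ} (H : Can π h) (z : Ω × Ω) : ∑ c, π c * gc K h c z = 0 := by
  have := congrFun (gc_lin (K := K) H) z
  simpa [Finset.sum_apply] using this

theorem m1_gc {h : Ω × Ω → ℝ} (H : Can π h) (a : Ω) : ∑ c, π c * m1 π (gc K h c) a = 0 := by
  unfold m1
  have : ∀ c, π c * ∑ b, π b * gc K h c (a, b) = ∑ b, π b * (π c * gc K h c (a, b)) := by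
    intro c; rw [mul_sum]; exact sum_congr rfl fun b _ => by ring
  simp only [this]
  rw [sum_comm]
  refine sum_eq_zero fun b _ => ?_
  rw [← mul_sum, gc_lin' H, mul_zero]

theorem m2_gc {h : Ω × Ω → ℝ} (H : Can π h) (b : Ω) : ∑ c, π c * m2 π (gc K h c) b = 0 := by
  unfold m2
  have : ∀ c, π c * ∑ a, π a * gc K h c (a, b) = ∑ a, π a * (π c * gc K h c (a, b)) := by
    intro c; rw [mul_sum]; exact sum_congr rfl fun b _ => by ring
  simp only [this]
  rw [sum_comm]
  refine sum_eq_zero fun b _ => ?_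
  rw [← mul_sum, gc_lin' H, mul_zero]

theorem g0_gc {h : Ω × Ω → ℝ} (H : Can π h) (z : Ω × Ω) :
    ∑ c, π c * g0 π (gc K h c) z = 0 := by
  unfold g0
  simp only [mul_sub]
  rw [sum_sub_distrib, sum_sub_distrib, gc_lin' H, m1_gc H, m2_gc H]
  simp

theorem decomp2 (hk : 2 ≤ k) (h1 : ∑ a, π a = 1) (hπ : ∀ a, 0 ≤ π a) (hR : RevPsd (pw π) K)
    {h : Ω × Ω → ℝ} (H : Can π h) :
    ∃ f' h' R, Mz π f' ∧ Can π h' ∧ op (popK K) (S2 (k := k) h) = S1 f' + S2 h' + R ∧
      ip (prodW π) (S1 (k := k) f') (S1 f') ≤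
        25 / (k:ℝ) ^ 3 * ip (prodW π) (S2 (k := k) h) (S2 h) ∧
      ip (prodW π) R R ≤ 25 / (k:ℝ) ^ 3 * ip (prodW π) (S2 (k := k) h) (S2 h) := by
  have hkr : (2:ℝ) ≤ k := by exact_mod_cast hk
  have hk1 : ((k:ℝ) - 1) ≠ 0 := by linarith
  have hk0 : (k:ℝ) ≠ 0 := by linarith
  have hpos := k_pos_aux hk
  set g := h - op K h with hg
  have hg0 : Mz2 π g := mz2_sub_op hR _
  have hgc : ∀ c, Mz2 π (gc K h c) := fun c => mz2_sub_op hR _
  have hC : Can π (sy (g0 π g)) := can_sy (g0_mz1 h1 hg0) (g0_mz2 h1 hg0)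
  set u : Ω × Ω → ℝ := fun z => m1 π (gc K h z.2) z.1 with hu
  set v : Ω × Ω → ℝ := fun z => m2 π (gc K h z.2) z.1 with hv
  set w : Ω → Ω → Ω → ℝ := fun a b c => g0 π (gc K h c) (a, b) with hw
  have hCuv : Can π (sy (u + v)) := by
    apply can_sy
    · intro c
      simp only [Pi.add_apply, hu, hv, mul_add]
      rw [sum_add_distrib]
      have a1 := mz_m1 (hgc c)
      have a2 := mz_m2 (hgc c)
      unfold Mz at a1 a2
      rw [a1, a2, add_zero]
    · intro a
      simp only [Pi.add_apply, hu, hv, mul_add]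
      rw [sum_add_distrib, m1_gc H, m2_gc H, add_zero]
  have hS3 : S3 (k := k) (fun a b c => gc K h c (a, b)) = ((k:ℝ) - 2) • S2 (u + v) + S3 w := by
    apply S3_split
    intro a b c
    simp only [hu, hv, hw, g0]; ring
  have hhh : 0 ≤ ip (pw π) h h := ip_self_nonneg (pw_nonneg hπ) h
  have hgg : ip (pw π) g g ≤ ip (pw π) h h := hR.sub_contr _
  refine ⟨(-(2/(k:ℝ))) • (m1 π g + m2 π g),
    h + (-(2 / ((k:ℝ) * ((k:ℝ) - 1)))) • sy (g0 π g) +
      (-(2 * ((k:ℝ) - 2) / ((k:ℝ) * ((k:ℝ) - 1)))) • sy (u + v),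
    (-(2 / ((k:ℝ) * ((k:ℝ) - 1)))) • S3 w,
    ((mz_m1 hg0).add (mz_m2 hg0)).smul _, (H.add (hC.smul _)).add (hCuv.smul _), ?_, ?_, ?_⟩
  · have e := sub_S2 (k := k) hk hR H.symm
    rw [← hg, S2_decomp (π := π) g, hS3] at e
    have e' : op (popK K) (S2 (k := k) h) = S2 h -
        (2 / ((k:ℝ) * ((k:ℝ) - 1))) • (((k:ℝ) - 1) • S1 (m1 π g + m2 π g) + S2 (g0 π g) +
          (((k:ℝ) - 2) • S2 (u + v) + S3 w)) := by
      rw [← e]; abel
    rw [e']
    simp only [S1_add, S2_add, S1_smul, S2_smul, S2_sy]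
    funext x
    simp only [Pi.sub_apply, Pi.add_apply, Pi.smul_apply, smul_eq_mul]
    field_simp
    ring
  · have hmz : Mz π ((-(2/(k:ℝ))) • (m1 π g + m2 π g)) :=
      ((mz_m1 hg0).add (mz_m2 hg0)).smul _
    rw [ip_S1 h1 hmz, ip_smul_left, ip_smul_right, ip_S2 h1 H]
    have b1 : ip π (m1 π g + m2 π g) (m1 π g + m2 π g) ≤ 2 * ip (pw π) h h := by
      have c1 : ip π (m1 π g + m2 π g) (m1 π g + m2 π g) ≤
          2 * ip π (m1 π g) (m1 π g) + 2 * ip π (m2 π g) (m2 π g) := by
        unfold ip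
        rw [mul_sum, mul_sum, ← sum_add_distrib]
        refine sum_le_sum fun a _ => ?_
        simp only [Pi.add_apply]
        nlinarith [mul_nonneg (hπ a) (sq_nonneg (m1 π g a - m2 π g a))]
      have c2 := ip_m1_le h1 hπ hg0
      linarith
    calc _ = 4 / (k:ℝ) * ip π (m1 π g + m2 π g) (m1 π g + m2 π g) := by
          field_simp; ring
      _ ≤ 4 / (k:ℝ) * (2 * ip (pw π) h h) := mul_le_mul_of_nonneg_left b1 (by positivity)
      _ = 4 / ((k:ℝ) * k * (k - 1)) * (2 * (k * (k - 1)) * ip (pw π) h h) := by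
          field_simp
      _ ≤ _ := cube_aux1 hk (by positivity)
  · rw [ip_smul_left, ip_smul_right, ip_S2 h1 H]
    have b1 : n3 π w ≤ 2 * ip (pw π) h h := by
      have c1 : n3 π w = ∑ c, π c * ip (pw π) (g0 π (gc K h c)) (g0 π (gc K h c)) := by
        unfold n3 ip
        have : ∀ c, π c * ∑ z : Ω × Ω, pw π z * g0 π (gc K h c) z * g0 π (gc K h c) z =
            ∑ a, ∑ b, π a * π b * π c * w a b c ^ 2 := by
          intro c
          rw [Fintype.sum_prod_type, mul_sum]
          refine sum_congr rfl fun a _ => ?_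
          rw [mul_sum]
          refine sum_congr rfl fun b _ => ?_
          simp only [pw, hw]; ring
        simp only [this]
        calc ∑ a, ∑ b, ∑ c, π a * π b * π c * w a b c ^ 2 =
            ∑ a, ∑ c, ∑ b, π a * π b * π c * w a b c ^ 2 := sum_congr rfl fun a _ => sum_comm
          _ = ∑ c, ∑ a, ∑ b, π a * π b * π c * w a b c ^ 2 := sum_comm
      have c2 : ∀ c, ip (pw π) (g0 π (gc K h c)) (g0 π (gc K h c)) ≤ 2 * ip π (hc h c) (hc h c) := by
        intro c
        calc _ ≤ ip (pw π) (gc K h c) (gc K h c) := ip_g0_le h1 hπ (hgc c)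
          _ ≤ ip (pw π) (dbl (hc h c)) (dbl (hc h c)) := hR.sub_contr _
          _ = 2 * ip π (hc h c) (hc h c) := ip_dbl h1 (H.mz c)
      have c3 : ∑ c, π c * (2 * ip π (hc h c) (hc h c)) = 2 * ip (pw π) h h := by
        unfold ip
        rw [Fintype.sum_prod_type, sum_comm, mul_sum]
        refine sum_congr rfl fun c _ => ?_
        rw [mul_sum, mul_sum, mul_sum]
        refine sum_congr rfl fun a _ => ?_
        simp only [pw, hc]; ring
      rw [c1, ← c3]
      exact sum_le_sum fun c _ => mul_le_mul_of_nonneg_left (c2 c) (hπ c)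
    have b2 := ip_S3_le (k := k) hπ h1 w (fun b c => g0_mz1 h1 (hgc c) b)
      (fun a c => g0_mz2 h1 (hgc c) a) (fun a b => g0_gc H (a, b))
    have hk2 : 0 ≤ (k:ℝ) - 2 := by linarith
    have b3 : ip (prodW π) (S3 (k := k) w) (S3 w) ≤
        6 * ((k:ℝ) * (k - 1) * (k - 2)) * (2 * ip (pw π) h h) :=
      b2.trans (mul_le_mul_of_nonneg_left b1 (by positivity))
    calc _ = 4 / (((k:ℝ) * (k - 1)) * (k * (k - 1))) * ip (prodW π) (S3 (k := k) w) (S3 w) := by
          field_simp; ring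
      _ ≤ 4 / (((k:ℝ) * (k - 1)) * (k * (k - 1))) *
          (6 * ((k:ℝ) * (k - 1) * (k - 2)) * (2 * ip (pw π) h h)) :=
          mul_le_mul_of_nonneg_left b3 (by positivity)
      _ = 24 * (k - 2) / ((k:ℝ) ^ 2 * (k - 1) ^ 2) * (2 * (k * (k - 1)) * ip (pw π) h h) := by
          field_simp; ring
      _ ≤ _ := by
          refine mul_le_mul_of_nonneg_right ?_ (by positivity)
          rw [div_le_div_iff₀ (by positivity) (by positivity)]
          nlinarith [mul_pos (show (0:ℝ) < k by linarith) (show (0:ℝ) < k by linarith)]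

end Crest.Agent.R304.Pop
end
end

-- ▼ part R304/PopIter
section

/-!
# R304 / S0464, block L4: contraction on the levels and the iteration
-/

set_option autoImplicit false
set_option linter.unusedSectionVars false

noncomputable section

namespace Crest.Agent.R304.Pop

open Finset Function

variable {Ω : Type*} [Fintype Ω] [DecidableEq Ω] {k : ℕ}
variable {π : Ω → ℝ} {K : Ω × Ω → Ω × Ω → ℝ} {γ : ℝ}

/-- An energy bound gives contraction. -/
theorem contr_of_energy {X : Type*} [Fintype X] {w : X → ℝ} {P : X → X → ℝ} (hP : RevPsd w P)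
    (F : X → ℝ) {c : ℝ} (hc1 : c ≤ 1)
    (hE : 2 * c * ip w F F ≤ ip w F (F - op P F)) :
    nm w (op P F) ≤ (1 - c) * nm w F := by
  apply nm_le_of_sq _ (mul_nonneg (by linarith) (nm_nonneg _ _))
  rw [mul_pow, nm_sq hP.w_nonneg]
  have h1 := hP.sq_le F
  rw [ip_sub_right] at hE
  have h0 := ip_self_nonneg hP.w_nonneg F
  nlinarith [mul_nonneg (sq_nonneg c) h0]

theorem contr1 (hk : 2 ≤ k) (h1 : ∑ a, π a = 1) (hπ : ∀ a, 0 ≤ π a) (h : GoodKernel π K γ)
    (hγ1 : γ ≤ 1) {f : Ω → ℝ} (hf : Mz π f) :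
    nm (prodW π) (op (popK K) (S1 (k := k) f)) ≤ (1 - γ / k) * nm (prodW π) (S1 (k := k) f) := by
  have hkr : (2:ℝ) ≤ k := by exact_mod_cast hk
  apply contr_of_energy (revPsd_popK hk hπ h1 (h.revPsd hπ))
  · rw [div_le_one (by linarith)]; linarith
  · refine le_trans (le_of_eq ?_) (coer1 hk h1 hπ h hf)
    rw [ip_S1 h1 hf]
    have : (k:ℝ) ≠ 0 := by linarith
    field_simp

theorem contr2 (hk : 2 ≤ k) (h1 : ∑ a, π a = 1) (hπ : ∀ a, 0 ≤ π a) (hK : GoodKernel π K γ)
    (hγ1 : γ ≤ 1) (hkγ : 2 ≤ γ * ((k:ℝ) - 3)) {h : Ω × Ω → ℝ} (H : Can π h) :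
    nm (prodW π) (op (popK K) (S2 (k := k) h)) ≤
      (1 - γ / (2 * k)) * nm (prodW π) (S2 (k := k) h) := by
  have hkr : (2:ℝ) ≤ k := by exact_mod_cast hk
  have hk1 : 0 < (k:ℝ) - 1 := by linarith
  have hk0 : 0 < (k:ℝ) := by linarith
  apply contr_of_energy (revPsd_popK hk hπ h1 (hK.revPsd hπ))
  · rw [div_le_one (by linarith)]; linarith
  · refine le_trans ?_ (coer2 hk h1 hπ hK H)
    rw [ip_S2 h1 H]
    have h0 : 0 ≤ ip (pw π) h h := ip_self_nonneg (pw_nonneg hπ) h
    have : 2 * (γ / (2 * k)) * (2 * (k * (k - 1)) * ip (pw π) h h) =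
        2 * (γ * (k - 1)) * ip (pw π) h h := by
      field_simp
    rw [this]
    refine mul_le_mul_of_nonneg_right ?_ h0
    nlinarith

/-- `ℓ = 5 / (k √k)`. -/
def ell (k : ℕ) : ℝ := 5 / (k * √k)

theorem ell_nonneg : 0 ≤ ell k := by unfold ell; positivity

theorem nm_le_ell {X : Type*} [Fintype X] {w : X → ℝ} (hw : ∀ x, 0 ≤ w x) {F G : X → ℝ}
    (h : ip w F F ≤ 25 / (k:ℝ) ^ 3 * ip w G G) : nm w F ≤ ell k * nm w G := by
  apply nm_le_of_sq _ (mul_nonneg ell_nonneg (nm_nonneg _ _))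
  rw [mul_pow, nm_sq hw]
  refine h.trans (le_of_eq ?_)
  congr 1
  unfold ell
  rw [div_pow, mul_pow, Real.sq_sqrt (Nat.cast_nonneg _)]
  norm_num
  ring

/-- State of the iteration. -/
structure St (k : ℕ) (π : Ω → ℝ) where
  f : Ω → ℝ
  h : Ω × Ω → ℝ
  R : (Fin k → Ω) → ℝ
  mz : Mz π f
  can : Can π h

/-- The function described by a state. -/
def St.fn (s : St k π) : (Fin k → Ω) → ℝ := S1 s.f + S2 s.h + s.R

def St.A (s : St k π) : ℝ := nm (prodW π) (S1 (k := k) s.f)
def St.B (s : St k π) : ℝ := nm (prodW π) (S2 (k := k) s.h)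
def St.C (s : St k π) : ℝ := nm (prodW π) s.R

theorem St.step (hk : 2 ≤ k) (h1 : ∑ a, π a = 1) (hπ : ∀ a, 0 ≤ π a) (hK : GoodKernel π K γ)
    (hγ1 : γ ≤ 1) (hkγ : 2 ≤ γ * ((k:ℝ) - 3)) (s : St k π) :
    ∃ s' : St k π, s'.fn = op (popK K) s.fn ∧
      s'.A ≤ (1 - γ / k + ell k) * s.A + ell k * s.B ∧
      s'.B ≤ (1 - γ / (2 * k) + 2 * ell k) * s.B + ell k * s.A ∧
      s'.C ≤ s.C + ell k * s.B := by
  have hR := hK.revPsd hπ
  have hW : ∀ x : Fin k → Ω, 0 ≤ prodW π x := prodW_nonneg hπ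
  have hP := revPsd_popK hk hπ h1 hR
  obtain ⟨f1, h2, mf1, ch2, e1, n1⟩ := decomp1 (k := k) hk h1 hπ hR s.mz
  obtain ⟨f3, h4, R5, mf3, ch4, e2, n3, n5⟩ := decomp2 (k := k) hk h1 hπ hR s.can
  have n1' := nm_le_ell hW n1
  have n3' := nm_le_ell hW n3
  have n5' := nm_le_ell hW n5
  have c1 := contr1 (k := k) hk h1 hπ hK hγ1 s.mz
  have c2 := contr2 (k := k) hk h1 hπ hK hγ1 hkγ s.can
  refine ⟨⟨f1 + f3, h2 + h4, R5 + op (popK K) s.R, mf1.add mf3, ch2.add ch4⟩, ?_, ?_, ?_, ?_⟩
  · unfold St.fn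
    simp only
    rw [op_add, op_add, e1, e2, S1_add, S2_add]
    abel
  · unfold St.A St.B
    simp only
    rw [S1_add]
    have a1 : nm (prodW π) (S1 (k := k) f1) ≤
        (1 - γ / k) * nm (prodW π) (S1 (k := k) s.f) + ell k * nm (prodW π) (S1 (k := k) s.f) := by
      have : S1 (k := k) f1 = op (popK K) (S1 s.f) - S2 h2 := by rw [e1]; abel
      rw [this]
      exact (nm_sub hW _ _).trans (add_le_add c1 n1')
    have := nm_add hW (S1 (k := k) f1) (S1 f3)
    linarith
  · unfold St.A St.B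
    simp only
    rw [S2_add]
    have a1 : nm (prodW π) (S2 (k := k) h4) ≤
        (1 - γ / (2 * k)) * nm (prodW π) (S2 (k := k) s.h)
          + ell k * nm (prodW π) (S2 (k := k) s.h) + ell k * nm (prodW π) (S2 (k := k) s.h) := by
      have : S2 (k := k) h4 = op (popK K) (S2 s.h) - S1 f3 - R5 := by rw [e2]; abel
      rw [this]
      exact (nm_sub hW _ _).trans (add_le_add ((nm_sub hW _ _).trans (add_le_add c2 n3')) n5')
    have := nm_add hW (S2 (k := k) h2) (S2 h4)
    linarith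
  · unfold St.C St.B
    simp only
    have := nm_add hW R5 (op (popK K) s.R)
    have := hP.nm_op_le s.R
    linarith

/-- The start. -/
def St.init {f : Ω → ℝ} (hf : Mz π f) : St k π where
  f := f
  h := 0
  R := 0
  mz := hf
  can := ⟨fun _ _ => rfl, fun _ => by simp⟩

theorem S2_zero : S2 (Ω := Ω) (k := k) 0 = 0 := by funext x; simp [S2]

theorem nm_zero {X : Type*} [Fintype X] (w : X → ℝ) : nm w 0 = 0 := by simp [nm, ip]

theorem nm_fn_le (hπ : ∀ a, 0 ≤ π a) (s : St k π) : nm (prodW π) s.fn ≤ s.A + s.B + s.C := by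
  have hW : ∀ x : Fin k → Ω, 0 ≤ prodW π x := prodW_nonneg hπ
  exact (nm_add hW _ _).trans (add_le_add (nm_add hW _ _) le_rfl)

/-- The trajectory. -/
theorem exists_traj (hk : 2 ≤ k) (h1 : ∑ a, π a = 1) (hπ : ∀ a, 0 ≤ π a) (hK : GoodKernel π K γ)
    (hγ1 : γ ≤ 1) (hkγ : 2 ≤ γ * ((k:ℝ) - 3)) {f : Ω → ℝ} (hf : Mz π f) :
    ∃ A B C : ℕ → ℝ, A 0 = nm (prodW π) (S1 (k := k) f) ∧ B 0 = 0 ∧ C 0 = 0 ∧
      (∀ t, 0 ≤ A t) ∧ (∀ t, 0 ≤ B t) ∧ (∀ t, 0 ≤ C t) ∧
      (∀ t, A (t + 1) ≤ (1 - γ / k + ell k) * A t + ell k * B t) ∧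
      (∀ t, B (t + 1) ≤ (1 - γ / (2 * k) + 2 * ell k) * B t + ell k * A t) ∧
      (∀ t, C (t + 1) ≤ C t + ell k * B t) ∧
      (∀ t, nm (prodW π) ((op (popK K))^[t] (S1 (k := k) f)) ≤ A t + B t + C t) := by
  choose nx hnx using fun s : St k π => St.step hk h1 hπ hK hγ1 hkγ s
  set tr : ℕ → St k π := fun t => nx^[t] (St.init hf) with htr
  have hs : ∀ t, tr (t + 1) = nx (tr t) := fun t => Function.iterate_succ_apply' nx t _
  have hfn : ∀ t, (tr t).fn = (op (popK K))^[t] (S1 f) := by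
    intro t
    induction t with
    | zero =>
      simp only [htr, iterate_zero, id, St.fn, St.init]
      rw [S2_zero]; simp
    | succ t ih => rw [hs, (hnx (tr t)).1, ih, Function.iterate_succ_apply']
  refine ⟨fun t => (tr t).A, fun t => (tr t).B, fun t => (tr t).C, rfl, ?_, ?_,
    fun t => nm_nonneg _ _, fun t => nm_nonneg _ _, fun t => nm_nonneg _ _, ?_, ?_, ?_, ?_⟩
  · change nm (prodW π) (S2 (k := k) 0) = 0
    rw [S2_zero, nm_zero]
  · exact nm_zero _
  · intro t; simp only [hs]; exact (hnx (tr t)).2.1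
  · intro t; simp only [hs]; exact (hnx (tr t)).2.2.1
  · intro t; simp only [hs]; exact (hnx (tr t)).2.2.2
  · intro t; rw [← hfn]; exact nm_fn_le hπ _

end Crest.Agent.R304.Pop
end
end

-- ▼ part R304/PopRec
section

/-!
# R304 / S0464, block L4: the scalar recurrence for the three level norms
-/

set_option autoImplicit false

namespace Crest.Agent.R304.PopRec

/-- If `A, B, R` bound the norms of the three Hoeffding levels and one step of the population
chain acts as below (`l = 5 / (k √k)`), then after `T` steps the total norm is at most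
`((1 - g/(4k))^T + 160/(k g²)) A₀`. -/
theorem rec_bound {k g l : ℝ} (hg : 0 < g) (hg1 : g ≤ 1) (hk : 6400 ≤ g ^ 2 * k)
    (hl : l = 5 / (k * √k)) {A B R : ℕ → ℝ}
    (hA0 : ∀ n, 0 ≤ A n) (hB0 : ∀ n, 0 ≤ B n)
    (hA : ∀ n, A (n + 1) ≤ (1 - g / k + l) * A n + l * B n)
    (hB : ∀ n, B (n + 1) ≤ (1 - g / (2 * k) + 2 * l) * B n + l * A n)
    (hR : ∀ n, R (n + 1) ≤ R n + l * B n) (hBz : B 0 = 0) (hRz : R 0 = 0) (T : ℕ) :
    A T + B T + R T ≤ ((1 - g / (4 * k)) ^ T + 160 / (k * g ^ 2)) * A 0 := by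
  have hk0 : 0 < k := by
    by_contra h
    have : g ^ 2 * k ≤ 0 := mul_nonpos_of_nonneg_of_nonpos (by positivity) (not_lt.mp h)
    linarith
  have hgsq : g ^ 2 ≤ 1 := by nlinarith
  have hk6 : 6400 ≤ k := by nlinarith
  have hs0 : 0 < √k := Real.sqrt_pos.mpr hk0
  have hss : √k * √k = k := Real.mul_self_sqrt hk0.le
  have hgs : 80 ≤ g * √k := by
    have h1 : (80 : ℝ) ^ 2 ≤ (g * √k) ^ 2 := by
      have : (g * √k) ^ 2 = g ^ 2 * k := by
        rw [mul_pow, sq (√k), hss]
      rw [this]; linarith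
    exact (pow_le_pow_iff_left₀ (by norm_num) (by positivity) (by norm_num)).mp h1
  have hl0 : 0 < l := by rw [hl]; positivity
  -- `l ≤ g / (16 k)`
  have hl1 : l ≤ g / (16 * k) := by
    rw [hl, div_le_div_iff₀ (by positivity) (by positivity)]
    have : g * (k * √k) = (g * √k) * k := by ring
    rw [this]
    nlinarith
  have hgk : 0 < g / k := by positivity
  have e2 : g / (2 * k) = (g / k) / 2 := by field_simp
  have e4 : g / (4 * k) = (g / k) / 4 := by field_simp
  have e16 : g / (16 * k) = (g / k) / 16 := by field_simp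
  set u : ℝ := g / k with hu
  rw [e16] at hl1
  rw [e4]
  have hu1 : u ≤ 1 / 6400 := by
    rw [hu, div_le_div_iff₀ hk0 (by norm_num)]; linarith
  have hq0 : 0 ≤ 1 - u / 4 := by linarith
  -- the sum of the first two levels decays
  have hsum : ∀ n, A n + B n ≤ (1 - u / 4) ^ n * A 0 := by
    intro n
    induction n with
    | zero => simp [hBz]
    | succ n ih =>
      have h1 := hA n
      have h2 := hB n
      rw [e2] at h2
      have h3 : A (n + 1) + B (n + 1) ≤ (1 - u / 4) * (A n + B n) := by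
        have ha := hA0 n
        have hb := hB0 n
        have hla : l * A n ≤ (u / 16) * A n := mul_le_mul_of_nonneg_right hl1 ha
        have hlb : l * B n ≤ (u / 16) * B n := mul_le_mul_of_nonneg_right hl1 hb
        nlinarith [mul_nonneg hgk.le ha, mul_nonneg hgk.le hb]
      calc A (n + 1) + B (n + 1) ≤ (1 - u / 4) * (A n + B n) := h3
        _ ≤ (1 - u / 4) * ((1 - u / 4) ^ n * A 0) := mul_le_mul_of_nonneg_left ih hq0
        _ = (1 - u / 4) ^ (n + 1) * A 0 := by ring
  -- potential for the third level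
  have hu0 : u ≠ 0 := hgk.ne'
  set x : ℝ := 4 * l / u with hx
  set y : ℝ := 160 / (k * g ^ 2) with hy
  have hx0 : 0 ≤ x := by positivity
  have hy0 : 0 ≤ y := by positivity
  have hy1 : y ≤ 1 / 40 := by
    rw [hy, div_le_div_iff₀ (by positivity) (by norm_num)]
    nlinarith
  have hxu : x * u = 4 * l := by rw [hx]; field_simp
  have hll : l * l = 25 / (k * k * k) := by
    rw [hl, div_mul_div_comm]
    have : k * √k * (k * √k) = k * k * k := by
      calc k * √k * (k * √k) = k * k * (√k * √k) := by ring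
        _ = k * k * k := by rw [hss]
    rw [this]; norm_num
  have hxl : x * l ≤ (15 / 16) * (y * u) := by
    have h1 : x * l = 100 / (k * k * g) := by
      rw [hx, hu, div_mul_eq_mul_div, mul_assoc, hll]
      field_simp
      ring
    have h2 : y * u = 160 / (k * k * g) := by
      rw [hy, hu]
      field_simp
    rw [h1, h2]
    have : (100 : ℝ) / (k * k * g) = 100 * (1 / (k * k * g)) := by ring
    rw [this]
    have h3 : (15 / 16 : ℝ) * (160 / (k * k * g)) = 150 * (1 / (k * k * g)) := by ring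
    rw [h3]
    have : 0 ≤ 1 / (k * k * g) := by positivity
    linarith
  have hpot : ∀ n, R n + x * B n + y * A n ≤ y * A 0 := by
    intro n
    induction n with
    | zero => simp [hBz, hRz]
    | succ n ih =>
      have ha := hA0 n
      have hb := hB0 n
      have h1 := hA n
      have h2 := hB n
      have h3 := hR n
      rw [e2] at h2
      have h1' : y * A (n + 1) ≤ y * ((1 - u + l) * A n + l * B n) :=
        mul_le_mul_of_nonneg_left h1 hy0
      have h2' : x * B (n + 1) ≤ x * ((1 - u / 2 + 2 * l) * B n + l * A n) :=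
        mul_le_mul_of_nonneg_left h2 hx0
      have hA' : y * ((1 - u + l) * A n) ≤ y * ((1 - 15 / 16 * u) * A n) := by
        apply mul_le_mul_of_nonneg_left _ hy0
        apply mul_le_mul_of_nonneg_right _ ha
        linarith
      have hB' : x * ((1 - u / 2 + 2 * l) * B n) ≤ x * ((1 - 3 / 8 * u) * B n) := by
        apply mul_le_mul_of_nonneg_left _ hx0
        apply mul_le_mul_of_nonneg_right _ hb
        linarith
      have hxlA : x * l * A n ≤ (15 / 16) * (y * u) * A n :=
        mul_le_mul_of_nonneg_right hxl ha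
      have hylB : y * (l * B n) ≤ (1 / 40) * (l * B n) :=
        mul_le_mul_of_nonneg_right hy1 (mul_nonneg hl0.le hb)
      have hxuB : x * (3 / 8 * u * B n) = (3 / 2) * (l * B n) := by
        have : x * (3 / 8 * u * B n) = 3 / 8 * (x * u) * B n := by ring
        rw [this, hxu]; ring
      have hlB : 0 ≤ l * B n := mul_nonneg hl0.le hb
      have expand1 : x * ((1 - u / 2 + 2 * l) * B n + l * A n)
          = x * ((1 - u / 2 + 2 * l) * B n) + x * l * A n := by ring
      have expand2 : y * ((1 - u + l) * A n + l * B n)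
          = y * ((1 - u + l) * A n) + y * (l * B n) := by ring
      have expand3 : x * ((1 - 3 / 8 * u) * B n) = x * B n - x * (3 / 8 * u * B n) := by ring
      have expand4 : y * ((1 - 15 / 16 * u) * A n)
          = y * A n - (15 / 16) * (y * u) * A n := by ring
      linarith
  have hRT : R T ≤ y * A 0 := by
    have h := hpot T
    have h1 : 0 ≤ x * B T := mul_nonneg hx0 (hB0 T)
    have h2 : 0 ≤ y * A T := mul_nonneg hy0 (hA0 T)
    linarith
  have := hsum T
  calc A T + B T + R T ≤ (1 - u / 4) ^ T * A 0 + y * A 0 := by linarith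
    _ = ((1 - u / 4) ^ T + y) * A 0 := by ring

end Crest.Agent.R304.PopRec
end

-- ▼ part R304/PopAnn
section

/-!
# R304 / S0464, block L4: annealing, the theorem `PopAnneal`
-/

set_option autoImplicit false
set_option linter.unusedSectionVars false

noncomputable section

namespace Crest.Agent.R304.Pop

open Finset Function

section push

variable {X : Type*} [Fintype X] {w : X → ℝ} {P : X → X → ℝ}

theorem push_density (h : RevPsd w P) (F : X → ℝ) :
    push P (fun x => w x * F x) = fun x => w x * op P F x := by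
  funext y
  unfold push op
  rw [mul_sum]
  refine sum_congr rfl fun x _ => ?_
  have := h.rev x y
  calc w x * F x * P x y = (w x * P x y) * F x := by ring
    _ = w y * (P y x * F x) := by rw [this]; ring

theorem push_iter_density (h : RevPsd w P) (F : X → ℝ) (t : ℕ) :
    (push P)^[t] (fun x => w x * F x) = fun x => w x * (op P)^[t] F x := by
  induction t with
  | zero => rfl
  | succ t ih => rw [Function.iterate_succ_apply', ih, push_density h, Function.iterate_succ_apply']


theorem push_sub (ν μ : X → ℝ) : push P (ν - μ) = push P ν - push P μ := by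
  funext y; simp only [push, Pi.sub_apply]; rw [← sum_sub_distrib]
  exact sum_congr rfl fun x _ => by ring

theorem push_iter_sub (ν μ : X → ℝ) (t : ℕ) :
    (push P)^[t] (ν - μ) = (push P)^[t] ν - (push P)^[t] μ := by
  induction t with
  | zero => rfl
  | succ t ih => simp only [Function.iterate_succ_apply', ih, push_sub]

theorem push_l1 (h : RevPsd w P) (ν : X → ℝ) : ∑ y, |push P ν y| ≤ ∑ x, |ν x| := by
  calc ∑ y, |push P ν y| ≤ ∑ y, ∑ x, |ν x| * P x y := by
        refine sum_le_sum fun y _ => ?_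
        refine (abs_sum_le_sum_abs _ _).trans (le_of_eq ?_)
        exact sum_congr rfl fun x _ => by rw [abs_mul, abs_of_nonneg (h.nonneg x y)]
    _ = ∑ x, |ν x| := by
        rw [sum_comm]
        exact sum_congr rfl fun x _ => by rw [← mul_sum, h.sum_one, mul_one]

theorem push_iter_l1 (h : RevPsd w P) (ν : X → ℝ) (t : ℕ) :
    ∑ y, |(push P)^[t] ν y| ≤ ∑ x, |ν x| := by
  induction t with
  | zero => exact le_rfl
  | succ t ih => rw [Function.iterate_succ_apply']; exact (push_l1 h _).trans ih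

theorem nm_iter_le (h : RevPsd w P) (F : X → ℝ) (t : ℕ) : nm w ((op P)^[t] F) ≤ nm w F := by
  induction t with
  | zero => exact le_rfl
  | succ t ih => rw [Function.iterate_succ_apply']; exact (h.nm_op_le _).trans ih

theorem op_iter_add (F G : X → ℝ) (t : ℕ) :
    (op P)^[t] (F + G) = (op P)^[t] F + (op P)^[t] G := by
  induction t with
  | zero => rfl
  | succ t ih => simp only [Function.iterate_succ_apply', ih, op_add]

end push

variable {Ω : Type*} [Fintype Ω] [DecidableEq Ω] {k : ℕ}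
variable {π : Ω → ℝ} {K : Ω × Ω → Ω × Ω → ℝ} {γ : ℝ}

theorem sum_prodW_pow (q : Ω → ℝ) : ∑ x : Fin k → Ω, prodW q x = (∑ a, q a) ^ k := by
  rw [Fintype.sum_pow]; rfl

/-- The size of `h - S1 g`. -/
theorem rest_sq {π' g : Ω → ℝ} (h1 : ∑ a, π a = 1) (h1' : ∑ a, π' a = 1)
    (hg : ∀ a, π' a = π a * (1 + g a)) :
    ip (prodW π) ((fun x : Fin k → Ω => ∏ i, (1 + g (x i)) - 1) - S1 g)
      ((fun x : Fin k → Ω => ∏ i, (1 + g (x i)) - 1) - S1 g) =
      (1 + ip π g g) ^ k - 1 - k * ip π g g := by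
  have hgz : Mz π g := by
    unfold Mz
    have : ∑ a, π' a = ∑ a, π a + ∑ a, π a * g a := by
      rw [← sum_add_distrib]; exact sum_congr rfl fun a _ => by rw [hg]; ring
    linarith
  have hW : ∀ x : Fin k → Ω, prodW π x * ∏ i, (1 + g (x i)) = prodW π' x := by
    intro x; unfold prodW; rw [← prod_mul_distrib]
    exact prod_congr rfl fun i _ => (hg _).symm
  have i1 : ∑ x : Fin k → Ω, prodW π x * (∏ i, (1 + g (x i))) ^ 2 = (1 + ip π g g) ^ k := by
    have e : ∑ a, π a * (1 + g a) ^ 2 = 1 + ip π g g := by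
      have : ∑ a, π a * (1 + g a) ^ 2 = ∑ a, π a + 2 * ∑ a, π a * g a + ip π g g := by
        unfold ip
        rw [mul_sum, ← sum_add_distrib, ← sum_add_distrib]
        exact sum_congr rfl fun a _ => by ring
      rw [this, h1, hgz]; ring
    rw [← e, ← sum_prodW_pow]
    refine sum_congr rfl fun x _ => ?_
    unfold prodW
    rw [← prod_pow, ← prod_mul_distrib]
  have i2 : ∑ x : Fin k → Ω, prodW π x * (∏ i, (1 + g (x i))) = 1 := by
    refine Eq.trans ?_ (sum_prodW (k := k) h1')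
    exact sum_congr rfl fun x _ => hW x
  have i3 : ∑ x : Fin k → Ω, prodW π x * (∏ i, (1 + g (x i))) * S1 g x = k * ip π g g := by
    have e : ∑ x : Fin k → Ω, prodW π x * (∏ i, (1 + g (x i))) * S1 g x =
        ∑ i : Fin k, ∑ x : Fin k → Ω, prodW π' x * g (x i) := by
      rw [sum_comm]
      refine sum_congr rfl fun x _ => ?_
      rw [hW, S1, mul_sum]
    rw [e]
    have e2 : ∀ i : Fin k, ∑ x : Fin k → Ω, prodW π' x * g (x i) = ip π g g := by
      intro i
      rw [marg1 h1' i g]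
      have : ∑ a, π' a * g a = ∑ a, π a * g a + ip π g g := by
        unfold ip
        rw [← sum_add_distrib]
        exact sum_congr rfl fun a _ => by rw [hg]; ring
      rw [this, hgz, zero_add]
    simp only [e2]
    rw [sum_const, card_univ, Fintype.card_fin, nsmul_eq_mul]
  have i4 : ∑ x : Fin k → Ω, prodW π x * S1 g x = 0 := by
    have e : ∑ x : Fin k → Ω, prodW π x * S1 g x =
        ∑ i : Fin k, ∑ x : Fin k → Ω, prodW π x * g (x i) := by
      rw [sum_comm]
      exact sum_congr rfl fun x _ => by rw [S1, mul_sum]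
    rw [e]
    exact sum_eq_zero fun i _ => by rw [marg1 h1 i g]; exact hgz
  have i5 := ip_S1 (k := k) h1 (f := g) hgz
  have i6 := sum_prodW (k := k) h1
  have key : ip (prodW π) ((fun x : Fin k → Ω => ∏ i, (1 + g (x i)) - 1) - S1 g)
      ((fun x : Fin k → Ω => ∏ i, (1 + g (x i)) - 1) - S1 g) =
      ∑ x : Fin k → Ω, prodW π x * (∏ i, (1 + g (x i))) ^ 2
      - 2 * ∑ x : Fin k → Ω, prodW π x * (∏ i, (1 + g (x i)))
      - 2 * ∑ x : Fin k → Ω, prodW π x * (∏ i, (1 + g (x i))) * S1 g x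
      + 2 * ∑ x : Fin k → Ω, prodW π x * S1 g x
      + ∑ x : Fin k → Ω, prodW π x + ip (prodW π) (S1 (k := k) g) (S1 g) := by
    unfold ip
    simp only [mul_sum, ← sum_sub_distrib, ← sum_add_distrib]
    refine sum_congr rfl fun x _ => ?_
    simp only [Pi.sub_apply]; ring
  rw [key, i1, i2, i3, i4, i5, i6]; ring

theorem scalar_rest {σ : ℝ} (hσ : 0 ≤ σ) (hk : k * σ ≤ 1) :
    (1 + σ) ^ k - 1 - k * σ ≤ (k * σ) ^ 2 := by
  have e1 : (1 + σ) ^ k ≤ Real.exp (k * σ) := by
    have : (1 + σ) ^ k ≤ (Real.exp σ) ^ k :=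
      pow_le_pow_left₀ (by linarith) (by linarith [Real.add_one_le_exp σ]) k
    rwa [← Real.exp_nat_mul] at this
  have h0 : 0 ≤ k * σ := by positivity
  have e2 := Real.abs_exp_sub_one_sub_id_le (x := k * σ) (by rw [abs_of_nonneg h0]; exact hk)
  have e3 := le_of_abs_le e2
  linarith

/-- One annealing stage: the density `h` of `π'^k` with respect to `π^k` minus one. -/
theorem stage (hk : 2 ≤ k) (h1 : ∑ a, π a = 1) (hπ : ∀ a, 0 ≤ π a) (hK : GoodKernel π K γ)
    (hγ0 : 0 < γ) (hγ1 : γ ≤ 1) (hkγ : 6400 ≤ γ ^ 2 * k) {π' g : Ω → ℝ} (h1' : ∑ a, π' a = 1)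
    (hg : ∀ a, π' a = π a * (1 + g a)) {ε : ℝ} (hε0 : 0 ≤ ε) (hkε : k * ε ^ 2 ≤ 1)
    (hgε : ∀ a, |g a| ≤ ε) (τ : ℕ) :
    nm (prodW π) ((op (popK K))^[τ] (fun x : Fin k → Ω => ∏ i, (1 + g (x i)) - 1)) ≤
      ((1 - γ / (4 * k)) ^ τ + 160 / (k * γ ^ 2)) * (√k * ε) + k * ε ^ 2 := by
  have hkr : (2:ℝ) ≤ k := by exact_mod_cast hk
  have hgz : Mz π g := by
    unfold Mz
    have : ∑ a, π' a = ∑ a, π a + ∑ a, π a * g a := by
      rw [← sum_add_distrib]; exact sum_congr rfl fun a _ => by rw [hg]; ring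
    linarith
  have hW : ∀ x : Fin k → Ω, 0 ≤ prodW π x := prodW_nonneg hπ
  have hP := revPsd_popK hk hπ h1 (hK.revPsd hπ)
  have hσ0 : 0 ≤ ip π g g := ip_self_nonneg hπ g
  have hσ : ip π g g ≤ ε ^ 2 := by
    calc ip π g g ≤ ∑ a, π a * ε ^ 2 := by
          unfold ip
          refine sum_le_sum fun a _ => ?_
          rw [mul_assoc]
          refine mul_le_mul_of_nonneg_left ?_ (hπ a)
          rw [← sq, ← sq_abs]
          exact pow_le_pow_left₀ (abs_nonneg _) (hgε a) 2
      _ = ε ^ 2 := by rw [← sum_mul, h1, one_mul]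
  have hkγ' : 2 ≤ γ * ((k:ℝ) - 3) := by nlinarith
  obtain ⟨A, B, C, hA0, hB0, hC0, hA, hB, hC, rA, rB, rC, hN⟩ :=
    exists_traj (k := k) hk h1 hπ hK hγ1 hkγ' hgz
  have hrec := PopRec.rec_bound (k := (k:ℝ)) (l := ell k) hγ0 hγ1 hkγ rfl hA hB rA rB rC hB0 hC0 τ
  have hS1 : A 0 ≤ √k * ε := by
    rw [hA0]
    apply nm_le_of_sq _ (by positivity)
    rw [ip_S1 h1 hgz, mul_pow, Real.sq_sqrt (Nat.cast_nonneg _)]
    exact mul_le_mul_of_nonneg_left hσ (Nat.cast_nonneg _)
  have hc0 : 0 ≤ (1 - γ / (4 * k)) ^ τ + 160 / (k * γ ^ 2) := by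
    have : γ / (4 * k) ≤ 1 := by rw [div_le_one (by linarith)]; linarith
    have : 0 ≤ 1 - γ / (4 * k) := by linarith
    positivity
  have hrest : nm (prodW π) ((fun x : Fin k → Ω => ∏ i, (1 + g (x i)) - 1) - S1 g) ≤ k * ε ^ 2 := by
    apply nm_le_of_sq _ (by positivity)
    rw [rest_sq h1 h1' hg]
    have hkσ : k * ip π g g ≤ k * ε ^ 2 := mul_le_mul_of_nonneg_left hσ (Nat.cast_nonneg _)
    refine (scalar_rest hσ0 (hkσ.trans hkε)).trans ?_
    exact pow_le_pow_left₀ (by positivity) hkσ 2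
  have hsplit : (fun x : Fin k → Ω => ∏ i, (1 + g (x i)) - 1) =
      S1 g + ((fun x : Fin k → Ω => ∏ i, (1 + g (x i)) - 1) - S1 g) := by abel
  rw [hsplit, op_iter_add]
  calc _ ≤ nm (prodW π) ((op (popK K))^[τ] (S1 g)) +
        nm (prodW π) ((op (popK K))^[τ] ((fun x : Fin k → Ω => ∏ i, (1 + g (x i)) - 1) - S1 g)) :=
        nm_add hW _ _
    _ ≤ (A τ + B τ + C τ) +
        nm (prodW π) ((fun x : Fin k → Ω => ∏ i, (1 + g (x i)) - 1) - S1 g) :=
        add_le_add (hN τ) (nm_iter_le hP _ _)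
    _ ≤ ((1 - γ / (4 * k)) ^ τ + 160 / (k * γ ^ 2)) * A 0 + k * ε ^ 2 := add_le_add hrec hrest
    _ ≤ _ := by
        have := mul_le_mul_of_nonneg_left hS1 hc0
        linarith

/-- Invariance of the target. -/
theorem push_iter_self {X : Type*} [Fintype X] {w : X → ℝ} {P : X → X → ℝ} (h : RevPsd w P)
    (t : ℕ) : (push P)^[t] w = w := by
  have := push_iter_density h (fun _ => (1:ℝ)) t
  have e : ∀ t, (op P)^[t] (fun _ => (1:ℝ)) = fun _ => 1 := by
    intro t
    induction t with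
    | zero => rfl
    | succ t ih => rw [Function.iterate_succ_apply', ih, h.op_const]
  rw [e] at this
  simpa using this

/-- Main theorem of the block, for arbitrary universes. -/
theorem popAnneal_aux (k τ T : ℕ) (γ ε : ℝ) (π : ℕ → Ω → ℝ) (K : ℕ → Ω × Ω → Ω × Ω → ℝ)
    (hγ0 : 0 < γ) (hγ1 : γ ≤ 1) (hkγ : 6400 ≤ γ ^ 2 * k) (hε : 0 ≤ ε) (hkε : k * ε ^ 2 ≤ 1)
    (hpos : ∀ s ≤ T, ∀ a, 0 < π s a) (hone : ∀ s ≤ T, ∑ a, π s a = 1)
    (hK : ∀ s, 1 ≤ s → s ≤ T → GoodKernel (π s) (K s) γ)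
    (hd : ∀ s < T, ∀ a, |π s a / π (s + 1) a - 1| ≤ ε) :
    ∑ x : Fin k → Ω, |annLaw k τ π K T x - prodW (π T) x| ≤
      T * (((1 - γ / (4 * k)) ^ τ + 160 / (k * γ ^ 2)) * (√k * ε) + k * ε ^ 2) := by
  have hk : 2 ≤ k := by
    by_contra hlt
    have : k ≤ 1 := by omega
    have : (k:ℝ) ≤ 1 := by exact_mod_cast this
    nlinarith [sq_nonneg γ]
  induction T with
  | zero => simp [show annLaw k τ π K 0 = prodW (π 0) from rfl]
  | succ T ih =>
    have ih' := ih (fun s hs => hpos s (by omega)) (fun s hs => hone s (by omega))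
      (fun s h1 h2 => hK s h1 (by omega)) (fun s hs => hd s (by omega))
    set δ := ((1 - γ / (4 * k)) ^ τ + 160 / (k * γ ^ 2)) * (√k * ε) + k * ε ^ 2 with hδ
    have hKT := hK (T + 1) (by omega) le_rfl
    have hπ : ∀ a, 0 ≤ π (T + 1) a := fun a => (hpos _ le_rfl a).le
    have h1 := hone (T + 1) le_rfl
    have h1' := hone T (by omega)
    have hP := revPsd_popK hk hπ h1 (hKT.revPsd hπ)
    have hW : ∀ x : Fin k → Ω, 0 ≤ prodW (π (T + 1)) x := prodW_nonneg hπ
    set g : Ω → ℝ := fun a => π T a / π (T + 1) a - 1 with hgdef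
    have hg : ∀ a, π T a = π (T + 1) a * (1 + g a) := by
      intro a
      have := (hpos (T + 1) le_rfl a).ne'
      simp only [hgdef]; field_simp; ring
    set H : (Fin k → Ω) → ℝ := fun x => ∏ i, (1 + g (x i)) - 1 with hH
    have hdens : prodW (π T) - prodW (π (T + 1)) =
        fun x : Fin k → Ω => prodW (π (T + 1)) x * H x := by
      funext x
      simp only [Pi.sub_apply, hH, mul_sub, mul_one]
      congr 1
      unfold prodW; rw [← prod_mul_distrib]
      exact prod_congr rfl fun i _ => hg _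
    have hst := stage hk h1 hπ hKT hγ0 hγ1 hkγ h1' hg hε hkε (fun a => hd T (by omega) a) τ
    have e : annLaw k τ π K (T + 1) - prodW (π (T + 1)) =
        (push (popK (K (T + 1))))^[τ] (annLaw k τ π K T - prodW (π T)) +
        (push (popK (K (T + 1))))^[τ] (prodW (π T) - prodW (π (T + 1))) := by
      rw [push_iter_sub, push_iter_sub, push_iter_self hP]
      change (push (popK (K (T + 1))))^[τ] (annLaw k τ π K T) - _ = _
      abel
    calc ∑ x : Fin k → Ω, |annLaw k τ π K (T + 1) x - prodW (π (T + 1)) x|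
        = ∑ x : Fin k → Ω,
          |(annLaw k τ π K (T + 1) - prodW (π (T + 1)) : (Fin k → Ω) → ℝ) x| := rfl
      _ ≤ ∑ x : Fin k → Ω,
            |(push (popK (K (T + 1))))^[τ] (annLaw k τ π K T - prodW (π T)) x| +
          ∑ x : Fin k → Ω,
            |(push (popK (K (T + 1))))^[τ] (prodW (π T) - prodW (π (T + 1))) x| := by
          rw [e, ← sum_add_distrib]
          exact sum_le_sum fun x _ => by simp only [Pi.add_apply]; exact abs_add_le _ _
      _ ≤ T * δ + δ := by
          refine add_le_add ((push_iter_l1 hP _ τ).trans ih') ?_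
          rw [hdens, push_iter_density hP]
          refine le_trans (le_of_eq ?_) ((sum_abs_le_nm hW (sum_prodW h1) _).trans hst)
          exact sum_congr rfl fun x _ => by rw [abs_mul, abs_of_nonneg (hW x)]
      _ = ((T + 1 : ℕ) : ℝ) * δ := by push_cast; ring

/-- The theorem of the block. -/
theorem popAnneal : PopAnneal := by
  intro Ω _ _ k τ T γ ε π K h1 h2 h3 h4 h5 h6 h7 h8 h9
  exact popAnneal_aux k τ T γ ε π K h1 h2 h3 h4 h5 h6 h7 h8 h9

end Crest.Agent.R304.Pop
end
end

-- ▼ part R304/L6Core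

/-!
# R304 / S0464 (helper168): the probability statement about `Loop.est`
-/

set_option autoImplicit false
set_option linter.unusedSectionVars false

namespace Crest.Agent.R304.Glue

open Finset Crest.Agent.R309.Tape
open Crest.Agent.R304.Loop Crest.Agent.R304.Sim Crest.Agent.R304.LM Crest.Agent.R304.Samp
open Crest.Agent.R304.Ctl Crest.Agent.R304.L6
open Crest.Agent.R304.GK922 Crest.Agent.R304.Fine922

noncomputable section

variable {P : Prm}

/-! ### plumbing -/

theorem runSteps_take {S : Type*} (f : S → List Bool → S) (r k : ℕ) (s : S) (l : List Bool) :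
    runSteps f r k s (l.take (k * r)) = runSteps f r k s l := by
  induction k generalizing s l with
  | zero => rfl
  | succ k ih =>
    simp only [runSteps]
    have e1 : (l.take ((k + 1) * r)).take r = l.take r := by
      rw [List.take_take, min_eq_left (by nlinarith)]
    have e2 : (l.take ((k + 1) * r)).drop r = (l.drop r).take (k * r) := by
      rw [List.drop_take]
      congr 1
      rw [add_mul, one_mul, Nat.add_sub_cancel]
    rw [e1, e2, ih]

theorem length_loop (P : Prm) (r k : ℕ) (s : LSt) (l : List Bool) :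
    (runSteps (roundStep P) r k s l).1.length = s.1.length + k := by
  induction k generalizing s l with
  | zero => rfl
  | succ k ih =>
    simp only [runSteps]
    rw [ih]
    unfold roundStep
    simp only [List.length_append, List.length_singleton]
    ring

theorem sampLen_mono (P : Prm) {T T' : ℕ} (h : T ≤ T') :
    sampLen P.n P.k P.B0 P.B T ≤ sampLen P.n P.k P.B0 P.B T' := by
  unfold sampLen
  exact Nat.add_le_add_left (Nat.mul_le_mul_right _ h) _

theorem movesOf_le (P : Prm) {h : List Mv} (hh : h.length ≤ P.R) :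
    sampLen P.n P.k P.B0 P.B (movesOf P h) ≤ blk P := by
  unfold blk movesOf
  refine sampLen_mono P ?_
  exact Nat.mul_le_mul_right _ (Nat.mul_le_mul_right _ hh)

/-- what is needed about the macro tables of a history with good prefixes -/
def MacroHyp (P : Prm) : Prop :=
  ∀ h : List Mv, h.length ≤ P.R → (∀ c ∈ h, c ∈ mvSet P) →
    (∀ t ≤ h.length, Good prs (GP P) (P.n / 2) (P.n - 1) P.q P.m (P.n ^ 2) (stf P (h.take t))) →
    ∃ (Lm : ℕ → Fin P.n → Fin P.n → ℝ) (c1 : ℝ), 0 < c1 ∧ (∀ u v, Lm 0 u v = c1) ∧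
      Macro P.n P.m h.length (8 * (8 * (P.n : ℝ) ^ 2)) Lm ∧
      (∀ j ≤ h.length, ∀ u v : Fin P.n, u < v →
        (lamN P (h.take j) u v : ℝ) = scaleN P * Lm j u v) ∧
      ∀ s, GoodK.law (wo (Lm h.length)) s =
        gib prs (lamH (GP P) (P.n - 1) P.q P.m (stf P) h) s

/-- the inverse gap -/
def gInv (P : Prm) : ℝ := 1 / (Crest.Agent.R304.gN542 P.n : ℝ)

/-- numerical conditions on the parameters -/
structure NumHyp (P : Prm) (E : ℕ) : Prop where
  even : Even P.n
  four : 4 ≤ P.n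
  k2 : 2 ≤ P.k
  H0 : 0 < P.H
  hS : P.S = Smax P.m (P.n ^ 2)
  par : Par (Mov.Om (Fin P.n)) (P.n / 2) (P.n - 1) P.q P.m (P.n ^ 2) P.gd
  rounds : Rounds (P.n / 2) P.m (P.n ^ 2) P.gd ≤ P.R
  kg : 6400 ≤ gInv P ^ 2 * P.k
  keps : (P.k : ℝ) * (4 * P.n / (P.m * P.H)) ^ 2 ≤ 1
  samp : ∀ t ≤ P.R, popErr P.n P.k P.B0 P.B P.τ P.H t (gInv P) (4 * P.n / (P.m * P.H)) ≤
    1 / (8 * (P.R + 1))
  stat : (P.n : ℝ) ^ 2 / (P.k * (1 / (2 * P.gd)) ^ 2) +
    (2 * (P.n : ℝ) ^ 2 + 1) * (2 / (P.k * (1 / (2 * E * (P.R + 1))) ^ 2 * (1 / 2))) ≤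
      1 / (8 * (P.R + 1))

/-- **The population after a history samples from the product of the Gibbs law.** -/
theorem approx_popOf (hw : WtHyp P) {E : ℕ} (hN : NumHyp P E) (hM : MacroHyp P)
    {h : List Mv} (hh : h.length ≤ P.R) (hC : ∀ c ∈ h, c ∈ mvSet P)
    (hg : ∀ t ≤ h.length,
      Good prs (GP P) (P.n / 2) (P.n - 1) P.q P.m (P.n ^ 2) (stf P (h.take t))) :
    Approx (popOf P h) (blk P) (encP (n := P.n) (K := P.k))
      (prodLaw (gib prs (lamH (GP P) (P.n - 1) P.q P.m (stf P) h))) (1 / (8 * (P.R + 1))) := by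
  obtain ⟨Lm, c1, hc1, hconst, M, hLm, hlaw⟩ := hM h hh hC hg
  have hg1 : 1 ≤ Crest.Agent.R304.gN542 P.n := Crest.Agent.R304.gN542_pos P.n
  have hgR : (1 : ℝ) ≤ Crest.Agent.R304.gN542 P.n := by exact_mod_cast hg1
  have hγ : 0 < gInv P := by unfold gInv; positivity
  have hγ1 : gInv P ≤ 1 := by unfold gInv; rw [div_le_one (by linarith)]; exact hgR
  have h1 := approx_pop Pop.popAnneal P (by have := hN.four; omega) hN.k2 hN.H0 h M
    (c := scaleN P) (by exact_mod_cast hw.scale_pos) hLm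
    (fun j hj u v => hw.lam_pos _ ((List.length_take_le _ _).trans
      (by omega)) u v) hc1 hconst hγ hγ1 hN.kg hN.keps
    (fun o ho => Crest.Agent.R304.good_stage_holds M hN.H0 le_rfl o ho) (movesOf_le P hh)
  refine (h1.congr_law fun x => ?_).mono (hN.samp _ hh)
  unfold prodLaw
  exact prod_congr rfl fun i _ => (hlaw _).symm

/-- **The estimate is accurate with probability `3/4`** (real-number form). -/
theorem est_real (hw : WtHyp P) (hst : StHyp P) {E : ℕ} (hE : 1 ≤ E) (hN : NumHyp P E)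
    (hM : MacroHyp P)
    (hZ0 : ((Z0 P : ℚ) : ℝ) = Z prs (lamH (GP P) (P.n - 1) P.q P.m (stf P) []))
    (hcP : Fintype.card (Pr P.n) ≤ P.n ^ 2) (hcM : (mvSet P).card ≤ 2 * P.n ^ 2 + 1)
    (hcnt : 0 < cntG prs (GP P)) :
    3 / 4 ≤ pr (estLen P) (fun t =>
      (1 - 1 / (E : ℝ)) * cntG prs (GP P) ≤ ((est P t : ℚ) : ℝ) ∧
      ((est P t : ℚ) : ℝ) ≤ (1 + 1 / (E : ℝ)) * cntG prs (GP P)) := by
  have hn2 : 2 ≤ P.n := by have := hN.four; omega
  have hOm : Nonempty (Mov.Om (Fin P.n)) := Ctl.nonempty_Om hN.even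
  have hD := loopData hw hst hN.hS hN.par (by have := hN.k2; omega)
  have hkR : (0 : ℝ) < P.k := by
    have := hN.k2
    exact_mod_cast (by omega : 0 < P.k)
  have hgd : (0 : ℝ) < P.gd := by exact_mod_cast hN.par.gdpos
  have hER : (1 : ℝ) ≤ E := by exact_mod_cast hE
  have hRR : (0 : ℝ) < (P.R : ℝ) + 1 := by positivity
  set ζ : ℝ := 1 / (2 * E * (P.R + 1)) with hζ
  have hζ0 : 0 < ζ := by rw [hζ]; positivity
  have hcP' : (Fintype.card (Pr P.n) : ℝ) ≤ (P.n : ℝ) ^ 2 := by exact_mod_cast hcP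
  have hcM' : ((mvSet P).card : ℝ) ≤ 2 * (P.n : ℝ) ^ 2 + 1 := by exact_mod_cast hcM
  have hst8 := hN.stat
  rw [← hζ] at hst8
  have hA : 0 < (P.k : ℝ) * (1 / (2 * P.gd)) ^ 2 := by positivity
  have hB : 0 < 2 / ((P.k : ℝ) * ζ ^ 2 * (1 / 2)) := by positivity
  have hdd : 1 / (8 * ((P.R : ℝ) + 1)) + 1 / (8 * ((P.R : ℝ) + 1)) = 1 / (4 * (P.R + 1)) := by
    field_simp; norm_num
  have hstat : (Fintype.card (Pr P.n) : ℝ) / (P.k * (1 / (2 * P.gd)) ^ 2) +
      (mvSet P).card * (2 / (P.k * ζ ^ 2 * (1 / 2))) + 1 / (8 * ((P.R : ℝ) + 1)) ≤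
      1 / (4 * (P.R + 1)) := by
    have h1 : (Fintype.card (Pr P.n) : ℝ) / (P.k * (1 / (2 * P.gd)) ^ 2) ≤
        (P.n : ℝ) ^ 2 / (P.k * (1 / (2 * P.gd)) ^ 2) := div_le_div_of_nonneg_right hcP' hA.le
    have h2 := mul_le_mul_of_nonneg_right hcM' hB.le
    linarith
  have hstat1 : 1 / (P.k * ζ ^ 2 * (1 / 2)) + 1 / (8 * ((P.R : ℝ) + 1)) ≤
      1 / (4 * (P.R + 1)) := by
    have h1 : 1 / ((P.k : ℝ) * ζ ^ 2 * (1 / 2)) ≤
        (2 * (P.n : ℝ) ^ 2 + 1) * (2 / (P.k * ζ ^ 2 * (1 / 2))) := by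
      have h2 : 1 / ((P.k : ℝ) * ζ ^ 2 * (1 / 2)) ≤ 2 / (P.k * ζ ^ 2 * (1 / 2)) :=
        div_le_div_of_nonneg_right (by norm_num) (by positivity)
      have h3 : 1 * (2 / ((P.k : ℝ) * ζ ^ 2 * (1 / 2))) ≤
          (2 * (P.n : ℝ) ^ 2 + 1) * (2 / (P.k * ζ ^ 2 * (1 / 2))) :=
        mul_le_mul_of_nonneg_right (by nlinarith [sq_nonneg (P.n : ℝ)]) hB.le
      linarith
    have h4 : 0 ≤ (P.n : ℝ) ^ 2 / (P.k * (1 / (2 * P.gd)) ^ 2) := by positivity
    linarith
  have hround : ∀ s : LSt, WF s → (hist s).length < P.R → (∀ c ∈ hist s, c ∈ mvSet P) →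
      (∀ t ≤ (hist s).length, Good prs (GP P) (P.n / 2) (P.n - 1) P.q P.m (P.n ^ 2)
        (stf P ((hist s).take t))) →
      Approx (roundStep P s) (blk P) (fun x : Fin P.k → Mov.Om (Fin P.n) => upd P s x)
        (prodLaw (gib prs (lamH (GP P) (P.n - 1) P.q P.m (stf P) (hist s))))
        (1 / (8 * ((P.R : ℝ) + 1))) := by
    intro s _ hlt hC hg
    have h1 := approx_popOf hw hN hM (h := hist s) hlt.le hC hg
    exact h1.map (fun pop => (s.1 ++ [nextMv P s.1 pop], s.2 ++ [pop]))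
  have hfin : ∀ s : LSt, WF s → (hist s).length = P.R → (∀ c ∈ hist s, c ∈ mvSet P) →
      (∀ t ≤ (hist s).length, Good prs (GP P) (P.n / 2) (P.n - 1) P.q P.m (P.n ^ 2)
        (stf P ((hist s).take t))) →
      Approx (fun l => ((finM P s.1 (popOf P s.1 l) : ℚ) : ℝ)) (blk P)
        (fun x : Fin P.k → Mov.Om (Fin P.n) =>
          finR prs (GP P) (P.n - 1) P.q P.m (stf P) (hist s) x)
        (prodLaw (gib prs (lamH (GP P) (P.n - 1) P.q P.m (stf P) (hist s))))
        (1 / (8 * ((P.R : ℝ) + 1))) := by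
    intro s _ hlen hC hg
    have h1 := approx_popOf hw hN hM (h := hist s) hlen.le hC hg
    have h2 := h1.map (fun pop => ((finM P s.1 pop : ℚ) : ℝ))
    have e : (fun x : Fin P.k → Mov.Om (Fin P.n) => ((finM P s.1 (encP x) : ℚ) : ℝ)) =
        fun x => finR prs (GP P) (P.n - 1) P.q P.m (stf P) (hist s) x := by
      funext x
      exact finM_real hw hlen.le x
    rw [e] at h2
    exact h2
  have hmain := main_loop (sys_prs hn2) hN.par hD hN.rounds hcnt hE hζ hstat hstat1 (blk P)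
    (roundStep P) (fun s l => ((finM P s.1 (popOf P s.1 l) : ℚ) : ℝ)) ([], []) rfl rfl
    (by simp [val]) hround hfin
  have hlen : P.R * blk P + blk P = estLen P := by unfold estLen; ring
  rw [hlen] at hmain
  have hest : ∀ t : List Bool, ((est P t : ℚ) : ℝ) =
      Z prs (lamH (GP P) (P.n - 1) P.q P.m (stf P) []) *
        val P (runSteps (roundStep P) (blk P) P.R ([], []) (t.take (P.R * blk P))) *
        ((finM P (runSteps (roundStep P) (blk P) P.R ([], []) (t.take (P.R * blk P))).1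
          (popOf P (runSteps (roundStep P) (blk P) P.R ([], []) (t.take (P.R * blk P))).1
            (t.drop (P.R * blk P))) : ℚ) : ℝ) := by
    intro t
    rw [runSteps_take]
    unfold est estOf loop val
    rw [length_loop, Rat.cast_mul, Rat.cast_mul, hZ0]
    simp only [List.length_nil, zero_add]
  refine hmain.trans (le_of_eq (pr_congr fun t _ => ?_))
  rw [hest t]

end

end Crest.Agent.R304.Glue
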