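import Crest.Agent.R304.L6Approx

/-!
# R304 / S0464, block L6 (helper168): uniform indices, acceptance bits, heat-bath steps
-/

set_option autoImplicit false

namespace Crest.Agent.R304.L6

open Finset Crest.Agent.R309.Tape Crest.Agent.R309.MC Crest.Agent.Lib.PT.Arith

/-! ### a uniform index from fresh bits, by reduction modulo `N` -/

theorem sum_range_mod_eq {N : ℕ} (g : ℕ → ℝ) (q s : ℕ) (hs : s ≤ N) :
    ∑ r ∈ range (q * N + s), g (r % N) = q * ∑ i ∈ range N, g i + ∑ i ∈ range s, g i := by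
  induction q with
  | zero =>
    simp only [zero_mul, zero_add, Nat.cast_zero]
    exact sum_congr rfl fun i hi => by
      rw [Nat.mod_eq_of_lt (lt_of_lt_of_le (mem_range.1 hi) hs)]
  | succ q ih =>
    rw [show (q + 1) * N + s = N + (q * N + s) by ring, sum_range_add]
    have h1 : ∑ x ∈ range N, g (x % N) = ∑ i ∈ range N, g i :=
      sum_congr rfl fun i hi => by rw [Nat.mod_eq_of_lt (mem_range.1 hi)]
    have h2 : ∑ x ∈ range (q * N + s), g ((N + x) % N) = ∑ x ∈ range (q * N + s), g (x % N) :=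
      sum_congr rfl fun i _ => by rw [Nat.add_mod_left]
    rw [h1, h2, ih]
    push_cast; ring

/-- a uniform number modulo `N` from `B` bits, up to an error `2 N / 2 ^ B` -/
theorem avg_msb_mod {N : ℕ} (hN : 0 < N) (B : ℕ) (g : ℕ → ℝ) (hg : ∀ i < N, |g i| ≤ 1) :
    |avg B (fun l => g (msb l % N)) - (∑ i ∈ range N, g i) / N| ≤ 2 * N / 2 ^ B := by
  rw [avg_msb B (fun r => g (r % N))]
  set M : ℕ := 2 ^ B with hM
  have hMpos : 0 < M := by positivity
  have hMN : M / N * N + M % N = M := by rw [mul_comm]; exact Nat.div_add_mod M N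
  have hs : M % N < N := Nat.mod_lt _ hN
  have e := sum_range_mod_eq g (M / N) (M % N) hs.le
  rw [hMN] at e
  rw [e]
  have hNR : (0 : ℝ) < N := by exact_mod_cast hN
  have hMR : (0 : ℝ) < M := by exact_mod_cast hMpos
  have hcast : ((2 : ℝ) ^ B) = (M : ℝ) := by rw [hM]; push_cast; rfl
  rw [hcast]
  have hqs : ((M / N : ℕ) : ℝ) * N + ((M % N : ℕ) : ℝ) = M := by exact_mod_cast hMN
  have hsN : ((M % N : ℕ) : ℝ) ≤ N := by exact_mod_cast hs.le
  set q : ℝ := ((M / N : ℕ) : ℝ)
  set s : ℝ := ((M % N : ℕ) : ℝ) with hsdef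
  set G : ℝ := ∑ i ∈ range N, g i with hG
  set G' : ℝ := ∑ i ∈ range (M % N), g i with hG'
  have hGb : |G| ≤ N := by
    refine (abs_sum_le_sum_abs _ _).trans ((sum_le_sum fun i hi => hg i (mem_range.1 hi)).trans ?_)
    simp
  have hGb' : |G'| ≤ s := by
    refine (abs_sum_le_sum_abs _ _).trans
      ((sum_le_sum fun i hi => hg i ((mem_range.1 hi).trans hs)).trans ?_)
    simp [hsdef]
  have hs0 : 0 ≤ s := by positivity
  have e3 : (q * G + G') / M - G / N = G' / M - (G / N) * (s / M) := by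
    field_simp
    have : q * N = M - s := by linarith
    linear_combination G * this
  rw [e3]
  have h1 : |G' / M| ≤ N / M := by
    rw [abs_div, abs_of_pos hMR]
    exact div_le_div_of_nonneg_right (hGb'.trans hsN) hMR.le
  have h2 : |G / N * (s / M)| ≤ N / M := by
    rw [abs_mul]
    have h3 : |G / N| ≤ 1 := by
      rw [abs_div, abs_of_pos hNR, div_le_one hNR]; exact hGb
    have h4 : |s / M| ≤ N / M := by
      rw [abs_of_nonneg (by positivity)]
      exact div_le_div_of_nonneg_right hsN hMR.le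
    calc |G / N| * |s / M| ≤ 1 * (N / M) := mul_le_mul h3 h4 (abs_nonneg _) zero_le_one
      _ = N / M := one_mul _
  calc |G' / M - G / N * (s / M)| ≤ |G' / M| + |G / N * (s / M)| := abs_sub _ _
    _ ≤ N / M + N / M := add_le_add h1 h2
    _ = 2 * N / M := by ring

/-- acceptance with probability `b / (a + b)`, up to an error `2 / 2 ^ B` -/
theorem avg_accept {a b : ℕ} (hab : 0 < a + b) (B : ℕ) {u v : ℝ} (hu : |u| ≤ 1) (hv : |v| ≤ 1) :
    |avg B (fun l => if msb l * (a + b) < b * 2 ^ B then u else v) -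
      ((b : ℝ) / (a + b) * u + (a : ℝ) / (a + b) * v)| ≤ 2 / 2 ^ B := by
  set n : ℕ := (b * 2 ^ B + (a + b) - 1) / (a + b) with hn
  have hiff : ∀ r : ℕ, r * (a + b) < b * 2 ^ B ↔ r < n := by
    intro r
    rw [hn, Nat.lt_div_iff_mul_lt hab]
    constructor
    · intro h; omega
    · intro h; omega
  have hnle : n ≤ 2 ^ B := by
    have h1 : b * 2 ^ B ≤ 2 ^ B * (a + b) := by
      rw [mul_comm (2 ^ B)]; exact Nat.mul_le_mul_right _ (Nat.le_add_left b a)
    rw [hn]
    refine Nat.le_of_lt_succ ((Nat.div_lt_iff_lt_mul hab).2 ?_)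
    rw [Nat.succ_eq_add_one, add_mul]
    omega
  simp only [hiff]
  rw [avg_ite_msb_lt B n hnle]
  have h1 : b * 2 ^ B ≤ n * (a + b) := by
    have := Nat.lt_mul_div_succ (b * 2 ^ B + (a + b) - 1) hab
    rw [← hn] at this
    rw [mul_comm n]
    have h3 : (a + b) * (n + 1) = (a + b) * n + (a + b) := by ring
    omega
  have h2 : n * (a + b) < b * 2 ^ B + (a + b) := by
    have := Nat.div_mul_le_self (b * 2 ^ B + (a + b) - 1) (a + b)
    rw [← hn] at this
    omega
  have hR : (0 : ℝ) < (a : ℝ) + b := by exact_mod_cast hab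
  have hP : (0 : ℝ) < 2 ^ B := by positivity
  have h1R : (b : ℝ) * 2 ^ B ≤ n * (a + b) := by exact_mod_cast h1
  have h2R : (n : ℝ) * (a + b) ≤ b * 2 ^ B + (a + b) := by exact_mod_cast h2.le
  have e : v + (n : ℝ) / 2 ^ B * (u - v) - ((b : ℝ) / (a + b) * u + (a : ℝ) / (a + b) * v) =
      ((n : ℝ) / 2 ^ B - b / (a + b)) * (u - v) := by
    field_simp
    ring
  rw [e, abs_mul]
  have h3 : |(n : ℝ) / 2 ^ B - b / (a + b)| ≤ 1 / 2 ^ B := by
    rw [abs_le]
    constructor
    · have : (b : ℝ) / (a + b) ≤ n / 2 ^ B := by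
        rw [div_le_div_iff₀ hR hP]; exact h1R
      have : 0 ≤ (1 : ℝ) / 2 ^ B := by positivity
      linarith
    · rw [sub_le_iff_le_add, div_add_div _ _ hP.ne' hR.ne', div_le_div_iff₀ hP (by positivity)]
      have := mul_le_mul_of_nonneg_right h2R hP.le
      nlinarith [this]
  have h4 : |u - v| ≤ 2 := (abs_sub _ _).trans (by linarith)
  calc |(n : ℝ) / 2 ^ B - b / (a + b)| * |u - v| ≤ 1 / 2 ^ B * 2 :=
        mul_le_mul h3 h4 (abs_nonneg _) (by positivity)
    _ = 2 / 2 ^ B := by ring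

/-! ### the generic heat-bath step -/

section HB

variable {α : Type*} [Fintype α] [DecidableEq α] {S : Type*}

/-- One heat-bath step on the tape: `B0` bits choose the index `i` of a move, the proposal is
`mv i s`, the next `B` bits decide whether to accept it (probability `b / (a + b)`). -/
def hbStep (N B0 B : ℕ) (mv : ℕ → S → S) (a b : ℕ → S → ℕ) (s : S) (l : List Bool) : S :=
  if msb (l.drop B0) * (a (msb (l.take B0) % N) s + b (msb (l.take B0) % N) s) <
      b (msb (l.take B0) % N) s * 2 ^ B then mv (msb (l.take B0) % N) s else s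

/-- the ideal kernel of a heat-bath step -/
noncomputable def hbK (N : ℕ) (mv : ℕ → α → α) (a b : ℕ → α → ℕ) (x y : α) : ℝ :=
  (∑ i ∈ range N, ((b i x : ℝ) / (a i x + b i x) * (if y = mv i x then 1 else 0) +
    (a i x : ℝ) / (a i x + b i x) * (if y = x then 1 else 0))) / N

theorem sum_hbK_mul (N : ℕ) (mv : ℕ → α → α) (a b : ℕ → α → ℕ) (x : α) (ψ : α → ℝ) :
    ∑ y, hbK N mv a b x y * ψ y = (∑ i ∈ range N, ((b i x : ℝ) / (a i x + b i x) * ψ (mv i x) +
      (a i x : ℝ) / (a i x + b i x) * ψ x)) / N := by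
  have e0 : ∀ y, hbK N mv a b x y * ψ y = (∑ i ∈ range N,
      ((b i x : ℝ) / (a i x + b i x) * (if y = mv i x then 1 else 0) +
    (a i x : ℝ) / (a i x + b i x) * (if y = x then 1 else 0)) * ψ y) / N := by
    intro y
    rw [hbK, ← sum_mul]
    ring
  simp only [e0]
  rw [← sum_div]
  congr 1
  rw [sum_comm]
  refine sum_congr rfl fun i _ => ?_
  have e : ∀ y, ((b i x : ℝ) / (a i x + b i x) * (if y = mv i x then 1 else 0) +
      (a i x : ℝ) / (a i x + b i x) * (if y = x then 1 else 0)) * ψ y =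
      (if y = mv i x then (b i x : ℝ) / (a i x + b i x) * ψ y else 0) +
      (if y = x then (a i x : ℝ) / (a i x + b i x) * ψ y else 0) := by
    intro y
    split_ifs <;> ring
  simp only [e]
  rw [sum_add_distrib, sum_ite_eq', sum_ite_eq', if_pos (mem_univ _), if_pos (mem_univ _)]



/-- **The tape step samples from the heat-bath kernel** up to `2 N / 2 ^ B0 + 2 / 2 ^ B`. -/
theorem approx_hbStep {N B0 B : ℕ} (hN : 0 < N) {mvS : ℕ → S → S} {aS bS : ℕ → S → ℕ}
    {enc : α → S} {mv : ℕ → α → α} {a b : ℕ → α → ℕ}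
    (hmv : ∀ i < N, ∀ x, mvS i (enc x) = enc (mv i x))
    (ha : ∀ i < N, ∀ x, aS i (enc x) = a i x) (hb : ∀ i < N, ∀ x, bS i (enc x) = b i x)
    (hab : ∀ i < N, ∀ x, 0 < a i x + b i x) (x : α) :
    Approx (hbStep N B0 B mvS aS bS (enc x)) (B0 + B) enc (hbK N mv a b x)
      (2 * N / 2 ^ B0 + 2 / 2 ^ B) := by
  intro φ hφ
  unfold hbStep
  rw [avg_take_drop B0 B (fun l l' => φ (if msb l' * (aS (msb l % N) (enc x) +
    bS (msb l % N) (enc x)) < bS (msb l % N) (enc x) * 2 ^ B then mvS (msb l % N) (enc x)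
      else enc x))]
  set g : ℕ → ℝ := fun i => (b i x : ℝ) / (a i x + b i x) * φ (enc (mv i x)) +
      (a i x : ℝ) / (a i x + b i x) * φ (enc x) with hg
  have hg1 : ∀ i < N, |g i| ≤ 1 := by
    intro i hi
    have h0 : (0 : ℝ) < (a i x : ℝ) + b i x := by exact_mod_cast hab i hi x
    have h1 : (0 : ℝ) ≤ (b i x : ℝ) / (a i x + b i x) := by positivity
    have h2 : (0 : ℝ) ≤ (a i x : ℝ) / (a i x + b i x) := by positivity
    have h3 : (b i x : ℝ) / (a i x + b i x) + (a i x : ℝ) / (a i x + b i x) = 1 := by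
      rw [← add_div, add_comm, div_self h0.ne']
    calc |g i| ≤ |(b i x : ℝ) / (a i x + b i x) * φ (enc (mv i x))| +
          |(a i x : ℝ) / (a i x + b i x) * φ (enc x)| := abs_add_le _ _
      _ = (b i x : ℝ) / (a i x + b i x) * |φ (enc (mv i x))| +
          (a i x : ℝ) / (a i x + b i x) * |φ (enc x)| := by
          rw [abs_mul, abs_mul, abs_of_nonneg h1, abs_of_nonneg h2]
      _ ≤ (b i x : ℝ) / (a i x + b i x) * 1 + (a i x : ℝ) / (a i x + b i x) * 1 :=
          add_le_add (mul_le_mul_of_nonneg_left (hφ _) h1) (mul_le_mul_of_nonneg_left (hφ _) h2)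
      _ = 1 := by rw [mul_one, mul_one, h3]
  have a1 : |avg B0 (fun l => avg B (fun l' => φ (if msb l' * (aS (msb l % N) (enc x) +
      bS (msb l % N) (enc x)) < bS (msb l % N) (enc x) * 2 ^ B then mvS (msb l % N) (enc x)
        else enc x))) - avg B0 (fun l => g (msb l % N))| ≤ 2 / 2 ^ B := by
    rw [← avg_sub]
    refine (abs_avg_le _ _).trans (avg_le_const fun l _ => ?_)
    have hi : msb l % N < N := Nat.mod_lt _ hN
    simp only [hmv _ hi, ha _ hi, hb _ hi]
    have e : ∀ l' : List Bool, φ (if msb l' * (a (msb l % N) x + b (msb l % N) x) <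
        b (msb l % N) x * 2 ^ B then enc (mv (msb l % N) x) else enc x) =
        if msb l' * (a (msb l % N) x + b (msb l % N) x) < b (msb l % N) x * 2 ^ B then
          φ (enc (mv (msb l % N) x)) else φ (enc x) := by
      intro l'; split_ifs <;> rfl
    simp only [e]
    exact avg_accept (hab _ hi x) B (hφ _) (hφ _)
  have a2 := avg_msb_mod hN B0 g hg1
  have e2 : ∑ y, hbK N mv a b x y * φ (enc y) = (∑ i ∈ range N, g i) / N :=
    sum_hbK_mul N mv a b x (fun y => φ (enc y))
  rw [e2, add_comm (2 * (N : ℝ) / 2 ^ B0)]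
  exact (abs_sub_le _ _ _).trans (add_le_add a1 a2)

end HB

end Crest.Agent.R304.L6
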