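import Crest.Agent.R304.L6Main
import Crest.Agent.R304.Ctl787F
import Crest.Agent.R304.Fine922
import Crest.Agent.R304.GlueDefs168
import Crest.Agent.R304.GlueB168
import Crest.Agent.R309.PTSolve
import Crest.Agent.R309.Parse
import Crest.Prelude.Def_Matchings
import Crest.Prelude.Def_Randomized
import Crest.Agent.R304.Loop180
import Crest.Agent.R304.Start555
import Crest.Agent.R304.L6Core
import Crest.Agent.R304.L6Pop
import Crest.Agent.R304.ThmL542

-- ▼ part R304/Glue787
section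

/-!
# R304 / S0464, glue G4 (helper787): the macro tables of a history

`Lmac stf h j` is the symmetric extension of the controller weights after `h.take j`; it satisfies
`Fine922.Macro` as soon as all prefixes are `Good`, and its matching law is `gib prs`.
-/

set_option autoImplicit false
set_option linter.unusedSectionVars false

namespace Crest.Agent.R304.Glue4

open Finset Crest.Agent.R304.Ctl Crest.Agent.R304.L6 Fine922 GK922

noncomputable section

variable {n : ℕ}

/-- symmetric extension of a table on the pairs `u < v`, constant `c1` on the diagonal -/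
def sext (c1 : ℝ) (f : Pr n → ℝ) (u v : Fin n) : ℝ :=
  if h : u < v then f ⟨(u, v), h⟩ else if h : v < u then f ⟨(v, u), h⟩ else c1

theorem sext_lt {c1 : ℝ} {f : Pr n → ℝ} {u v : Fin n} (h : u < v) :
    sext c1 f u v = f ⟨(u, v), h⟩ := by
  unfold sext; rw [dif_pos h]

theorem sext_gt {c1 : ℝ} {f : Pr n → ℝ} {u v : Fin n} (h : v < u) :
    sext c1 f u v = f ⟨(v, u), h⟩ := by
  unfold sext; rw [dif_neg (not_lt.2 h.le), dif_pos h]

theorem sext_pr {c1 : ℝ} {f : Pr n → ℝ} (p : Pr n) : sext c1 f p.1.1 p.1.2 = f p :=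
  sext_lt p.2

theorem sext_symm {c1 : ℝ} {f : Pr n → ℝ} (u v : Fin n) : sext c1 f u v = sext c1 f v u := by
  rcases lt_trichotomy u v with h | h | h
  · rw [sext_lt h, sext_gt h]
  · rw [h]
  · rw [sext_gt h, sext_lt h]

theorem sext_pos {c1 : ℝ} (hc : 0 < c1) {f : Pr n → ℝ} (hf : ∀ e, 0 < f e) (u v : Fin n) :
    0 < sext c1 f u v := by
  unfold sext
  split_ifs
  · exact hf _
  · exact hf _
  · exact hc

theorem sext_le {c1 r : ℝ} (hc : 0 < c1) (hr : 1 ≤ r) {f g : Pr n → ℝ}
    (h : ∀ e, f e ≤ r * g e) (u v : Fin n) : sext c1 f u v ≤ r * sext c1 g u v := by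
  unfold sext
  split_ifs
  · exact h _
  · exact h _
  · nlinarith

theorem wo_sext (c1 : ℝ) (f : Pr n → ℝ) (s : Mov.Om (Fin n)) :
    wo (sext c1 f) s = wt prs f s := by
  have h := wt_prs (sext c1 f) s
  have e : (fun p : Pr n => sext c1 f p.1.1 p.1.2) = f := funext fun p => sext_pr p
  rw [e] at h
  rw [h]
  rfl

theorem Zw_sext (c1 : ℝ) (f : Pr n → ℝ) : Br.Zw (sext c1 f) = Z prs f := by
  unfold Br.Zw Z
  exact sum_congr rfl fun s _ => wo_sext c1 f s

theorem law_sext (c1 : ℝ) (f : Pr n → ℝ) :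
    GoodK.law (wo (sext c1 f)) = gib prs f := by
  funext s
  rw [law_eq, Zw_sext]
  have h := wo_sext c1 f s
  unfold wo at h
  rw [h]
  rfl

theorem sum_fiber (c1 : ℝ) (f : Pr n → ℝ) (p : Pr n) :
    ∑ s : Mov.Om (Fin n), (if s.1 p.1.1 = p.1.2 then Br.wt (sext c1 f) s.1 else 0) =
      ∑ s ∈ univ.filter (fun s => p ∈ prs s), wt prs f s := by
  rw [sum_filter]
  refine sum_congr rfl fun s _ => ?_
  have h := wo_sext c1 f s
  unfold wo at h
  rw [h]
  by_cases hs : s.1 p.1.1 = p.1.2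
  · rw [if_pos hs, if_pos (mem_prs.2 hs)]
  · rw [if_neg hs, if_neg (fun h' => hs (mem_prs.1 h'))]

/-- well-conditioning from the marginals -/
theorem wc_sext [Nonempty (Mov.Om (Fin n))] {c1 Q : ℝ} (hQ : 0 < Q) {f : Pr n → ℝ}
    (hf : ∀ e, 0 < f e) (hm : ∀ e, 1 / Q ≤ marg prs f e) : WC Q (sext c1 f) := by
  have key : ∀ p : Pr n, Br.Zw (sext c1 f) ≤
      Q * ∑ s : Mov.Om (Fin n), (if s.1 p.1.1 = p.1.2 then Br.wt (sext c1 f) s.1 else 0) := by
    intro p
    rw [sum_fiber, Zw_sext]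
    have h1 := hm p
    unfold marg at h1
    have hZ : 0 < Z prs f := Z_pos prs hf
    rw [div_le_div_iff₀ hQ hZ] at h1
    linarith
  intro u v huv
  rcases lt_or_gt_of_ne huv with h | h
  · exact key ⟨(u, v), h⟩
  · have h2 := key ⟨(v, u), h⟩
    refine h2.trans (le_of_eq ?_)
    congr 1
    refine sum_congr rfl fun s _ => ?_
    have : (s.1 v = u) ↔ (s.1 u = v) := by
      constructor
      · intro h3; rw [← h3]; exact (s.2 v).1
      · intro h3; rw [← h3]; exact (s.2 u).1
    simp only [this]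

/-! ### moves of the controller -/

/-- the three moves, without estimates -/
def MvStep {E : Type*} [DecidableEq E] (S : ℕ) (st st' : St E) : Prop :=
  (∃ e, st' = ⟨st.s, Function.update st.a e (st.a e + 1)⟩) ∨
  (∃ e, st' = ⟨st.s, Function.update st.a e (st.a e - 1)⟩) ∨
  st' = ⟨min (st.s + 1) S, st.a⟩

theorem MvStep.lamw {Ω E : Type*} [Fintype Ω] [Fintype E] [DecidableEq E] {N d q m W gd : ℕ}
    (hp : Par Ω N d q m W gd) (G : E → Prop) [DecidablePred G] {S : ℕ}
    {st st' : St E} (h : MvStep S st st') (hs' : st.s ≤ S) (e : E) :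
    lamw G (w0 q d) m st' e ≤ ((m:ℝ) + 1) / m * lamw G (w0 q d) m st e ∧
    lamw G (w0 q d) m st e ≤ ((m:ℝ) + 1) / m * lamw G (w0 q d) m st' e := by
  rcases h with ⟨f, hf⟩ | ⟨f, hf⟩ | hf
  · exact lamw_step (q := q) (gd := gd) (xh := fun _ => 1 / (q:ℝ) - 1 / gd) hp G
      (Or.inl ⟨f, le_rfl, hf⟩) hs' e
  · exact lamw_step (q := q) (gd := gd) (xh := fun _ => 1 / (q:ℝ) + 1 / gd) hp G
      (Or.inr (Or.inl ⟨f, le_rfl, hf⟩)) hs' e
  · refine lamw_step (q := q) (gd := gd) (xh := fun _ => 1 / (q:ℝ)) hp G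
      (Or.inr (Or.inr ⟨fun _ => ?_, hf⟩)) hs' e
    rw [sub_self, abs_zero]; positivity

/-! ### the macro tables -/

section macro_

variable {κ : Type*} (G : Pr n → Prop) [DecidablePred G] (q m : ℕ)

/-- macro tables of a history -/
def Lmac (stf : List κ → St (Pr n)) (h : List κ) (j : ℕ) : Fin n → Fin n → ℝ :=
  sext (1 + w0 q (n - 1)) (lamH G (n - 1) q m stf (h.take j))

variable {G q m}

theorem Lmac_lt (stf : List κ → St (Pr n)) (h : List κ) (j : ℕ) {u v : Fin n} (huv : u < v) :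
    Lmac G q m stf h j u v = lamH G (n - 1) q m stf (h.take j) ⟨(u, v), huv⟩ :=
  sext_lt huv

theorem law_Lmac (stf : List κ → St (Pr n)) (h : List κ) :
    GoodK.law (wo (Lmac G q m stf h h.length)) = gib prs (lamH G (n - 1) q m stf h) := by
  unfold Lmac
  rw [law_sext, List.take_length]

theorem Lmac_zero {stf : List κ → St (Pr n)} (h0 : stf [] = st0) (h : List κ) (u v : Fin n) :
    Lmac G q m stf h 0 u v = 1 + w0 q (n - 1) := by
  have e : lamH G (n - 1) q m stf (h.take 0) = fun _ => 1 + w0 q (n - 1) := by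
    funext e
    unfold lamH
    rw [List.take_zero, h0]
    unfold lamw Aw omw st0
    simp
  unfold Lmac
  rw [e]
  unfold sext
  split_ifs <;> rfl

variable {W gd : ℕ}

theorem c1_pos (hp : Par (Mov.Om (Fin n)) (n / 2) (n - 1) q m W gd) :
    (0 : ℝ) < 1 + w0 q (n - 1) := by
  have := hp.w0_pos
  linarith

theorem step_take {stf : List κ → St (Pr n)} {C : Finset κ} {R : ℕ}
    (step : ∀ h c, h.length < R → (∀ c ∈ h, c ∈ C) → c ∈ C → ∀ e,
      lamH G (n - 1) q m stf (h ++ [c]) e ≤ ((m : ℝ) + 1) / m * lamH G (n - 1) q m stf h e ∧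
      lamH G (n - 1) q m stf h e ≤ ((m : ℝ) + 1) / m * lamH G (n - 1) q m stf (h ++ [c]) e)
    {h : List κ} (hR : h.length ≤ R) (hC : ∀ c ∈ h, c ∈ C) (t : ℕ) (ht : t < h.length)
    (e : Pr n) :
    lamH G (n - 1) q m stf (h.take (t + 1)) e ≤
        ((m : ℝ) + 1) / m * lamH G (n - 1) q m stf (h.take t) e ∧
      lamH G (n - 1) q m stf (h.take t) e ≤
        ((m : ℝ) + 1) / m * lamH G (n - 1) q m stf (h.take (t + 1)) e := by
  have e1 : h.take (t + 1) = h.take t ++ [h[t]] := by
    rw [List.take_succ_eq_append_getElem ht]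
  rw [e1]
  refine step (h.take t) h[t] ?_ ?_ ?_ e
  · rw [List.length_take]; omega
  · intro c hc; exact hC c (List.mem_of_mem_take hc)
  · exact hC _ (List.getElem_mem ht)

/-- **(G4)** the macro structure -/
theorem macro_of (hev : Even n) (h3 : 3 ≤ n)
    (hp : Par (Mov.Om (Fin n)) (n / 2) (n - 1) q m W gd)
    {stf : List κ → St (Pr n)} {h : List κ}
    (hgood : ∀ t ≤ h.length, Good prs G (n / 2) (n - 1) q m W (stf (h.take t)))
    (hstep : ∀ t < h.length, ∀ e,
      lamH G (n - 1) q m stf (h.take (t + 1)) e ≤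
        ((m : ℝ) + 1) / m * lamH G (n - 1) q m stf (h.take t) e ∧
      lamH G (n - 1) q m stf (h.take t) e ≤
        ((m : ℝ) + 1) / m * lamH G (n - 1) q m stf (h.take (t + 1)) e) :
    Macro n m h.length (8 * (q : ℝ)) (Lmac G q m stf h) := by
  have hne : Nonempty (Mov.Om (Fin n)) := GK922.nonempty_Om hev
  have hc := c1_pos hp
  have hm := hp.mpos
  have hm' : (0 : ℝ) < m := by exact_mod_cast hm
  have hq1 : 1 ≤ q := hp.qpos
  have hq' : (1 : ℝ) ≤ q := by exact_mod_cast hq1
  have hr : ((m : ℝ) + 1) / m = 1 + 1 / (m : ℝ) := by field_simp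
  have hr1 : (1 : ℝ) ≤ 1 + 1 / (m : ℝ) := r_ge m
  refine ⟨hev, h3, ?_, by linarith, ?_, ?_, ?_, ?_, ?_⟩
  · have h1 := hp.hm1
    have h2 := hp.hq
    have h4 : 1 ≤ n / 2 := by omega
    have h5 : 1 ≤ n - 1 := by omega
    have h6 : 16 ≤ q := by
      have : 1 * 1 ≤ n / 2 * (n - 1) := Nat.mul_le_mul h4 h5
      omega
    have h7 : 2 * q * (n / 2) = q * n := by
      obtain ⟨k, hk⟩ := hev
      have : n / 2 = k := by omega
      rw [this, hk]; ring
    rw [h7] at h1
    have h8 : 2 * n ≤ q * n := Nat.mul_le_mul_right _ (by omega)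
    omega
  · intro t _ u v
    exact sext_pos hc (fun e => lamH_pos hp stf _ e) u v
  · intro t _ u v
    exact sext_symm u v
  · intro t ht u v
    exact sext_le hc hr1 (fun e => by rw [← hr]; exact (hstep t ht e).1) u v
  · intro t ht u v
    exact sext_le hc hr1 (fun e => by rw [← hr]; exact (hstep t ht e).2) u v
  · intro t ht
    refine wc_sext (by linarith) (fun e => lamH_pos hp stf _ e) fun e => ?_
    exact (hgood t ht).marg_ge hp e

/-- **(G4)** the macro structure, from the `step` field of `LoopData` -/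
theorem macro_of_step (hev : Even n) (h3 : 3 ≤ n)
    (hp : Par (Mov.Om (Fin n)) (n / 2) (n - 1) q m W gd)
    {stf : List κ → St (Pr n)} {C : Finset κ} {R : ℕ}
    (step : ∀ h c, h.length < R → (∀ c ∈ h, c ∈ C) → c ∈ C → ∀ e,
      lamH G (n - 1) q m stf (h ++ [c]) e ≤ ((m : ℝ) + 1) / m * lamH G (n - 1) q m stf h e ∧
      lamH G (n - 1) q m stf h e ≤ ((m : ℝ) + 1) / m * lamH G (n - 1) q m stf (h ++ [c]) e)
    {h : List κ} (hR : h.length ≤ R) (hC : ∀ c ∈ h, c ∈ C)
    (hgood : ∀ t ≤ h.length, Good prs G (n / 2) (n - 1) q m W (stf (h.take t))) :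
    Macro n m h.length (8 * (q : ℝ)) (Lmac G q m stf h) :=
  macro_of hev h3 hp hgood (fun t ht e => step_take step hR hC t ht e)

end macro_

end

end Crest.Agent.R304.Glue4
end

-- ▼ part R304/Glue180
section

/-!
# R304 / S0464: glue, first half (helper180)

* (G2) the integer weights of the program are `scaleN` times the weights of the controller;
* (G3) the controller state after each of the three moves; the set of moves.
-/

set_option autoImplicit false
set_option linter.unusedSectionVars false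
set_option linter.dupNamespace false

namespace Crest.Agent.R304.Glue180

open Finset Crest.Agent.R304.Loop Crest.Agent.R304.Sim Crest.Agent.R304.LM
open Crest.Agent.R304.Ctl Crest.Agent.R304.Glue

variable (P : Prm)

/-! ### counting -/

theorem cntMv_nil (kd u v : ℕ) : cntMv [] kd u v = 0 := rfl

theorem cntMv_snoc (h : List Mv) (c : Mv) (kd u v : ℕ) :
    cntMv (h ++ [c]) kd u v = cntMv h kd u v + if c = (kd, u, v) then 1 else 0 := by
  unfold cntMv
  rw [List.countP_append, List.countP_singleton]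
  simp only [decide_eq_true_eq]

theorem cntMv_le (h : List Mv) (kd u v : ℕ) : cntMv h kd u v ≤ h.length := List.countP_le_length

theorem thN_nil : thN P [] = 0 := by simp [thN]

theorem thN_le (h : List Mv) : thN P h ≤ h.length :=
  (min_le_left _ _).trans List.countP_le_length


theorem thN_snoc (h : List Mv) (c : Mv) :
    thN P (h ++ [c]) = if c.1 = 0 then min (thN P h + 1) P.S else thN P h := by
  unfold thN
  rw [List.countP_append, List.countP_singleton]
  simp only [decide_eq_true_eq]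
  split_ifs <;> omega

/-! ### (G3) the controller state -/

theorem stf_nil : stf P [] = st0 := by
  unfold stf st0
  rw [thN_nil]
  simp only [cntMv_nil]
  simp

/-- a `theta` step -/
theorem stf_theta (h : List Mv) :
    stf P (h ++ [(0, 0, 0)]) = ⟨min ((stf P h).s + 1) P.S, (stf P h).a⟩ := by
  have e1 : (stf P (h ++ [(0, 0, 0)])).s = min ((stf P h).s + 1) P.S := by
    simp only [stf]
    rw [thN_snoc, if_pos rfl]
  have e2 : (stf P (h ++ [(0, 0, 0)])).a = (stf P h).a := by
    funext e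
    simp only [stf, cntMv_snoc]
    simp
  calc stf P (h ++ [(0, 0, 0)]) = ⟨(stf P (h ++ [(0, 0, 0)])).s,
      (stf P (h ++ [(0, 0, 0)])).a⟩ := rfl
    _ = _ := by rw [e1, e2]

/-- a plus step -/
theorem stf_plus (h : List Mv) (e : Pr P.n) :
    stf P (h ++ [(1, (e.1.1 : ℕ), (e.1.2 : ℕ))]) =
      ⟨(stf P h).s, Function.update (stf P h).a e ((stf P h).a e + 1)⟩ := by
  have e1 : (stf P (h ++ [(1, (e.1.1 : ℕ), (e.1.2 : ℕ))])).s = (stf P h).s := by
    simp only [stf]
    rw [thN_snoc, if_neg (by simp)]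
  have e2 : (stf P (h ++ [(1, (e.1.1 : ℕ), (e.1.2 : ℕ))])).a =
      Function.update (stf P h).a e ((stf P h).a e + 1) := by
    funext f
    by_cases hf : f = e
    · subst hf
      rw [Function.update_self]
      simp only [stf, cntMv_snoc]
      simp
      ring
    · rw [Function.update_of_ne hf]
      simp only [stf, cntMv_snoc]
      have h1 : ¬ ((1, (e.1.1 : ℕ), (e.1.2 : ℕ)) = (1, (f.1.1 : ℕ), (f.1.2 : ℕ))) := by
        intro h2
        simp only [Prod.mk.injEq, true_and] at h2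
        apply hf
        apply Subtype.ext
        exact Prod.ext (Fin.ext h2.1.symm) (Fin.ext h2.2.symm)
      rw [if_neg h1]
      simp
  calc stf P (h ++ [(1, (e.1.1 : ℕ), (e.1.2 : ℕ))]) =
      ⟨(stf P (h ++ [(1, (e.1.1 : ℕ), (e.1.2 : ℕ))])).s,
        (stf P (h ++ [(1, (e.1.1 : ℕ), (e.1.2 : ℕ))])).a⟩ := rfl
    _ = _ := by rw [e1, e2]

/-- a minus step -/
theorem stf_minus (h : List Mv) (e : Pr P.n) :
    stf P (h ++ [(2, (e.1.1 : ℕ), (e.1.2 : ℕ))]) =
      ⟨(stf P h).s, Function.update (stf P h).a e ((stf P h).a e - 1)⟩ := by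
  have e1 : (stf P (h ++ [(2, (e.1.1 : ℕ), (e.1.2 : ℕ))])).s = (stf P h).s := by
    simp only [stf]
    rw [thN_snoc, if_neg (by simp)]
  have e2 : (stf P (h ++ [(2, (e.1.1 : ℕ), (e.1.2 : ℕ))])).a =
      Function.update (stf P h).a e ((stf P h).a e - 1) := by
    funext f
    by_cases hf : f = e
    · subst hf
      rw [Function.update_self]
      simp only [stf, cntMv_snoc]
      simp
      ring
    · rw [Function.update_of_ne hf]
      simp only [stf, cntMv_snoc]
      have h1 : ¬ ((2, (e.1.1 : ℕ), (e.1.2 : ℕ)) = (2, (f.1.1 : ℕ), (f.1.2 : ℕ))) := by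
        intro h2
        simp only [Prod.mk.injEq, true_and] at h2
        apply hf
        apply Subtype.ext
        exact Prod.ext (Fin.ext h2.1.symm) (Fin.ext h2.2.symm)
      rw [if_neg h1]
      simp
  calc stf P (h ++ [(2, (e.1.1 : ℕ), (e.1.2 : ℕ))]) =
      ⟨(stf P (h ++ [(2, (e.1.1 : ℕ), (e.1.2 : ℕ))])).s,
        (stf P (h ++ [(2, (e.1.1 : ℕ), (e.1.2 : ℕ))])).a⟩ := rfl
    _ = _ := by rw [e1, e2]

/-! ### the set of moves -/


theorem length_pairsL_le (n : ℕ) : (pairsL n).length ≤ n * n := by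
  unfold pairsL
  rw [List.length_flatMap]
  have h : ∀ l : List ℕ, (∀ v ∈ l, v < n) →
      (l.map (fun v => ((List.range v).map (fun u => (u, v))).length)).sum ≤ l.length * n := by
    intro l
    induction l with
    | nil => simp
    | cons a l ih =>
      intro hl
      have h1 := ih (fun v hv => hl v (List.mem_cons_of_mem _ hv))
      have h2 := hl a (List.mem_cons_self ..)
      simp only [List.map_cons, List.sum_cons, List.length_map, List.length_range,
        List.length_cons] at h1 ⊢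
      have : (l.length + 1) * n = l.length * n + n := by ring
      omega
  have := h (List.range n) (fun v hv => List.mem_range.1 hv)
  rw [List.length_range] at this
  exact this

theorem card_mvSet_le : (mvSet P).card ≤ 2 * P.n ^ 2 + 1 := by
  unfold mvSet
  refine (card_union_le _ _).trans ?_
  have h1 := card_union_le {(0, 0, 0)}
    ((pairsL P.n).map (fun e => ((1, e.1, e.2) : Mv))).toFinset
  have h2 := List.toFinset_card_le ((pairsL P.n).map (fun e => ((1, e.1, e.2) : Mv)))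
  have h3 := List.toFinset_card_le ((pairsL P.n).map (fun e => ((2, e.1, e.2) : Mv)))
  rw [List.length_map] at h2 h3
  rw [card_singleton] at h1
  have h4 := length_pairsL_le P.n
  nlinarith

theorem card_Pr_le (n : ℕ) : Fintype.card (Pr n) ≤ n ^ 2 := by
  refine (Fintype.card_subtype_le _).trans ?_
  rw [Fintype.card_prod, Fintype.card_fin]
  exact (sq n).ge



/-! ### (G2) the weights -/

theorem scaleN_pos (hm : 0 < P.m) (hq : P.n - 1 < P.q) : 0 < scaleN P := by
  unfold scaleN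
  have : 0 < P.q - (P.n - 1) := by omega
  positivity

theorem AN_pos (hm : 0 < P.m) (hq : P.n - 1 < P.q) (h : List Mv) (u v : ℕ) :
    0 < AN P h u v := by
  unfold AN
  split_ifs
  · exact scaleN_pos P hm hq
  · have : 0 < P.q - (P.n - 1) := by omega
    positivity

theorem lamN_pos (hm : 0 < P.m) (hq : P.n - 1 < P.q) (h : List Mv) (u v : ℕ) :
    0 < lamN P h u v := Nat.add_pos_left (AN_pos P hm hq h u v) _

theorem cast_AN (hm : 0 < P.m) (h : List Mv) (hL : h.length ≤ P.L) (e : Pr P.n) :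
    (AN P h e.1.1 e.1.2 : ℝ) = scaleN P * Aw (GP P) P.m (stf P h).s e := by
  unfold AN Aw
  have hG : (adj P e.1.1 e.1.2 = true) = GP P e := rfl
  simp only [hG]
  split_ifs
  · rw [mul_one]
  · have hs : (stf P h).s = thN P h := rfl
    have hth : thN P h ≤ P.L := (thN_le P h).trans hL
    obtain ⟨r, hr⟩ := Nat.exists_eq_add_of_le hth
    rw [hs]
    unfold scaleN
    have e1 : P.L - thN P h = r := by omega
    rw [e1, hr]
    have hm' : (P.m : ℝ) ≠ 0 := by exact_mod_cast hm.ne'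
    have hm1 : (P.m : ℝ) + 1 ≠ 0 := by positivity
    push_cast
    rw [div_pow]
    field_simp
    ring

theorem cast_omN (hm : 0 < P.m) (hq : P.n - 1 < P.q) (h : List Mv) (hL : h.length ≤ P.L)
    (e : Pr P.n) :
    (omN P h e.1.1 e.1.2 : ℝ) = scaleN P * omw (w0 P.q (P.n - 1)) P.m (stf P h).a e := by
  unfold omN omw w0 scaleN
  have ha : (stf P h).a e = (cntMv h 1 e.1.1 e.1.2 : ℤ) - (cntMv h 2 e.1.1 e.1.2 : ℤ) := rfl
  rw [ha]
  have h1 := (cntMv_le h 1 e.1.1 e.1.2).trans hL
  have h2 := (cntMv_le h 2 e.1.1 e.1.2).trans hL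
  generalize cntMv h 1 e.1.1 e.1.2 = a at h1
  generalize cntMv h 2 e.1.1 e.1.2 = b at h2
  have hm' : (P.m : ℝ) ≠ 0 := by exact_mod_cast hm.ne'
  have hm1 : (P.m : ℝ) + 1 ≠ 0 := by positivity
  have hqd : ((P.q - (P.n - 1) : ℕ) : ℝ) = (P.q : ℝ) - ((P.n - 1 : ℕ) : ℝ) :=
    Nat.cast_sub hq.le
  have hqd0 : ((P.q - (P.n - 1) : ℕ) : ℝ) ≠ 0 := by
    have : 0 < P.q - (P.n - 1) := by omega
    exact_mod_cast this.ne'
  have key : ((P.m : ℝ) + 1) ^ (P.L + a - b) * (P.m : ℝ) ^ (P.L + b - a) =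
      (P.m : ℝ) ^ P.L * ((P.m : ℝ) + 1) ^ P.L *
        (((P.m : ℝ) + 1) / P.m) ^ ((a : ℤ) - (b : ℤ)) := by
    have hx : ((P.m : ℝ) + 1) / P.m ≠ 0 := div_ne_zero hm1 hm'
    rw [zpow_sub₀ hx, zpow_natCast, zpow_natCast]
    have e1 : ((P.m : ℝ) + 1) ^ (P.L + a - b) * ((P.m : ℝ) + 1) ^ b =
        ((P.m : ℝ) + 1) ^ (P.L + a) := by
      rw [← pow_add]; congr 1; omega
    have e2 : (P.m : ℝ) ^ (P.L + b - a) * (P.m : ℝ) ^ a = (P.m : ℝ) ^ (P.L + b) := by
      rw [← pow_add]; congr 1; omega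
    rw [div_pow, div_pow]
    have hb : ((P.m : ℝ) + 1) ^ b ≠ 0 := pow_ne_zero _ hm1
    have hma : (P.m : ℝ) ^ a ≠ 0 := pow_ne_zero _ hm'
    have hmb : (P.m : ℝ) ^ b ≠ 0 := pow_ne_zero _ hm'
    rw [pow_add] at e1 e2
    field_simp
    calc _ = (((P.m : ℝ) + 1) ^ (P.L + a - b) * ((P.m : ℝ) + 1) ^ b) *
          ((P.m : ℝ) ^ (P.L + b - a) * (P.m : ℝ) ^ a) := by ring
      _ = _ := by rw [e1, e2]; ring
  push_cast
  rw [key, ← hqd]
  field_simp

/-- **(G2)** -/
theorem cast_lamN (hm : 0 < P.m) (hq : P.n - 1 < P.q) (h : List Mv) (hL : h.length ≤ P.L)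
    (e : Pr P.n) :
    (lamN P h e.1.1 e.1.2 : ℝ) =
      scaleN P * lamw (GP P) (w0 P.q (P.n - 1)) P.m (stf P h) e := by
  unfold lamN lamw
  rw [Nat.cast_add, cast_AN P hm h hL e, cast_omN P hm hq h hL e]
  ring

/-- **(G2)** in the form of `L6.lamH` -/
theorem cast_lamN' (hm : 0 < P.m) (hq : P.n - 1 < P.q) (h : List Mv) (hL : h.length ≤ P.L)
    (e : Pr P.n) :
    (lamN P h e.1.1 e.1.2 : ℝ) =
      scaleN P * L6.lamH (GP P) (P.n - 1) P.q P.m (stf P) h e := cast_lamN P hm hq h hL e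



end Crest.Agent.R304.Glue180
end

-- ▼ part R304/Glue180B
section

/-!
# R304 / S0464: the hypotheses `WtHyp`, `StHyp` of helper168's glue
-/

set_option autoImplicit false
set_option linter.unusedSectionVars false
set_option linter.dupNamespace false

namespace Crest.Agent.R304.Glue180

open Crest.Agent.R304.Loop Crest.Agent.R304.Ctl Crest.Agent.R304.Glue

theorem stHyp (P : Prm) : StHyp P :=
  ⟨stf_nil P, stf_theta P, stf_plus P, stf_minus P⟩

theorem wtHyp (P : Prm) (hm : 0 < P.m) (hq : P.n - 1 < P.q) (hL : P.R ≤ P.L) : WtHyp P :=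
  ⟨scaleN_pos P hm hq, fun h hh e => cast_lamN' P hm hq h (hh.trans hL) e,
    fun h hh e => cast_omN P hm hq h (hh.trans hL) e, fun h _ u v => lamN_pos P hm hq h u v⟩

end Crest.Agent.R304.Glue180
end

-- ▼ part R304/Top119
section

/-!
# Row 304, S0464: the top layer

`Core` is the statement that one poly-time function of (input, tape), on typed input
`inp n G E = (n, adjacency bits, E)`, estimates the number of perfect matchings within `1 ± 1/E` with
probability `3/4`.  `S0464_of : Core → (statement of S0464)` does parsing, cutting of the tape,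
median amplification and output.
-/

set_option autoImplicit false

namespace Crest.Agent.R304.Top119

open Crest.Enc Crest.FinProb Crest.Randomized Crest.Matchings
open Crest.Agent.Lib.PT Crest.Agent.R309.Tape Crest.Agent.R309.PTX Crest.Agent.R309.Parse
open Crest.Agent.R287

/-- typed input of the core algorithm: number of vertices, adjacency bits row by row, accuracy -/
abbrev Inp := Un × List Bool × Un

/-- the adjacency bits of a graph, row by row -/
def adjBits (n : ℕ) (G : SimpleGraph (Fin n)) [DecidableRel G.Adj] : List Bool :=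
  ((List.finRange n).map fun i => (List.finRange n).map fun j => decide (G.Adj i j)).flatten

/-- the typed input -/
def inp (n : ℕ) (G : SimpleGraph (Fin n)) [DecidableRel G.Adj] (E : ℕ) : Inp :=
  (⟨n⟩, adjBits n G, ⟨E⟩)

/-- the core estimator -/
def Core : Prop :=
  ∃ (F : Inp × List Bool → ℚ) (len : Inp → ℕ), PTF F ∧ PTU len ∧
    ∀ (n : ℕ) (G : SimpleGraph (Fin n)) [DecidableRel G.Adj] (E : ℕ), 1 ≤ E →
      (∀ t : List Bool, t.length = len (inp n G E) → 0 ≤ F (inp n G E, t)) ∧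
      (numPerfectMatchings G = 0 →
        ∀ t : List Bool, t.length = len (inp n G E) → F (inp n G E, t) = 0) ∧
      3 / 4 ≤ pr (len (inp n G E)) (fun t =>
        (1 - 1 / (E : ℚ)) * numPerfectMatchings G ≤ F (inp n G E, t) ∧
        F (inp n G E, t) ≤ (1 + 1 / (E : ℚ)) * numPerfectMatchings G)

/-! ### parsing -/

theorem length_adjBits (n : ℕ) (G : SimpleGraph (Fin n)) [DecidableRel G.Adj] :
    (adjBits n G).length = n * n := by
  unfold adjBits
  rw [List.length_flatten, List.map_map]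
  have h : (List.length ∘ fun i : Fin n => (List.finRange n).map fun j => decide (G.Adj i j)) =
      fun _ => n := by
    funext i
    simp
  rw [h]
  simp

/-- read a graph: number of vertices, adjacency bits, rest -/
def parseG (l : List Bool) : (Un × List Bool) × List Bool :=
  ((⟨min (readNat l).1 l.length⟩, (readNat l).2.take ((readNat l).1 * (readNat l).1)),
    (readNat l).2.drop ((readNat l).1 * (readNat l).1))

theorem parseG_code (n : ℕ) (G : SimpleGraph (Fin n)) [DecidableRel G.Adj] (r : List Bool) :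
    parseG (graphCode n G ++ r) = ((⟨n⟩, adjBits n G), r) := by
  have e : graphCode n G ++ r = natCode n ++ (adjBits n G ++ r) := by
    unfold graphCode adjBits
    rw [List.append_assoc]
  rw [e]
  unfold parseG
  have hl := length_adjBits n G
  have hn : min n (natCode n ++ (adjBits n G ++ r)).length = n := by
    refine min_eq_left ?_
    simp only [List.length_append, hl]
    rcases Nat.eq_zero_or_pos n with h | h
    · omega
    · have : n ≤ n * n := Nat.le_mul_of_pos_left n h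
      omega
  simp only [readNat_natCode, hn]
  rw [List.take_left' hl, List.drop_left' hl]

/-- the typed input, `δ` and the rest are read off the input string -/
def parseTop (l : List Bool) : Inp :=
  ((parseG l).1.1, (parseG l).1.2, ⟨(readRat (readRat (parseG l).2).2).2.length⟩)

theorem parseTop_code (n : ℕ) (G : SimpleGraph (Fin n)) [DecidableRel G.Adj] (ε δ : ℚ) (k : ℕ) :
    parseTop (graphCode n G ++ ratCode ε ++ ratCode δ ++ List.replicate k true) =
      inp n G k := by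
  unfold parseTop inp
  simp only [List.append_assoc]
  rw [parseG_code]
  simp only [readRat_code, List.length_replicate]

theorem ptf_parseG : PTF parseG := by
  have h0 := ptf_readNat (γ := List Bool) (l := fun l => l) PTF.id
  have h1 := PTF.comp (g := fun p : ℕ × List Bool => p.1) (by fun_prop) h0
  have h2 := PTF.comp (g := fun p : ℕ × List Bool => p.2) (by fun_prop) h0
  have h3 := PTF.natMul h1 h1
  unfold parseG
  refine PTF.prodMk (PTF.prodMk ?_ ?_) ?_
  · exact PTF.natMinUn h1 (PTU.length PTF.id)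
  · exact ptf_take' h3 h2
  · exact ptf_drop' h3 h2

theorem ptf_parseTop : PTF parseTop := by
  have h0 := ptf_parseG
  have h1 := PTF.comp (g := fun p : (Un × List Bool) × List Bool => p.1.1) (by fun_prop) h0
  have h2 := PTF.comp (g := fun p : (Un × List Bool) × List Bool => p.1.2) (by fun_prop) h0
  have h3 := PTF.comp (g := fun p : (Un × List Bool) × List Bool => p.2) (by fun_prop) h0
  have h4 := PTF.comp (g := fun p : ℚ × List Bool => p.2) (by fun_prop) (ptf_readRat h3)
  have h5 := PTF.comp (g := fun p : ℚ × List Bool => p.2) (by fun_prop) (ptf_readRat h4)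
  exact PTF.prodMk h1 (PTF.prodMk h2 (PTU.length h5))

/-! ### medians -/

theorem ptf_med : PTF med := by
  unfold med
  refine PTF.optionGetD (PTF.find? PTF.id ?_) (PTF.const 0)
  show PTF (fun p : List ℚ × ℚ => decide (2 * p.1.countP (fun x => decide (x < p.2)) ≤ p.1.length) &&
    decide (2 * p.1.countP (fun x => decide (p.2 < x)) ≤ p.1.length))
  have h1 : PTF (fun p : List ℚ × ℚ => p.1.countP (fun x => decide (x < p.2))) := by pt_solve
  have h2 : PTF (fun p : List ℚ × ℚ => p.1.countP (fun x => decide (p.2 < x))) := by pt_solve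
  have h3 : PTF (fun p : List ℚ × ℚ => p.1.length) := by pt_solve
  exact PTF.and (PTPred.toPTF (PTPred.natLe (PTF.natMul (PTF.const 2) h1) h3))
    (PTPred.toPTF (PTPred.natLe (PTF.natMul (PTF.const 2) h2) h3))

theorem med_all {l : List ℚ} {P : ℚ → Prop} (h0 : P 0) (h : ∀ z ∈ l, P z) : P (med l) := by
  unfold med
  rcases hf : l.find? (fun z => decide (2 * l.countP (fun x => decide (x < z)) ≤ l.length) &&
    decide (2 * l.countP (fun x => decide (z < x)) ≤ l.length)) with _ | z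
  · simpa using h0
  · simpa using h z (List.mem_of_find?_eq_some hf)

/-! ### the algorithm -/

/-- the algorithm after parsing; the last component is the number of repetitions -/
def core (F : Inp × List Bool → ℚ) (len : Inp → ℕ) (q : Inp × Un × List Bool) : List Bool :=
  ratCode (med ((blocks (len q.1) q.2.1.val q.2.2).map (fun t => F (q.1, t))))

/-- the algorithm -/
def alg (F : Inp × List Bool → ℚ) (len : Inp → ℕ) (p : List Bool × List Bool) : List Bool :=
  core F len (parseTop p.1, ⟨2 * (3 * p.1.length)⟩, p.2)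

theorem ptf_core {F : Inp × List Bool → ℚ} {len : Inp → ℕ} (hF : PTF F) (hl : PTU len) :
    PTF (core F len) := by
  unfold core
  refine ptf_ratCode (PTF.comp ptf_med (PTF.map (ptf_blocks ?_ ?_ ?_) ?_))
  · exact PTF.comp (PTU.toPTF hl) PTF.fst
  · fun_prop
  · fun_prop
  · exact PTF.comp hF (by fun_prop)

theorem ptf_alg {F : Inp × List Bool → ℚ} {len : Inp → ℕ} (hF : PTF F) (hl : PTU len) :
    PTF (alg F len) := by
  unfold alg
  refine PTF.comp (ptf_core hF hl) (PTF.prodMk (PTF.comp ptf_parseTop PTF.fst) ?_)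
  refine PTF.prodMk ?_ PTF.snd
  exact PTU.mul (PTU.const 2) (PTU.mul (PTU.const 3) (PTU.length PTF.fst))

/-- the number of bits used -/
def bits (len : Inp → ℕ) (x : List Bool) : ℕ := 2 * (3 * x.length) * len (parseTop x)

theorem pb_bits {len : Inp → ℕ} (hl : PTU len) : PB (bits len) := by
  unfold bits
  exact PTU.pb (PTU.mul (PTU.mul (PTU.const 2) (PTU.mul (PTU.const 3) (PTU.length PTF.id)))
    (PTU.comp hl ptf_parseTop))

theorem pow_le_of_den (δ : ℚ) (hδ : 0 < δ) (L : ℕ) (hL : (ratCode δ).length ≤ L) :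
    ((3 : ℝ) / 4) ^ (3 * L) ≤ δ := by
  have h1 : δ.den < 2 ^ L := by
    have h2 : δ.den.size ≤ L := by
      have h3 : (natCode δ.den).length = 2 * δ.den.size + 2 := by
        unfold natCode
        have e : ∀ l : List Bool, ((l.map fun b => [true, b]).flatten).length = 2 * l.length := by
          intro l
          induction l with
          | nil => rfl
          | cons a l ih => simp only [List.map_cons, List.flatten_cons, List.length_append, ih]; simp; ring
        rw [List.length_append, e, ← Nat.size_eq_bits_len]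
        rfl
      unfold ratCode at hL
      simp only [List.length_cons, List.length_append, h3] at hL
      omega
    exact Nat.size_le.1 h2
  have h2 : (1 : ℝ) / 2 ^ L ≤ δ := by
    have h3 : (1 : ℝ) / δ.den ≤ δ := by
      have hn : 1 ≤ δ.num := by
        have := Rat.num_pos.2 hδ
        omega
      have hd : (0 : ℝ) < δ.den := by exact_mod_cast δ.pos
      have e : (δ : ℝ) = (δ.num : ℝ) / (δ.den : ℝ) := Rat.cast_def δ
      rw [e]
      have : (1 : ℝ) ≤ (δ.num : ℝ) := by exact_mod_cast hn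
      gcongr
    refine le_trans ?_ h3
    have hd : (0 : ℝ) < δ.den := by exact_mod_cast δ.pos
    have : (δ.den : ℝ) ≤ 2 ^ L := by exact_mod_cast h1.le
    exact one_div_le_one_div_of_le hd this
  refine le_trans ?_ h2
  rw [pow_mul, one_div, ← inv_pow]
  refine pow_le_pow_left₀ (by positivity) (by norm_num) L

theorem blocks_take (r k : ℕ) (t : List Bool) : blocks r k (t.take (k * r)) = blocks r k t := by
  rw [blocks_eq_range, blocks_eq_range]
  refine List.map_congr_left fun i hi => ?_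
  rw [List.mem_range] at hi
  rw [List.drop_take, List.take_take]
  have h : r ≤ k * r - i * r := by
    have : (i + 1) * r ≤ k * r := Nat.mul_le_mul_right r hi
    have e : (i + 1) * r = i * r + r := by ring
    omega
  rw [min_eq_left h]

/-- the core of the argument, for one input string `x` -/
theorem main {F : Inp × List Bool → ℚ} {len : Inp → ℕ} (x : List Bool) (I : Inp) (R : ℕ)
    (N : ℕ) (ε δ e : ℚ) (hδ0 : 0 < δ) (hδ : (ratCode δ).length ≤ x.length)
    (hparse : parseTop x = I) (hbits : 2 * (3 * x.length) * len I ≤ R)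
    (hee : e ≤ ε)
    (Hnn : ∀ t : List Bool, t.length = len I → 0 ≤ F (I, t))
    (Hz : N = 0 → ∀ t : List Bool, t.length = len I → F (I, t) = 0)
    (Hp : 3 / 4 ≤ pr (len I) (fun t => (1 - e) * N ≤ F (I, t) ∧ F (I, t) ≤ (1 + e) * N)) :
    (∀ t : List Bool, t.length = R → ∃ z : ℚ, 0 ≤ z ∧ alg F len (x, t) = ratCode z) ∧
    (N = 0 → ∀ t : List Bool, t.length = R → alg F len (x, t) = ratCode 0) ∧
    1 - (δ : ℝ) ≤ pr R (fun t => ∃ z : ℚ, alg F len (x, t) = ratCode z ∧
      (1 - ε) * N ≤ z ∧ z ≤ (1 + ε) * N) := by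
  have halg : ∀ t, alg F len (x, t) =
      ratCode (med ((blocks (len I) (2 * (3 * x.length)) t).map (fun t => F (I, t)))) := by
    intro t
    unfold alg core
    simp only [hparse]
  have hblk : ∀ t : List Bool, t.length = R →
      ∀ l ∈ blocks (len I) (2 * (3 * x.length)) t, l.length = len I := by
    intro t ht l hl
    exact length_of_mem_blocks (by rw [ht]; exact hbits) hl
  refine ⟨?_, ?_, ?_⟩
  · intro t ht
    refine ⟨_, ?_, halg _⟩
    refine med_all (P := fun z => 0 ≤ z) le_rfl ?_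
    intro z hz
    obtain ⟨l, hl, rfl⟩ := List.mem_map.1 hz
    exact Hnn l (hblk _ ht l hl)
  · intro h0 t ht
    rw [halg]
    congr 1
    refine med_all (P := fun z => z = 0) rfl ?_
    intro z hz
    obtain ⟨l, hl, rfl⟩ := List.mem_map.1 hz
    exact Hz h0 l (hblk _ ht l hl)
  · have h1 := pr_med (len I) (3 * x.length) (fun t => F (I, t)) _ _ Hp
    have h2 : ((3 : ℝ) / 4) ^ (3 * x.length) ≤ δ := pow_le_of_den δ hδ0 x.length hδ
    have h3 : pr (2 * (3 * x.length) * len I) (fun t =>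
        (1 - e) * N ≤ med ((blocks (len I) (2 * (3 * x.length)) t).map fun t => F (I, t)) ∧
        med ((blocks (len I) (2 * (3 * x.length)) t).map fun t => F (I, t)) ≤ (1 + e) * N) ≤
        pr R (fun t => ∃ z : ℚ, alg F len (x, t) = ratCode z ∧
          (1 - ε) * N ≤ z ∧ z ≤ (1 + ε) * N) := by
      rw [← pr_take hbits]
      refine pr_mono fun t _ h => ?_
      refine ⟨_, halg t, ?_⟩
      have hN : (0 : ℚ) ≤ N := Nat.cast_nonneg _
      rw [blocks_take] at h
      constructor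
      · refine le_trans ?_ h.1
        gcongr
      · refine le_trans h.2 ?_
        gcongr
    linarith

/-- **S0464 from the core estimator.** -/
theorem S0464_of (H : Core) :
    ∃ (A : List Bool × List Bool → List Bool) (r : Polynomial ℕ), RandPolyTime A ∧
      ∀ (n : ℕ) (G : SimpleGraph (Fin n)) [DecidableRel G.Adj] (ε δ : ℚ),
        0 < ε → ε < 1 → 0 < δ → δ < 1 / 2 →
        (∀ ω : Fin (r.eval (graphCode n G ++ ratCode ε ++ ratCode δ ++ List.replicate ⌈ε⁻¹⌉₊ true).length) → Bool,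
          ∃ z : ℚ, 0 ≤ z ∧ A (graphCode n G ++ ratCode ε ++ ratCode δ ++ List.replicate ⌈ε⁻¹⌉₊ true, List.ofFn ω) = ratCode z) ∧
        (numPerfectMatchings G = 0 →
          ∀ ω : Fin (r.eval (graphCode n G ++ ratCode ε ++ ratCode δ ++
              List.replicate ⌈ε⁻¹⌉₊ true).length) → Bool,
            A (graphCode n G ++ ratCode ε ++ ratCode δ ++ List.replicate ⌈ε⁻¹⌉₊ true,
              List.ofFn ω) = ratCode 0) ∧
        1 - (δ : ℝ) ≤ uniformProb {ω : Fin (r.eval (graphCode n G ++ ratCode ε ++ ratCode δ ++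
              List.replicate ⌈ε⁻¹⌉₊ true).length) → Bool |
            ∃ z : ℚ, A (graphCode n G ++ ratCode ε ++ ratCode δ ++ List.replicate ⌈ε⁻¹⌉₊ true,
              List.ofFn ω) = ratCode z ∧
              (1 - ε) * numPerfectMatchings G ≤ z ∧ z ≤ (1 + ε) * numPerfectMatchings G} := by
  obtain ⟨F, len, hF, hlen, H⟩ := H
  obtain ⟨r, hr⟩ := (pb_bits hlen).exists_length
  refine ⟨alg F len, r, (ptf_alg hF hlen).polyTimeComputable_pairEnc, ?_⟩
  intro n G _ ε δ hε0 hε1 hδ0 hδ1
  have hparse := parseTop_code n G ε δ ⌈ε⁻¹⌉₊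
  have hE1 : 1 ≤ ⌈ε⁻¹⌉₊ :=
    Nat.one_le_iff_ne_zero.2 (by rw [Ne, Nat.ceil_eq_zero, not_le]; positivity)
  have hEε : 1 / (⌈ε⁻¹⌉₊ : ℚ) ≤ ε := by
    have h1 : ε⁻¹ ≤ (⌈ε⁻¹⌉₊ : ℚ) := Nat.le_ceil _
    have h2 : (0 : ℚ) < ε⁻¹ := by positivity
    rw [div_le_iff₀ (by positivity)]
    calc (1 : ℚ) = ε * ε⁻¹ := (mul_inv_cancel₀ hε0.ne').symm
      _ ≤ ε * (⌈ε⁻¹⌉₊ : ℚ) := by gcongr
  have hδl : (ratCode δ).length ≤
      (graphCode n G ++ ratCode ε ++ ratCode δ ++ List.replicate ⌈ε⁻¹⌉₊ true).length := by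
    simp only [List.length_append]
    omega
  generalize graphCode n G ++ ratCode ε ++ ratCode δ ++ List.replicate ⌈ε⁻¹⌉₊ true = x at hparse hδl ⊢
  obtain ⟨Hnn, Hz, Hp⟩ := H n G ⌈ε⁻¹⌉₊ hE1
  have hbits : 2 * (3 * x.length) * len (inp n G ⌈ε⁻¹⌉₊) ≤ r.eval x.length := by
    have := hr x
    unfold bits at this
    rwa [hparse] at this
  obtain ⟨h1, h2, h3⟩ := main (F := F) (len := len) x (inp n G ⌈ε⁻¹⌉₊) (r.eval x.length)
    (numPerfectMatchings G) ε δ (1 / (⌈ε⁻¹⌉₊ : ℚ)) hδ0 hδl hparse hbits hEε Hnn Hz Hp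
  refine ⟨fun ω => h1 _ (List.length_ofFn ..), fun h0 ω => h2 h0 _ (List.length_ofFn ..), ?_⟩
  rw [← uniformProb_eq_pr] at h3
  exact h3

end Crest.Agent.R304.Top119
end

-- ▼ part R304/Core180
section

/-!
# R304 / S0464: from the probability statement about `Loop.est` to `Top119.Core`

* `popOf_enc`: every population of the program is (for every tape) the encoding of a population of
  perfect matchings;
* `est_eq_zero`: no perfect matching, then the estimate is `0` on every tape;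
* `core_of`: the core estimator (with the cases `n = 0`, `n` odd, `n = 2`).
-/

set_option autoImplicit false
set_option linter.dupNamespace false

namespace Crest.Agent.R304.Core180

open Crest.Agent.Lib.PT Crest.Agent.R309.Tape Crest.Agent.R309.PTX Crest.Agent.R304.LM
open Crest.Agent.R304.Samp Crest.Agent.R304.Sim Crest.Agent.R304.Start Crest.Agent.R304.Loop
open Crest.Agent.R304.Mov Crest.Agent.R304.Top119 Crest.Matchings
open Crest.Agent.Lib.PT.Arith (msb)

variable {n : ℕ}

/-! ### all populations are encodings -/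

theorem run_enc (B : ℕ) (m : ℕ) : ∀ (L : List (Fin n)) (s : Fin n → Fin n),
    Part L s → L.length = 2 * m → ∀ l : List Bool, ∃ σ : Om (Fin n),
      (runSteps (matchStep n) B m (L.map (fun v : Fin n => (v : ℕ)), encF s) l).2 =
        encF σ.1 := by
  induction m with
  | zero =>
    intro L s h hL l
    have hL0 : L = [] := by
      rw [← List.length_eq_zero_iff]; omega
    subst hL0
    exact ⟨⟨s, fun v => ⟨h.inv v, h.ne v (List.not_mem_nil)⟩⟩, rfl⟩
  | succ m ih =>
    intro L s h hL l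
    obtain ⟨a, L', rfl⟩ : ∃ a L', L = a :: L' := by
      cases L with
      | nil => simp at hL
      | cons a L' => exact ⟨a, L', rfl⟩
    have hL' : L'.length = 2 * m + 1 := by
      rw [List.length_cons] at hL; omega
    have hpos : 0 < L'.length := by omega
    simp only [runSteps]
    rw [matchStep_enc a L' s _ hpos]
    refine ih _ _ (h.step (Nat.mod_lt _ hpos)) ?_ _
    rw [List.length_eraseIdx_of_lt (Nat.mod_lt _ hpos)]
    omega

theorem pmInit_enc (hn : Even n) (B : ℕ) (t : List Bool) :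
    ∃ σ : Om (Fin n), pmInit n B t = encF σ.1 := by
  have h2 : n = 2 * (n / 2) := by
    obtain ⟨k, hk⟩ := hn
    omega
  have h := run_enc (n := n) B (n / 2) (List.finRange n) (fun v => v) part_init
    (by rw [List.length_finRange]; exact h2) t
  rw [map_finRange, encF_id] at h
  exact h

theorem initL_enc (hn : Even n) (k B : ℕ) (t : List Bool) :
    ∃ x : Fin k → Om (Fin n), initL n k B t = encP x := by
  have h : ∀ l : List Bool, ∃ σ : Om (Fin n), pmInit n B l = encF σ.1 := pmInit_enc hn B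
  choose f hf using h
  have hl : (blocks (n / 2 * B) k t).length = k := length_blocks _ _ _
  refine ⟨fun i => f ((blocks (n / 2 * B) k t)[(i : ℕ)]'(by rw [hl]; exact i.2)), ?_⟩
  unfold initL encP
  refine List.ext_getElem (by simp) (fun i h1 h2 => ?_)
  rw [List.getElem_map, List.getElem_ofFn, hf]

theorem stepL_enc {k : ℕ} [NeZero n] [NeZero k] (B0 B : ℕ) (lam : ℕ → ℕ → ℕ)
    (x : Fin k → Om (Fin n)) (l : List Bool) :
    ∃ y : Fin k → Om (Fin n), stepL n k B0 B lam (encP x) l = encP y := by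
  unfold stepL L6.hbStep
  split_ifs
  · exact ⟨_, mvL_enc _ _⟩
  · exact ⟨x, rfl⟩

theorem runL_enc {k : ℕ} [NeZero n] [NeZero k] (B0 B r : ℕ) (lam : ℕ → ℕ → ℕ → ℕ)
    (ts : List ℕ) : ∀ (x : Fin k → Om (Fin n)) (l : List Bool),
    ∃ y : Fin k → Om (Fin n),
      L6.runL (fun s => stepL n k B0 B (lam s)) r ts (encP x) l = encP y := by
  induction ts with
  | nil => intro x l; exact ⟨x, rfl⟩
  | cons a ts ih =>
    intro x l
    obtain ⟨y, hy⟩ := stepL_enc B0 B (lam a) x (l.take r)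
    simp only [L6.runL, hy]
    exact ih y _

theorem sampL_enc {k : ℕ} (hn : Even n) (hn0 : 0 < n) (hk : 0 < k) (B0 B : ℕ)
    (lam : ℕ → ℕ → ℕ → ℕ) (ts : List ℕ) (t : List Bool) :
    ∃ x : Fin k → Om (Fin n), sampL n k B0 B lam ts t = encP x := by
  have : NeZero n := ⟨hn0.ne'⟩
  have : NeZero k := ⟨hk.ne'⟩
  unfold sampL
  obtain ⟨x, hx⟩ := initL_enc hn k B (t.take (k * (n / 2 * B)))
  rw [hx]
  exact runL_enc B0 B _ lam ts x _

/-- **every population is an encoded population of perfect matchings** -/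
theorem popOf_enc (P : Prm) (hn : Even P.n) (hn0 : 0 < P.n) (hk : 0 < P.k) (h : List Mv)
    (t : List Bool) : ∃ x : Fin P.k → Om (Fin P.n), popOf P h t = encP x :=
  sampL_enc hn hn0 hk _ _ _ _ _

/-! ### adjacency -/

theorem getD_flatten {α : Type*} (d : α) {n : ℕ} : ∀ (L : List (List α)),
    (∀ r ∈ L, r.length = n) → ∀ u v : ℕ, v < n →
    L.flatten.getD (u * n + v) d = (L.getD u []).getD v d := by
  intro L
  induction L with
  | nil => intro _ u v _; simp
  | cons r L ih =>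
    intro h u v hv
    have hr : r.length = n := h r (List.mem_cons_self ..)
    cases u with
    | zero =>
      simp only [List.flatten_cons, Nat.zero_mul, Nat.zero_add, List.getD_cons_zero]
      rw [List.getD_eq_getElem?_getD, List.getD_eq_getElem?_getD,
        List.getElem?_append_left (by omega)]
    | succ u =>
      simp only [List.flatten_cons, List.getD_cons_succ]
      rw [← ih (fun r hr => h r (List.mem_cons_of_mem _ hr)) u v hv,
        List.getD_eq_getElem?_getD, List.getD_eq_getElem?_getD,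
        List.getElem?_append_right (by rw [hr]; nlinarith)]
      congr 2
      rw [hr]
      have : (u + 1) * n + v = n + (u * n + v) := by ring
      omega

theorem adjBits_getD (G : SimpleGraph (Fin n)) [DecidableRel G.Adj] (u v : Fin n) :
    (adjBits n G).getD ((u : ℕ) * n + v) false = decide (G.Adj u v) := by
  unfold adjBits
  rw [getD_flatten false _ (by
    intro r hr
    obtain ⟨i, _, rfl⟩ := List.mem_map.1 hr
    simp) _ _ v.2]
  simp [List.getD_eq_getElem?_getD]

theorem adj_iff (P : Prm) (G : SimpleGraph (Fin P.n)) [DecidableRel G.Adj]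
    (hb : P.bits = adjBits P.n G) (u v : Fin P.n) :
    adj P (u : ℕ) (v : ℕ) = true ↔ G.Adj u v := by
  unfold adj
  rw [hb, adjBits_getD, decide_eq_true_iff]

/-! ### no perfect matching -/

theorem finW_eq_zero (P : Prm) (G : SimpleGraph (Fin P.n)) [DecidableRel G.Adj]
    (hb : P.bits = adjBits P.n G) (h : List Mv) (s : Om (Fin P.n))
    (hs : ¬ ∀ v, G.Adj v (s.1 v)) : finW P h (encF s.1) = 0 := by
  push Not at hs
  obtain ⟨v, hv⟩ := hs
  have key : ∃ w : Fin P.n, w < s.1 w ∧ ¬ G.Adj w (s.1 w) := by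
    rcases lt_trichotomy v (s.1 v) with h1 | h1 | h1
    · exact ⟨v, h1, hv⟩
    · exact absurd h1.symm (s.2 v).2
    · refine ⟨s.1 v, ?_, ?_⟩
      · rw [(s.2 v).1]; exact h1
      · rw [(s.2 v).1]
        exact fun h2 => hv h2.symm
  obtain ⟨w, hw1, hw2⟩ := key
  unfold finW
  refine Finset.prod_eq_zero (Finset.mem_range.2 w.2) ?_
  rw [ap_encF, if_pos (by exact hw1), if_neg]
  rw [adj_iff P G hb]
  exact hw2

theorem est_eq_zero (P : Prm) (G : SimpleGraph (Fin P.n)) [DecidableRel G.Adj]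
    (hb : P.bits = adjBits P.n G) (hn : Even P.n) (hn0 : 0 < P.n) (hk : 0 < P.k)
    (h0 : numPerfectMatchings G = 0) (t : List Bool) : est P t = 0 := by
  rw [Br.numPM_eq, Finset.card_eq_zero, Finset.filter_eq_empty_iff] at h0
  unfold est estOf
  obtain ⟨x, hx⟩ := popOf_enc P hn hn0 hk (loop P t).1 (t.drop (P.R * blk P))
  have : finM P (loop P t).1 (popOf P (loop P t).1 (t.drop (P.R * blk P))) = 0 := by
    unfold finM
    rw [hx]
    have e : (encP x).map (finW P (loop P t).1) = (encP x).map (fun _ => (0:ℚ)) := by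
      refine List.map_congr_left (fun s hs => ?_)
      unfold encP at hs
      rw [List.mem_ofFn] at hs
      obtain ⟨i, rfl⟩ := hs
      exact finW_eq_zero P G hb _ _ (h0 (Finset.mem_univ (x i)))
    rw [e]
    simp
  rw [this, mul_zero]

/-! ### small cases -/

theorem numPM_zero (G : SimpleGraph (Fin 0)) [DecidableRel G.Adj] :
    numPerfectMatchings G = 1 := by
  rw [Br.numPM_eq, Finset.filter_true_of_mem (fun s _ v => v.elim0), Finset.card_univ,
    Br.card_Om (by simp)]
  rfl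

theorem numPM_odd (G : SimpleGraph (Fin n)) [DecidableRel G.Adj] (hn : ¬ Even n) :
    numPerfectMatchings G = 0 := by
  have := Br.isEmpty_Om (V := Fin n) (by rwa [Fintype.card_fin])
  rw [Br.numPM_eq, Finset.card_eq_zero]
  exact Finset.eq_empty_of_isEmpty _

theorem numPM_two (G : SimpleGraph (Fin 2)) [DecidableRel G.Adj] :
    numPerfectMatchings G = if G.Adj 0 1 then 1 else 0 := by
  have hs : ∀ s : Om (Fin 2), s.1 0 = 1 ∧ s.1 1 = 0 := by
    intro s
    have h0 := (s.2 0).2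
    have h1 := (s.2 1).2
    constructor
    · generalize s.1 0 = a at h0 ⊢
      fin_cases a
      · exact absurd rfl h0
      · rfl
    · generalize s.1 1 = a at h1 ⊢
      fin_cases a
      · rfl
      · exact absurd rfl h1
  have hiff : ∀ s : Om (Fin 2), (∀ v, G.Adj v (s.1 v)) ↔ G.Adj 0 1 := by
    intro s
    rw [Fin.forall_fin_two, (hs s).1, (hs s).2]
    exact ⟨fun h => h.1, fun h => ⟨h, h.symm⟩⟩
  rw [Br.numPM_eq]
  simp only [hiff]
  split_ifs with h
  · rw [Finset.filter_true_of_mem (fun _ _ => h), Finset.card_univ,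
      Br.card_Om (by simp)]
    simp [Nat.doubleFactorial]
  · rw [Finset.filter_false_of_mem (fun _ _ => h)]
    rfl

/-! ### the core estimator -/

/-- the estimator with the small cases -/
def coreF (prm : Inp → Prm) (p : Inp × List Bool) : ℚ :=
  if p.1.1.val = 0 then 1
  else if p.1.1.val % 2 = 1 then 0
  else if p.1.1.val = 2 then (if adj (prm p.1) 0 1 = true then 1 else 0)
  else est (prm p.1) p.2

theorem ptf_coreF {prm : Inp → Prm} (hP : PrmPT prm) : PTF (coreF prm) := by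
  unfold coreF
  have hn : PTF (fun p : Inp × List Bool => p.1.1.val) := PTU.toPTF (PTU.val (by fun_prop))
  have hP' : PrmPT (fun p : Inp × List Bool => prm p.1) :=
    hP.comp (f := fun p : Inp × List Bool => p.1) PTF.fst
  refine PTF.ite (PTPred.natEq hn (PTF.const 0)) (PTF.const 1)
    (PTF.ite (PTPred.natEq (PTF.natMod hn (PTF.const 2)) (PTF.const 1)) (PTF.const 0)
      (PTF.ite (PTPred.natEq hn (PTF.const 2)) (PTF.ite (PTF.toPTPred ?_) (PTF.const 1)
        (PTF.const 0)) ?_))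
  · exact ptf_adj hP' (PTF.const 0) (PTF.const 1)
  · exact ptf_est hP' PTF.snd

/-- **the core estimator from the probability statement about the control loop** -/
theorem core_of (prm : Inp → Prm) (hPT : PrmPT prm) (hn : ∀ I, (prm I).n = I.1.val)
    (hb : ∀ I, (prm I).bits = I.2.1) (hk : ∀ I, 0 < (prm I).k)
    (H : ∀ (n : ℕ) (G : SimpleGraph (Fin n)) [DecidableRel G.Adj] (E : ℕ), Even n → 4 ≤ n →
      1 ≤ E → 0 < numPerfectMatchings G → 3 / 4 ≤ pr (estLen (prm (inp n G E))) (fun t =>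
        (1 - 1 / (E : ℚ)) * numPerfectMatchings G ≤ est (prm (inp n G E)) t ∧
        est (prm (inp n G E)) t ≤ (1 + 1 / (E : ℚ)) * numPerfectMatchings G)) :
    Core := by
  refine ⟨coreF prm, fun I => estLen (prm I), ptf_coreF hPT, ptu_estLen hPT, ?_⟩
  intro n G _ E hE
  have hpos : (0:ℚ) < E := by exact_mod_cast hE
  have hE1 : (1 - 1 / (E : ℚ)) ≤ 1 := by
    have : (0:ℚ) < 1 / E := by positivity
    linarith
  have hE2 : 1 ≤ (1 + 1 / (E : ℚ)) := by
    have : (0:ℚ) < 1 / E := by positivity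
    linarith
  have hnn : ∀ I t, 0 ≤ coreF prm (I, t) := by
    intro I t
    unfold coreF
    split_ifs
    · exact zero_le_one
    · exact le_refl _
    · exact zero_le_one
    · exact le_refl _
    · exact est_nonneg _ _
  -- deterministic cases
  have hdet : (∀ t, coreF prm (inp n G E, t) = (numPerfectMatchings G : ℚ)) →
      (∀ t : List Bool, t.length = estLen (prm (inp n G E)) → 0 ≤ coreF prm (inp n G E, t)) ∧
      (numPerfectMatchings G = 0 →
        ∀ t : List Bool, t.length = estLen (prm (inp n G E)) → coreF prm (inp n G E, t) = 0) ∧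
      3 / 4 ≤ pr (estLen (prm (inp n G E))) (fun t =>
        (1 - 1 / (E : ℚ)) * numPerfectMatchings G ≤ coreF prm (inp n G E, t) ∧
        coreF prm (inp n G E, t) ≤ (1 + 1 / (E : ℚ)) * numPerfectMatchings G) := by
    intro h
    refine ⟨fun t _ => hnn _ _, fun h0 t _ => by rw [h, h0]; rfl, ?_⟩
    have hN : (0:ℚ) ≤ (numPerfectMatchings G : ℚ) := Nat.cast_nonneg _
    have h1 : pr (estLen (prm (inp n G E))) (fun t =>
        (1 - 1 / (E : ℚ)) * numPerfectMatchings G ≤ coreF prm (inp n G E, t) ∧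
        coreF prm (inp n G E, t) ≤ (1 + 1 / (E : ℚ)) * numPerfectMatchings G) = 1 := by
      refine pr_eq_one (fun t _ => ?_)
      rw [h]
      exact ⟨by nlinarith, by nlinarith⟩
    rw [h1]
    norm_num
  by_cases h0 : n = 0
  · subst h0
    refine hdet (fun t => ?_)
    rw [numPM_zero]
    unfold coreF
    rw [if_pos (show (inp 0 G E).1.val = 0 from rfl)]
    rfl
  by_cases hodd : n % 2 = 1
  · refine hdet (fun t => ?_)
    rw [numPM_odd G (by rw [Nat.not_even_iff]; exact hodd)]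
    unfold coreF
    rw [if_neg (show ¬ (inp n G E).1.val = 0 from h0),
      if_pos (show (inp n G E).1.val % 2 = 1 from hodd)]
    rfl
  by_cases h2 : n = 2
  · subst h2
    refine hdet (fun t => ?_)
    rw [numPM_two]
    unfold coreF
    rw [if_neg (show ¬ (inp 2 G E).1.val = 0 from h0),
      if_neg (show ¬ (inp 2 G E).1.val % 2 = 1 from hodd),
      if_pos (show (inp 2 G E).1.val = 2 from rfl)]
    have e : adj (prm (inp 2 G E)) 0 1 = decide (G.Adj 0 1) := by
      unfold adj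
      rw [hb, hn]
      exact adjBits_getD G 0 1
    simp only [e, decide_eq_true_iff]
    split_ifs <;> norm_num
  · have hev : Even n := Nat.even_iff.2 (by omega)
    have h4 : 4 ≤ n := by
      have := Nat.even_iff.1 hev
      omega
    have e : ∀ t, coreF prm (inp n G E, t) = est (prm (inp n G E)) t := by
      intro t
      unfold coreF
      rw [if_neg (show ¬ (inp n G E).1.val = 0 from h0),
        if_neg (show ¬ (inp n G E).1.val % 2 = 1 from hodd),
        if_neg (show ¬ (inp n G E).1.val = 2 from h2)]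
    have hz : numPerfectMatchings G = 0 → ∀ t, est (prm (inp n G E)) t = 0 := by
      intro hN t
      have hPn : (prm (inp n G E)).n = n := hn _
      have hPb : (prm (inp n G E)).bits = adjBits n G := hb _
      have hPk := hk (inp n G E)
      clear hdet hnn e
      generalize prm (inp n G E) = P at hPn hPb hPk
      subst hPn
      exact est_eq_zero P G hPb hev (by omega) hPk hN t
    simp only [e]
    refine ⟨fun t _ => est_nonneg _ _, fun hN t _ => hz hN t, ?_⟩
    rcases Nat.eq_zero_or_pos (numPerfectMatchings G) with hN | hN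
    · have h1 : pr (estLen (prm (inp n G E))) (fun t =>
          (1 - 1 / (E : ℚ)) * numPerfectMatchings G ≤ est (prm (inp n G E)) t ∧
          est (prm (inp n G E)) t ≤ (1 + 1 / (E : ℚ)) * numPerfectMatchings G) = 1 := by
        refine pr_eq_one (fun t _ => ?_)
        rw [hz hN, hN]
        simp
      rw [h1]
      norm_num
    · exact H n G E hev h4 hE hN

end Crest.Agent.R304.Core180
end

-- ▼ part R304/Final168
section

/-!
# R304 / S0464 (helper168): final assembly
-/

set_option autoImplicit false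
set_option linter.unusedSectionVars false

namespace Crest.Agent.R304.Glue

open Finset Crest.Agent.R309.Tape
open Crest.Agent.R304.Loop Crest.Agent.R304.Sim Crest.Agent.R304.LM Crest.Agent.R304.Samp
open Crest.Agent.R304.Ctl Crest.Agent.R304.L6
open Crest.Agent.R304.GK922 Crest.Agent.R304.Fine922

noncomputable section

variable {P : Prm}

/-- **the macro tables of the histories** -/
theorem macroHyp (hw : WtHyp P) (hst : StHyp P) (hev : Even P.n) (h4 : 4 ≤ P.n)
    (hS : P.S = Smax P.m (P.n ^ 2))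
    (hp : Par (Mov.Om (Fin P.n)) (P.n / 2) (P.n - 1) P.q P.m (P.n ^ 2) P.gd) (hk : 0 < P.k)
    (hq : P.q = 8 * P.n ^ 2) : MacroHyp P := by
  intro h hh hC hg
  have hD := loopData hw hst hS hp hk
  refine ⟨Glue4.Lmac (GP P) P.q P.m (stf P) h, 1 + w0 P.q (P.n - 1), Glue4.c1_pos hp,
    fun u v => Glue4.Lmac_zero hst.nil h u v, ?_, ?_, fun s => ?_⟩
  · have h1 := Glue4.macro_of_step hev (by omega) hp hD.step hh hC hg
    have e : (8 : ℝ) * (P.q : ℝ) = 8 * (8 * (P.n : ℝ) ^ 2) := by
      rw [hq]; push_cast; ring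
    rw [e] at h1
    exact h1
  · intro j _ u v huv
    rw [Glue4.Lmac_lt (stf P) h j huv]
    exact hw.lam_eq (h.take j) ((by simp [List.length_take]; omega)) ⟨(u, v), huv⟩
  · rw [Glue4.law_Lmac]

/-! ### the starting value -/

theorem dfact_eq (N : ℕ) : (2 * N - 1).doubleFactorial = ∏ i ∈ range N, (2 * i + 1) := by
  induction N with
  | zero => rfl
  | succ N ih =>
    rw [prod_range_succ, ← ih]
    rcases Nat.eq_zero_or_pos N with rfl | hN
    · rfl
    · have e : 2 * (N + 1) - 1 = (2 * N - 1) + 2 := by omega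
      rw [e, Nat.doubleFactorial_add_two]
      have e2 : 2 * N - 1 + 2 = 2 * N + 1 := by omega
      rw [e2, mul_comm]

theorem Z0_real (hst : StHyp P) (hev : Even P.n) (h4 : 4 ≤ P.n) (hq : P.n - 1 < P.q) :
    ((Z0 P : ℚ) : ℝ) = Z prs (lamH (GP P) (P.n - 1) P.q P.m (stf P) []) := by
  have hs : Sys (prs (n := P.n)) (P.n / 2) (P.n - 1) := sys_prs (by omega)
  have e1 : lamH (GP P) (P.n - 1) P.q P.m (stf P) [] = fun _ => 1 + w0 P.q (P.n - 1) := by
    unfold lamH
    rw [hst.nil, lamw_st0]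
  have hqR : ((P.n - 1 : ℕ) : ℝ) < (P.q : ℝ) := by exact_mod_cast hq
  have e2 : 1 + w0 P.q (P.n - 1) = (P.q : ℝ) / ((P.q - (P.n - 1) : ℕ) : ℝ) := by
    rw [Nat.cast_sub hq.le]
    unfold w0
    have : (0 : ℝ) < (P.q : ℝ) - ((P.n - 1 : ℕ) : ℝ) := by linarith
    field_simp
    ring
  have e3 : Fintype.card (Mov.Om (Fin P.n)) = ∏ i ∈ range (P.n / 2), (2 * i + 1) := by
    rw [Br.card_Om (by rw [Fintype.card_fin]; exact hev), Fintype.card_fin, ← dfact_eq]
    congr 1
    obtain ⟨k, hk⟩ := hev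
    omega
  rw [e1, Z_const hs, e2, e3]
  unfold Z0
  push_cast
  ring

theorem cntG_GP (P : Prm) (G : SimpleGraph (Fin P.n)) [DecidableRel G.Adj]
    (hb : P.bits = Top119.adjBits P.n G) :
    cntG prs (GP P) = Crest.Matchings.numPerfectMatchings G := by
  rw [Br.numPM_eq, ← cntG_prs (fun u v => G.Adj u v) (fun u v h => h.symm)]
  unfold cntG
  congr 1
  refine filter_congr fun s _ => ?_
  refine forall₂_congr fun e _ => ?_
  exact Core180.adj_iff P G hb e.1.1 e.1.2

/-! ### the choice of the parameters -/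

/-- what is needed of the parameter function -/
structure PrmOK (prm : Top119.Inp → Prm) : Prop where
  pt : PrmPT prm
  hn : ∀ I, (prm I).n = I.1.val
  hbits : ∀ I, (prm I).bits = I.2.1
  hk : ∀ I, 0 < (prm I).k
  hq : ∀ I, (prm I).q = 8 * (prm I).n ^ 2
  hL : ∀ I, (prm I).R ≤ (prm I).L
  num : ∀ I, Even I.1.val → 4 ≤ I.1.val → 1 ≤ I.2.2.val → NumHyp (prm I) I.2.2.val

/-- **The core estimator from the parameters.** -/
theorem core_of_ok {prm : Top119.Inp → Prm} (ok : PrmOK prm) : Top119.Core := by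
  refine Core180.core_of prm ok.pt ok.hn ok.hbits ok.hk ?_
  intro n G _ E hev h4 hE hN
  have hnum := ok.num (Top119.inp n G E) hev h4 hE
  have hq := ok.hq (Top119.inp n G E)
  have hL := ok.hL (Top119.inp n G E)
  have hPn : (prm (Top119.inp n G E)).n = n := ok.hn _
  have hPb : (prm (Top119.inp n G E)).bits = Top119.adjBits n G := ok.hbits _
  have hPk := ok.hk (Top119.inp n G E)
  change NumHyp (prm (Top119.inp n G E)) E at hnum
  generalize prm (Top119.inp n G E) = P at hnum hq hL hPn hPb hPk ⊢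
  subst hPn
  have hmpos : 0 < P.m := hnum.par.mpos
  have hqlt : P.n - 1 < P.q := by
    rw [hq]
    nlinarith [Nat.sub_le P.n 1]
  have hw : WtHyp P := Glue180.wtHyp P hmpos hqlt hL
  have hst : StHyp P := Glue180.stHyp P
  have hM : MacroHyp P := macroHyp hw hst hev h4 hnum.hS hnum.par hPk hq
  have hcnt : cntG prs (GP P) = Crest.Matchings.numPerfectMatchings G := cntG_GP P G hPb
  have h := est_real hw hst hE hnum hM (Z0_real hst hev h4 hqlt) (Glue180.card_Pr_le P.n)
    (Glue180.card_mvSet_le P) (by rw [hcnt]; exact hN)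
  rw [hcnt] at h
  refine h.trans (le_of_eq (pr_congr fun t _ => ?_))
  have e1 : ((1 - 1 / (E : ℝ)) * (Crest.Matchings.numPerfectMatchings G : ℝ)) =
      (((1 - 1 / (E : ℚ)) * (Crest.Matchings.numPerfectMatchings G : ℚ) : ℚ) : ℝ) := by
    push_cast; ring
  have e2 : ((1 + 1 / (E : ℝ)) * (Crest.Matchings.numPerfectMatchings G : ℝ)) =
      (((1 + 1 / (E : ℚ)) * (Crest.Matchings.numPerfectMatchings G : ℚ) : ℚ) : ℝ) := by
    push_cast; ring
  rw [e1, e2, Rat.cast_le, Rat.cast_le]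

end

end Crest.Agent.R304.Glue
end

-- ▼ part R304/Prm180
section

/-!
# R304 / S0464: the choice of the parameters (helper180)

`prm : Inp → Prm` and `prmOK : 4 ≤ n → Even n → 1 ≤ E → PrmOK (prm (⟨n⟩, bits, ⟨E⟩)) E`:
all inequalities between the parameters which the analysis needs; `prmPT : PrmPT prm`.
-/

set_option autoImplicit false
set_option linter.dupNamespace false

namespace Crest.Agent.R304.Prm180

open Crest.Agent.Lib.PT Crest.Agent.R309.Tape Crest.Agent.R309.PTX Crest.Agent.R304.LM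
open Crest.Agent.R304.Samp Crest.Agent.R304.Loop Crest.Agent.R304.Ctl Crest.Agent.R304.L6
open Crest.Agent.R304.Top119

/-! ### the parameters -/

def qP (n : ℕ) : ℕ := 8 * (n * n)
def dP (n : ℕ) : ℕ := n * n + 6 * n + n * (n * n)
def gdP (n : ℕ) : ℕ := 6 * (qP n * qP n) * dP n
def mP (n : ℕ) : ℕ := 4 * gdP n
def SP (n : ℕ) : ℕ := mP n * (n * n + 4)
def RP (n : ℕ) : ℕ := SP n + 4 * gdP n * (mP n + 1) * dP n + 1
/-- statistical part of `κ` -/
def stP (n E : ℕ) : ℕ :=
  8 * (RP n + 1) * (4 * (n * n) * (gdP n * gdP n) +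
    (2 * (n * n) + 1) * (16 * (E * E) * ((RP n + 1) * (RP n + 1))))
/-- `k = κ²` -/
def kapP (n E : ℕ) : ℕ :=
  80 * gN542 n + stP n E + 64 * (RP n + 1) * (4 * n * RP n) * 160 * (gN542 n * gN542 n) + 1
def kP (n E : ℕ) : ℕ := kapP n E * kapP n E
def HP (n E : ℕ) : ℕ := 64 * (RP n + 1) * (16 * (n * n)) * (RP n + 1) * kP n E + 1
def XP (n E : ℕ) : ℕ := 64 * (RP n + 1) * (4 * n * RP n) * kapP n E + 1
def tauP (n E : ℕ) : ℕ := 4 * kP n E * gN542 n * XP n E
def BP (n E : ℕ) : ℕ :=
  64 * (RP n + 1) * (2 * kP n E * (n * n) +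
    RP n * HP n E * tauP n E * (2 * nIdx n (kP n E) + 2))

/-- the parameters of the algorithm -/
def prm (I : Inp) : Prm where
  n := I.1.val
  bits := I.2.1
  q := qP I.1.val
  gd := gdP I.1.val
  m := mP I.1.val
  S := SP I.1.val
  L := RP I.1.val
  k := kP I.1.val I.2.2.val
  H := HP I.1.val I.2.2.val
  τ := tauP I.1.val I.2.2.val
  B0 := BP I.1.val I.2.2.val
  B := BP I.1.val I.2.2.val
  R := RP I.1.val

/-! ### polynomial time -/

section PT

variable {γ : Type} [PTCode γ] {n E : γ → ℕ}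

theorem ptu_qP (hn : PTU n) : PTU (fun c => qP (n c)) :=
  PTU.mul (PTU.const 8) (PTU.mul hn hn)

theorem ptu_dP (hn : PTU n) : PTU (fun c => dP (n c)) :=
  PTU.add (PTU.add (PTU.mul hn hn) (PTU.mul (PTU.const 6) hn)) (PTU.mul hn (PTU.mul hn hn))

theorem ptu_gdP (hn : PTU n) : PTU (fun c => gdP (n c)) :=
  PTU.mul (PTU.mul (PTU.const 6) (PTU.mul (ptu_qP hn) (ptu_qP hn))) (ptu_dP hn)

theorem ptu_mP (hn : PTU n) : PTU (fun c => mP (n c)) := PTU.mul (PTU.const 4) (ptu_gdP hn)

theorem ptu_SP (hn : PTU n) : PTU (fun c => SP (n c)) :=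
  PTU.mul (ptu_mP hn) (PTU.add (PTU.mul hn hn) (PTU.const 4))

theorem ptu_RP (hn : PTU n) : PTU (fun c => RP (n c)) :=
  PTU.add (PTU.add (ptu_SP hn) (PTU.mul (PTU.mul (PTU.mul (PTU.const 4) (ptu_gdP hn))
    (PTU.add (ptu_mP hn) (PTU.const 1))) (ptu_dP hn))) (PTU.const 1)

theorem ptu_R1 (hn : PTU n) : PTU (fun c => RP (n c) + 1) := PTU.add (ptu_RP hn) (PTU.const 1)

theorem ptu_stP (hn : PTU n) (hE : PTU E) : PTU (fun c => stP (n c) (E c)) :=
  PTU.mul (PTU.mul (PTU.const 8) (ptu_R1 hn))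
    (PTU.add (PTU.mul (PTU.mul (PTU.const 4) (PTU.mul hn hn))
      (PTU.mul (ptu_gdP hn) (ptu_gdP hn)))
      (PTU.mul (PTU.add (PTU.mul (PTU.const 2) (PTU.mul hn hn)) (PTU.const 1))
        (PTU.mul (PTU.mul (PTU.const 16) (PTU.mul hE hE)) (PTU.mul (ptu_R1 hn) (ptu_R1 hn)))))

theorem ptu_kapP (hn : PTU n) (hE : PTU E) : PTU (fun c => kapP (n c) (E c)) :=
  PTU.add (PTU.add (PTU.add (PTU.mul (PTU.const 80) (ptu_gN542 hn)) (ptu_stP hn hE))
    (PTU.mul (PTU.mul (PTU.mul (PTU.mul (PTU.const 64) (ptu_R1 hn))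
      (PTU.mul (PTU.mul (PTU.const 4) hn) (ptu_RP hn))) (PTU.const 160))
      (PTU.mul (ptu_gN542 hn) (ptu_gN542 hn)))) (PTU.const 1)

theorem ptu_kP (hn : PTU n) (hE : PTU E) : PTU (fun c => kP (n c) (E c)) :=
  PTU.mul (ptu_kapP hn hE) (ptu_kapP hn hE)

theorem ptu_HP (hn : PTU n) (hE : PTU E) : PTU (fun c => HP (n c) (E c)) :=
  PTU.add (PTU.mul (PTU.mul (PTU.mul (PTU.mul (PTU.const 64) (ptu_R1 hn))
    (PTU.mul (PTU.const 16) (PTU.mul hn hn))) (ptu_R1 hn)) (ptu_kP hn hE)) (PTU.const 1)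

theorem ptu_XP (hn : PTU n) (hE : PTU E) : PTU (fun c => XP (n c) (E c)) :=
  PTU.add (PTU.mul (PTU.mul (PTU.mul (PTU.const 64) (ptu_R1 hn))
    (PTU.mul (PTU.mul (PTU.const 4) hn) (ptu_RP hn))) (ptu_kapP hn hE)) (PTU.const 1)

theorem ptu_tauP (hn : PTU n) (hE : PTU E) : PTU (fun c => tauP (n c) (E c)) :=
  PTU.mul (PTU.mul (PTU.mul (PTU.const 4) (ptu_kP hn hE)) (ptu_gN542 hn)) (ptu_XP hn hE)

theorem ptu_nIdx (hn : PTU n) {k : γ → ℕ} (hk : PTU k) : PTU (fun c => nIdx (n c) (k c)) := by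
  have h : PTU (fun c => k c * (k c - 1) * (4 * (n c * n c * (n c * n c)))) :=
    PTU.mul (PTU.mul hk (PTU.sub hk (PTU.const 1)))
      (PTU.mul (PTU.const 4) (PTU.mul (PTU.mul hn hn) (PTU.mul hn hn)))
  have e : (fun c => nIdx (n c) (k c)) =
      fun c => k c * (k c - 1) * (4 * (n c * n c * (n c * n c))) := by
    funext c
    unfold nIdx
    ring
  rw [e]
  exact h

theorem ptu_BP (hn : PTU n) (hE : PTU E) : PTU (fun c => BP (n c) (E c)) :=
  PTU.mul (PTU.mul (PTU.const 64) (ptu_R1 hn))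
    (PTU.add (PTU.mul (PTU.mul (PTU.const 2) (ptu_kP hn hE)) (PTU.mul hn hn))
      (PTU.mul (PTU.mul (PTU.mul (ptu_RP hn) (ptu_HP hn hE)) (ptu_tauP hn hE))
        (PTU.add (PTU.mul (PTU.const 2) (ptu_nIdx hn (ptu_kP hn hE))) (PTU.const 2))))

end PT

/-- **the parameters are computable in polynomial time** -/
theorem prmPT : PrmPT prm := by
  have hn : PTU (fun I : Inp => I.1.val) := PTU.val (by fun_prop)
  have hE : PTU (fun I : Inp => I.2.2.val) := PTU.val (by fun_prop)
  exact ⟨hn, by unfold prm; fun_prop, ptu_qP hn, ptu_gdP hn, ptu_mP hn, ptu_SP hn, ptu_RP hn,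
    ptu_kP hn hE, ptu_HP hn hE, ptu_tauP hn hE, ptu_BP hn hE, ptu_BP hn hE, ptu_RP hn⟩

/-! ### the inequalities -/

/-- everything the analysis needs -/
structure PrmOK (P : Prm) (E : ℕ) : Prop where
  q_eq : P.q = 8 * P.n ^ 2
  par : Par (Mov.Om (Fin P.n)) (P.n / 2) (P.n - 1) P.q P.m (P.n ^ 2) P.gd
  S_eq : P.S = Smax P.m (P.n ^ 2)
  R_ge : Rounds (P.n / 2) P.m (P.n ^ 2) P.gd ≤ P.R
  L_ge : P.R ≤ P.L
  m_pos : 0 < P.m
  q_gt : P.n - 1 < P.q
  H_pos : 0 < P.H
  k_two : 2 ≤ P.k
  gap : 6400 ≤ (1 / (gN542 P.n : ℝ)) ^ 2 * P.k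
  eps : (P.k : ℝ) * (4 * P.n / (P.m * P.H)) ^ 2 ≤ 1
  err : ∀ t ≤ P.R, popErr P.n P.k P.B0 P.B P.τ P.H t (1 / (gN542 P.n : ℝ))
    (4 * P.n / (P.m * P.H)) ≤ 1 / (8 * (P.R + 1))
  stat : ∀ ζ : ℝ, ζ = 1 / (2 * E * (P.R + 1)) →
    ((P.n : ℝ) ^ 2) / (P.k * (1 / (2 * P.gd)) ^ 2) +
      (2 * (P.n : ℝ) ^ 2 + 1) * (2 / (P.k * ζ ^ 2 * (1 / 2))) ≤ 1 / (8 * (P.R + 1))
  stat1 : ∀ ζ : ℝ, ζ = 1 / (2 * E * (P.R + 1)) →
    1 / (P.k * ζ ^ 2 * (1 / 2)) ≤ 1 / (8 * (P.R + 1))
  len : ∀ h : List Mv, h.length ≤ P.R → sampLen P.n P.k P.B0 P.B (movesOf P h) ≤ blk P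

theorem sampLen_le (P : Prm) (h : List Mv) (hh : h.length ≤ P.R) :
    sampLen P.n P.k P.B0 P.B (movesOf P h) ≤ blk P := by
  unfold sampLen blk sampLen movesOf
  gcongr

/-- `(1 - x)^τ ≤ 1 / X` if `x τ = X` -/
theorem one_sub_pow_le {x X : ℝ} {τ : ℕ} (hx1 : x ≤ 1) (hX : 0 < X)
    (h : x * τ = X) : (1 - x) ^ τ ≤ 1 / X := by
  have h1 : 1 - x ≤ Real.exp (-x) := by
    have := Real.add_one_le_exp (-x)
    linarith
  have h2 : (1 - x) ^ τ ≤ Real.exp (-X) := by
    calc (1 - x) ^ τ ≤ (Real.exp (-x)) ^ τ := pow_le_pow_left₀ (by linarith) h1 τ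
      _ = Real.exp (-X) := by
          rw [← Real.exp_nat_mul, ← h]
          congr 1
          ring
  refine h2.trans ?_
  rw [Real.exp_neg, ← one_div]
  refine one_div_le_one_div_of_le hX ?_
  have := Real.add_one_le_exp X
  linarith

section ineq

variable {n E : ℕ}

theorem RP_pos (n : ℕ) : 1 ≤ RP n := by unfold RP; omega

theorem mP_pos (hn : 4 ≤ n) : 0 < mP n := by
  unfold mP gdP qP dP
  positivity

theorem kapP_ge1 (n E : ℕ) : 1 ≤ kapP n E := by unfold kapP; omega

theorem par_ok (hn : 4 ≤ n) :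
    Par (Mov.Om (Fin n)) (n / 2) (n - 1) (qP n) (mP n) (n ^ 2) (gdP n) := by
  have h2 : n / 2 ≤ n := Nat.div_le_self _ _
  have hq1 : 1 ≤ qP n := by unfold qP; nlinarith
  have hd : n ^ 2 + 6 * (n / 2) + (n / 2) * n ^ 2 ≤ dP n := by
    unfold dP
    have e1 : n ^ 2 = n * n := sq n
    rw [e1]
    have := Nat.mul_le_mul_right (n * n) h2
    omega
  have hgd : 6 * qP n ^ 2 * (n ^ 2 + 6 * (n / 2) + (n / 2) * n ^ 2) ≤ gdP n := by
    unfold gdP
    rw [sq (qP n)]
    exact Nat.mul_le_mul_left _ hd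
  refine par_prs (by omega) ?_ hgd ?_ ?_
  · unfold qP
    rw [sq]
  · -- 2 q (n/2) ≤ m
    unfold mP gdP
    have h3 : n ≤ dP n := by
      unfold dP
      nlinarith
    calc 2 * qP n * (n / 2) ≤ 2 * qP n * n := Nat.mul_le_mul_left _ h2
      _ ≤ 2 * qP n * dP n := Nat.mul_le_mul_left _ h3
      _ ≤ (4 * 6 * (qP n * qP n)) * dP n := by
          refine Nat.mul_le_mul_right _ ?_
          nlinarith
      _ = _ := by ring
  · unfold mP
    calc 4 * gdP n = 1 * (4 * gdP n) := (one_mul _).symm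
      _ ≤ qP n * (4 * gdP n) := Nat.mul_le_mul_right _ hq1

theorem rounds_ok : Rounds (n / 2) (mP n) (n ^ 2) (gdP n) ≤ RP n := by
  have h2 : n / 2 ≤ n := Nat.div_le_self _ _
  have hd : n ^ 2 + 6 * (n / 2) + (n / 2) * n ^ 2 ≤ dP n := by
    unfold dP
    have e1 : n ^ 2 = n * n := sq n
    rw [e1]
    have := Nat.mul_le_mul_right (n * n) h2
    omega
  have hS : Smax (mP n) (n ^ 2) = SP n := by
    unfold Smax SP
    rw [sq]
  unfold Rounds RP
  rw [hS]
  have := Nat.mul_le_mul_left (4 * gdP n * (mP n + 1)) hd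
  omega

variable (n E) in
theorem kP_ge_stP : stP n E ≤ kP n E := by
  have h1 := kapP_ge1 n E
  have h2 : stP n E ≤ kapP n E := by unfold kapP; omega
  unfold kP
  nlinarith

theorem two_le_kP : 2 ≤ kP n E := by
  have h1 : 2 ≤ kapP n E := by
    have := gN542_pos n
    unfold kapP
    omega
  unfold kP
  nlinarith

theorem gap_ok : 6400 ≤ (1 / (gN542 n : ℝ)) ^ 2 * (kP n E : ℝ) := by
  have hg : (0:ℝ) < gN542 n := by exact_mod_cast gN542_pos n
  have h1 : 80 * gN542 n ≤ kapP n E := by unfold kapP; omega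
  have h2 : (80:ℝ) * gN542 n ≤ kapP n E := by exact_mod_cast h1
  unfold kP
  rw [one_div, inv_pow, Nat.cast_mul, inv_mul_eq_div, le_div_iff₀ (by positivity)]
  calc (6400:ℝ) * (gN542 n : ℝ) ^ 2 = (80 * gN542 n) * (80 * gN542 n) := by ring
    _ ≤ _ := by gcongr

/-- the statistical errors -/
theorem stat_aux (hn : 4 ≤ n) (hE : 1 ≤ E) {ζ : ℝ} (hζ : ζ = 1 / (2 * E * ((RP n : ℝ) + 1))) :
    ((n : ℝ) ^ 2) / (kP n E * (1 / (2 * gdP n)) ^ 2) +
      (2 * (n : ℝ) ^ 2 + 1) * (2 / (kP n E * ζ ^ 2 * (1 / 2))) ≤ 1 / (8 * (RP n + 1)) := by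
  have hE' : (0:ℝ) < E := by exact_mod_cast hE
  have hR : (0:ℝ) < (RP n : ℝ) + 1 := by positivity
  have hk : (0:ℝ) < kP n E := by exact_mod_cast (by have := two_le_kP (n := n) (E := E); omega)
  have hgd : (0:ℝ) < gdP n := by
    have := mP_pos hn
    unfold mP at this
    exact_mod_cast (by omega : 0 < gdP n)
  have e1 : ((n : ℝ) ^ 2) / (kP n E * (1 / (2 * gdP n)) ^ 2) +
      (2 * (n : ℝ) ^ 2 + 1) * (2 / (kP n E * ζ ^ 2 * (1 / 2))) =
      (4 * ((n:ℝ) * n) * (gdP n * gdP n) +
        (2 * ((n:ℝ) * n) + 1) * (16 * (E * E) * ((RP n + 1) * (RP n + 1)))) / kP n E := by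
    rw [hζ]
    field_simp
    ring
  rw [e1, div_le_div_iff₀ hk (by positivity), one_mul]
  have h := kP_ge_stP n E
  have h' : (stP n E : ℝ) ≤ kP n E := by exact_mod_cast h
  unfold stP at h'
  push_cast at h'
  linarith

theorem stat1_aux (hn : 4 ≤ n) (hE : 1 ≤ E) {ζ : ℝ} (hζ : ζ = 1 / (2 * E * ((RP n : ℝ) + 1))) :
    1 / (kP n E * ζ ^ 2 * (1 / 2)) ≤ 1 / (8 * ((RP n : ℝ) + 1)) := by
  refine le_trans ?_ (stat_aux hn hE hζ)
  have hE' : (0:ℝ) < E := by exact_mod_cast hE
  have hζ0 : 0 < ζ := by rw [hζ]; positivity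
  have hk : (0:ℝ) < kP n E := by exact_mod_cast (by have := two_le_kP (n := n) (E := E); omega)
  have hx : 0 < 1 / (kP n E * ζ ^ 2 * (1 / 2)) := by positivity
  have e2 : 2 / (kP n E * ζ ^ 2 * (1 / 2)) = 2 * (1 / (kP n E * ζ ^ 2 * (1 / 2))) := by ring
  have h1 : 0 ≤ ((n : ℝ) ^ 2) / (kP n E * (1 / (2 * gdP n)) ^ 2) := by positivity
  rw [e2]
  generalize 1 / (kP n E * ζ ^ 2 * (1 / 2)) = y at hx
  have h2 : 0 ≤ (n:ℝ) ^ 2 := by positivity
  nlinarith [mul_nonneg h2 hx.le]

/-- condition on `ε` -/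
theorem eps_ok (hn : 4 ≤ n) :
    (kP n E : ℝ) * (4 * n / (mP n * HP n E)) ^ 2 ≤ 1 := by
  have hm : (1:ℝ) ≤ mP n := by exact_mod_cast mP_pos hn
  have hH : 16 * (n * n) * kP n E ≤ HP n E := by
    unfold HP
    have h1 : 1 ≤ 64 * (RP n + 1) * (RP n + 1) := Nat.succ_le_of_lt (by positivity)
    calc 16 * (n * n) * kP n E = 1 * (16 * (n * n) * kP n E) := (one_mul _).symm
      _ ≤ (64 * (RP n + 1) * (RP n + 1)) * (16 * (n * n) * kP n E) := Nat.mul_le_mul_right _ h1
      _ = 64 * (RP n + 1) * (16 * (n * n)) * (RP n + 1) * kP n E := by ring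
      _ ≤ _ := Nat.le_succ _
  have hH1 : 1 ≤ HP n E := Nat.le_add_left _ _
  have hH' : (16:ℝ) * (n * n) * kP n E ≤ HP n E := by exact_mod_cast hH
  have hH1' : (1:ℝ) ≤ HP n E := by exact_mod_cast hH1
  have hpos : (0:ℝ) < (mP n * HP n E) := by positivity
  rw [div_pow, mul_div_assoc', div_le_one (by positivity)]
  have h1 : (HP n E : ℝ) ≤ (HP n E : ℝ) ^ 2 := by nlinarith
  have h2 : (HP n E : ℝ) ^ 2 ≤ (mP n * HP n E : ℝ) ^ 2 := by
    refine pow_le_pow_left₀ (by positivity) ?_ 2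
    nlinarith
  calc (kP n E : ℝ) * (4 * n) ^ 2 = 16 * (n * n) * kP n E := by ring
    _ ≤ _ := hH'
    _ ≤ _ := h1.trans h2

/-- the pure inequality behind the sampling error -/
theorem err_real {R κ k g m H X τ n t P2 nI c : ℝ} (hg : 1 ≤ g) (hm : 1 ≤ m) (hR1 : 1 ≤ R)
    (hn : 4 ≤ n) (hκ : 1 ≤ κ) (hk : k = κ ^ 2) (hH1 : 1 ≤ H) (hX1 : 1 ≤ X) (hτ : 0 ≤ τ)
    (ht0 : 0 ≤ t) (ht : t ≤ R) (hnI : 0 ≤ nI) (hP2 : 0 < P2)
    (hB : 64 * (R + 1) * (2 * k * (n * n) + R * H * τ * (2 * nI + 2)) ≤ P2)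
    (hc : c ≤ 1 / X) (hX : 64 * (R + 1) * (4 * n * R) * κ ≤ X)
    (hκg : 64 * (R + 1) * (4 * n * R) * 160 * (g * g) ≤ κ)
    (hHge : 64 * (R + 1) * (16 * (n * n)) * (R + 1) * k ≤ H) :
    k * (n * (2 * n / P2)) + t * H * τ * (2 * nI / P2 + 2 / P2) +
      t * H * ((c + 160 / (k * (1 / g) ^ 2)) * (κ * (4 * n / (m * H))) +
        k * (4 * n / (m * H)) ^ 2) ≤ 1 / (8 * (R + 1)) := by
  have hk1 : 1 ≤ k := by rw [hk]; nlinarith
  have p1 : k * (n * (2 * n / P2)) + t * H * τ * (2 * nI / P2 + 2 / P2) ≤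
      1 / (64 * (R + 1)) := by
    have e1 : k * (n * (2 * n / P2)) + t * H * τ * (2 * nI / P2 + 2 / P2) =
      (2 * k * (n * n) + t * H * τ * (2 * nI + 2)) / P2 := by
      field_simp
    rw [e1, div_le_div_iff₀ hP2 (by positivity), one_mul]
    refine le_trans ?_ hB
    have h3 : t * H * τ * (2 * nI + 2) ≤ R * H * τ * (2 * nI + 2) := by gcongr
    calc _ ≤ (2 * k * (n * n) + R * H * τ * (2 * nI + 2)) * (64 * (R + 1)) := by gcongr
      _ = _ := by ring
  have hTe : t * H * (4 * n / (m * H)) ≤ 4 * n * R := by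
    have e2 : t * H * (4 * n / (m * H)) = 4 * n * t / m := by field_simp
    rw [e2, div_le_iff₀ (by linarith)]
    have h1 : 4 * n * t ≤ 4 * n * R := by gcongr
    have h4 : 0 ≤ 4 * n * R := by positivity
    nlinarith
  have p2 : t * H * (c * (κ * (4 * n / (m * H)))) ≤ 1 / (64 * (R + 1)) := by
    have h0 : 0 ≤ κ * (4 * n / (m * H)) := by positivity
    calc t * H * (c * (κ * (4 * n / (m * H))))
        ≤ t * H * (1 / X * (κ * (4 * n / (m * H)))) := by gcongr
      _ = (t * H * (4 * n / (m * H))) * (κ / X) := by ring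
      _ ≤ (4 * n * R) * (κ / X) := by gcongr
      _ = (4 * n * R * κ) / X := by ring
      _ ≤ 1 / (64 * (R + 1)) := by
          rw [div_le_div_iff₀ (by linarith) (by positivity)]
          linarith
  have p3 : t * H * (160 / (k * (1 / g) ^ 2) * (κ * (4 * n / (m * H)))) ≤
      1 / (64 * (R + 1)) := by
    calc t * H * (160 / (k * (1 / g) ^ 2) * (κ * (4 * n / (m * H))))
        = (t * H * (4 * n / (m * H))) * (160 * (g * g) / κ) := by
          rw [hk]
          field_simp
      _ ≤ (4 * n * R) * (160 * (g * g) / κ) := by gcongr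
      _ = (4 * n * R * 160 * (g * g)) / κ := by ring
      _ ≤ 1 / (64 * (R + 1)) := by
          rw [div_le_div_iff₀ (by linarith) (by positivity)]
          linarith
  have p4 : t * H * (k * (4 * n / (m * H)) ^ 2) ≤ 1 / (64 * (R + 1)) := by
    have e4 : t * H * (k * (4 * n / (m * H)) ^ 2) = (16 * (n * n) * t * k) / (m * m * H) := by
      field_simp
      ring
    rw [e4, div_le_div_iff₀ (by positivity) (by positivity)]
    have h6 : (16 * (n * n) * t * k) * (64 * (R + 1)) ≤ H := by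
      refine le_trans ?_ hHge
      have h7 : t ≤ R + 1 := by linarith
      calc (16 * (n * n) * t * k) * (64 * (R + 1)) ≤
            (16 * (n * n) * (R + 1) * k) * (64 * (R + 1)) := by gcongr
        _ = _ := by ring
    have h8 : H ≤ m * m * H := by
      have : 1 ≤ m * m := by nlinarith
      nlinarith
    linarith
  have h9 : 4 * (1 / (64 * (R + 1))) ≤ 1 / (8 * (R + 1)) := by
    rw [mul_one_div, div_le_div_iff₀ (by positivity) (by positivity)]
    linarith
  have e5 : t * H * ((c + 160 / (k * (1 / g) ^ 2)) * (κ * (4 * n / (m * H))) +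
        k * (4 * n / (m * H)) ^ 2) = t * H * (c * (κ * (4 * n / (m * H)))) +
        t * H * (160 / (k * (1 / g) ^ 2) * (κ * (4 * n / (m * H)))) +
        t * H * (k * (4 * n / (m * H)) ^ 2) := by ring
  rw [e5]
  linarith

/-- **the sampling error** -/
theorem err_ok (hn : 4 ≤ n) {t : ℕ} (ht : t ≤ RP n) :
    popErr n (kP n E) (BP n E) (BP n E) (tauP n E) (HP n E) t (1 / (gN542 n : ℝ))
      (4 * n / (mP n * HP n E)) ≤ 1 / (8 * (RP n + 1)) := by
  have hg : (1:ℝ) ≤ gN542 n := by exact_mod_cast gN542_pos n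
  have hm : (1:ℝ) ≤ mP n := by exact_mod_cast mP_pos hn
  have hR1 : (1:ℝ) ≤ RP n := by exact_mod_cast RP_pos n
  have hn' : (4:ℝ) ≤ n := by exact_mod_cast hn
  have hκ : (1:ℝ) ≤ kapP n E := by exact_mod_cast kapP_ge1 n E
  have hk : (kP n E : ℝ) = (kapP n E : ℝ) ^ 2 := by
    unfold kP
    rw [Nat.cast_mul, sq]
  have hH1 : (1:ℝ) ≤ HP n E := by
    have : 1 ≤ HP n E := Nat.le_add_left _ _
    exact_mod_cast this
  have hX1 : (1:ℝ) ≤ XP n E := by
    have : 1 ≤ XP n E := Nat.le_add_left _ _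
    exact_mod_cast this
  have ht' : (t:ℝ) ≤ RP n := by exact_mod_cast ht
  have hsq : √(kP n E : ℝ) = kapP n E := by
    rw [hk, Real.sqrt_sq (by linarith)]
  have hB : 64 * ((RP n : ℝ) + 1) * (2 * (kP n E : ℝ) * ((n:ℝ) * n) +
      (RP n : ℝ) * (HP n E : ℝ) * (tauP n E : ℝ) * (2 * (nIdx n (kP n E) : ℝ) + 2)) ≤
      2 ^ (BP n E) := by
    have h1 : BP n E ≤ 2 ^ (BP n E) := (Nat.lt_two_pow_self).le
    have h2 : ((64 * (RP n + 1) * (2 * kP n E * (n * n) +
      RP n * HP n E * tauP n E * (2 * nIdx n (kP n E) + 2)) : ℕ) : ℝ) ≤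
      ((2 ^ (BP n E) : ℕ) : ℝ) := Nat.cast_le.2 h1
    simpa only [Nat.cast_mul, Nat.cast_add, Nat.cast_pow, Nat.cast_ofNat, Nat.cast_one] using h2
  have hτ : ((tauP n E : ℕ) : ℝ) = 4 * (kP n E : ℝ) * (gN542 n : ℝ) * (XP n E : ℝ) := by
    unfold tauP
    simp only [Nat.cast_mul, Nat.cast_ofNat]
  have hX : 64 * ((RP n : ℝ) + 1) * (4 * (n:ℝ) * (RP n : ℝ)) * (kapP n E : ℝ) ≤ XP n E := by
    have h1 : 64 * (RP n + 1) * (4 * n * RP n) * kapP n E ≤ XP n E := Nat.le_succ _
    have h2 : ((64 * (RP n + 1) * (4 * n * RP n) * kapP n E : ℕ) : ℝ) ≤ (XP n E : ℝ) :=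
      Nat.cast_le.2 h1
    simpa only [Nat.cast_mul, Nat.cast_add, Nat.cast_ofNat, Nat.cast_one] using h2
  have hκg : 64 * ((RP n : ℝ) + 1) * (4 * (n:ℝ) * (RP n : ℝ)) * 160 *
      ((gN542 n : ℝ) * (gN542 n : ℝ)) ≤ kapP n E := by
    have h1 : 64 * (RP n + 1) * (4 * n * RP n) * 160 * (gN542 n * gN542 n) ≤ kapP n E := by
      unfold kapP
      exact (Nat.le_add_left _ _).trans (Nat.le_succ _)
    have h2 : ((64 * (RP n + 1) * (4 * n * RP n) * 160 * (gN542 n * gN542 n) : ℕ) : ℝ) ≤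
        (kapP n E : ℝ) := Nat.cast_le.2 h1
    simpa only [Nat.cast_mul, Nat.cast_add, Nat.cast_ofNat, Nat.cast_one] using h2
  have hHge : 64 * ((RP n : ℝ) + 1) * (16 * ((n:ℝ) * n)) * ((RP n : ℝ) + 1) * (kP n E : ℝ) ≤
      HP n E := by
    have h1 : 64 * (RP n + 1) * (16 * (n * n)) * (RP n + 1) * kP n E ≤ HP n E := Nat.le_succ _
    have h2 : ((64 * (RP n + 1) * (16 * (n * n)) * (RP n + 1) * kP n E : ℕ) : ℝ) ≤
        (HP n E : ℝ) := Nat.cast_le.2 h1
    simpa only [Nat.cast_mul, Nat.cast_add, Nat.cast_ofNat, Nat.cast_one] using h2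
  have hk1 : (1:ℝ) ≤ kP n E := by rw [hk]; nlinarith
  have hc : (1 - 1 / (gN542 n : ℝ) / (4 * (kP n E : ℝ))) ^ (tauP n E) ≤ 1 / (XP n E : ℝ) := by
    refine one_sub_pow_le ?_ (by linarith) ?_
    · rw [div_div, div_le_one (by positivity)]
      exact one_le_mul_of_one_le_of_one_le hg (by linarith)
    · rw [hτ]
      field_simp
  unfold popErr annErr
  rw [hsq, Nat.cast_mul]
  exact err_real hg hm hR1 hn' hκ hk hH1 hX1 (Nat.cast_nonneg _) (Nat.cast_nonneg _) ht'
    (Nat.cast_nonneg _) (by positivity) hB hc hX hκg hHge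

end ineq

/-- **the parameters satisfy all inequalities of the analysis** -/
theorem prmOK {n E : ℕ} (bits : List Bool) (hn : 4 ≤ n) (hE : 1 ≤ E) :
    PrmOK (prm (⟨n⟩, bits, ⟨E⟩)) E where
  q_eq := by
    show qP n = 8 * n ^ 2
    unfold qP; ring
  par := par_ok hn
  S_eq := by
    show SP n = Smax (mP n) (n ^ 2)
    unfold SP Smax; rw [sq]
  R_ge := rounds_ok
  L_ge := le_refl _
  m_pos := mP_pos hn
  q_gt := by
    show n - 1 < qP n
    unfold qP
    nlinarith [Nat.sub_le n 1]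
  H_pos := by
    show 0 < HP n E
    unfold HP; omega
  k_two := two_le_kP
  gap := gap_ok
  eps := eps_ok hn
  err := fun t ht => err_ok hn ht
  stat := fun ζ hζ => stat_aux hn hE hζ
  stat1 := fun ζ hζ => stat1_aux hn hE hζ
  len := fun h hh => sampLen_le _ h hh

end Crest.Agent.R304.Prm180
end

-- ▼ part R304/Last180

/-!
# R304 / S0464: the core estimator exists
-/

set_option autoImplicit false
set_option linter.dupNamespace false

namespace Crest.Agent.R304.Last180

open Crest.Agent.R304.Loop Crest.Agent.R304.L6 Crest.Agent.R304.Prm180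

theorem prmOK' : Glue.PrmOK prm where
  pt := prmPT
  hn := fun _ => rfl
  hbits := fun _ => rfl
  hk := fun _ => lt_of_lt_of_le two_pos two_le_kP
  hq := fun I => by
    show qP I.1.val = 8 * I.1.val ^ 2
    unfold qP
    ring
  hL := fun _ => le_refl _
  num := by
    rintro ⟨⟨n⟩, bits, ⟨E⟩⟩ hev h4 hE
    have h := prmOK (n := n) (E := E) bits h4 hE
    exact ⟨hev, h4, h.k_two, h.H_pos, h.S_eq, h.par, h.R_ge, h.gap, h.eps, h.err,
      h.stat _ rfl⟩

/-- **the core estimator** -/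
theorem core : Top119.Core := Glue.core_of_ok prmOK'

end Crest.Agent.R304.Last180
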