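import Mathlib
import Crest.Agent.R304.Pd292O
import Crest.Agent.R304.MWTop

-- ▼ part R304/Pd292A
section

/-!
# Row 304, S0467: classes of an equivalence relation on `range n` as lists

`classes n S R` is the list of classes (sorted lists) of a relation `R` that is an equivalence on the
vertices `v < n` with `S v`.
-/

set_option autoImplicit false

namespace Crest.Agent.R304.Pd292A

/-- the class of `v` -/
def cls (n : ℕ) (R : ℕ → ℕ → Bool) (v : ℕ) : List ℕ := (List.range n).filter (fun u => R v u)

/-- the leaders (least elements of classes) -/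
def lead (n : ℕ) (S : ℕ → Bool) (R : ℕ → ℕ → Bool) : List ℕ :=
  (List.range n).filter (fun v => S v && (List.range v).all (fun u => !R u v))

/-- the classes -/
def classes (n : ℕ) (S : ℕ → Bool) (R : ℕ → ℕ → Bool) : List (List ℕ) :=
  (lead n S R).map (cls n R)

/-- `R` is an equivalence relation on the `v < n` with `S v` -/
structure EqOn (n : ℕ) (S : ℕ → Bool) (R : ℕ → ℕ → Bool) : Prop where
  refl : ∀ v, v < n → S v = true → R v v = true
  symm : ∀ u v, u < n → v < n → R u v = true → R v u = true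
  trans : ∀ u v x, u < n → v < n → x < n → R u v = true → R v x = true → R u x = true
  left : ∀ u v, u < n → v < n → R u v = true → S u = true

variable {n : ℕ} {S : ℕ → Bool} {R : ℕ → ℕ → Bool}

theorem mem_cls {v u : ℕ} : u ∈ cls n R v ↔ u < n ∧ R v u = true := by
  simp [cls]

theorem mem_lead {l : ℕ} : l ∈ lead n S R ↔ l < n ∧ S l = true ∧ ∀ u, u < l → R u l = false := by
  simp [lead]

theorem nodup_lead : (lead n S R).Nodup := List.Nodup.filter _ List.nodup_range

theorem nodup_cls (v : ℕ) : (cls n R v).Nodup := List.Nodup.filter _ List.nodup_range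

theorem exists_lead (h : EqOn n S R) {v : ℕ} (hv : v < n) (hS : S v = true) :
    ∃ l ∈ lead n S R, R l v = true := by
  classical
  have hex : ∃ u, u < n ∧ R u v = true := ⟨v, hv, h.refl v hv hS⟩
  obtain ⟨h1, h2⟩ := Nat.find_spec hex
  refine ⟨Nat.find hex, mem_lead.2 ⟨h1, h.left _ _ h1 hv h2, fun u hu => ?_⟩, h2⟩
  by_contra hR
  rw [Bool.not_eq_false] at hR
  have hun : u < n := lt_trans hu h1
  exact Nat.find_min hex hu ⟨hun, h.trans u _ v hun h1 hv hR h2⟩

theorem lead_unique (h : EqOn n S R) {l l' v : ℕ} (hl : l ∈ lead n S R) (hl' : l' ∈ lead n S R)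
    (hv : v < n) (h1 : R l v = true) (h2 : R l' v = true) : l = l' := by
  obtain ⟨a1, a2, a3⟩ := mem_lead.1 hl
  obtain ⟨b1, b2, b3⟩ := mem_lead.1 hl'
  have e1 : R l l' = true := h.trans l v l' a1 hv b1 h1 (h.symm _ _ b1 hv h2)
  have e2 : R l' l = true := h.symm _ _ a1 b1 e1
  rcases lt_trichotomy l l' with hlt | he | hlt
  · rw [b3 l hlt] at e1; exact absurd e1 (by simp)
  · exact he
  · rw [a3 l' hlt] at e2; exact absurd e2 (by simp)

theorem cls_congr (h : EqOn n S R) {u v : ℕ} (hu : u < n) (hv : v < n) (hR : R u v = true) :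
    cls n R u = cls n R v := by
  unfold cls
  refine List.filter_congr fun x hx => ?_
  have hx' : x < n := by simpa using hx
  rw [Bool.eq_iff_iff]
  exact ⟨fun hx2 => h.trans _ _ _ hv hu hx' (h.symm _ _ hu hv hR) hx2,
    fun hx2 => h.trans _ _ _ hu hv hx' hR hx2⟩

theorem mem_classes (h : EqOn n S R) {K : List ℕ} :
    K ∈ classes n S R ↔ ∃ v, v < n ∧ S v = true ∧ K = cls n R v := by
  constructor
  · intro hK
    obtain ⟨l, hl, rfl⟩ := List.mem_map.1 hK
    obtain ⟨a1, a2, a3⟩ := mem_lead.1 hl
    exact ⟨l, a1, a2, rfl⟩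
  · rintro ⟨v, hv, hS, rfl⟩
    obtain ⟨l, hl, hlv⟩ := exists_lead h hv hS
    exact List.mem_map.2 ⟨l, hl, cls_congr h (mem_lead.1 hl).1 hv hlv⟩

theorem countP_unique {α : Type*} [DecidableEq α] {L : List α} (hL : L.Nodup) {p : α → Bool} {a : α}
    (ha : a ∈ L) (hpa : p a = true) (hu : ∀ b ∈ L, p b = true → b = a) : L.countP p = 1 := by
  rw [List.countP_eq_length_filter]
  have h1 : (L.filter p).Nodup := hL.filter _
  rw [← List.toFinset_card_of_nodup h1, Finset.card_eq_one]
  refine ⟨a, ?_⟩
  ext b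
  simp only [List.mem_toFinset, List.mem_filter, Finset.mem_singleton]
  exact ⟨fun hb => hu b hb.1 hb.2, fun hb => hb ▸ ⟨ha, hpa⟩⟩

theorem lead_countP (h : EqOn n S R) {v : ℕ} (hv : v < n) :
    (lead n S R).countP (fun l => R l v) = if S v = true then 1 else 0 := by
  classical
  split_ifs with hS
  · obtain ⟨l, hl, hlv⟩ := exists_lead h hv hS
    exact countP_unique nodup_lead hl hlv fun b hb hbv => lead_unique h hb hl hv hbv hlv
  · rw [List.countP_eq_zero]
    intro l hl hlv
    have hl' := (mem_lead.1 hl).1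
    exact hS (h.left v l hv hl' (h.symm _ _ hl' hv hlv))

theorem classes_countP (h : EqOn n S R) {u v : ℕ} (hu : u < n) (hv : v < n) :
    (classes n S R).countP (fun K => decide (u ∈ K) && decide (v ∈ K)) =
      if R u v = true then 1 else 0 := by
  classical
  rw [classes, List.countP_map]
  split_ifs with hR
  · obtain ⟨l, hl, hlu⟩ := exists_lead h hu (h.left u v hu hv hR)
    have hl' := (mem_lead.1 hl).1
    refine countP_unique nodup_lead hl ?_ fun b hb hbv => ?_
    · simp only [Function.comp, Bool.and_eq_true, decide_eq_true_eq, mem_cls]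
      exact ⟨⟨hu, hlu⟩, hv, h.trans _ _ _ hl' hu hv hlu hR⟩
    · simp only [Function.comp, Bool.and_eq_true, decide_eq_true_eq, mem_cls] at hbv
      exact lead_unique h hb hl hu hbv.1.2 hlu
  · rw [List.countP_eq_zero]
    intro l hl hl2
    simp only [Function.comp, Bool.and_eq_true, decide_eq_true_eq, mem_cls] at hl2
    have hl' := (mem_lead.1 hl).1
    exact hR (h.trans _ _ _ hu hl' hv (h.symm _ _ hl' hu hl2.1.2) hl2.2.2)

theorem length_filter_range (n : ℕ) (p : ℕ → Bool) :
    ((List.range n).filter p).length = ∑ v ∈ Finset.range n, if p v = true then 1 else 0 := by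
  rw [← Finset.card_filter, ← List.toFinset_card_of_nodup (List.Nodup.filter _ List.nodup_range)]
  congr 1
  ext x
  simp

theorem sum_length_gen (n : ℕ) (R : ℕ → ℕ → Bool) (L : List ℕ) :
    (L.map (fun l => (cls n R l).length)).sum =
      ∑ v ∈ Finset.range n, L.countP (fun l => R l v) := by
  induction L with
  | nil => simp
  | cons a L ih =>
    rw [List.map_cons, List.sum_cons, ih]
    simp only [List.countP_cons]
    rw [Finset.sum_add_distrib, cls, length_filter_range, add_comm]

theorem classes_sum_length (h : EqOn n S R) :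
    ((classes n S R).map List.length).sum = ((List.range n).filter S).length := by
  rw [classes, List.map_map]
  have e : (List.length ∘ cls n R) = fun l => (cls n R l).length := rfl
  rw [e, sum_length_gen, length_filter_range]
  refine Finset.sum_congr rfl fun v hv => ?_
  exact lead_countP h (Finset.mem_range.1 hv)

theorem nodup_classes (h : EqOn n S R) : (classes n S R).Nodup := by
  refine (List.nodup_map_iff_inj_on nodup_lead).2 fun l hl l' hl' he => ?_
  obtain ⟨b1, b2, b3⟩ := mem_lead.1 hl'
  have hm : l' ∈ cls n R l' := mem_cls.2 ⟨b1, h.refl _ b1 b2⟩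
  rw [← he] at hm
  exact lead_unique h hl hl' b1 (mem_cls.1 hm).2 (h.refl _ b1 b2)

theorem length_classes : (classes n S R).length = (lead n S R).length := by
  simp [classes]

theorem classes_sum_pred (h : EqOn n S R) :
    ((classes n S R).map (fun K => (K.length : ℤ) - 1)).sum =
      ((List.range n).filter S).length - (classes n S R).length := by
  rw [← classes_sum_length h]
  generalize classes n S R = L
  induction L with
  | nil => simp
  | cons a L ih => simp only [List.map_cons, List.sum_cons, List.length_cons, ih]; push_cast; ring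

end Crest.Agent.R304.Pd292A
end

-- ▼ part R304/Pd292B
section

/-!
# Row 304, S0467: near-perfect matchings that are tight on a laminar family, and the expansion lemma
-/

set_option autoImplicit false

namespace Crest.Agent.R304.Pd292B

/-- `s` matches the vertices of `S` except `v` perfectly (perfectly if `v ∉ S`) along pairs in `el`, and
every member `C ⊆ S` of `F` has exactly one vertex that is `v` or leaves `C`. -/
structure NM {V : Type} (el : V → V → Prop) (F : List (List V)) (S : V → Prop) (v : V)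
    (s : V → V) : Prop where
  maps : ∀ u, S u → S (s u)
  invol : ∀ u, S u → s (s u) = u
  fix : ∀ u, S u → (s u = u ↔ u = v)
  elg : ∀ u, S u → u ≠ v → el u (s u)
  tight : ∀ C ∈ F, (∀ u ∈ C, S u) → ∃! u, u ∈ C ∧ (u = v ∨ s u ∉ C)

theorem NM.mono {V : Type} {el el' : V → V → Prop} {F F' : List (List V)} {S : V → Prop} {v : V}
    {s : V → V} (h : NM el F S v s) (hel : ∀ a b, S a → S b → el a b → el' a b)
    (hF : ∀ C ∈ F', (∀ u ∈ C, S u) → C ∈ F ∨ ((∀ u, S u → u ∈ C) ∧ S v)) :
    NM el' F' S v s where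
  maps := h.maps
  invol := h.invol
  fix := h.fix
  elg u hu huv := hel _ _ hu (h.maps u hu) (h.elg u hu huv)
  tight C hC hCS := by
    rcases hF C hC hCS with h1 | ⟨h1, hv⟩
    · exact h.tight C h1 hCS
    · refine ⟨v, ⟨h1 v hv, Or.inl rfl⟩, ?_⟩
      rintro u ⟨hu, rfl | hu2⟩
      · rfl
      · exact absurd (h1 _ (h.maps u (hCS u hu))) hu2

/-- **Expansion.** A (near-)perfect matching `t` of the blocks `nod = i` and near-perfect matchings of the
blocks with arbitrary hole give a (near-)perfect matching of the union. -/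
theorem expand {V κ : Type} [DecidableEq V] [LinearOrder κ] (el : V → V → Prop)
    (hsym : ∀ a b, el a b → el b a) (F : List (List V)) (S : V → Prop) (v : V) (nod : V → κ)
    (hF : ∀ C ∈ F, ∀ u ∈ C, ∀ u' ∈ C, nod u = nod u') (hFne : ∀ C ∈ F, C ≠ [])
    (t : κ → κ) (hinv : ∀ u, S u → t (t (nod u)) = nod u)
    (hfix : ∀ u, S u → (t (nod u) = nod u ↔ S v ∧ nod u = nod v))
    (hel : ∀ u, S u → t (nod u) ≠ nod u →
      ∃ a b, S a ∧ S b ∧ nod a = nod u ∧ nod b = t (nod u) ∧ el a b)
    (hgood : ∀ u, S u → ∃ s, NM el F (fun x => S x ∧ nod x = nod u) u s) :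
    ∃ s, NM el F S v s := by
  classical
  -- edges between blocks
  let E : κ → κ → Prop := fun i j => ∃ p : V × V, S p.1 ∧ S p.2 ∧ nod p.1 = i ∧ nod p.2 = j ∧ el p.1 p.2
  let pr : κ → κ → V × V := fun i j => if h : E i j then h.choose else (v, v)
  have hpr : ∀ i j, E i j → S (pr i j).1 ∧ S (pr i j).2 ∧ nod (pr i j).1 = i ∧ nod (pr i j).2 = j ∧
      el (pr i j).1 (pr i j).2 := by
    intro i j h
    have e : pr i j = h.choose := dif_pos h
    rw [e]
    exact h.choose_spec
  let port : κ → V := fun i => if S v ∧ i = nod v then v else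
    if i < t i then (pr i (t i)).1 else (pr (t i) i).2
  have hE : ∀ u, S u → t (nod u) ≠ nod u → E (nod u) (t (nod u)) := by
    intro u hu ht
    obtain ⟨a, b, h1, h2, h3, h4, h5⟩ := hel u hu ht
    exact ⟨(a, b), h1, h2, h3, h4, h5⟩
  have hE' : ∀ u, S u → t (nod u) ≠ nod u → E (t (nod u)) (nod u) := by
    intro u hu ht
    obtain ⟨a, b, h1, h2, h3, h4, h5⟩ := hel u hu ht
    exact ⟨(b, a), h2, h1, h4, h3, hsym _ _ h5⟩
  -- the port of a block of `S`
  have hport : ∀ u, S u → S (port (nod u)) ∧ nod (port (nod u)) = nod u := by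
    intro u hu
    by_cases h1 : S v ∧ nod u = nod v
    · have e : port (nod u) = v := if_pos h1
      rw [e]; exact ⟨h1.1, h1.2.symm⟩
    · have ht : t (nod u) ≠ nod u := fun h => h1 ((hfix u hu).1 h)
      by_cases h2 : nod u < t (nod u)
      · have e : port (nod u) = (pr (nod u) (t (nod u))).1 := by
          simp only [port]; rw [if_neg h1, if_pos h2]
        rw [e]
        obtain ⟨a1, a2, a3, a4, a5⟩ := hpr _ _ (hE u hu ht)
        exact ⟨a1, a3⟩
      · have e : port (nod u) = (pr (t (nod u)) (nod u)).2 := by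
          simp only [port]; rw [if_neg h1, if_neg h2]
        rw [e]
        obtain ⟨a1, a2, a3, a4, a5⟩ := hpr _ _ (hE' u hu ht)
        exact ⟨a2, a4⟩
  -- there is a vertex of `S` in the partner block
  have hpart : ∀ u, S u → t (nod u) ≠ nod u → ∃ x, S x ∧ nod x = t (nod u) := by
    intro u hu ht
    obtain ⟨a, b, h1, h2, h3, h4, h5⟩ := hel u hu ht
    exact ⟨b, h2, h4⟩
  have hpel : ∀ u, S u → t (nod u) ≠ nod u → el (port (nod u)) (port (t (nod u))) := by
    intro u hu ht
    have hi := hinv u hu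
    obtain ⟨x, hx, hxn⟩ := hpart u hu ht
    have h1 : ¬ (S v ∧ nod u = nod v) := fun h => ht ((hfix u hu).2 h)
    have h1' : ¬ (S v ∧ t (nod u) = nod v) := fun h => by
      have := (hfix x hx).2 (by rw [hxn]; exact h)
      rw [hxn, hi] at this
      exact ht this.symm
    rcases lt_or_gt_of_ne ht with h2 | h2
    · have e1 : port (nod u) = (pr (t (nod u)) (nod u)).2 := by
        simp only [port]; rw [if_neg h1, if_neg (not_lt_of_gt h2)]
      have e2 : port (t (nod u)) = (pr (t (nod u)) (nod u)).1 := by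
        simp only [port]; rw [if_neg h1', hi, if_pos h2]
      rw [e1, e2]
      exact hsym _ _ (hpr _ _ (hE' u hu ht)).2.2.2.2
    · have e1 : port (nod u) = (pr (nod u) (t (nod u))).1 := by
        simp only [port]; rw [if_neg h1, if_pos h2]
      have e2 : port (t (nod u)) = (pr (nod u) (t (nod u))).2 := by
        simp only [port]; rw [if_neg h1', hi, if_neg (not_lt_of_gt h2)]
      rw [e1, e2]
      exact (hpr _ _ (hE u hu ht)).2.2.2.2
  -- matchings inside the blocks
  have hsig : ∀ i : κ, ∃ σ : V → V, (∃ u, S u ∧ nod u = i) →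
      NM el F (fun x => S x ∧ nod x = i) (port i) σ := by
    intro i
    by_cases h : ∃ u, S u ∧ nod u = i
    · obtain ⟨u, hu, rfl⟩ := h
      obtain ⟨hp1, hp2⟩ := hport u hu
      obtain ⟨σ, hσ⟩ := hgood _ hp1
      rw [hp2] at hσ
      exact ⟨σ, fun _ => hσ⟩
    · exact ⟨id, fun h' => absurd h' h⟩
  choose σ hσ using hsig
  have hσ' : ∀ u, S u → NM el F (fun x => S x ∧ nod x = nod u) (port (nod u)) (σ (nod u)) :=
    fun u hu => hσ _ ⟨u, hu, rfl⟩
  let s : V → V := fun u => if u = port (nod u) then port (t (nod u)) else σ (nod u) u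
  have s1 : ∀ u, u = port (nod u) → s u = port (t (nod u)) := fun u h => if_pos h
  have s2 : ∀ u, u ≠ port (nod u) → s u = σ (nod u) u := fun u h => if_neg h
  -- the port of the partner block
  have hport2 : ∀ u, S u → S (port (t (nod u))) ∧ nod (port (t (nod u))) = t (nod u) := by
    intro u hu
    by_cases ht : t (nod u) = nod u
    · rw [ht]; exact hport u hu
    · obtain ⟨x, hx, hxn⟩ := hpart u hu ht
      rw [← hxn]; exact hport x hx
  have hv_port : S v → port (nod v) = v := fun h => if_pos ⟨h, rfl⟩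
  refine ⟨s, ?_, ?_, ?_, ?_, ?_⟩
  · intro u hu
    by_cases h : u = port (nod u)
    · rw [s1 u h]; exact (hport2 u hu).1
    · rw [s2 u h]; exact ((hσ' u hu).maps u ⟨hu, rfl⟩).1
  · intro u hu
    by_cases h : u = port (nod u)
    · rw [s1 u h]
      obtain ⟨_, b⟩ := hport2 u hu
      rw [s1 _ (by rw [b]), b, hinv u hu, ← h]
    · rw [s2 u h]
      have hm := (hσ' u hu).maps u ⟨hu, rfl⟩
      have hne : σ (nod u) u ≠ port (nod u) := by
        intro e
        have h3 := (hσ' u hu).invol u ⟨hu, rfl⟩
        have h4 := ((hσ' u hu).fix (port (nod u)) (hport u hu)).2 rfl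
        rw [e, h4] at h3
        exact h h3.symm
      rw [s2 _ (by rw [hm.2]; exact hne), hm.2]
      exact (hσ' u hu).invol u ⟨hu, rfl⟩
  · intro u hu
    by_cases h : u = port (nod u)
    · rw [s1 u h]
      constructor
      · intro e
        have hn : t (nod u) = nod u := by
          have := (hport2 u hu).2
          rw [e] at this; exact this.symm
        obtain ⟨hv, hn2⟩ := (hfix u hu).1 hn
        rw [h, hn2]; exact hv_port hv
      · rintro rfl
        rw [(hfix u hu).2 ⟨hu, rfl⟩, ← h]
    · rw [s2 u h]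
      constructor
      · intro e
        exact absurd (((hσ' u hu).fix u ⟨hu, rfl⟩).1 e) h
      · rintro rfl
        exact absurd (hv_port hu).symm h
  · intro u hu huv
    by_cases h : u = port (nod u)
    · rw [s1 u h]
      have ht : t (nod u) ≠ nod u := by
        intro e
        obtain ⟨hv, hn2⟩ := (hfix u hu).1 e
        apply huv
        rw [h, hn2]; exact hv_port hv
      have := hpel u hu ht
      rwa [← h] at this
    · rw [s2 u h]
      exact (hσ' u hu).elg u ⟨hu, rfl⟩ h
  · intro C hC hCS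
    obtain ⟨x, hx⟩ := List.exists_mem_of_ne_nil _ (hFne C hC)
    have hxS := hCS x hx
    have hsub : ∀ u ∈ C, (fun y => S y ∧ nod y = nod x) u := fun u hu =>
      ⟨hCS u hu, hF C hC u hu x hx⟩
    have key : ∀ u ∈ C, ((u = v ∨ s u ∉ C) ↔ (u = port (nod x) ∨ σ (nod x) u ∉ C)) := by
      intro u hu
      have hun : nod u = nod x := hF C hC u hu x hx
      have huS := hCS u hu
      by_cases h : u = port (nod u)
      · have hR : u = port (nod x) := by rw [← hun]; exact h
        refine ⟨fun _ => Or.inl hR, fun _ => ?_⟩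
        by_cases ht : t (nod u) = nod u
        · left
          obtain ⟨hv, hn2⟩ := (hfix u huS).1 ht
          rw [h, hn2]; exact hv_port hv
        · right
          rw [s1 u h]
          intro hm
          have e1 := hF C hC _ hm x hx
          rw [(hport2 u huS).2, ← hun] at e1
          exact ht e1
      · rw [s2 u h, hun]
        have h' : u ≠ port (nod x) := by rw [← hun]; exact h
        have huv : u ≠ v := by
          rintro rfl
          exact h (hv_port huS).symm
        simp [h', huv]
    obtain ⟨z, ⟨hz1, hz2⟩, hz3⟩ := (hσ' x hxS).tight C hC hsub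
    refine ⟨z, ⟨hz1, (key z hz1).2 hz2⟩, ?_⟩
    rintro u ⟨hu1, hu2⟩
    exact hz3 u ⟨hu1, (key u hu1).1 hu2⟩

end Crest.Agent.R304.Pd292B
end

-- ▼ part R304/Pd292C
section

/-!
# Row 304, S0467: dual solutions, invariants, weak duality
-/

set_option autoImplicit false

namespace Crest.Agent.R304.Pd292C

open Crest.Agent.R304.Pd292A Crest.Agent.R304.Pd292B

/-- number of members of `F` containing both `u` and `v` -/
def cnt (F : List (List ℕ)) (u v : ℕ) : ℕ := F.countP (fun B => decide (u ∈ B) && decide (v ∈ B))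

/-- slack of a pair -/
def slack (w : ℕ → ℕ → ℕ) (y : ℕ → ℤ) (F : List (List ℕ)) (u v : ℕ) : ℤ :=
  y u + y v + 2 * (cnt F u v : ℤ) - (w u v : ℤ)

/-- eligible pairs -/
def elig (w : ℕ → ℕ → ℕ) (y : ℕ → ℤ) (F : List (List ℕ)) (u v : ℕ) : Bool :=
  decide (0 < w u v) && decide (slack w y F u v ≤ 1)

/-- the vertices are in the same outermost block -/
def same (F : List (List ℕ)) (u v : ℕ) : Bool :=
  decide (u = v) || F.any (fun B => decide (u ∈ B) && decide (v ∈ B))

/-- dual value -/
def dual (n : ℕ) (y : ℕ → ℤ) (F : List (List ℕ)) : ℤ :=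
  ∑ v ∈ Finset.range n, y v + (F.map (fun B => (B.length : ℤ) - 1)).sum

/-- weights -/
structure GoodW (w : ℕ → ℕ → ℕ) : Prop where
  symm : ∀ u v, w u v = w v u
  irr : ∀ v, w v v = 0

/-- perfect matching of the edges of positive weight -/
def PM (n : ℕ) (w : ℕ → ℕ → ℕ) (s : ℕ → ℕ) : Prop :=
  ∀ v, v < n → s v < n ∧ s (s v) = v ∧ s v ≠ v ∧ 0 < w v (s v)

/-- twice the weight of a matching -/
def wt2 (n : ℕ) (w : ℕ → ℕ → ℕ) (s : ℕ → ℕ) : ℕ := ∑ v ∈ Finset.range n, w v (s v)

/-- canonical lists of vertices -/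
def Canon (n : ℕ) (B : List ℕ) : Prop := B = (List.range n).filter (fun u => decide (u ∈ B))

/-- invariants of the primal-dual method -/
structure Inv (n : ℕ) (w : ℕ → ℕ → ℕ) (y : ℕ → ℤ) (F : List (List ℕ)) : Prop where
  slk : ∀ u v, u < n → v < n → 0 < w u v → 0 ≤ slack w y F u v
  canon : ∀ B ∈ F, Canon n B
  ne : ∀ B ∈ F, B ≠ []
  lam : ∀ B ∈ F, ∀ C ∈ F, ∀ x, x ∈ B → x ∈ C → (∀ u ∈ B, u ∈ C) ∨ (∀ u ∈ C, u ∈ B)
  good : ∀ B ∈ F, ∀ v ∈ B, ∃ s, NM (fun a b => elig w y F a b = true) F (fun u => u ∈ B) v s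

/-! ### canonical lists -/

theorem Canon.lt {n : ℕ} {B : List ℕ} (h : Canon n B) {u : ℕ} (hu : u ∈ B) : u < n := by
  rw [h] at hu
  simpa using (List.mem_filter.1 hu).1

theorem Canon.nodup {n : ℕ} {B : List ℕ} (h : Canon n B) : B.Nodup := by
  rw [h]; exact List.Nodup.filter _ List.nodup_range

theorem Canon.ext {n : ℕ} {B C : List ℕ} (h : Canon n B) (h' : Canon n C)
    (he : ∀ u, u < n → (u ∈ B ↔ u ∈ C)) : B = C := by
  rw [h, h']
  refine List.filter_congr fun x hx => ?_
  have hx' : x < n := by simpa using hx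
  simp [he x hx']

theorem canon_filter (n : ℕ) (p : ℕ → Bool) : Canon n ((List.range n).filter p) := by
  unfold Canon
  refine List.filter_congr fun x hx => ?_
  rw [Bool.eq_iff_iff]
  simp only [List.mem_filter, decide_eq_true_eq]
  exact ⟨fun h => ⟨hx, h⟩, fun h => h.2⟩

theorem Canon.length {n : ℕ} {B : List ℕ} (h : Canon n B) :
    B.length = ((Finset.range n).filter (fun u => u ∈ B)).card := by
  rw [← List.toFinset_card_of_nodup h.nodup]
  congr 1
  ext x
  simp only [List.mem_toFinset, Finset.mem_filter, Finset.mem_range]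
  exact ⟨fun hx => ⟨h.lt hx, hx⟩, fun hx => hx.2⟩

/-! ### parity -/

theorem even_card_invol (T : Finset ℕ) (s : ℕ → ℕ)
    (h : ∀ v ∈ T, s v ∈ T ∧ s (s v) = v ∧ s v ≠ v) : Even T.card := by
  have h1 : ∏ _v ∈ T, (-1 : ℤ) = 1 := by
    refine Finset.prod_involution (fun v _ => s v) ?_ ?_ ?_ ?_
    · intro a ha; norm_num
    · intro a ha _; exact (h a ha).2.2
    · intro a ha; exact (h a ha).1
    · intro a ha; exact (h a ha).2.1
  rw [Finset.prod_const] at h1
  exact (neg_one_pow_eq_one_iff_even (by norm_num)).1 h1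

theorem odd_of_nm {n : ℕ} {el : ℕ → ℕ → Prop} {F : List (List ℕ)} {B : List ℕ} (hB : Canon n B)
    {v : ℕ} (hv : v ∈ B) {s : ℕ → ℕ} (h : NM el F (fun u => u ∈ B) v s) : Odd B.length := by
  have h1 : Even (((Finset.range n).filter (fun u => u ∈ B)).erase v).card := by
    refine even_card_invol _ s fun u hu => ?_
    simp only [Finset.mem_erase, Finset.mem_filter, Finset.mem_range] at hu ⊢
    obtain ⟨huv, hun, huB⟩ := hu
    have a1 := h.maps u huB
    have a2 := h.invol u huB
    refine ⟨⟨fun e => ?_, hB.lt a1, a1⟩, a2, fun e => huv ((h.fix u huB).1 e)⟩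
    rw [e, (h.fix v hv).2 rfl] at a2
    exact huv a2.symm
  have h2 : v ∈ (Finset.range n).filter (fun u => u ∈ B) := by
    simp only [Finset.mem_filter, Finset.mem_range]
    exact ⟨hB.lt hv, hv⟩
  have h3 := Finset.card_erase_add_one h2
  rw [hB.length, ← h3]
  exact h1.add_one

theorem Inv.odd {n : ℕ} {w : ℕ → ℕ → ℕ} {y : ℕ → ℤ} {F : List (List ℕ)} (h : Inv n w y F)
    {B : List ℕ} (hB : B ∈ F) : Odd B.length := by
  obtain ⟨x, hx⟩ := List.exists_mem_of_ne_nil _ (h.ne B hB)
  obtain ⟨s, hs⟩ := h.good B hB x hx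
  exact odd_of_nm (h.canon B hB) hx hs

/-! ### sums -/

theorem sum_cnt (n : ℕ) (F : List (List ℕ)) (s : ℕ → ℕ) :
    ∑ v ∈ Finset.range n, cnt F v (s v) =
      (F.map (fun B => ((Finset.range n).filter (fun v => v ∈ B ∧ s v ∈ B)).card)).sum := by
  induction F with
  | nil => simp [cnt]
  | cons B F ih =>
    rw [List.map_cons, List.sum_cons, ← ih, Finset.card_filter, ← Finset.sum_add_distrib]
    refine Finset.sum_congr rfl fun v _ => ?_
    unfold cnt
    rw [List.countP_cons, add_comm]
    simp

theorem sum_invol (n : ℕ) (s : ℕ → ℕ) (h1 : ∀ v, v < n → s v < n) (h2 : ∀ v, v < n → s (s v) = v)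
    (y : ℕ → ℤ) : ∑ v ∈ Finset.range n, y (s v) = ∑ v ∈ Finset.range n, y v := by
  refine Finset.sum_nbij' s s ?_ ?_ ?_ ?_ ?_
  · intro a ha; exact Finset.mem_range.2 (h1 a (Finset.mem_range.1 ha))
  · intro a ha; exact Finset.mem_range.2 (h1 a (Finset.mem_range.1 ha))
  · intro a ha; exact h2 a (Finset.mem_range.1 ha)
  · intro a ha; exact h2 a (Finset.mem_range.1 ha)
  · intro a ha; rfl

theorem sum_slack (n : ℕ) (w : ℕ → ℕ → ℕ) (y : ℕ → ℤ) (F : List (List ℕ)) (s : ℕ → ℕ)
    (h1 : ∀ v, v < n → s v < n) (h2 : ∀ v, v < n → s (s v) = v) :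
    (wt2 n w s : ℤ) = 2 * ∑ v ∈ Finset.range n, y v +
      2 * ((F.map (fun B => ((Finset.range n).filter (fun v => v ∈ B ∧ s v ∈ B)).card)).sum : ℤ) -
      ∑ v ∈ Finset.range n, slack w y F v (s v) := by
  unfold slack wt2
  rw [← sum_cnt]
  rw [Finset.sum_sub_distrib, Finset.sum_add_distrib, Finset.sum_add_distrib, sum_invol n s h1 h2,
    ← Finset.mul_sum]
  push_cast
  ring

theorem list_sum_le {α : Type} (L : List α) (f : α → ℕ) (g : α → ℤ)
    (h : ∀ a ∈ L, (f a : ℤ) ≤ g a) : ((L.map f).sum : ℤ) ≤ (L.map g).sum := by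
  induction L with
  | nil => simp
  | cons a L ih =>
    rw [List.map_cons, List.sum_cons, List.map_cons, List.sum_cons, Nat.cast_add]
    exact add_le_add (h a (by simp)) (ih fun b hb => h b (by simp [hb]))

theorem list_sum_ge {α : Type} (L : List α) (f : α → ℕ) (g : α → ℤ)
    (h : ∀ a ∈ L, g a ≤ (f a : ℤ)) : (L.map g).sum ≤ ((L.map f).sum : ℤ) := by
  induction L with
  | nil => simp
  | cons a L ih =>
    rw [List.map_cons, List.sum_cons, List.map_cons, List.sum_cons, Nat.cast_add]
    exact add_le_add (h a (by simp)) (ih fun b hb => h b (by simp [hb]))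

/-- **weak duality** -/
theorem Inv.weak {n : ℕ} {w : ℕ → ℕ → ℕ} {y : ℕ → ℤ} {F : List (List ℕ)} (h : Inv n w y F)
    {s : ℕ → ℕ} (hs : PM n w s) : (wt2 n w s : ℤ) ≤ 2 * dual n y F := by
  rw [sum_slack n w y F s (fun v hv => (hs v hv).1) (fun v hv => (hs v hv).2.1)]
  unfold dual
  have e1 : 0 ≤ ∑ v ∈ Finset.range n, slack w y F v (s v) := by
    refine Finset.sum_nonneg fun v hv => ?_
    have hv' := Finset.mem_range.1 hv
    exact h.slk _ _ hv' (hs v hv').1 (hs v hv').2.2.2
  have e2 : ((F.map (fun B => ((Finset.range n).filter (fun v => v ∈ B ∧ s v ∈ B)).card)).sum : ℤ) ≤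
      (F.map (fun B => (B.length : ℤ) - 1)).sum := by
    refine list_sum_le F _ _ fun B hB => ?_
    have hodd := h.odd hB
    have heven : Even ((Finset.range n).filter (fun v => v ∈ B ∧ s v ∈ B)).card := by
      refine even_card_invol _ s fun v hv => ?_
      simp only [Finset.mem_filter, Finset.mem_range] at hv ⊢
      obtain ⟨a1, a2, a3, a4⟩ := hs v hv.1
      rw [a2]
      exact ⟨⟨a1, hv.2.2, hv.2.1⟩, rfl, a3⟩
    have hle : ((Finset.range n).filter (fun v => v ∈ B ∧ s v ∈ B)).card ≤ B.length := by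
      rw [(h.canon B hB).length]
      refine Finset.card_le_card fun x hx => ?_
      simp only [Finset.mem_filter] at hx ⊢
      exact ⟨hx.1, hx.2.1⟩
    obtain ⟨a, ha⟩ := hodd
    obtain ⟨b, hb⟩ := heven
    omega
  linarith

/-- value of a tight perfect matching of eligible edges -/
theorem Inv.final {n : ℕ} {w : ℕ → ℕ → ℕ} {y : ℕ → ℤ} {F : List (List ℕ)} (h : Inv n w y F)
    {s : ℕ → ℕ} (hs : NM (fun a b => elig w y F a b = true) F (fun u => u < n) n s) :
    PM n w s ∧ 2 * dual n y F - n ≤ wt2 n w s := by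
  have hPM : PM n w s := by
    intro v hv
    have hne : v ≠ n := ne_of_lt hv
    have he := hs.elg v hv hne
    simp only [elig, Bool.and_eq_true, decide_eq_true_eq] at he
    exact ⟨hs.maps v hv, hs.invol v hv, fun e => hne ((hs.fix v hv).1 e), he.1⟩
  refine ⟨hPM, ?_⟩
  rw [sum_slack n w y F s (fun v hv => (hPM v hv).1) (fun v hv => (hPM v hv).2.1)]
  unfold dual
  have e1 : ∑ v ∈ Finset.range n, slack w y F v (s v) ≤ n := by
    calc ∑ v ∈ Finset.range n, slack w y F v (s v) ≤ ∑ _v ∈ Finset.range n, (1 : ℤ) := by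
          refine Finset.sum_le_sum fun v hv => ?_
          have hv' := Finset.mem_range.1 hv
          have he := hs.elg v hv' (ne_of_lt hv')
          simp only [elig, Bool.and_eq_true, decide_eq_true_eq] at he
          exact he.2
      _ = n := by simp
  have e2 : (F.map (fun B => (B.length : ℤ) - 1)).sum ≤
      ((F.map (fun B => ((Finset.range n).filter (fun v => v ∈ B ∧ s v ∈ B)).card)).sum : ℤ) := by
    refine list_sum_ge F _ _ fun B hB => ?_
    have hc := h.canon B hB
    obtain ⟨z, ⟨hz1, hz2⟩, hz3⟩ := hs.tight B hB (fun u hu => hc.lt hu)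
    have hz4 : s z ∉ B := by
      rcases hz2 with h0 | h0
      · exact absurd h0 (ne_of_lt (hc.lt hz1))
      · exact h0
    have hsub : ((Finset.range n).filter (fun u => u ∈ B)).erase z ⊆
        (Finset.range n).filter (fun v => v ∈ B ∧ s v ∈ B) := by
      intro u hu
      simp only [Finset.mem_erase, Finset.mem_filter, Finset.mem_range] at hu ⊢
      refine ⟨hu.2.1, hu.2.2, ?_⟩
      by_contra hn
      exact hu.1 (hz3 u ⟨hu.2.2, Or.inr hn⟩)
    have h1 := Finset.card_le_card hsub
    have h2 : z ∈ (Finset.range n).filter (fun u => u ∈ B) := by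
      simp only [Finset.mem_filter, Finset.mem_range]
      exact ⟨hc.lt hz1, hz1⟩
    have h3 := Finset.card_erase_add_one h2
    rw [hc.length]
    omega
  linarith

end Crest.Agent.R304.Pd292C
end

-- ▼ part R304/Pd292D
section

/-!
# Row 304, S0467: one dual change keeps the invariants and lowers the dual value
-/

set_option autoImplicit false

namespace Crest.Agent.R304.Pd292D

open Crest.Agent.R304.Pd292A Crest.Agent.R304.Pd292B Crest.Agent.R304.Pd292C

variable {n : ℕ} {w : ℕ → ℕ → ℕ} {y : ℕ → ℤ} {F : List (List ℕ)}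

theorem same_iff {u v : ℕ} : same F u v = true ↔ u = v ∨ ∃ B ∈ F, u ∈ B ∧ v ∈ B := by
  simp [same]

theorem same_eqOn (h : Inv n w y F) : EqOn n (fun _ => true) (same F) where
  refl v _ _ := same_iff.2 (Or.inl rfl)
  symm u v _ _ huv := by
    rcases same_iff.1 huv with e | ⟨B, hB, h1, h2⟩
    · exact same_iff.2 (Or.inl e.symm)
    · exact same_iff.2 (Or.inr ⟨B, hB, h2, h1⟩)
  trans u v x _ _ _ huv hvx := by
    rcases same_iff.1 huv with rfl | ⟨B, hB, h1, h2⟩
    · exact hvx
    rcases same_iff.1 hvx with rfl | ⟨C, hC, h3, h4⟩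
    · exact huv
    rcases h.lam B hB C hC v h2 h3 with h5 | h5
    · exact same_iff.2 (Or.inr ⟨C, hC, h5 _ h1, h4⟩)
    · exact same_iff.2 (Or.inr ⟨B, hB, h1, h5 _ h4⟩)
  left _ _ _ _ _ := rfl

/-- a block with at least two vertices is a member of `F` -/
theorem blk_mem (h : Inv n w y F) {u v : ℕ} (_hu : u < n) (_hv : v < n) (huv : u ≠ v)
    (hs : same F u v = true) : cls n (same F) u ∈ F := by
  classical
  have hex : ∃ B ∈ F, u ∈ B := by
    rcases same_iff.1 hs with e | ⟨B, hB, h1, _⟩
    · exact absurd e huv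
    · exact ⟨B, hB, h1⟩
  -- a member containing `u` of maximal length
  obtain ⟨B, hB, huB, hmax⟩ : ∃ B ∈ F, u ∈ B ∧ ∀ C ∈ F, u ∈ C → C.length ≤ B.length := by
    have hne : (F.toFinset.filter (fun B => u ∈ B)).Nonempty := by
      obtain ⟨B, hB, h1⟩ := hex
      exact ⟨B, by simp [hB, h1]⟩
    obtain ⟨B, hB, hm⟩ := Finset.exists_max_image _ (fun B : List ℕ => B.length) hne
    simp only [Finset.mem_filter, List.mem_toFinset] at hB hm
    exact ⟨B, hB.1, hB.2, fun C hC huC => hm C ⟨hC, huC⟩⟩
  have e : cls n (same F) u = B := by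
    refine Canon.ext (canon_filter n _) (h.canon B hB) fun x hx => ?_
    rw [mem_cls]
    constructor
    · rintro ⟨_, hsx⟩
      rcases same_iff.1 hsx with rfl | ⟨C, hC, h1, h2⟩
      · exact huB
      rcases h.lam B hB C hC u huB h1 with h5 | h5
      · -- `B ⊆ C`, lengths agree, so `C ⊆ B`
        have hCB := hmax C hC h1
        have hsub : (Finset.range n).filter (fun x => x ∈ B) ⊆
            (Finset.range n).filter (fun x => x ∈ C) := by
          intro z hz
          simp only [Finset.mem_filter] at hz ⊢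
          exact ⟨hz.1, h5 z hz.2⟩
        rw [(h.canon B hB).length, (h.canon C hC).length] at hCB
        have heq := Finset.eq_of_subset_of_card_le hsub hCB
        have hxC : x ∈ (Finset.range n).filter (fun x => x ∈ C) := by
          simp only [Finset.mem_filter, Finset.mem_range]
          exact ⟨hx, h2⟩
        rw [← heq] at hxC
        exact (Finset.mem_filter.1 hxC).2
      · exact h5 x h2
    · intro hxB
      exact ⟨hx, same_iff.2 (Or.inr ⟨B, hB, huB, hxB⟩)⟩
  rw [e]; exact hB

/-- same block, inside `A` -/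
def sameA (F : List (List ℕ)) (inA : ℕ → Bool) (u v : ℕ) : Bool := inA u && same F u v

/-- what the dual change needs to know -/
structure StepHyp (n : ℕ) (w : ℕ → ℕ → ℕ) (y : ℕ → ℤ) (F : List (List ℕ)) (inD inA : ℕ → Bool)
    (cp : ℕ → ℕ → Bool) : Prop where
  disj : ∀ v, v < n → inD v = true → inA v = false
  sameD : ∀ u v, u < n → v < n → same F u v = true → inD u = true → inD v = true
  sameA : ∀ u v, u < n → v < n → same F u v = true → inA u = true → inA v = true
  cpE : EqOn n inD cp
  cpSame : ∀ u v, u < n → v < n → same F u v = true → inD u = true → cp u v = true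
  cpElig : ∀ u v, u < n → v < n → elig w y F u v = true → inD u = true → inD v = true →
    cp u v = true
  nbr : ∀ u v, u < n → v < n → inD u = true → elig w y F u v = true → inD v = true ∨ inA v = true
  crit : ∀ v, v < n → inD v = true →
    ∃ s, NM (fun a b => elig w y F a b = true) F (fun u => u < n ∧ cp v u = true) v s
  cntc : (classes n inA (Pd292D.sameA F inA)).length + 1 ≤ (classes n inD cp).length

/-- the blocks in `A` that are members of `F` -/
def Abl (n : ℕ) (F : List (List ℕ)) (inA : ℕ → Bool) : List (List ℕ) :=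
  (classes n inA (sameA F inA)).filter (fun X => decide (X ∈ F))

/-- the dual change on vertices -/
def sig (inD inA : ℕ → Bool) (v : ℕ) : ℤ := if inD v = true then -1 else if inA v = true then 1 else 0

section

variable {inD inA : ℕ → Bool} {cp : ℕ → ℕ → Bool} {F1 : List (List ℕ)}

theorem sameA_eqOn (h : Inv n w y F) (H : StepHyp n w y F inD inA cp) :
    EqOn n inA (sameA F inA) where
  refl v hv hA := by simp [sameA, hA, same]
  symm u v hu hv huv := by
    simp only [sameA, Bool.and_eq_true] at huv ⊢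
    exact ⟨H.sameA u v hu hv huv.2 huv.1, (same_eqOn h).symm u v hu hv huv.2⟩
  trans u v x hu hv hx huv hvx := by
    simp only [sameA, Bool.and_eq_true] at huv hvx ⊢
    exact ⟨huv.1, (same_eqOn h).trans u v x hu hv hx huv.2 hvx.2⟩
  left u v hu hv huv := by
    simp only [sameA, Bool.and_eq_true] at huv
    exact huv.1

theorem cls_sameA {u : ℕ} (hA : inA u = true) : cls n (sameA F inA) u = cls n (same F) u := by
  unfold cls sameA
  simp [hA]

/-- a class in `A` that is not a member of `F` has one vertex -/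
theorem length_of_not_mem (h : Inv n w y F) (H : StepHyp n w y F inD inA cp) {X : List ℕ}
    (hX : X ∈ classes n inA (sameA F inA)) (hXF : X ∉ F) : X.length = 1 := by
  obtain ⟨v, hv, hA, rfl⟩ := (mem_classes (sameA_eqOn h H)).1 hX
  rw [cls_sameA hA] at hXF ⊢
  have hmem : v ∈ cls n (same F) v := mem_cls.2 ⟨hv, same_iff.2 (Or.inl rfl)⟩
  have hall : ∀ u ∈ cls n (same F) v, u = v := by
    intro u hu
    by_contra hne
    obtain ⟨hun, hus⟩ := mem_cls.1 hu
    exact hXF (blk_mem h hv hun (Ne.symm hne) hus)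
  have hnd : (cls n (same F) v).Nodup := nodup_cls v
  rw [← List.toFinset_card_of_nodup hnd, Finset.card_eq_one]
  refine ⟨v, ?_⟩
  ext x
  simp only [List.mem_toFinset, Finset.mem_singleton]
  exact ⟨fun hx => hall x hx, fun hx => hx ▸ hmem⟩

theorem cnt_append (F F' : List (List ℕ)) (u v : ℕ) : cnt (F ++ F') u v = cnt F u v + cnt F' u v := by
  simp [cnt, List.countP_append]

theorem cnt_perm {F F' : List (List ℕ)} (h : F.Perm F') (u v : ℕ) : cnt F u v = cnt F' u v :=
  h.countP_eq _

theorem cnt_Abl (h : Inv n w y F) (H : StepHyp n w y F inD inA cp) {u v : ℕ} (hu : u < n)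
    (hv : v < n) (huv : u ≠ v) :
    cnt (Abl n F inA) u v = if sameA F inA u v = true then 1 else 0 := by
  rw [← classes_countP (sameA_eqOn h H) hu hv]
  unfold cnt Abl
  rw [List.countP_filter]
  refine List.countP_congr fun X hX => ?_
  simp only [Bool.and_eq_true, decide_eq_true_eq]
  refine ⟨fun h1 => h1.1, fun h1 => ⟨h1, ?_⟩⟩
  obtain ⟨x, hx, hA, rfl⟩ := (mem_classes (sameA_eqOn h H)).1 hX
  rw [cls_sameA hA] at h1 ⊢
  obtain ⟨hxu, hxv⟩ := h1
  rw [mem_cls] at hxu hxv
  by_cases hxe : x = u
  · subst hxe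
    exact blk_mem h hx hv huv hxv.2
  · exact blk_mem h hx hu hxe hxu.2

theorem cnt_new (h : Inv n w y F) (H : StepHyp n w y F inD inA cp)
    (hp : (Abl n F inA ++ F1).Perm F) {u v : ℕ} (hu : u < n) (hv : v < n) (huv : u ≠ v) :
    (cnt (classes n inD cp ++ F1) u v : ℤ) = cnt F u v + (if cp u v = true then 1 else 0) -
      (if sameA F inA u v = true then 1 else 0) := by
  have e1 : cnt F u v = (if sameA F inA u v = true then 1 else 0) + cnt F1 u v := by
    rw [← cnt_perm hp, cnt_append, cnt_Abl h H hu hv huv]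
  have e2 : cnt (classes n inD cp ++ F1) u v = (if cp u v = true then 1 else 0) + cnt F1 u v := by
    rw [cnt_append]
    congr 1
    exact classes_countP H.cpE hu hv
  rw [e2, e1]
  push_cast
  split_ifs <;> ring

theorem slack_new (h : Inv n w y F) (H : StepHyp n w y F inD inA cp)
    (hp : (Abl n F inA ++ F1).Perm F) {u v : ℕ} (hu : u < n) (hv : v < n) (huv : u ≠ v) :
    slack w (fun x => y x + sig inD inA x) (classes n inD cp ++ F1) u v =
      slack w y F u v + sig inD inA u + sig inD inA v + 2 * (if cp u v = true then 1 else 0) -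
      2 * (if sameA F inA u v = true then 1 else 0) := by
  unfold slack
  rw [cnt_new h H hp hu hv huv]
  ring

/-- inside a block or a component the slacks do not change -/
theorem slack_same (h : Inv n w y F) (H : StepHyp n w y F inD inA cp)
    (hp : (Abl n F inA ++ F1).Perm F) {u v : ℕ} (hu : u < n) (hv : v < n) (huv : u ≠ v)
    (hs : same F u v = true ∨ cp u v = true) :
    slack w (fun x => y x + sig inD inA x) (classes n inD cp ++ F1) u v = slack w y F u v := by
  rw [slack_new h H hp hu hv huv]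
  have hsym := (same_eqOn h).symm u v hu hv
  by_cases hD : inD u = true
  · have hcp : cp u v = true := by
      rcases hs with hs | hs
      · exact H.cpSame u v hu hv hs hD
      · exact hs
    have hDv : inD v = true := H.cpE.left v u hv hu (H.cpE.symm u v hu hv hcp)
    have hA := H.disj u hu hD
    simp [sig, hD, hDv, hcp, sameA, hA]
    ring
  · have hcp : ¬ cp u v = true := fun hc => hD (H.cpE.left u v hu hv hc)
    have hs' : same F u v = true := by
      rcases hs with hs | hs
      · exact hs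
      · exact absurd hs hcp
    have hDv : ¬ inD v = true := fun hc => hD (H.sameD v u hv hu (hsym hs') hc)
    by_cases hA : inA u = true
    · have hAv : inA v = true := H.sameA u v hu hv hs' hA
      simp [sig, hD, hDv, hcp, sameA, hA, hAv, hs']
      ring
    · have hAv : ¬ inA v = true := fun hc => hA (H.sameA v u hv hu (hsym hs') hc)
      simp [sig, hD, hDv, hcp, sameA, hA, hAv]

theorem elig_same (hw : GoodW w) (h : Inv n w y F) (H : StepHyp n w y F inD inA cp)
    (hp : (Abl n F inA ++ F1).Perm F) {u v : ℕ} (hu : u < n) (hv : v < n)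
    (hs : same F u v = true ∨ cp u v = true) (he : elig w y F u v = true) :
    elig w (fun x => y x + sig inD inA x) (classes n inD cp ++ F1) u v = true := by
  have huv : u ≠ v := by
    rintro rfl
    simp [elig, hw.irr] at he
  unfold elig at he ⊢
  rw [slack_same h H hp hu hv huv hs]
  exact he

/-- the new slacks are nonnegative -/
theorem slk_new (hw : GoodW w) (h : Inv n w y F) (H : StepHyp n w y F inD inA cp)
    (hp : (Abl n F inA ++ F1).Perm F) {u v : ℕ} (hu : u < n) (hv : v < n) (hpos : 0 < w u v) :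
    0 ≤ slack w (fun x => y x + sig inD inA x) (classes n inD cp ++ F1) u v := by
  have huv : u ≠ v := by
    rintro rfl
    rw [hw.irr] at hpos
    exact absurd hpos (lt_irrefl _)
  have h0 := h.slk u v hu hv hpos
  have h0' := h.slk v u hv hu (by rw [hw.symm]; exact hpos)
  by_cases hs : same F u v = true ∨ cp u v = true
  · rw [slack_same h H hp hu hv huv hs]; exact h0
  rw [not_or] at hs
  obtain ⟨hs1, hs2⟩ := hs
  rw [slack_new h H hp hu hv huv]
  have e1 : ¬ sameA F inA u v = true := by
    simp only [sameA, Bool.and_eq_true, not_and]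
    exact fun _ => hs1
  rw [if_neg hs2, if_neg e1]
  have hel : slack w y F u v ≤ 1 → elig w y F u v = true := fun hh => by
    simp [elig, hpos, hh]
  have hslsym : slack w y F v u = slack w y F u v := by
    unfold slack cnt
    rw [hw.symm v u]
    have : (fun B : List ℕ => decide (v ∈ B) && decide (u ∈ B)) =
        fun B => decide (u ∈ B) && decide (v ∈ B) := by
      funext B; rw [Bool.and_comm]
    rw [this]; ring
  have hel' : slack w y F u v ≤ 1 → elig w y F v u = true := fun hh => by
    rw [← hslsym] at hh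
    simp [elig, hw.symm v u, hpos, hh]
  by_cases hDu : inD u = true
  · have hAu := H.disj u hu hDu
    by_cases hDv : inD v = true
    · have hAv := H.disj v hv hDv
      have h2 : 2 ≤ slack w y F u v := by
        by_contra hc
        exact hs2 (H.cpElig u v hu hv (hel (by omega)) hDu hDv)
      simp only [sig, hDu, hDv, if_true]
      omega
    · by_cases hAv : inA v = true
      · simp only [sig, hDu, hDv, hAv, if_true]
        simp
        omega
      · have h2 : 2 ≤ slack w y F u v := by
          by_contra hc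
          rcases H.nbr u v hu hv hDu (hel (by omega)) with hh | hh
          · exact hDv hh
          · exact hAv hh
        simp only [sig, hDu, hDv, hAv, if_true]
        simp
        omega
  · by_cases hDv : inD v = true
    · by_cases hAu : inA u = true
      · simp only [sig, hDu, hDv, hAu, if_true]
        simp
        omega
      · have h2 : 2 ≤ slack w y F u v := by
          by_contra hc
          rcases H.nbr v u hv hu hDv (hel' (by omega)) with hh | hh
          · exact hDu hh
          · exact hAu hh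
        simp only [sig, hDu, hDv, hAu, if_true]
        simp
        omega
    · have h1 : 0 ≤ sig inD inA u := by unfold sig; rw [if_neg hDu]; split_ifs <;> norm_num
      have h2 : 0 ≤ sig inD inA v := by unfold sig; rw [if_neg hDv]; split_ifs <;> norm_num
      omega

/-- **the dual change keeps the invariants** -/
theorem inv_new (hw : GoodW w) (h : Inv n w y F) (H : StepHyp n w y F inD inA cp)
    (hp : (Abl n F inA ++ F1).Perm F) :
    Inv n w (fun x => y x + sig inD inA x) (classes n inD cp ++ F1) := by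
  have hF1 : ∀ B ∈ F1, B ∈ F := fun B hB => hp.subset (by simp [hB])
  have hmem : ∀ B ∈ classes n inD cp ++ F1,
      (∃ v, v < n ∧ inD v = true ∧ B = cls n cp v) ∨ B ∈ F := by
    intro B hB
    rcases List.mem_append.1 hB with hB | hB
    · exact Or.inl ((mem_classes H.cpE).1 hB)
    · exact Or.inr (hF1 B hB)
  have hcanon : ∀ B ∈ classes n inD cp ++ F1, Canon n B := by
    intro B hB
    rcases hmem B hB with ⟨v, hv, hD, rfl⟩ | hB
    · exact canon_filter n _
    · exact h.canon B hB
  have hsameB : ∀ B ∈ F, ∀ a ∈ B, ∀ b ∈ B, same F a b = true :=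
    fun B hB a ha b hb => same_iff.2 (Or.inr ⟨B, hB, ha, hb⟩)
  refine ⟨fun u v hu hv hpos => slk_new hw h H hp hu hv hpos, hcanon, ?_, ?_, ?_⟩
  · intro B hB
    rcases hmem B hB with ⟨v, hv, hD, rfl⟩ | hB
    · exact List.ne_nil_of_mem (mem_cls.2 ⟨hv, H.cpE.refl v hv hD⟩)
    · exact h.ne B hB
  · intro B hB C hC x hxB hxC
    -- class versus member
    have key : ∀ v, v < n → inD v = true → x ∈ cls n cp v → ∀ C' ∈ F, x ∈ C' →
        ∀ u ∈ C', u ∈ cls n cp v := by
      intro v hv hD hx C' hC' hxC' u hu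
      obtain ⟨hxn, hvx⟩ := mem_cls.1 hx
      have hun := (h.canon C' hC').lt hu
      have hDx : inD x = true := H.cpE.left x v hxn hv (H.cpE.symm v x hv hxn hvx)
      exact mem_cls.2 ⟨hun, H.cpE.trans v x u hv hxn hun hvx
        (H.cpSame x u hxn hun (hsameB C' hC' x hxC' u hu) hDx)⟩
    rcases hmem B hB with ⟨v, hv, hD, rfl⟩ | hB'
    · rcases hmem C hC with ⟨v', hv', hD', rfl⟩ | hC'
      · left
        have e : cls n cp v = cls n cp v' := by
          obtain ⟨hxn, hvx⟩ := mem_cls.1 hxB
          obtain ⟨_, hvx'⟩ := mem_cls.1 hxC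
          rw [cls_congr H.cpE hv hxn hvx, cls_congr H.cpE hv' hxn hvx']
        rw [e]; exact fun u hu => hu
      · right
        exact key v hv hD hxB C hC' hxC
    · rcases hmem C hC with ⟨v', hv', hD', rfl⟩ | hC'
      · left
        exact key v' hv' hD' hxC B hB' hxB
      · exact h.lam B hB' C hC' x hxB hxC
  · intro B hB v hvB
    have hvn := (hcanon B hB).lt hvB
    -- members inside `B`
    have hins : ∀ (S : ℕ → Prop), (∀ u, S u → u < n) → S v →
        (∀ a b, S a → S b → same F a b = true ∨ cp a b = true) →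
        ∀ s, NM (fun a b => elig w y F a b = true) F S v s →
        NM (fun a b => elig w (fun x => y x + sig inD inA x) (classes n inD cp ++ F1) a b = true)
          (classes n inD cp ++ F1) S v s := by
      intro S hSn hSv hSs s hs
      refine hs.mono (fun a b ha hb he => elig_same hw h H hp (hSn a ha) (hSn b hb) (hSs a b ha hb) he)
        fun C hC hCS => ?_
      rcases hmem C hC with ⟨x, hx, hD, rfl⟩ | hC'
      · right
        refine ⟨fun u hu => ?_, hSv⟩
        have hxx : x ∈ cls n cp x := mem_cls.2 ⟨hx, H.cpE.refl x hx hD⟩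
        have hun := hSn u hu
        refine mem_cls.2 ⟨hun, ?_⟩
        rcases hSs x u (hCS x hxx) hu with h1 | h1
        · exact H.cpSame x u hx hun h1 hD
        · exact h1
      · exact Or.inl hC'
    rcases hmem B hB with ⟨x, hx, hD, rfl⟩ | hB'
    · obtain ⟨_, hxv⟩ := mem_cls.1 hvB
      have hDv : inD v = true := H.cpE.left v x hvn hx (H.cpE.symm x v hx hvn hxv)
      obtain ⟨s, hs⟩ := H.crit v hvn hDv
      have hiff : (fun u => u ∈ cls n cp x) = fun u => u < n ∧ cp v u = true := by
        funext u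
        rw [cls_congr H.cpE hx hvn hxv, mem_cls]
      rw [hiff]
      refine ⟨s, hins _ (fun u hu => hu.1) ⟨hvn, H.cpE.refl v hvn hDv⟩ (fun a b ha hb => ?_) s hs⟩
      exact Or.inr (H.cpE.trans a v b ha.1 hvn hb.1 (H.cpE.symm v a hvn ha.1 ha.2) hb.2)
    · obtain ⟨s, hs⟩ := h.good B hB' v hvB
      exact ⟨s, hins _ (fun u hu => (h.canon B hB').lt hu) hvB
        (fun a b ha hb => Or.inl (hsameB B hB' a ha b hb)) s hs⟩

theorem sum_filter_zero {α : Type} (L : List α) (q : α → Bool) (g : α → ℤ)
    (h : ∀ x ∈ L, q x = false → g x = 0) : ((L.filter q).map g).sum = (L.map g).sum := by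
  induction L with
  | nil => simp
  | cons a L ih =>
    have ih' := ih fun x hx => h x (List.mem_cons_of_mem _ hx)
    by_cases hq : q a = true
    · rw [List.filter_cons_of_pos hq]; simp [ih']
    · rw [List.filter_cons_of_neg hq, ih']
      have := h a (by simp) (by simpa using hq)
      simp [this]

/-- **the dual value drops** -/
theorem dual_new (h : Inv n w y F) (H : StepHyp n w y F inD inA cp)
    (hp : (Abl n F inA ++ F1).Perm F) :
    dual n (fun x => y x + sig inD inA x) (classes n inD cp ++ F1) + 1 ≤ dual n y F := by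
  have e1 : (F.map (fun B => (B.length : ℤ) - 1)).sum =
      ((Abl n F inA).map (fun B => (B.length : ℤ) - 1)).sum +
        (F1.map (fun B => (B.length : ℤ) - 1)).sum := by
    rw [← (hp.map (fun B => (B.length : ℤ) - 1)).sum_eq, List.map_append, List.sum_append]
  have e2 : ((Abl n F inA).map (fun B => (B.length : ℤ) - 1)).sum =
      ((List.range n).filter inA).length - (classes n inA (sameA F inA)).length := by
    rw [← classes_sum_pred (sameA_eqOn h H), Abl]
    refine sum_filter_zero _ _ _ fun X hX hXF => ?_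
    rw [length_of_not_mem h H hX (by simpa using hXF)]
    norm_num
  have e3 := classes_sum_pred H.cpE
  have e4 : ∑ v ∈ Finset.range n, (y v + sig inD inA v) = ∑ v ∈ Finset.range n, y v -
      ((List.range n).filter inD).length + ((List.range n).filter inA).length := by
    rw [Finset.sum_add_distrib, length_filter_range, length_filter_range]
    push_cast
    have : ∑ v ∈ Finset.range n, sig inD inA v =
        ∑ v ∈ Finset.range n, ((if inA v = true then (1 : ℤ) else 0) - if inD v = true then 1 else 0) := by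
      refine Finset.sum_congr rfl fun v hv => ?_
      unfold sig
      by_cases hD : inD v = true
      · rw [H.disj v (Finset.mem_range.1 hv) hD]; simp [hD]
      · by_cases hA : inA v = true <;> simp [hD, hA]
    rw [this, Finset.sum_sub_distrib]
    ring
  unfold dual
  rw [List.map_append, List.sum_append, e1, e2, e3, e4]
  have := H.cntc
  omega

end

end Crest.Agent.R304.Pd292D
end

-- ▼ part R304/Pd292E
section

/-!
# Row 304, S0467: from the oracle on the block graph to the dual change
-/

set_option autoImplicit false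

namespace Crest.Agent.R304.Pd292E

open Crest.Agent.R304.Pd292A Crest.Agent.R304.Pd292B Crest.Agent.R304.Pd292C
  Crest.Agent.R304.Pd292D Crest.Agent.R304.Pd292O

/-! ### closure -/

/-- one closure step -/
def cloStep (n : ℕ) (r : ℕ → ℕ → Bool) (S : List ℕ) : List ℕ :=
  (List.range n).filter (fun v => decide (v ∈ S) || S.any (fun x => r x v))

/-- the vertices reachable from `u` -/
def clo (n : ℕ) (r : ℕ → ℕ → Bool) (u : ℕ) : List ℕ :=
  (cloStep n r)^[n] ((List.range n).filter (fun v => decide (v = u)))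

theorem mem_cloStep {n : ℕ} {r : ℕ → ℕ → Bool} {S : List ℕ} {v : ℕ} :
    v ∈ cloStep n r S ↔ v < n ∧ (v ∈ S ∨ ∃ x ∈ S, r x v = true) := by
  simp [cloStep]

theorem clo_sound {n : ℕ} {r : ℕ → ℕ → Bool} {u : ℕ} (k : ℕ) : ∀ v,
    v ∈ (cloStep n r)^[k] ((List.range n).filter (fun v => decide (v = u))) →
      v < n ∧ Relation.ReflTransGen (fun a b => b < n ∧ r a b = true) u v := by
  induction k with
  | zero =>
    intro v hv
    simp only [Function.iterate_zero, id, List.mem_filter, List.mem_range, decide_eq_true_eq] at hv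
    exact ⟨hv.1, by rw [hv.2]⟩
  | succ k ih =>
    intro v hv
    rw [Function.iterate_succ_apply', mem_cloStep] at hv
    rcases hv with ⟨hvn, hv | ⟨x, hx, hr⟩⟩
    · exact ih v hv
    · exact ⟨hvn, (ih x hx).2.tail ⟨hvn, hr⟩⟩

theorem mem_clo {n : ℕ} {r : ℕ → ℕ → Bool} {u v : ℕ} (hu : u < n) :
    v ∈ clo n r u ↔ Relation.ReflTransGen (fun a b => b < n ∧ r a b = true) u v := by
  refine ⟨fun h => (clo_sound n v h).2, ?_⟩
  set S0 := (List.range n).filter (fun v => decide (v = u)) with hS0
  have hu0 : u ∈ S0 := by simp [hS0, hu]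
  have hcan : ∀ k, Canon n ((cloStep n r)^[k] S0) := by
    intro k
    cases k with
    | zero => exact canon_filter n _
    | succ k => rw [Function.iterate_succ_apply']; exact canon_filter n _
  have hmono : ∀ k, ∀ x, x ∈ (cloStep n r)^[k] S0 → x ∈ (cloStep n r)^[k + 1] S0 := by
    intro k x hx
    rw [Function.iterate_succ_apply', mem_cloStep]
    exact ⟨(hcan k).lt hx, Or.inl hx⟩
  have hu_all : ∀ k, u ∈ (cloStep n r)^[k] S0 := by
    intro k
    induction k with
    | zero => exact hu0
    | succ k ih => exact hmono k u ih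
  have hstat : ∃ j, j < n ∧ (cloStep n r)^[j + 1] S0 = (cloStep n r)^[j] S0 := by
    by_contra hno
    push Not at hno
    have hcard : ∀ k, k ≤ n → k + 1 ≤ ((cloStep n r)^[k] S0).length := by
      intro k
      induction k with
      | zero =>
        intro _
        have : 0 < S0.length := List.length_pos_of_mem hu0
        rw [Function.iterate_zero, id]
        omega
      | succ k ih =>
        intro hk
        have h1 := ih (by omega)
        have hne := hno k (by omega)
        rw [(hcan k).length] at h1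
        rw [(hcan (k + 1)).length]
        have hsub : (Finset.range n).filter (fun x => x ∈ (cloStep n r)^[k] S0) ⊂
            (Finset.range n).filter (fun x => x ∈ (cloStep n r)^[k + 1] S0) := by
          rw [Finset.ssubset_iff_subset_ne]
          constructor
          · intro x hx
            simp only [Finset.mem_filter] at hx ⊢
            exact ⟨hx.1, hmono k x hx.2⟩
          · intro he
            apply hne
            refine Canon.ext (hcan _) (hcan _) fun x hx => ?_
            have := Finset.ext_iff.1 he x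
            simp only [Finset.mem_filter, Finset.mem_range, hx, true_and] at this
            exact this.symm
        have := Finset.card_lt_card hsub
        omega
    have h1 := hcard n le_rfl
    rw [(hcan n).length] at h1
    have h2 := Finset.card_filter_le (Finset.range n) (fun x => x ∈ (cloStep n r)^[n] S0)
    rw [Finset.card_range] at h2
    omega
  obtain ⟨j, hj, hjs⟩ := hstat
  have hfix : cloStep n r ((cloStep n r)^[j] S0) = (cloStep n r)^[j] S0 := by
    rw [← Function.iterate_succ_apply' (cloStep n r) j S0]; exact hjs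
  have hn : (cloStep n r)^[n] S0 = (cloStep n r)^[j] S0 := by
    have e : (cloStep n r)^[n] S0 = (cloStep n r)^[(n - j) + j] S0 := by
      rw [Nat.sub_add_cancel hj.le]
    rw [e, Function.iterate_add_apply]
    exact Function.iterate_fixed hfix (n - j)
  intro h
  unfold clo
  rw [← hS0, hn]
  induction h with
  | refl => exact hu_all j
  | tail hab hbc ih =>
    rw [← hfix, mem_cloStep]
    exact ⟨hbc.1, Or.inr ⟨_, ih, hbc.2⟩⟩

/-! ### the bridge -/

/-- block numbers and block graph -/
structure Blocks (n : ℕ) (w : ℕ → ℕ → ℕ) (y : ℕ → ℤ) (F : List (List ℕ)) (k : ℕ) (nod : ℕ → ℕ)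
    (adj : ℕ → ℕ → Prop) : Prop where
  lt : ∀ v, v < n → nod v < k
  surj : ∀ i, i < k → ∃ v, v < n ∧ nod v = i
  same : ∀ u v, u < n → v < n → (nod u = nod v ↔ same F u v = true)
  adj : ∀ i j, i < k → j < k → (adj i j ↔ i ≠ j ∧ ∃ u v, u < n ∧ v < n ∧ nod u = i ∧ nod v = j ∧
    elig w y F u v = true)

variable {n : ℕ} {w : ℕ → ℕ → ℕ} {y : ℕ → ℤ} {F : List (List ℕ)}

theorem elig_symm (hw : GoodW w) {u v : ℕ} (h : elig w y F u v = true) : elig w y F v u = true := by
  have hslsym : slack w y F v u = slack w y F u v := by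
    unfold slack cnt
    rw [hw.symm v u]
    have : (fun B : List ℕ => decide (v ∈ B) && decide (u ∈ B)) =
        fun B => decide (u ∈ B) && decide (v ∈ B) := by
      funext B; rw [Bool.and_comm]
    rw [this]; ring
  unfold elig at h ⊢
  rw [hslsym, hw.symm v u]
  exact h

/-- every block has near-perfect matchings with arbitrary hole -/
theorem block_good (h : Inv n w y F) {u : ℕ} (hu : u < n) :
    ∃ s, NM (fun a b => elig w y F a b = true) F (fun x => x < n ∧ same F u x = true) u s := by
  by_cases hex : ∃ v, v < n ∧ u ≠ v ∧ same F u v = true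
  · obtain ⟨v, hv, huv, hs⟩ := hex
    have hB := blk_mem h hu hv huv hs
    obtain ⟨s, hs⟩ := h.good _ hB u (mem_cls.2 ⟨hu, same_iff.2 (Or.inl rfl)⟩)
    refine ⟨s, ?_⟩
    have e : (fun x => x < n ∧ same F u x = true) = fun x => x ∈ cls n (same F) u := by
      funext x; rw [mem_cls]
    rw [e]; exact hs
  · push Not at hex
    have hx : ∀ x, x < n ∧ same F u x = true → x = u := by
      rintro x ⟨hxn, hxs⟩
      by_contra hne
      exact hex x hxn (Ne.symm hne) hxs
    refine ⟨id, ?_, ?_, ?_, ?_, ?_⟩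
    · intro x hx; exact hx
    · intro x hx; rfl
    · intro x hxx; simp [hx x hxx]
    · intro x hxx hne; exact absurd (hx x hxx) hne
    · intro C hC hCS
      obtain ⟨z, hz⟩ := List.exists_mem_of_ne_nil _ (h.ne C hC)
      have hzu := hx z (hCS z hz)
      subst hzu
      exact ⟨z, ⟨hz, Or.inl rfl⟩, fun x hx' => hx x (hCS x hx'.1)⟩

section

variable {k : ℕ} {nod : ℕ → ℕ} {adj : ℕ → ℕ → Prop} {D : Finset (Fin k)}

/-- node of a vertex as an element of `Fin k` -/
def nodF (hB : Blocks n w y F k nod adj) (v : ℕ) (hv : v < n) : Fin k := ⟨nod v, hB.lt v hv⟩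

/-- component relation: vertex level versus node level -/
structure Comps (hB : Blocks n w y F k nod adj) (D : Finset (Fin k)) (inD inA : ℕ → Bool)
    (cp : ℕ → ℕ → Bool) : Prop where
  dI : ∀ v (hv : v < n), inD v = true ↔ nodF hB v hv ∈ D
  aI : ∀ v, v < n → (inA v = true ↔ inD v = false ∧ ∃ u, u < n ∧ inD u = true ∧ adj (nod u) (nod v))
  cI : ∀ u v, u < n → v < n → (cp u v = true ↔ inD u = true ∧ Relation.ReflTransGen
    (fun a b => b < n ∧ inD b = true ∧ (same F a b = true ∨ elig w y F a b = true)) u v)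

variable {hB : Blocks n w y F k nod adj} {inD inA : ℕ → Bool} {cp : ℕ → ℕ → Bool}

theorem Comps.inD_congr (C : Comps hB D inD inA cp) {u v : ℕ} (hu : u < n) (hv : v < n)
    (h : nod u = nod v) : inD u = true ↔ inD v = true := by
  rw [C.dI u hu, C.dI v hv]
  have : nodF hB u hu = nodF hB v hv := Fin.ext h
  rw [this]

theorem Comps.inA_congr (C : Comps hB D inD inA cp) {u v : ℕ} (hu : u < n) (hv : v < n)
    (h : nod u = nod v) : inA u = true ↔ inA v = true := by
  rw [C.aI u hu, C.aI v hv, h]
  have h1 := C.inD_congr hu hv h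
  have h2 : inD u = inD v := by rw [Bool.eq_iff_iff]; exact h1
  rw [h2]

theorem Comps.path_symm (hI : Inv n w y F) (hw : GoodW w) {u v : ℕ} (hu : u < n)
    (hD : inD u = true)
    (h : Relation.ReflTransGen
      (fun a b => b < n ∧ inD b = true ∧ (same F a b = true ∨ elig w y F a b = true)) u v) :
    v < n ∧ inD v = true ∧ Relation.ReflTransGen
      (fun a b => b < n ∧ inD b = true ∧ (same F a b = true ∨ elig w y F a b = true)) v u := by
  induction h with
  | refl => exact ⟨hu, hD, Relation.ReflTransGen.refl⟩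
  | tail hab hbc ih =>
    obtain ⟨h1, h2, h3⟩ := ih
    refine ⟨hbc.1, hbc.2.1, Relation.ReflTransGen.head ⟨h1, h2, ?_⟩ h3⟩
    rcases hbc.2.2 with h4 | h4
    · exact Or.inl ((same_eqOn hI).symm _ _ h1 hbc.1 h4)
    · exact Or.inr (elig_symm hw h4)

theorem Comps.cp_eqOn (C : Comps hB D inD inA cp) (hI : Inv n w y F) (hw : GoodW w) :
    EqOn n inD cp where
  refl v hv hD := (C.cI v v hv hv).2 ⟨hD, Relation.ReflTransGen.refl⟩
  symm u v hu hv huv := by
    obtain ⟨h1, h2⟩ := (C.cI u v hu hv).1 huv
    obtain ⟨_, h4, h5⟩ := Comps.path_symm hI hw hu h1 h2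
    exact (C.cI v u hv hu).2 ⟨h4, h5⟩
  trans u v x hu hv hx huv hvx := by
    obtain ⟨h1, h2⟩ := (C.cI u v hu hv).1 huv
    obtain ⟨h3, h4⟩ := (C.cI v x hv hx).1 hvx
    exact (C.cI u x hu hx).2 ⟨h1, h2.trans h4⟩
  left u v hu hv huv := ((C.cI u v hu hv).1 huv).1

theorem Comps.cpSame (C : Comps hB D inD inA cp) {u v : ℕ} (hu : u < n) (hv : v < n)
    (hs : same F u v = true) (hD : inD u = true) : cp u v = true :=
  (C.cI u v hu hv).2 ⟨hD, Relation.ReflTransGen.single
    ⟨hv, (C.inD_congr hu hv ((hB.same u v hu hv).2 hs)).1 hD, Or.inl hs⟩⟩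

theorem Comps.cpElig (C : Comps hB D inD inA cp) {u v : ℕ} (hu : u < n) (hv : v < n)
    (hs : elig w y F u v = true) (hD : inD u = true) (hDv : inD v = true) : cp u v = true :=
  (C.cI u v hu hv).2 ⟨hD, Relation.ReflTransGen.single ⟨hv, hDv, Or.inr hs⟩⟩

/-- vertex-level and node-level reachability agree -/
theorem Comps.cp_iff (C : Comps hB D inD inA cp) (hI : Inv n w y F) (hw : GoodW w) {u v : ℕ}
    (hu : u < n) (hv : v < n) (hD : inD u = true) :
    cp u v = true ↔ comp (fun i j => adj (i : ℕ) (j : ℕ)) D (nodF hB u hu) (nodF hB v hv) := by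
  have hE := C.cp_eqOn hI hw
  constructor
  · intro h
    obtain ⟨_, h2⟩ := (C.cI u v hu hv).1 h
    have key : ∀ x, Relation.ReflTransGen
      (fun a b => b < n ∧ inD b = true ∧ (same F a b = true ∨ elig w y F a b = true)) u x →
      ∀ hx : x < n, comp (fun i j => adj (i : ℕ) (j : ℕ)) D (nodF hB u hu) (nodF hB x hx) := by
      intro x hx
      induction hx with
      | refl => intro _; exact Relation.ReflTransGen.refl
      | @tail b c hab hbc ih =>
        intro hc
        obtain ⟨hb, hbD, _⟩ := Comps.path_symm hI hw hu hD hab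
        have ih' := ih hb
        by_cases he : nod b = nod c
        · have : nodF hB c hc = nodF hB b hb := Fin.ext he.symm
          rw [this]; exact ih'
        · rcases hbc.2.2 with h4 | h4
          · exact absurd ((hB.same b c hb hc).2 h4) he
          · refine ih'.tail ⟨?_, (C.dI c hc).1 hbc.2.1⟩
            exact (hB.adj _ _ (hB.lt b hb) (hB.lt c hc)).2 ⟨he, b, c, hb, hc, rfl, rfl, h4⟩
    exact key v h2 hv
  · intro h
    have key : ∀ j : Fin k, comp (fun i j => adj (i : ℕ) (j : ℕ)) D (nodF hB u hu) j →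
        ∀ x (hx : x < n), nodF hB x hx = j → cp u x = true := by
      intro j hj
      induction hj with
      | refl =>
        intro x hx hxj
        have : nod x = nod u := congrArg Fin.val hxj
        exact C.cpSame hu hx ((hB.same u x hu hx).1 this.symm) hD
      | @tail b c hab hbc ih =>
        intro x hx hxc
        obtain ⟨hne, a', b', ha', hb', e1, e2, he⟩ := (hB.adj _ _ b.2 c.2).1 hbc.1
        have h1 : cp u a' = true := ih a' ha' (Fin.ext e1)
        have hDa : inD a' = true := hE.left a' u ha' hu (hE.symm u a' hu ha' h1)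
        have hDb : inD b' = true := by
          rw [C.dI b' hb']
          have : nodF hB b' hb' = c := Fin.ext e2
          rw [this]; exact hbc.2
        have h2 : cp a' b' = true := C.cpElig ha' hb' he hDa hDb
        have h3 : nod b' = nod x := by
          have : nod x = (c : ℕ) := congrArg Fin.val hxc
          rw [this]; exact e2
        have h4 : cp b' x = true := C.cpSame hb' hx ((hB.same b' x hb' hx).1 h3) hDb
        exact hE.trans u b' x hu hb' hx (hE.trans u a' b' hu ha' hb' h1 h2) h4
    exact key _ h v hv rfl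

/-- `crit` -/
theorem Comps.crit (C : Comps hB D inD inA cp) (hI : Inv n w y F) (hw : GoodW w)
    (hO : OracleSpec k (fun i j => adj (i : ℕ) (j : ℕ)) D) {v : ℕ} (hv : v < n)
    (hD : inD v = true) :
    ∃ s, NM (fun a b => elig w y F a b = true) F (fun u => u < n ∧ cp v u = true) v s := by
  classical
  have hE := C.cp_eqOn hI hw
  obtain ⟨s, hs⟩ := hO.crit (nodF hB v hv) ((C.dI v hv).1 hD)
  let t : ℕ → ℕ := fun j => if h : j < k then (if j = nod v then j else (s ⟨j, h⟩ : ℕ)) else j
  have ht0 : t (nod v) = nod v := by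
    simp only [t]
    rw [dif_pos (hB.lt v hv)]
    simp
  have ht1 : ∀ u (hu : u < n), nod u ≠ nod v → t (nod u) = (s (nodF hB u hu) : ℕ) := by
    intro u hu hne
    simp only [t]
    rw [dif_pos (hB.lt u hu), if_neg hne]
    rfl
  have hcomp : ∀ u (hu : u < n), cp v u = true →
      comp (fun i j => adj (i : ℕ) (j : ℕ)) D (nodF hB v hv) (nodF hB u hu) :=
    fun u hu h => (C.cp_iff hI hw hv hu hD).1 h
  have hnn : ∀ u (hu : u < n), nod u ≠ nod v → nodF hB u hu ≠ nodF hB v hv :=
    fun u hu hne he => hne (congrArg Fin.val he)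
  have hloc : ∀ u (hu : u < n), cp v u = true → nod u ≠ nod v →
      comp (fun i j => adj (i : ℕ) (j : ℕ)) D (nodF hB v hv) (s (nodF hB u hu)) ∧
      s (nodF hB u hu) ≠ nodF hB v hv ∧ s (nodF hB u hu) ≠ nodF hB u hu ∧
      s (s (nodF hB u hu)) = nodF hB u hu ∧ adj (nodF hB u hu : ℕ) (s (nodF hB u hu) : ℕ) :=
    fun u hu hcp hne => hs _ (hcomp u hu hcp) (hnn u hu hne)
  refine expand (κ := ℕ) _ (fun a b h => elig_symm hw h) F _ v nod ?_ hI.ne t ?_ ?_ ?_ ?_
  · intro B hB' u hu u' hu'
    exact (hB.same u u' ((hI.canon B hB').lt hu) ((hI.canon B hB').lt hu')).2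
      (same_iff.2 (Or.inr ⟨B, hB', hu, hu'⟩))
  · rintro u ⟨hu, hcp⟩
    by_cases hne : nod u = nod v
    · rw [hne, ht0, ht0]
    · obtain ⟨h1, h2, h3, h4, h5⟩ := hloc u hu hcp hne
      rw [ht1 u hu hne]
      have hne2 : ((s (nodF hB u hu) : Fin k) : ℕ) ≠ nod v := fun e => h2 (Fin.ext e)
      simp only [t]
      rw [dif_pos (s (nodF hB u hu)).2, if_neg hne2]
      have : s ⟨(s (nodF hB u hu) : ℕ), (s (nodF hB u hu)).2⟩ = nodF hB u hu := h4
      rw [this]
      rfl
  · rintro u ⟨hu, hcp⟩
    constructor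
    · intro ht
      by_contra hne
      have hne' : nod u ≠ nod v := fun e => hne ⟨⟨hv, hE.refl v hv hD⟩, e⟩
      obtain ⟨h1, h2, h3, h4, h5⟩ := hloc u hu hcp hne'
      rw [ht1 u hu hne'] at ht
      exact h3 (Fin.ext ht)
    · rintro ⟨_, e⟩
      rw [e, ht0]
  · rintro u ⟨hu, hcp⟩ ht
    have hne : nod u ≠ nod v := fun e => ht (by rw [e, ht0])
    obtain ⟨h1, h2, h3, h4, h5⟩ := hloc u hu hcp hne
    rw [ht1 u hu hne]
    obtain ⟨_, a, b, ha, hb, e1, e2, he⟩ := (hB.adj _ _ (hB.lt u hu) (s (nodF hB u hu)).2).1 h5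
    have hca : cp v a = true := by
      have : cp u a = true := C.cpSame hu ha ((hB.same u a hu ha).1 e1.symm)
        (hE.left u v hu hv (hE.symm v u hv hu hcp))
      exact hE.trans v u a hv hu ha hcp this
    have hcb : cp v b = true := by
      rw [C.cp_iff hI hw hv hb hD]
      have : nodF hB b hb = s (nodF hB u hu) := Fin.ext e2
      rw [this]; exact h1
    exact ⟨a, b, ⟨ha, hca⟩, ⟨hb, hcb⟩, e1, e2, he⟩
  · rintro u ⟨hu, hcp⟩
    obtain ⟨σ, hσ⟩ := block_good hI hu
    refine ⟨σ, ?_⟩
    have e : (fun x => (x < n ∧ cp v x = true) ∧ nod x = nod u) =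
        fun x => x < n ∧ same F u x = true := by
      funext x
      rw [eq_iff_iff]
      constructor
      · rintro ⟨⟨hx, hc⟩, hn⟩
        exact ⟨hx, (hB.same u x hu hx).1 hn.symm⟩
      · rintro ⟨hx, hs⟩
        have hDu := hE.left u v hu hv (hE.symm v u hv hu hcp)
        exact ⟨⟨hx, hE.trans v u x hv hu hx hcp (C.cpSame hu hx hs hDu)⟩,
          ((hB.same u x hu hx).2 hs).symm⟩
    rw [e]; exact hσ

/-- number of components versus number of blocks in `A` -/
theorem Comps.cntc (C : Comps hB D inD inA cp) (hI : Inv n w y F) (hw : GoodW w)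
    (hO : OracleSpec k (fun i j => adj (i : ℕ) (j : ℕ)) D) (hne : D.Nonempty) :
    (classes n inA (Pd292D.sameA F inA)).length + 1 ≤ (classes n inD cp).length := by
  classical
  have hE := C.cp_eqOn hI hw
  obtain ⟨I, hID, hIc, hIA⟩ := hO.cnt hne
  rw [length_classes, length_classes]
  -- `A`-nodes
  have hAeq : EqOn n inA (Pd292D.sameA F inA) := {
    refl := fun v hv hA => by simp [Pd292D.sameA, hA, Pd292C.same]
    symm := fun u v hu hv huv => by
      simp only [Pd292D.sameA, Bool.and_eq_true] at huv ⊢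
      exact ⟨(C.inA_congr hu hv ((hB.same u v hu hv).2 huv.2)).1 huv.1,
        (same_eqOn hI).symm u v hu hv huv.2⟩
    trans := fun u v x hu hv hx huv hvx => by
      simp only [Pd292D.sameA, Bool.and_eq_true] at huv hvx ⊢
      exact ⟨huv.1, (same_eqOn hI).trans u v x hu hv hx huv.2 hvx.2⟩
    left := fun u v hu hv huv => by
      simp only [Pd292D.sameA, Bool.and_eq_true] at huv
      exact huv.1 }
  obtain ⟨d0, hd0⟩ := hne
  let f : ℕ → Fin k := fun v => if hv : v < n then nodF hB v hv else d0
  have hf : ∀ v (hv : v < n), f v = nodF hB v hv := fun v hv => dif_pos hv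
  have h1 := hIA (Finset.univ.filter fun i : Fin k =>
    ∃ l ∈ lead n inA (Pd292D.sameA F inA), f l = i) ?_
  · have h2 : (lead n inA (Pd292D.sameA F inA)).length ≤ (Finset.univ.filter fun i : Fin k =>
        ∃ l ∈ lead n inA (Pd292D.sameA F inA), f l = i).card := by
      rw [← List.toFinset_card_of_nodup (nodup_lead (n := n) (S := inA) (R := Pd292D.sameA F inA))]
      refine Finset.card_le_card_of_injOn f (fun l hl => ?_) ?_
      · have hl' : l ∈ lead n inA (Pd292D.sameA F inA) := by simpa using hl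
        simp only [Finset.coe_filter, Finset.mem_univ, true_and, Set.mem_ofPred_eq]
        exact ⟨l, hl', rfl⟩
      · intro l hl l' hl' he
        have hl2 : l ∈ lead n inA (Pd292D.sameA F inA) := by simpa using hl
        have hl2' : l' ∈ lead n inA (Pd292D.sameA F inA) := by simpa using hl'
        obtain ⟨a1, a2, a3⟩ := mem_lead.1 hl2
        obtain ⟨b1, b2, b3⟩ := mem_lead.1 hl2'
        rw [hf l a1, hf l' b1] at he
        have hn : nod l = nod l' := congrArg Fin.val he
        refine lead_unique hAeq hl2 hl2' b1 ?_ (hAeq.refl _ b1 b2)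
        simp only [Pd292D.sameA, Bool.and_eq_true]
        exact ⟨a2, (hB.same l l' a1 b1).1 hn⟩
    have h3 : I.card ≤ (lead n inD cp).length := by
      rw [← List.toFinset_card_of_nodup (nodup_lead (n := n) (S := inD) (R := cp))]
      have hch : ∀ i : Fin k, ∃ l, i ∈ I → (l ∈ lead n inD cp ∧ ∃ v, ∃ hv : v < n,
          nodF hB v hv = i ∧ cp l v = true) := by
        intro i
        by_cases hi : i ∈ I
        · obtain ⟨v, hv, hvi⟩ := hB.surj i i.2
          have hnv : nodF hB v hv = i := Fin.ext hvi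
          have hDv : inD v = true := by rw [C.dI v hv, hnv]; exact hID hi
          obtain ⟨l, hl, hlv⟩ := exists_lead hE hv hDv
          exact ⟨l, fun _ => ⟨hl, v, hv, hnv, hlv⟩⟩
        · exact ⟨0, fun h => absurd h hi⟩
      choose g hg using hch
      refine Finset.card_le_card_of_injOn g (fun i hi => ?_) ?_
      · have := (hg i (by simpa using hi)).1
        simpa using this
      · intro i hi j hj he
        obtain ⟨hl, v, hv, hvi, hlv⟩ := hg i (by simpa using hi)
        obtain ⟨hl', v', hv', hvj, hlv'⟩ := hg j (by simpa using hj)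
        rw [← he] at hlv'
        have hln := (mem_lead.1 hl).1
        have hvv : cp v v' = true := hE.trans _ _ _ hv hln hv' (hE.symm _ _ hln hv hlv) hlv'
        have hDv : inD v = true := hE.left v v' hv hv' hvv
        have := (C.cp_iff hI hw hv hv' hDv).1 hvv
        rw [hvi, hvj] at this
        exact hIc i (by simpa using hi) j (by simpa using hj) this
    omega
  · intro a ha
    simp only [Finset.mem_filter, Finset.mem_univ, true_and] at ha
    obtain ⟨l, hl, hla⟩ := ha
    obtain ⟨a1, a2, a3⟩ := mem_lead.1 hl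
    rw [hf l a1] at hla
    obtain ⟨h4, u, hu, hDu, hadj⟩ := (C.aI l a1).1 a2
    refine ⟨fun haD => ?_, nodF hB u hu, (C.dI u hu).1 hDu, ?_⟩
    · rw [← hla, ← C.dI l a1, h4] at haD
      exact absurd haD (by simp)
    · rw [← hla]
      obtain ⟨hne, x, x', hx, hx', e1, e2, he⟩ := (hB.adj _ _ (hB.lt u hu) (hB.lt l a1)).1 hadj
      exact (hB.adj _ _ (hB.lt l a1) (hB.lt u hu)).2
        ⟨Ne.symm hne, x', x, hx', hx, e2, e1, elig_symm hw he⟩

/-- **everything the dual change needs** -/
theorem Comps.stepHyp (C : Comps hB D inD inA cp) (hI : Inv n w y F) (hw : GoodW w)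
    (hO : OracleSpec k (fun i j => adj (i : ℕ) (j : ℕ)) D) (hne : D.Nonempty) :
    StepHyp n w y F inD inA cp where
  disj v hv hD := by
    by_contra hA
    rw [Bool.not_eq_false] at hA
    have := ((C.aI v hv).1 hA).1
    rw [hD] at this
    exact absurd this (by simp)
  sameD u v hu hv hs hD := (C.inD_congr hu hv ((hB.same u v hu hv).2 hs)).1 hD
  sameA u v hu hv hs hA := (C.inA_congr hu hv ((hB.same u v hu hv).2 hs)).1 hA
  cpE := C.cp_eqOn hI hw
  cpSame u v hu hv hs hD := C.cpSame hu hv hs hD
  cpElig u v hu hv hs hD hDv := C.cpElig hu hv hs hD hDv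
  nbr u v hu hv hD he := by
    by_cases hn : nod u = nod v
    · exact Or.inl ((C.inD_congr hu hv hn).1 hD)
    · by_cases hDv : inD v = true
      · exact Or.inl hDv
      · refine Or.inr ((C.aI v hv).2 ⟨by simpa using hDv, u, hu, hD, ?_⟩)
        exact (hB.adj _ _ (hB.lt u hu) (hB.lt v hv)).2 ⟨hn, u, v, hu, hv, rfl, rfl, he⟩
  crit v hv hD := C.crit hI hw hO hv hD
  cntc := C.cntc hI hw hO hne

/-- **the end**: if the block graph has a perfect matching, it expands -/
theorem final_nm (hB : Blocks n w y F k nod adj) (hI : Inv n w y F) (hw : GoodW w)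
    (hO : ∃ s : Fin k → Fin k, ∀ u, s u ≠ u ∧ s (s u) = u ∧ adj (u : ℕ) (s u : ℕ)) :
    ∃ s, NM (fun a b => elig w y F a b = true) F (fun u => u < n) n s := by
  classical
  obtain ⟨s, hs⟩ := hO
  let t : ℕ → ℕ := fun j => if h : j < k then (s ⟨j, h⟩ : ℕ) else j
  have ht : ∀ u (hu : u < n), t (nod u) = (s (nodF hB u hu) : ℕ) := fun u hu => dif_pos (hB.lt u hu)
  refine expand (κ := ℕ) _ (fun a b h => elig_symm hw h) F _ n nod ?_ hI.ne t ?_ ?_ ?_ ?_
  · intro B hB' u hu u' hu'
    exact (hB.same u u' ((hI.canon B hB').lt hu) ((hI.canon B hB').lt hu')).2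
      (same_iff.2 (Or.inr ⟨B, hB', hu, hu'⟩))
  · intro u hu
    rw [ht u hu]
    simp only [t]
    rw [dif_pos (s (nodF hB u hu)).2]
    have : s ⟨(s (nodF hB u hu) : ℕ), (s (nodF hB u hu)).2⟩ = nodF hB u hu := (hs _).2.1
    rw [this]
    rfl
  · intro u hu
    constructor
    · intro e
      rw [ht u hu] at e
      exact absurd (Fin.ext e) (hs (nodF hB u hu)).1
    · rintro ⟨h, _⟩
      exact absurd h (lt_irrefl _)
  · intro u hu hne
    rw [ht u hu]
    obtain ⟨_, a, b, ha, hb, e1, e2, he⟩ :=
      (hB.adj _ _ (hB.lt u hu) (s (nodF hB u hu)).2).1 (hs (nodF hB u hu)).2.2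
    exact ⟨a, b, ha, hb, e1, e2, he⟩
  · intro u hu
    obtain ⟨σ, hσ⟩ := block_good hI hu
    refine ⟨σ, ?_⟩
    have e : (fun x => x < n ∧ nod x = nod u) = fun x => x < n ∧ same F u x = true := by
      funext x
      rw [eq_iff_iff]
      constructor
      · rintro ⟨hx, hn⟩
        exact ⟨hx, (hB.same u x hu hx).1 hn.symm⟩
      · rintro ⟨hx, hs⟩
        exact ⟨hx, ((hB.same u x hu hx).2 hs).symm⟩
    rw [e]; exact hσ

end

end Crest.Agent.R304.Pd292E
end

-- ▼ part R304/Pd292F
section

/-!
# Row 304, S0467: the primal-dual program and its correctness (value of a maximum weight perfect matching)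
-/

set_option autoImplicit false

namespace Crest.Agent.R304.Pd292F

open Crest.Agent.R304.Pd292A Crest.Agent.R304.Pd292B Crest.Agent.R304.Pd292C
  Crest.Agent.R304.Pd292D Crest.Agent.R304.Pd292E Crest.Agent.R304.Pd292O Crest.Agent.Lib.PT

/-- states: potentials, family -/
abbrev St := List ℤ × List (List ℕ)

/-- oracle functions -/
abbrev Orc := Un × List (List Bool) → List Bool

/-- potential of a vertex -/
def yf (yl : List ℤ) (v : ℕ) : ℤ := yl.getD v 0

/-- the outermost blocks -/
def blocks (n : ℕ) (F : List (List ℕ)) : List (List ℕ) := classes n (fun _ => true) (same F)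

/-- number of the block of `v` -/
def nod (bl : List (List ℕ)) (v : ℕ) : ℕ := (bl.takeWhile (fun X => !decide (v ∈ X))).length

/-- adjacency table of the block graph -/
def Qt (w : ℕ → ℕ → ℕ) (y : ℕ → ℤ) (F bl : List (List ℕ)) : List (List Bool) :=
  bl.map (fun X => bl.map (fun Y => !decide (X = Y) && X.any (fun u => Y.any (fun v => elig w y F u v))))

/-- membership in the oracle set, by vertices -/
def inDf (bl : List (List ℕ)) (Dl : List Bool) (v : ℕ) : Bool := Dl.getD (nod bl v) false

/-- neighbours of the oracle set, by vertices -/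
def inAf (n : ℕ) (bl : List (List ℕ)) (Q : List (List Bool)) (Dl : List Bool) (v : ℕ) : Bool :=
  !inDf bl Dl v && (List.range n).any (fun u => inDf bl Dl u &&
    (Q.getD (nod bl u) []).getD (nod bl v) false)

/-- steps inside the oracle set -/
def rel (w : ℕ → ℕ → ℕ) (y : ℕ → ℤ) (F bl : List (List ℕ)) (Dl : List Bool) (u v : ℕ) : Bool :=
  inDf bl Dl v && (same F u v || elig w y F u v)

/-- same component inside the oracle set -/
def cpf (n : ℕ) (w : ℕ → ℕ → ℕ) (y : ℕ → ℤ) (F bl : List (List ℕ)) (Dl : List Bool) (u v : ℕ) :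
    Bool :=
  inDf bl Dl u && decide (v ∈ clo n (rel w y F bl Dl) u)

/-- erase one copy -/
def er (l : List (List ℕ)) (a : List ℕ) : List (List ℕ) :=
  l.takeWhile (fun x => !decide (x = a)) ++ (l.dropWhile (fun x => !decide (x = a))).tail

/-- new state -/
def upd (n : ℕ) (w : ℕ → ℕ → ℕ) (st : St) (bl : List (List ℕ)) (Q : List (List Bool))
    (Dl : List Bool) : St :=
  ((List.range n).map (fun v => yf st.1 v + sig (inDf bl Dl) (inAf n bl Q Dl) v),
    classes n (inDf bl Dl) (cpf n w (yf st.1) st.2 bl Dl) ++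
      (Abl n st.2 (inAf n bl Q Dl)).foldl er st.2)

/-- the oracle's answer -/
def orc (n : ℕ) (w : ℕ → ℕ → ℕ) (g : Orc) (st : St) : List Bool :=
  g (⟨(blocks n st.2).length⟩, Qt w (yf st.1) st.2 (blocks n st.2))

/-- the oracle set is empty -/
def stop (n : ℕ) (w : ℕ → ℕ → ℕ) (g : Orc) (st : St) : Bool :=
  (List.range (blocks n st.2).length).all (fun i => !(orc n w g st).getD i false)

/-- one phase -/
def stepSt (n : ℕ) (w : ℕ → ℕ → ℕ) (g : Orc) (st : St) : St :=
  if stop n w g st = true then st else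
    upd n w st (blocks n st.2) (Qt w (yf st.1) st.2 (blocks n st.2)) (orc n w g st)

/-- all phases -/
def run (n : ℕ) (w : ℕ → ℕ → ℕ) (g : Orc) (W : ℕ) : St :=
  (stepSt n w g)^[n * W + 1] (List.replicate n (W : ℤ), [])

/-- dual value of a state -/
def dualL (n : ℕ) (st : St) : ℤ :=
  ((List.range n).map (fun v => yf st.1 v)).sum + (st.2.map (fun B => (B.length : ℤ) - 1)).sum

/-- value -/
def opt (n : ℕ) (w : ℕ → ℕ → ℕ) (g : Orc) (W : ℕ) : Option ℤ :=
  if stop n w g (run n w g W) = true then some (dualL n (run n w g W)) else none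

/-! ### lists -/

theorem nod_spec (bl : List (List ℕ)) (v : ℕ) (h : ∃ X ∈ bl, v ∈ X) :
    ∃ X, bl[nod bl v]? = some X ∧ v ∈ X := by
  induction bl with
  | nil => simp at h
  | cons Y bl ih =>
    by_cases hY : v ∈ Y
    · refine ⟨Y, ?_, hY⟩
      simp [nod, hY]
    · have h' : ∃ X ∈ bl, v ∈ X := by
        obtain ⟨X, hX, hv⟩ := h
        rcases List.mem_cons.1 hX with rfl | hX
        · exact absurd hv hY
        · exact ⟨X, hX, hv⟩
      obtain ⟨X, hX, hv⟩ := ih h'
      refine ⟨X, ?_, hv⟩
      have : nod (Y :: bl) v = nod bl v + 1 := by simp [nod, hY]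
      rw [this, List.getElem?_cons_succ]
      exact hX

theorem er_eq_erase (l : List (List ℕ)) (a : List ℕ) : er l a = l.erase a := by
  induction l with
  | nil => simp [er]
  | cons b l ih =>
    by_cases h : b = a
    · subst h; simp [er]
    · rw [List.erase_cons_tail (by simpa using h), ← ih]
      simp [er, h]

theorem foldl_er (l m : List (List ℕ)) : m.foldl er l = l.diff m := by
  rw [List.diff_eq_foldl]
  induction m generalizing l with
  | nil => rfl
  | cons a m ih => rw [List.foldl_cons, List.foldl_cons, er_eq_erase, ih]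

theorem diff_perm {l m : List (List ℕ)} (hm : m.Nodup) (hs : ∀ x ∈ m, x ∈ l) :
    (m ++ m.foldl er l).Perm l := by
  rw [foldl_er]
  refine List.subperm_append_diff_self_of_count_le fun x hx => ?_
  exact (List.subperm_of_subset hm hs).count_le x

/-! ### the blocks -/

section

variable {n : ℕ} {w : ℕ → ℕ → ℕ} {y : ℕ → ℤ} {F : List (List ℕ)}

theorem blocks_eq_cls (h : Inv n w y F) {X : List ℕ} (hX : X ∈ blocks n F) {v : ℕ} (hv : v ∈ X) :
    v < n ∧ X = cls n (same F) v := by
  have hE := same_eqOn h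
  obtain ⟨a, ha, _, rfl⟩ := (mem_classes hE).1 hX
  obtain ⟨hvn, hav⟩ := mem_cls.1 hv
  exact ⟨hvn, cls_congr hE ha hvn hav⟩

theorem blocks_nod (h : Inv n w y F) {v : ℕ} (hv : v < n) :
    (blocks n F)[nod (blocks n F) v]? = some (cls n (same F) v) := by
  have hE := same_eqOn h
  have hmem : cls n (same F) v ∈ blocks n F := (mem_classes hE).2 ⟨v, hv, rfl, rfl⟩
  have hvv : v ∈ cls n (same F) v := mem_cls.2 ⟨hv, hE.refl v hv rfl⟩
  obtain ⟨X, hX, hvX⟩ := nod_spec (blocks n F) v ⟨_, hmem, hvv⟩
  rw [hX, (blocks_eq_cls h (List.mem_of_getElem? hX) hvX).2]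

theorem nod_lt (h : Inv n w y F) {v : ℕ} (hv : v < n) :
    nod (blocks n F) v < (blocks n F).length := by
  have := blocks_nod h hv
  exact (List.getElem?_eq_some_iff.1 this).1

theorem nod_eq_of_mem (h : Inv n w y F) {i : ℕ} {X : List ℕ} (hX : (blocks n F)[i]? = some X)
    {v : ℕ} (hv : v ∈ X) : v < n ∧ nod (blocks n F) v = i := by
  obtain ⟨hvn, he⟩ := blocks_eq_cls h (List.mem_of_getElem? hX) hv
  refine ⟨hvn, ?_⟩
  have h1 := blocks_nod h hvn
  rw [← he] at h1
  have hnd : (blocks n F).Nodup := nodup_classes (same_eqOn h)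
  obtain ⟨hi, hi'⟩ := List.getElem?_eq_some_iff.1 hX
  obtain ⟨hj, hj'⟩ := List.getElem?_eq_some_iff.1 h1
  exact (hnd.getElem_inj_iff).1 (hj'.trans hi'.symm)

theorem mem_of_nod (h : Inv n w y F) {i : ℕ} {X : List ℕ} (hX : (blocks n F)[i]? = some X)
    {v : ℕ} (hv : v < n) (he : nod (blocks n F) v = i) : v ∈ X := by
  have h1 := blocks_nod h hv
  rw [he, hX] at h1
  have : X = cls n (same F) v := by simpa using h1
  rw [this]
  exact mem_cls.2 ⟨hv, (same_eqOn h).refl v hv rfl⟩

theorem nod_same (h : Inv n w y F) {u v : ℕ} (hu : u < n) (hv : v < n) :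
    nod (blocks n F) u = nod (blocks n F) v ↔ same F u v = true := by
  have hE := same_eqOn h
  constructor
  · intro he
    have := mem_of_nod h (blocks_nod h hu) hv he.symm
    exact (mem_cls.1 this).2
  · intro hs
    have h1 : v ∈ cls n (same F) u := mem_cls.2 ⟨hv, hs⟩
    exact ((nod_eq_of_mem h (blocks_nod h hu) h1).2).symm

theorem tadj_Qt (w : ℕ → ℕ → ℕ) (y : ℕ → ℤ) (F bl : List (List ℕ)) {i j : ℕ} {X Y : List ℕ}
    (hX : bl[i]? = some X) (hY : bl[j]? = some Y) :
    tadj (Qt w y F bl) i j ↔ X ≠ Y ∧ ∃ u ∈ X, ∃ v ∈ Y, elig w y F u v = true := by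
  have e : (Qt w y F bl)[i]? = some (bl.map (fun Y => !decide (X = Y) &&
      X.any (fun u => Y.any (fun v => elig w y F u v)))) := by
    unfold Qt
    rw [List.getElem?_map, hX]; rfl
  unfold tadj
  rw [List.getD_eq_getElem?_getD, List.getD_eq_getElem?_getD, e, Option.getD_some,
    List.getElem?_map, hY]
  simp

theorem blocks_spec (h : Inv n w y F) :
    Blocks n w y F (blocks n F).length (nod (blocks n F)) (tadj (Qt w y F (blocks n F))) where
  lt v hv := nod_lt h hv
  surj i hi := by
    have hX : (blocks n F)[i]? = some ((blocks n F)[i]) := List.getElem?_eq_getElem hi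
    obtain ⟨a, ha, _, he⟩ := (mem_classes (same_eqOn h)).1 (List.getElem_mem hi)
    have hmem : a ∈ (blocks n F)[i] := by
      rw [he]; exact mem_cls.2 ⟨ha, (same_eqOn h).refl a ha rfl⟩
    exact ⟨a, nod_eq_of_mem h hX hmem⟩
  same u v hu hv := nod_same h hu hv
  adj i j hi hj := by
    have hX : (blocks n F)[i]? = some ((blocks n F)[i]) := List.getElem?_eq_getElem hi
    have hY : (blocks n F)[j]? = some ((blocks n F)[j]) := List.getElem?_eq_getElem hj
    rw [tadj_Qt w y F _ hX hY]
    have hnd : (blocks n F).Nodup := nodup_classes (same_eqOn h)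
    have hij : (blocks n F)[i] ≠ (blocks n F)[j] ↔ i ≠ j := by
      rw [Ne, hnd.getElem_inj_iff]
    rw [hij]
    refine and_congr_right fun _ => ?_
    constructor
    · rintro ⟨u, hu, v, hv, he⟩
      obtain ⟨a1, a2⟩ := nod_eq_of_mem h hX hu
      obtain ⟨b1, b2⟩ := nod_eq_of_mem h hY hv
      exact ⟨u, v, a1, b1, a2, b2, he⟩
    · rintro ⟨u, v, hu, hv, a2, b2, he⟩
      exact ⟨u, mem_of_nod h hX hu a2, v, mem_of_nod h hY hv b2, he⟩

theorem goodTab (hw : GoodW w) (h : Inv n w y F) :
    GoodTab (blocks n F).length (Qt w y F (blocks n F)) where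
  len := by simp [Qt]
  row r hr := by
    obtain ⟨X, _, rfl⟩ := List.mem_map.1 hr
    simp
  symm i j hi hj hij := by
    have hB := blocks_spec h
    obtain ⟨h1, u, v, hu, hv, e1, e2, he⟩ := (hB.adj i j hi hj).1 hij
    exact (hB.adj j i hj hi).2 ⟨Ne.symm h1, v, u, hv, hu, e2, e1, elig_symm hw he⟩
  irr i hi hii := ((blocks_spec h).adj i i hi hi).1 hii |>.1 rfl

/-- the oracle set as a `Finset` -/
def Dset (k : ℕ) (Dl : List Bool) : Finset (Fin k) :=
  Finset.univ.filter fun v : Fin k => Dl.getD (v : ℕ) false = true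

theorem comps_spec (h : Inv n w y F) (Dl : List Bool) :
    Comps (blocks_spec h) (Dset (blocks n F).length Dl) (inDf (blocks n F) Dl)
      (inAf n (blocks n F) (Qt w y F (blocks n F)) Dl) (cpf n w y F (blocks n F) Dl) where
  dI v hv := by simp [Dset, inDf, nodF]
  aI v hv := by simp [inAf, tadj]
  cI u v hu hv := by
    unfold cpf
    rw [Bool.and_eq_true, decide_eq_true_eq, mem_clo hu]
    refine and_congr_right fun _ => ?_
    have : (fun a b => b < n ∧ rel w y F (blocks n F) Dl a b = true) =
        fun a b => b < n ∧ inDf (blocks n F) Dl b = true ∧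
          (same F a b = true ∨ elig w y F a b = true) := by
      funext a b
      simp [rel]
    rw [this]

end

/-! ### one phase -/

theorem inv_congr {n : ℕ} {w : ℕ → ℕ → ℕ} {y y' : ℕ → ℤ} {F : List (List ℕ)}
    (he : ∀ v, v < n → y v = y' v) (h : Inv n w y F) : Inv n w y' F := by
  have hsl : ∀ u v, u < n → v < n → slack w y' F u v = slack w y F u v := by
    intro u v hu hv
    unfold slack
    rw [he u hu, he v hv]
  refine ⟨fun u v hu hv hp => by rw [hsl u v hu hv]; exact h.slk u v hu hv hp, h.canon, h.ne, h.lam,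
    fun B hB v hv => ?_⟩
  obtain ⟨s, hs⟩ := h.good B hB v hv
  refine ⟨s, hs.mono (fun a b ha hb hel => ?_) fun C hC _ => Or.inl hC⟩
  have hc := h.canon B hB
  unfold elig at hel ⊢
  rw [hsl a b (hc.lt ha) (hc.lt hb)]
  exact hel

theorem dual_congr {n : ℕ} {y y' : ℕ → ℤ} {F : List (List ℕ)}
    (he : ∀ v, v < n → y v = y' v) : dual n y F = dual n y' F := by
  unfold dual
  rw [Finset.sum_congr rfl fun v hv => he v (Finset.mem_range.1 hv)]

theorem yf_map {n : ℕ} (f : ℕ → ℤ) {v : ℕ} (hv : v < n) : yf ((List.range n).map f) v = f v := by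
  unfold yf
  rw [List.getD_eq_getElem?_getD, List.getElem?_map, List.getElem?_range hv]
  rfl

theorem dualL_eq (n : ℕ) (st : St) : dualL n st = dual n (yf st.1) st.2 := by
  unfold dualL dual
  congr 1

/-- what is needed from the oracle function -/
def OrcOK (g : Orc) : Prop := ∀ (k : ℕ) (Q : List (List Bool)), GoodTab k Q →
    OracleSpec k (fun i j => tadj Q (i : ℕ) (j : ℕ))
      (Finset.univ.filter fun v : Fin k => (g (⟨k⟩, Q)).getD (v : ℕ) false = true)

section

variable {n : ℕ} {w : ℕ → ℕ → ℕ} {g : Orc} {st : St}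

theorem stop_iff : stop n w g st = true ↔ Dset (blocks n st.2).length (orc n w g st) = ∅ := by
  unfold stop Dset
  rw [List.all_eq_true, Finset.filter_eq_empty_iff]
  constructor
  · intro h v _
    have := h v (by simp)
    simpa using this
  · intro h i hi
    have := @h ⟨i, by simpa using hi⟩ (Finset.mem_univ _)
    simpa using this

theorem step_stop (hg : OrcOK g) (hw : GoodW w) (h : Inv n w (yf st.1) st.2)
    (hs : stop n w g st = true) : ∃ s, PM n w s ∧ 2 * dualL n st - n ≤ wt2 n w s := by
  have hO := hg _ _ (goodTab hw h)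
  have hD := stop_iff.1 hs
  obtain ⟨s, hs'⟩ := final_nm (blocks_spec h) h hw (hO.pm hD)
  obtain ⟨h1, h2⟩ := h.final hs'
  exact ⟨s, h1, by rw [dualL_eq]; exact h2⟩

theorem step_go (hg : OrcOK g) (hw : GoodW w) (h : Inv n w (yf st.1) st.2)
    (hs : ¬ stop n w g st = true) : Inv n w (yf (stepSt n w g st).1) (stepSt n w g st).2 ∧
      dualL n (stepSt n w g st) + 1 ≤ dualL n st := by
  have hO := hg _ _ (goodTab hw h)
  have hD : (Dset (blocks n st.2).length (orc n w g st)).Nonempty :=
    Finset.nonempty_iff_ne_empty.2 fun he => hs (stop_iff.2 he)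
  have hC := comps_spec h (orc n w g st)
  have hH := hC.stepHyp h hw hO hD
  have hp : (Abl n st.2 (inAf n (blocks n st.2) (Qt w (yf st.1) st.2 (blocks n st.2))
      (orc n w g st)) ++ (Abl n st.2 (inAf n (blocks n st.2)
      (Qt w (yf st.1) st.2 (blocks n st.2)) (orc n w g st))).foldl er st.2).Perm st.2 := by
    refine diff_perm ((nodup_classes (sameA_eqOn h hH)).filter _) fun x hx => ?_
    simpa using (List.mem_filter.1 hx).2
  have h1 := inv_new hw h hH hp
  have h2 := dual_new h hH hp
  have e : stepSt n w g st = upd n w st (blocks n st.2)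
      (Qt w (yf st.1) st.2 (blocks n st.2)) (orc n w g st) := if_neg hs
  rw [dualL_eq, dualL_eq, e]
  unfold upd
  refine ⟨inv_congr (fun v hv => (yf_map _ hv).symm) h1, ?_⟩
  rw [dual_congr (fun v hv => yf_map _ hv)]
  exact h2

theorem init_inv (n W : ℕ) (hW : ∀ u v, w u v ≤ W) :
    Inv n w (yf (List.replicate n (W : ℤ))) [] := by
  refine ⟨fun u v hu hv _ => ?_, by simp, by simp, by simp, by simp⟩
  have e : ∀ x, x < n → yf (List.replicate n (W : ℤ)) x = W := by
    intro x hx
    unfold yf
    rw [List.getD_eq_getElem?_getD, List.getElem?_replicate, if_pos hx]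
    rfl
  unfold slack
  rw [e u hu, e v hv]
  have := hW u v
  simp only [cnt, List.countP_nil]
  push_cast
  omega

theorem init_dual (n W : ℕ) : dualL n (List.replicate n (W : ℤ), []) = n * W := by
  rw [dualL_eq]
  unfold dual
  have e : ∀ x ∈ Finset.range n, yf (List.replicate n (W : ℤ)) x = W := by
    intro x hx
    unfold yf
    rw [List.getD_eq_getElem?_getD, List.getElem?_replicate, if_pos (Finset.mem_range.1 hx)]
    rfl
  simp only
  rw [Finset.sum_congr rfl e]
  simp

theorem run_spec (hg : OrcOK g) (hw : GoodW w) {W : ℕ} (hW : ∀ u v, w u v ≤ W) (j : ℕ) :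
    Inv n w (yf ((stepSt n w g)^[j] (List.replicate n (W : ℤ), [])).1)
      ((stepSt n w g)^[j] (List.replicate n (W : ℤ), [])).2 ∧
    (stop n w g ((stepSt n w g)^[j] (List.replicate n (W : ℤ), [])) = true ∨
      dualL n ((stepSt n w g)^[j] (List.replicate n (W : ℤ), [])) + j ≤ n * W) := by
  induction j with
  | zero =>
    refine ⟨init_inv n W hW, Or.inr ?_⟩
    simp [init_dual]
  | succ j ih =>
    obtain ⟨h1, h2⟩ := ih
    rw [Function.iterate_succ_apply']
    generalize (stepSt n w g)^[j] (List.replicate n (W : ℤ), []) = st at h1 h2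
    by_cases hs : stop n w g st = true
    · have e : stepSt n w g st = st := if_pos hs
      rw [e]
      exact ⟨h1, Or.inl hs⟩
    · obtain ⟨h3, h4⟩ := step_go hg hw h1 hs
      refine ⟨h3, Or.inr ?_⟩
      rcases h2 with h2 | h2
      · exact absurd h2 hs
      · push_cast
        linarith

/-- **correctness of the value up to `n/2`** -/
theorem opt_spec (hg : OrcOK g) (hw : GoodW w) {W : ℕ} (hW : ∀ u v, w u v ≤ W) :
    (opt n w g W = none → ∀ s, ¬ PM n w s) ∧
    (∀ x, opt n w g W = some x → (∃ s, PM n w s ∧ 2 * x - n ≤ wt2 n w s) ∧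
      ∀ s, PM n w s → (wt2 n w s : ℤ) ≤ 2 * x) := by
  obtain ⟨h1, h2⟩ := run_spec (n := n) hg hw hW (n * W + 1)
  constructor
  · intro hn s hs
    have hst : ¬ stop n w g (run n w g W) = true := by
      intro h
      simp [opt, h] at hn
    have h3 := h1.weak hs
    rcases h2 with h2 | h2
    · exact hst h2
    · rw [dualL_eq] at h2
      have : (0 : ℤ) ≤ wt2 n w s := by positivity
      push_cast at h2
      linarith
  · intro x hx
    have hst : stop n w g (run n w g W) = true := by
      by_contra h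
      simp [opt, h] at hx
    have hx' : dualL n (run n w g W) = x := by
      simpa [opt, hst] using hx
    refine ⟨?_, fun s hs => ?_⟩
    · rw [← hx']
      exact step_stop hg hw h1 hst
    · rw [← hx', dualL_eq]
      exact h1.weak hs

end

/-! ### exact value -/

/-- twice the maximum weight of a perfect matching -/
def val (n : ℕ) (c : ℕ → ℕ → ℕ) (g : Orc) (W : ℕ) : Option ℕ :=
  (opt n (fun u v => (n + 1) * c u v) g ((n + 1) * W)).map
    (fun x => (2 * x / ((n + 1 : ℕ) : ℤ)).toNat)

theorem val_spec {n : ℕ} {c : ℕ → ℕ → ℕ} {g : Orc} (hg : OrcOK g) (hc : GoodW c) {W : ℕ}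
    (hW : ∀ u v, c u v ≤ W) :
    (val n c g W = none → ∀ s, ¬ PM n c s) ∧
    (∀ x, val n c g W = some x → (∃ s, PM n c s ∧ wt2 n c s = x) ∧
      ∀ s, PM n c s → wt2 n c s ≤ x) := by
  have hw : GoodW (fun u v => (n + 1) * c u v) :=
    ⟨fun u v => by rw [hc.symm u v], fun v => by rw [hc.irr v]; ring⟩
  have hPM : ∀ s, PM n (fun u v => (n + 1) * c u v) s ↔ PM n c s := by
    intro s
    unfold PM
    simp
  have hwt : ∀ s, wt2 n (fun u v => (n + 1) * c u v) s = (n + 1) * wt2 n c s := by
    intro s
    unfold wt2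
    rw [Finset.mul_sum]
  obtain ⟨h1, h2⟩ := opt_spec (n := n) hg hw (W := (n + 1) * W)
    (fun u v => Nat.mul_le_mul_left _ (hW u v))
  constructor
  · intro hv s hs
    have : opt n (fun u v => (n + 1) * c u v) g ((n + 1) * W) = none := by
      simpa [val] using hv
    exact h1 this s ((hPM s).2 hs)
  · intro x hx
    unfold val at hx
    rw [Option.map_eq_some_iff] at hx
    obtain ⟨z, hz, hzx⟩ := hx
    obtain ⟨⟨s, hs, hs1⟩, h3⟩ := h2 z hz
    have hs2 := h3 s hs
    rw [hwt] at hs1 hs2
    have key : 2 * z / ((n + 1 : ℕ) : ℤ) = wt2 n c s := by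
      rw [Int.ediv_eq_iff_of_pos (by positivity)]
      push_cast at hs1 hs2 ⊢
      constructor
      · linarith
      · linarith
    have hxs : wt2 n c s = x := by
      rw [← hzx, key]; simp
    refine ⟨⟨s, (hPM s).1 hs, hxs⟩, fun s' hs' => ?_⟩
    have h4 := h3 s' ((hPM s').2 hs')
    rw [hwt] at h4
    rw [← hxs]
    by_contra hlt
    push Not at hlt
    have h5 : (wt2 n c s : ℤ) + 1 ≤ wt2 n c s' := by exact_mod_cast hlt
    push_cast at h4 hs1
    nlinarith

end Crest.Agent.R304.Pd292F
end

-- ▼ part R304/Pd292G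

/-!
# Row 304, S0467: from the value to an optimal matching (deleting edges), specification `MWSpec`
-/

set_option autoImplicit false

namespace Crest.Agent.R304.Pd292G

open Crest.Agent.R304.Pd292C Crest.Agent.R304.Pd292F Crest.Agent.R304.MWTop Crest.Agent.Lib.PT

/-- the entry joins `u` and `v` -/
def mt (e : Ent) (u v : ℕ) : Prop := (e.1 = u ∧ e.2.1 = v) ∨ (e.1 = v ∧ e.2.1 = u)

instance (e : Ent) (u v : ℕ) : Decidable (mt e u v) := by unfold mt; infer_instance

/-- sum of `f` over the entries joining `u` and `v` -/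
def cLf (f : Ent → ℕ) (L : List Ent) (u v : ℕ) : ℕ :=
  (L.map (fun e => if mt e u v then f e else 0)).sum

/-- internal weights -/
def cL (L : List Ent) (u v : ℕ) : ℕ := cLf (fun e => e.2.2.val + 1) L u v

/-- bound for the weights -/
def WL (L : List Ent) : ℕ := (L.map (fun e => e.2.2.val + 1)).sum

/-- value -/
def valL (n : ℕ) (g : Orc) (L : List Ent) : Option ℕ := val n (cL L) g (WL L)

/-- delete the entries with the pair of `e` -/
def dl (R : List Ent) (e : Ent) : List Ent :=
  R.filter (fun x => !decide ((x.1, x.2.1) = (e.1, e.2.1)))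

/-- delete `e` if the value stays -/
def delStep (n : ℕ) (g : Orc) (t : Option ℕ) (R : List Ent) (e : Ent) : List Ent :=
  if valL n g (dl R e) = t then dl R e else R

/-- delete as much as possible -/
def extract (n : ℕ) (g : Orc) (L : List Ent) : List Ent :=
  L.foldl (delStep n g (valL n g L)) L

/-- the matching routine -/
def mwg (g : Orc) (p : Un × List Ent) : Option (List (ℕ × ℕ)) :=
  (valL p.1.val g p.2).map (fun _ => prs (extract p.1.val g p.2))

/-- admissible lists -/
structure AdL (n : ℕ) (L : List Ent) : Prop where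
  lt : ∀ e ∈ L, e.1 < e.2.1 ∧ e.2.1 < n
  nodup : (prs L).Nodup

theorem AdL.sublist {n : ℕ} {L R : List Ent} (h : AdL n L) (hs : R.Sublist L) : AdL n R :=
  ⟨fun e he => h.lt e (hs.subset he), h.nodup.sublist (hs.map _)⟩

theorem mt_symm {e : Ent} {u v : ℕ} (h : mt e u v) : mt e v u := Or.symm h

theorem cLf_symm (f : Ent → ℕ) (L : List Ent) (u v : ℕ) : cLf f L u v = cLf f L v u := by
  unfold cLf
  congr 1
  refine List.map_congr_left fun e _ => ?_
  have : mt e u v ↔ mt e v u := ⟨mt_symm, mt_symm⟩
  simp [this]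

theorem cLf_zero {f : Ent → ℕ} {L : List Ent} {u v : ℕ} (h : ∀ e ∈ L, ¬ mt e u v) :
    cLf f L u v = 0 := by
  induction L with
  | nil => rfl
  | cons a L ih =>
    have h1 := ih fun e he => h e (List.mem_cons_of_mem _ he)
    unfold cLf at h1 ⊢
    rw [List.map_cons, List.sum_cons, h1, if_neg (h a (by simp))]

theorem mt_eq {e e' : Ent} {u v : ℕ} (h : mt e u v) (h' : mt e' u v) (hl : e.1 < e.2.1)
    (hl' : e'.1 < e'.2.1) : (e.1, e.2.1) = (e'.1, e'.2.1) := by
  unfold mt at h h'
  rw [Prod.mk.injEq]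
  omega

theorem cLf_eq {f : Ent → ℕ} {L : List Ent} {u v : ℕ} (hlt : ∀ e ∈ L, e.1 < e.2.1)
    (hnd : (prs L).Nodup) {e : Ent} (he : e ∈ L) (hm : mt e u v) : cLf f L u v = f e := by
  induction L with
  | nil => simp at he
  | cons a L ih =>
    have hnd' : (prs L).Nodup := (List.nodup_cons.1 hnd).2
    have hna : (a.1, a.2.1) ∉ prs L := (List.nodup_cons.1 hnd).1
    have hlt' : ∀ e ∈ L, e.1 < e.2.1 := fun e he => hlt e (List.mem_cons_of_mem _ he)
    by_cases hae : e = a
    · subst hae
      have h0 : cLf f L u v = 0 := cLf_zero fun e' he' hm' => by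
        apply hna
        rw [mt_eq hm hm' (hlt e (by simp)) (hlt' e' he')]
        exact List.mem_map.2 ⟨e', he', rfl⟩
      unfold cLf at h0 ⊢
      rw [List.map_cons, List.sum_cons, h0, if_pos hm, add_zero]
    · have he' : e ∈ L := by
        rcases List.mem_cons.1 he with h | h
        · exact absurd h hae
        · exact h
      have h1 := ih hlt' hnd' he'
      have h2 : ¬ mt a u v := fun hma => by
        apply hna
        rw [mt_eq hma hm (hlt a (by simp)) (hlt' e he')]
        exact List.mem_map.2 ⟨e, he', rfl⟩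
      unfold cLf at h1 ⊢
      rw [List.map_cons, List.sum_cons, h1, if_neg h2, zero_add]

theorem cL_pos {L : List Ent} {u v : ℕ} : 0 < cL L u v ↔ ∃ e ∈ L, mt e u v := by
  constructor
  · intro h
    by_contra hno
    push Not at hno
    rw [cL, cLf_zero hno] at h
    exact absurd h (lt_irrefl _)
  · rintro ⟨e, he, hm⟩
    induction L with
    | nil => simp at he
    | cons a L ih =>
      unfold cL cLf at ih ⊢
      rw [List.map_cons, List.sum_cons]
      rcases List.mem_cons.1 he with rfl | he'
      · rw [if_pos hm]; dsimp only; omega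
      · have := ih he'
        omega

theorem cL_le (L : List Ent) (u v : ℕ) : cL L u v ≤ WL L := by
  unfold cL cLf WL
  induction L with
  | nil => simp
  | cons a L ih =>
    simp only [List.map_cons, List.sum_cons]
    have : (if mt a u v then a.2.2.val + 1 else 0) ≤ a.2.2.val + 1 := by split_ifs <;> omega
    dsimp only at ih
    omega

theorem AdL.goodW {n : ℕ} {L : List Ent} (h : AdL n L) : GoodW (cL L) := by
  refine ⟨fun u v => cLf_symm _ L u v, fun v => cLf_zero fun e he hm => ?_⟩
  have := (h.lt e he).1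
  unfold mt at hm
  omega

theorem valL_spec {n : ℕ} {g : Orc} (hg : OrcOK g) {L : List Ent} (hL : AdL n L) :
    (valL n g L = none → ∀ s, ¬ PM n (cL L) s) ∧
    (∀ x, valL n g L = some x → (∃ s, PM n (cL L) s ∧ wt2 n (cL L) s = x) ∧
      ∀ s, PM n (cL L) s → wt2 n (cL L) s ≤ x) :=
  val_spec hg hL.goodW (cL_le L)

/-- a perfect matching of a sublist is one of the list, with the same weight -/
theorem PM_sub {n : ℕ} {L R : List Ent} (hL : AdL n L) (hR : R.Sublist L) {s : ℕ → ℕ}
    (h : PM n (cL R) s) : PM n (cL L) s ∧ wt2 n (cL R) s = wt2 n (cL L) s := by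
  have key : ∀ v, v < n → cL R v (s v) = cL L v (s v) := by
    intro v hv
    obtain ⟨e, he, hm⟩ := cL_pos.1 (h v hv).2.2.2
    have h1 : cL R v (s v) = e.2.2.val + 1 :=
      cLf_eq (fun e he => ((hL.sublist hR).lt e he).1) (hL.sublist hR).nodup he hm
    have h2 : cL L v (s v) = e.2.2.val + 1 :=
      cLf_eq (fun e he => (hL.lt e he).1) hL.nodup (hR.subset he) hm
    rw [h1, h2]
  refine ⟨fun v hv => ?_, ?_⟩
  · obtain ⟨a, b, c, d⟩ := h v hv
    exact ⟨a, b, c, by rw [← key v hv]; exact d⟩
  · unfold wt2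
    exact Finset.sum_congr rfl fun v hv => key v (Finset.mem_range.1 hv)

theorem PM_filter {n : ℕ} {R : List Ent} (_hR : AdL n R) {s : ℕ → ℕ} (h : PM n (cL R) s) {e : Ent}
    (_he : e ∈ R) (hne : s e.1 ≠ e.2.1) : PM n (cL (dl R e)) s := by
  intro v hv
  obtain ⟨a, b, c, d⟩ := h v hv
  refine ⟨a, b, c, cL_pos.2 ?_⟩
  obtain ⟨e', he', hm⟩ := cL_pos.1 d
  refine ⟨e', ?_, hm⟩
  unfold dl
  rw [List.mem_filter]
  refine ⟨he', ?_⟩
  simp only [Bool.not_eq_true', decide_eq_false_iff_not]
  intro hp
  have p1 : e'.1 = e.1 := (Prod.mk.inj hp).1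
  have p2 : e'.2.1 = e.2.1 := (Prod.mk.inj hp).2
  rcases hm with ⟨h1, h2⟩ | ⟨h1, h2⟩
  · exact hne (by rw [← p1, ← p2, h1, h2])
  · exact hne (by rw [← p1, ← p2, h1, h2, b])

/-- invariant of the deletion loop -/
structure DInv (n : ℕ) (g : Orc) (L : List Ent) (x : ℕ) (P R : List Ent) : Prop where
  sub : R.Sublist L
  val : valL n g R = some x
  used : ∀ e ∈ P, e ∈ R → ∀ s, PM n (cL R) s → wt2 n (cL R) s = x → s e.1 = e.2.1

theorem DInv.step {n : ℕ} {g : Orc} (hg : OrcOK g) {L : List Ent} (hL : AdL n L) {x : ℕ}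
    {P R : List Ent} (h : DInv n g L x P R) (e : Ent) :
    DInv n g L x (P ++ [e]) (delStep n g (some x) R e) := by
  have hsub : (dl R e).Sublist R := List.filter_sublist
  have hR := hL.sublist h.sub
  unfold delStep
  split_ifs with hv
  · refine ⟨hsub.trans h.sub, hv, fun e' he' heR s hs hw => ?_⟩
    obtain ⟨h1, h2⟩ := PM_sub hR hsub hs
    rcases List.mem_append.1 he' with h3 | h3
    · exact h.used e' h3 (hsub.subset heR) s h1 (by rw [← h2]; exact hw)
    · have : e' = e := by simpa using h3
      subst this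
      simp [dl] at heR
  · refine ⟨h.sub, h.val, fun e' he' heR s hs hw => ?_⟩
    rcases List.mem_append.1 he' with h3 | h3
    · exact h.used e' h3 heR s hs hw
    · have : e' = e := by simpa using h3
      subst this
      by_contra hne
      apply hv
      have hs' := PM_filter hR hs heR hne
      have hR' := hR.sublist hsub
      obtain ⟨v1, v2⟩ := valL_spec hg hR'
      rcases hval : valL n g (dl R e') with _ | x'
      · exact absurd hs' (v1 hval s)
      · obtain ⟨⟨s2, hs2, hw2⟩, h4⟩ := v2 x' hval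
        obtain ⟨h5, h6⟩ := PM_sub hR hsub hs2
        obtain ⟨_, v4⟩ := (valL_spec hg hR).2 x h.val
        have h7 := v4 s2 h5
        have h8 := h4 s hs'
        rw [(PM_sub hR hsub hs').2, hw] at h8
        rw [← h6, hw2] at h7
        rw [le_antisymm h7 h8]

theorem extract_inv {n : ℕ} {g : Orc} (hg : OrcOK g) {L : List Ent} (hL : AdL n L) {x : ℕ}
    (hx : valL n g L = some x) : DInv n g L x L (extract n g L) := by
  have key : ∀ (Q P R : List Ent), DInv n g L x P R →
      DInv n g L x (P ++ Q) (Q.foldl (delStep n g (some x)) R) := by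
    intro Q
    induction Q with
    | nil => intro P R h; simpa using h
    | cons e Q ih =>
      intro P R h
      rw [List.foldl_cons]
      have := ih _ _ (h.step hg hL e)
      simpa using this
  have h0 : DInv n g L x [] L := ⟨List.Sublist.refl _, hx, by simp⟩
  have := key L [] L h0
  rw [List.nil_append] at this
  unfold extract
  rw [hx]
  exact this

/-! ### weights of matchings as sums over entries -/

theorem wt2_eq {n : ℕ} (f : Ent → ℕ) {L : List Ent} (hlt : ∀ e ∈ L, e.1 < e.2.1 ∧ e.2.1 < n)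
    {s : ℕ → ℕ} (h2 : ∀ v, v < n → s (s v) = v) :
    wt2 n (cLf f L) s = 2 * (L.map (fun e => if s e.1 = e.2.1 then f e else 0)).sum := by
  unfold wt2
  induction L with
  | nil => simp [cLf]
  | cons a L ih =>
    have ih' := ih fun e he => hlt e (List.mem_cons_of_mem _ he)
    have e1 : ∀ v, cLf f (a :: L) v (s v) = (if mt a v (s v) then f a else 0) + cLf f L v (s v) := by
      intro v; simp [cLf]
    rw [Finset.sum_congr rfl fun v _ => e1 v, Finset.sum_add_distrib, ih', List.map_cons,
      List.sum_cons, mul_add]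
    congr 1
    obtain ⟨ha1, ha2⟩ := hlt a (by simp)
    by_cases hs : s a.1 = a.2.1
    · rw [if_pos hs]
      have hs' : s a.2.1 = a.1 := by rw [← hs]; exact h2 _ (by omega)
      have e2 : ∀ v ∈ Finset.range n, (if mt a v (s v) then f a else 0) =
          (if v = a.1 then f a else 0) + (if v = a.2.1 then f a else 0) := by
        intro v _
        by_cases h3 : v = a.1
        · subst h3
          have h4 : a.1 ≠ a.2.1 := ne_of_lt ha1
          rw [if_pos (show mt a a.1 (s a.1) from Or.inl ⟨rfl, hs.symm⟩), if_pos rfl, if_neg h4,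
            add_zero]
        · by_cases h4 : v = a.2.1
          · subst h4
            rw [if_pos (show mt a a.2.1 (s a.2.1) from Or.inr ⟨hs'.symm, rfl⟩), if_neg h3,
              if_pos rfl, zero_add]
          · have : ¬ mt a v (s v) := by
              rintro (⟨h5, h6⟩ | ⟨h5, h6⟩)
              · exact h3 h5.symm
              · exact h4 h6.symm
            rw [if_neg this, if_neg h3, if_neg h4]
      rw [Finset.sum_congr rfl e2, Finset.sum_add_distrib, Finset.sum_ite_eq' , Finset.sum_ite_eq',
        if_pos (Finset.mem_range.2 (by omega)), if_pos (Finset.mem_range.2 (by omega))]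
      ring
    · rw [if_neg hs, mul_zero]
      refine Finset.sum_eq_zero fun v hv => ?_
      have hv' := Finset.mem_range.1 hv
      have : ¬ mt a v (s v) := by
        rintro (⟨h5, h6⟩ | ⟨h5, h6⟩)
        · exact hs (by rw [h5, h6])
        · exact hs (by rw [h5, h6, h2 v hv'])
      rw [if_neg this]

theorem tot_eq (L : List Ent) (R : List (ℕ × ℕ)) :
    tot L R = (L.map (fun e => if (e.1, e.2.1) ∈ R then e.2.2.val else 0)).sum := by
  unfold tot
  induction L with
  | nil => simp
  | cons a L ih =>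
    by_cases h : (a.1, a.2.1) ∈ R
    · rw [List.filter_cons_of_pos (by simpa using h)]; simp [h, ← ih]
    · rw [List.filter_cons_of_neg (by simpa using h)]; simp [h, ← ih]

/-- total weight versus `wt2` -/
theorem tot_wt2 {n : ℕ} {L : List Ent} (hL : AdL n L) {s : ℕ → ℕ} (hs : PM n (cL L) s)
    {R : List (ℕ × ℕ)} (hR : ∀ e ∈ L, ((e.1, e.2.1) ∈ R ↔ s e.1 = e.2.1)) :
    2 * tot L R + n = wt2 n (cL L) s := by
  have h2 : ∀ v, v < n → s (s v) = v := fun v hv => (hs v hv).2.1
  have e1 : wt2 n (cL L) s = wt2 n (cLf (fun e => e.2.2.val) L) s + wt2 n (cLf (fun _ => 1) L) s := by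
    unfold wt2 cL cLf
    rw [← Finset.sum_add_distrib]
    refine Finset.sum_congr rfl fun v _ => ?_
    rw [← List.sum_map_add]
    congr 1
    refine List.map_congr_left fun e _ => ?_
    split_ifs <;> rfl
  have e2 : wt2 n (cLf (fun _ => 1) L) s = n := by
    unfold wt2
    have : ∀ v ∈ Finset.range n, cLf (fun _ => 1) L v (s v) = 1 := by
      intro v hv
      obtain ⟨e, he, hm⟩ := cL_pos.1 (hs v (Finset.mem_range.1 hv)).2.2.2
      exact cLf_eq (fun e he => (hL.lt e he).1) hL.nodup he hm
    rw [Finset.sum_congr rfl this]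
    simp
  rw [e1, e2, wt2_eq _ hL.lt h2, tot_eq]
  congr 3
  refine List.map_congr_left fun e he => ?_
  by_cases h : s e.1 = e.2.1
  · rw [if_pos ((hR e he).2 h), if_pos h]
  · rw [if_neg fun h' => h ((hR e he).1 h'), if_neg h]

/-- the matching function of a perfect list of pairs -/
theorem exists_fun {n : ℕ} {L : List Ent} (hL : AdL n L) {R : List (ℕ × ℕ)}
    (hRL : ∀ q ∈ R, q ∈ prs L) (hR : IsPML n R) :
    ∃ s, PM n (cL L) s ∧ ∀ e ∈ L, ((e.1, e.2.1) ∈ R ↔ s e.1 = e.2.1) := by
  classical
  have hch : ∀ v, ∃ q : ℕ × ℕ, v < n → (q ∈ R ∧ (q.1 = v ∨ q.2 = v) ∧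
      ∀ q' ∈ R, (q'.1 = v ∨ q'.2 = v) → q' = q) := by
    intro v
    by_cases hv : v < n
    · obtain ⟨q, ⟨h1, h2⟩, h3⟩ := hR v hv
      exact ⟨q, fun _ => ⟨h1, h2, fun q' hq' hm => h3 q' ⟨hq', hm⟩⟩⟩
    · exact ⟨(0, 0), fun h => absurd h hv⟩
  choose q hq using hch
  have hqL : ∀ q' ∈ R, q'.1 < q'.2 ∧ q'.2 < n ∧ ∃ e ∈ L, (e.1, e.2.1) = q' := by
    intro q' hq'
    obtain ⟨e, he, rfl⟩ := List.mem_map.1 (hRL q' hq')
    exact ⟨(hL.lt e he).1, (hL.lt e he).2, e, he, rfl⟩
  let s : ℕ → ℕ := fun v => if (q v).1 = v then (q v).2 else (q v).1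
  have hs : ∀ v, v < n → ((q v).1 = v ∧ (q v).2 = s v ∨ (q v).1 = s v ∧ (q v).2 = v) ∧
      s v < n ∧ s v ≠ v := by
    intro v hv
    obtain ⟨h1, h2, h3⟩ := hq v hv
    obtain ⟨h4, h5, _⟩ := hqL _ h1
    by_cases h6 : (q v).1 = v
    · have : s v = (q v).2 := if_pos h6
      rw [this]
      exact ⟨Or.inl ⟨h6, rfl⟩, h5, by omega⟩
    · have : s v = (q v).1 := if_neg h6
      rw [this]
      have h7 : (q v).2 = v := by tauto
      exact ⟨Or.inr ⟨rfl, h7⟩, by omega, by omega⟩
  have hss : ∀ v, v < n → s (s v) = v := by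
    intro v hv
    obtain ⟨h1, h2, h3⟩ := hs v hv
    obtain ⟨h4, h5, h6⟩ := hq v hv
    have h7 : q v = q (s v) := (hq (s v) h2).2.2 (q v) h4 (by tauto)
    obtain ⟨h8, _, _⟩ := hs (s v) h2
    rw [← h7] at h8
    rcases h1 with ⟨a, b⟩ | ⟨a, b⟩ <;> rcases h8 with ⟨c, d⟩ | ⟨c, d⟩ <;> omega
  refine ⟨s, fun v hv => ?_, fun e he => ?_⟩
  · obtain ⟨h1, h2, h3⟩ := hs v hv
    refine ⟨h2, hss v hv, h3, cL_pos.2 ?_⟩
    obtain ⟨_, _, e, he, heq⟩ := hqL _ (hq v hv).1
    refine ⟨e, he, ?_⟩
    have e1 : e.1 = (q v).1 := congrArg Prod.fst heq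
    have e2 : e.2.1 = (q v).2 := congrArg Prod.snd heq
    unfold mt
    rw [e1, e2]
    tauto
  · have hlt := hL.lt e he
    have hen : e.1 < n := by omega
    obtain ⟨h1, h2, h3⟩ := hs e.1 hen
    obtain ⟨h4, h5, h6⟩ := hq e.1 hen
    obtain ⟨h7, _, _⟩ := hqL _ h4
    constructor
    · intro hm
      have := h6 _ hm (Or.inl rfl)
      have e2 : e.2.1 = (q e.1).2 := congrArg Prod.snd this
      have e1 : e.1 = (q e.1).1 := congrArg Prod.fst this
      have : s e.1 = (q e.1).2 := if_pos e1.symm
      rw [this, e2]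
    · intro hm
      have : q e.1 = (e.1, e.2.1) := by
        refine Prod.ext ?_ ?_
        · show (q e.1).1 = e.1
          omega
        · show (q e.1).2 = e.2.1
          omega
      rw [← this]
      exact h4

/-- the pairs of an exhausted list form a perfect matching -/
theorem final_list {n : ℕ} {R : List Ent} (hR : AdL n R) {s : ℕ → ℕ} (hs : PM n (cL R) s)
    (hu : ∀ e ∈ R, s e.1 = e.2.1) : IsPML n (prs R) := by
  intro v hv
  obtain ⟨a, b, c, d⟩ := hs v hv
  obtain ⟨e, he, hm⟩ := cL_pos.1 d
  refine ⟨(e.1, e.2.1), ⟨List.mem_map.2 ⟨e, he, rfl⟩, ?_⟩, ?_⟩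
  · unfold mt at hm
    show e.1 = v ∨ e.2.1 = v
    tauto
  · rintro q ⟨hq, hqv⟩
    obtain ⟨e', he', rfl⟩ := List.mem_map.1 hq
    have h1 := hu e' he'
    have h2 := hR.lt e' he'
    have hm' : mt e' v (s v) := by
      rcases hqv with h3 | h3
      · left
        exact ⟨h3, by rw [← h1, ← h3]⟩
      · right
        have h3' : e'.2.1 = v := h3
        refine ⟨?_, h3'⟩
        rw [← h3', ← h1]
        exact ((hs e'.1 (by omega)).2.1).symm
    exact mt_eq hm' hm h2.1 (hR.lt e he).1

/-- **specification of the matching routine** -/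
theorem mwSpec {g : Orc} (hg : OrcOK g) : MWSpec (mwg g) := by
  intro m L hgood
  have hL : AdL (2 * m) L := ⟨hgood.lt, hgood.nodup⟩
  obtain ⟨v1, v2⟩ := valL_spec hg hL
  constructor
  · intro hn R hRL hR
    have hv : valL (2 * m) g L = none := by simpa [mwg] using hn
    obtain ⟨s, hs, _⟩ := exists_fun hL hRL hR
    exact v1 hv s hs
  · intro R hR
    unfold mwg at hR
    rw [Option.map_eq_some_iff] at hR
    obtain ⟨x, hx, rfl⟩ := hR
    have hx' : valL (2 * m) g L = some x := hx
    have hI := extract_inv hg hL hx'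
    have hGR := hL.sublist hI.sub
    obtain ⟨⟨s, hs, hw⟩, _⟩ := (valL_spec hg hGR).2 x hI.val
    have hu : ∀ e ∈ extract (2 * m) g L, s e.1 = e.2.1 :=
      fun e he => hI.used e (hI.sub.subset he) he s hs hw
    obtain ⟨hs2, hw2⟩ := PM_sub hL hI.sub hs
    refine ⟨fun q hq => ?_, final_list hGR hs hu, fun R' hRL' hR' => ?_⟩
    · obtain ⟨e, he, rfl⟩ := List.mem_map.1 hq
      exact List.mem_map.2 ⟨e, hI.sub.subset he, rfl⟩
    · obtain ⟨s', hs', hsR'⟩ := exists_fun hL hRL' hR'
      have h1 := tot_wt2 hL hs' hsR'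
      have h2 := (v2 x hx').2 s' hs'
      have h3 : 2 * tot L (prs (extract (2 * m) g L)) + 2 * m = wt2 (2 * m) (cL L) s := by
        refine tot_wt2 hL hs2 fun e he => ?_
        constructor
        · intro hm
          obtain ⟨e', he', heq⟩ := List.mem_map.1 hm
          have e1 : e'.1 = e.1 := (Prod.mk.inj heq).1
          have e2 : e'.2.1 = e.2.1 := (Prod.mk.inj heq).2
          rw [← e1, ← e2]
          exact hu e' he'
        · intro hse
          obtain ⟨e', he', hm'⟩ := cL_pos.1 (hs e.1 (lt_trans (hL.lt e he).1 (hL.lt e he).2)).2.2.2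
          rw [hse] at hm'
          have : (e'.1, e'.2.1) = (e.1, e.2.1) :=
            mt_eq hm' (Or.inl ⟨rfl, rfl⟩) (hGR.lt e' he').1 (hL.lt e he).1
          rw [← this]
          exact List.mem_map.2 ⟨e', he', rfl⟩
      have h3' : 2 * tot L (prs (extract (2 * m) g L)) + 2 * m = x := by rw [h3, ← hw2, hw]
      show tot L R' ≤ tot L (prs (extract (2 * m) g L)) + 6 * m
      omega

end Crest.Agent.R304.Pd292G
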