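import Crest.Agent.R304.Ded316C
import Crest.Agent.R309.PTSolve
import Crest.Agent.R309.Parse
import Crest.Agent.R304.Pd292G
import Mathlib
import Crest.Agent.R304.Pd292O

-- ▼ part R304/Ded316D
section

/-!
R304 / S0467, file D: the outer algorithm is polynomial time.
-/

set_option autoImplicit false

namespace Crest.Agent.R304.Ded316D

open Crest.Agent.Lib.PT Crest.Agent.R304.Ded316B Crest.Agent.R304.Ded316C Crest.Agent.R304.MWTop
open Crest.Agent.R309.PTX Crest.Matchings

variable {γ : Type} [PTCode γ]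

theorem ptu_wt {τ x c : γ → ℕ} (hτ : PTU τ) (hx : PTF x) (hc : PTF c) :
    PTU (fun a => wt (τ a) (x a) (c a)) := by
  unfold wt
  exact PTU.sub (PTU.add (PTF.natSizeUn hx) (PTU.add hτ (PTU.const 2)))
    (PTF.natSizeUn (PTF.natAdd hc (PTF.const 1)))

theorem ptf_entsOf {τ : γ → ℕ} {E : γ → List Edge} {cs : γ → List ℕ} (hτ : PTU τ) (hE : PTF E)
    (hc : PTF cs) : PTF (fun a => entsOf (τ a) (E a) (cs a)) := by
  unfold entsOf
  refine PTF.zipWith (f := fun (a : γ) (e : Edge) (c : ℕ) =>
    ((e.1, e.2.1, (⟨wt (τ a) e.2.2 c⟩ : Un)) : Ent)) hE hc ?_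
  refine PTF.prodMk (by fun_prop) (PTF.prodMk (by fun_prop) ?_)
  exact ptu_wt (hτ.comp (f := fun p : γ × Edge × ℕ => p.1) (by fun_prop)) (by fun_prop)
    (by fun_prop)

theorem ptf_updOf {E : γ → List Edge} {cs : γ → List ℕ} {R : γ → List (ℕ × ℕ)} (hE : PTF E)
    (hc : PTF cs) (hR : PTF R) : PTF (fun a => updOf (E a) (cs a) (R a)) := by
  unfold updOf
  refine PTF.zipWith (f := fun (a : γ) (e : Edge) (c : ℕ) =>
    if (e.1, e.2.1) ∈ R a then c + 1 else c) hE hc ?_
  refine PTF.ite (PTPred.mem ?_ ?_) (PTF.natAdd (by fun_prop) (PTF.const 1)) (by fun_prop)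
  · fun_prop
  · exact hR.comp (f := fun p : γ × Edge × ℕ => p.1) (by fun_prop)

theorem ptf_tot {L : γ → List Ent} {R : γ → List (ℕ × ℕ)} (hL : PTF L) (hR : PTF R) :
    PTF (fun a => tot (L a) (R a)) := by
  unfold tot
  refine PTF.natSum (PTF.map (f := fun (_ : γ) (e : Ent) => e.2.2.val) (PTF.filter
    (p := fun (a : γ) (e : Ent) => decide ((e.1, e.2.1) ∈ R a)) hL ?_) ?_)
  · refine PTPred.toPTF (PTPred.mem ?_ ?_)
    · fun_prop
    · exact hR.comp (f := fun p : γ × Ent => p.1) (by fun_prop)
  · exact PTU.toPTF (PTU.val (by fun_prop))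

theorem ptf_stepS {mw : Un × List Ent → Option (List (ℕ × ℕ))} (hmw : PTF mw) {n τ : γ → ℕ}
    {E : γ → List Edge} {s : γ → St} (hn : PTU n) (hτ : PTU τ) (hE : PTF E) (hs : PTF s) :
    PTF (fun a => stepS mw (n a) (τ a) (E a) (s a)) := by
  unfold stepS
  have hs1 : PTF (fun a => (s a).1) := PTF.comp (g := fun s : St => s.1) (by fun_prop) hs
  have hs2 : PTF (fun a => (s a).2.1) := PTF.comp (g := fun s : St => s.2.1) (by fun_prop) hs
  have hs3 : PTF (fun a => (s a).2.2) := PTF.comp (g := fun s : St => s.2.2) (by fun_prop) hs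
  have hent : PTF (fun a => entsOf (τ a) (E a) (s a).1) := ptf_entsOf hτ hE hs1
  have hmwc : PTF (fun a => mw (⟨n a⟩, entsOf (τ a) (E a) (s a).1)) :=
    hmw.comp (PTF.prodMk hn hent)
  refine PTF.of_eq (PTF.optionCasesOn (s := fun a => mw (⟨n a⟩, entsOf (τ a) (E a) (s a).1))
    (f := fun a => (((s a).1, (s a).2.1, false) : St))
    (g := fun a R => ((updOf (E a) (s a).1 R, (s a).2.1 + tot (entsOf (τ a) (E a) (s a).1) R,
      (s a).2.2) : St)) hmwc ?_ ?_) (fun a => by
        cases mw (⟨n a⟩, entsOf (τ a) (E a) (s a).1) <;> rfl)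
  · exact PTF.prodMk hs1 (PTF.prodMk hs2 (PTF.const false))
  · have hf : PTF (fun p : γ × List (ℕ × ℕ) => p.1) := by fun_prop
    refine PTF.prodMk (ptf_updOf (hE.comp hf) (hs1.comp hf) (by fun_prop))
      (PTF.prodMk (PTF.natAdd (hs2.comp hf) (ptf_tot (hent.comp hf) (by fun_prop))) (hs3.comp hf))

/-! ### bounds along the orbit -/

theorem tot_le (L : List Ent) (R : List (ℕ × ℕ)) : tot L R ≤ (L.map fun e => e.2.2.val).sum := by
  unfold tot
  induction L with
  | nil => simp
  | cons a L ih =>
    rw [List.map_cons, List.sum_cons, List.filter_cons]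
    split_ifs
    · rw [List.map_cons, List.sum_cons]; omega
    · omega

theorem sum_entsOf_le (τ B : ℕ) (E : List Edge) (hB : ∀ e ∈ E, Nat.size e.2.2 ≤ B)
    (cs : List ℕ) : ((entsOf τ E cs).map fun e => e.2.2.val).sum ≤ E.length * (B + τ + 2) := by
  unfold entsOf
  induction E generalizing cs with
  | nil => simp
  | cons a E ih =>
    cases cs with
    | nil => simp
    | cons c cs =>
      rw [List.zipWith_cons_cons, List.map_cons, List.sum_cons, List.length_cons]
      have h1 := ih (fun e he => hB e (List.mem_cons_of_mem _ he)) cs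
      have h2 : wt τ a.2.2 c ≤ B + τ + 2 := by
        unfold wt
        have := hB a (List.mem_cons_self)
        omega
      rw [add_mul, one_mul]
      simp only at h1 ⊢
      omega

theorem mem_updOf_le {E : List Edge} {cs : List ℕ} {R : List (ℕ × ℕ)} {B : ℕ}
    (h : ∀ c ∈ cs, c ≤ B) : ∀ c ∈ updOf E cs R, c ≤ B + 1 := by
  unfold updOf
  induction E generalizing cs with
  | nil => simp
  | cons a E ih =>
    cases cs with
    | nil => simp
    | cons c cs =>
      rw [List.zipWith_cons_cons]
      intro d hd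
      rcases List.mem_cons.1 hd with hd | hd
      · rw [hd]
        have := h c List.mem_cons_self
        split_ifs <;> omega
      · exact ih (fun c hc => h c (List.mem_cons_of_mem _ hc)) d hd

theorem length_updOf_le (E : List Edge) (cs : List ℕ) (R : List (ℕ × ℕ)) :
    (updOf E cs R).length ≤ E.length := by
  unfold updOf
  rw [List.length_zipWith]
  exact min_le_left _ _

/-- the invariant along the orbit -/
theorem run_bound (mw : Un × List Ent → Option (List (ℕ × ℕ))) (n τ B : ℕ) (E : List Edge)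
    (hB : ∀ e ∈ E, Nat.size e.2.2 ≤ B) (t : ℕ) :
    (runS mw n τ E t).1.length ≤ E.length ∧ (∀ c ∈ (runS mw n τ E t).1, c ≤ t) ∧
      (runS mw n τ E t).2.1 ≤ t * (E.length * (B + τ + 2)) := by
  induction t with
  | zero =>
    unfold runS
    rw [Function.iterate_zero, id]
    refine ⟨by simp, ?_, by simp⟩
    intro c hc
    rw [List.mem_replicate] at hc
    omega
  | succ t ih =>
    have h1 : runS mw n τ E (t + 1) = stepS mw n τ E (runS mw n τ E t) := by
      unfold runS; rw [Function.iterate_succ_apply']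
    rw [h1]
    unfold stepS
    obtain ⟨i1, i2, i3⟩ := ih
    cases mw (⟨n⟩, entsOf τ E (runS mw n τ E t).1) with
    | none =>
      refine ⟨i1, fun c hc => (i2 c hc).trans (by omega), ?_⟩
      simp only
      rw [add_mul]
      omega
    | some R =>
      refine ⟨length_updOf_le _ _ _, mem_updOf_le i2, ?_⟩
      simp only
      have h2 := tot_le (entsOf τ E (runS mw n τ E t).1) R
      have h3 := sum_entsOf_le τ B E hB (runS mw n τ E t).1
      rw [add_mul, one_mul]
      omega

theorem sz_st_le {s : St} {k T W : ℕ} (h1 : s.1.length ≤ k) (h2 : ∀ c ∈ s.1, c ≤ T)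
    (h3 : s.2.1 ≤ W) : sz s ≤ 2 * (k * (2 * T + 1)) + 1 + (2 * W + 1 + 1) := by
  rw [sz_prod, sz_prod, sz_bool]
  have h4 : sz s.1 ≤ k * (2 * T + 1) := by
    refine (sz_list_le (m := T) fun c hc => (sz_nat_le c).trans (h2 c hc)).trans ?_
    exact Nat.mul_le_mul_right _ h1
  have h5 : sz s.2.1 ≤ W := (sz_nat_le _).trans h3
  omega

theorem size_le_sz_edge {E : List Edge} {e : Edge} (he : e ∈ E) : Nat.size e.2.2 ≤ sz E := by
  refine le_trans ?_ (sz_mem_le he)
  rw [sz_prod, sz_prod, sz_nat e.2.2]
  omega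

theorem two_pow_size_le (k : ℕ) : 2 ^ Nat.size k ≤ 2 * k + 1 := by
  rcases Nat.eq_zero_or_pos k with h | h
  · subst h; simp
  · have h1 : 0 < Nat.size k := Nat.size_pos.2 h
    obtain ⟨s, hs⟩ : ∃ s, Nat.size k = s + 1 := ⟨Nat.size k - 1, by omega⟩
    have h2 : 2 ^ s ≤ k := by
      rw [← Nat.lt_size, hs]; exact Nat.lt_succ_self s
    rw [hs, pow_succ]
    omega

/-! ### the whole algorithm -/

theorem ptf_outS {mw : Un × List Ent → Option (List (ℕ × ℕ))} (hmw : PTF mw) :
    PTF (fun c : ℕ × List Edge => outS mw c.1 c.2) := by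
  have hn : PTF (fun c : ℕ × List Edge => c.1) := by fun_prop
  have hE : PTF (fun c : ℕ × List Edge => c.2) := by fun_prop
  have hk : PTU (fun c : ℕ × List Edge => c.2.length) := PTU.length hE
  have hτ : PTU (fun c : ℕ × List Edge => Nat.size c.2.length) := PTF.natSizeUn (PTU.toPTF hk)
  have h2k : PTU (fun c : ℕ × List Edge => 2 * c.2.length) := PTU.mul (PTU.const 2) hk
  have hT : PTU (fun c : ℕ × List Edge => 2 ^ Nat.size c.2.length) := by
    refine PTF.toPTU (PTF.natTwoPow hτ) ?_
    exact PB.mono (PB.add h2k.pb (PB.const 1)) fun c => two_pow_size_le _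
  have hmin : PTU (fun c : ℕ × List Edge => min c.1 (2 * c.2.length)) := PTF.natMinUn hn h2k
  have hm : PTU (fun c : ℕ × List Edge => min c.1 (2 * c.2.length) / 2) := by
    refine PTF.toPTU (PTF.natDiv (PTU.toPTF hmin) (PTF.const 2)) ?_
    exact PB.mono hmin.pb fun c => Nat.div_le_self _ _
  have h2m : PTU (fun c : ℕ × List Edge => 2 * (min c.1 (2 * c.2.length) / 2)) :=
    PTU.mul (PTU.const 2) hm
  -- the bound
  set W : ℕ × List Edge → ℕ := fun c =>
    2 ^ Nat.size c.2.length * (c.2.length * (sz c.2 + Nat.size c.2.length + 2)) with hW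
  have hWpb : PB W := by
    have h1 : PB (fun c : ℕ × List Edge => sz c.2) := hE.sz
    exact PB.mul hT.pb (PB.mul hk.pb (PB.add (PB.add h1 hτ.pb) (PB.const 2)))
  have hrun : PTF (fun c : ℕ × List Edge =>
      runS mw (2 * (min c.1 (2 * c.2.length) / 2)) (Nat.size c.2.length) c.2
        (2 ^ Nat.size c.2.length)) := by
    unfold runS
    refine PTF.iterate' (f := fun (c : ℕ × List Edge) (s : St) =>
      stepS mw (2 * (min c.1 (2 * c.2.length) / 2)) (Nat.size c.2.length) c.2 s)
      (a := fun c => ((List.replicate c.2.length 0, 0, true) : St)) hT ?_ ?_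
      (B := fun c => 2 * (c.2.length * (2 * 2 ^ Nat.size c.2.length + 1)) + 1
        + (2 * W c + 1 + 1)) ?_ ?_
    · have hf : PTF (fun p : (ℕ × List Edge) × St => p.1) := by fun_prop
      exact ptf_stepS hmw (h2m.comp hf) (hτ.comp hf) (hE.comp hf) (by fun_prop)
    · exact PTF.prodMk (PTF.replicate hk (PTF.const 0)) (PTF.const (0, true))
    · exact PB.add (PB.add (PB.mul (PB.const 2) (PB.mul hk.pb (PB.add (PB.mul (PB.const 2) hT.pb)
        (PB.const 1)))) (PB.const 1))
        (PB.add (PB.add (PB.mul (PB.const 2) hWpb) (PB.const 1)) (PB.const 1))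
    · intro c i hi
      have h := run_bound mw (2 * (min c.1 (2 * c.2.length) / 2)) (Nat.size c.2.length) (sz c.2)
        c.2 (fun e he => size_le_sz_edge he) i
      refine sz_st_le h.1 (fun d hd => (h.2.1 d hd).trans hi) (h.2.2.trans ?_)
      exact Nat.mul_le_mul_right _ hi
  have hS : PTF (fun c : ℕ × List Edge =>
      (runS mw (2 * (min c.1 (2 * c.2.length) / 2)) (Nat.size c.2.length) c.2
        (2 ^ Nat.size c.2.length)).2.1) := PTF.comp (g := fun s : St => s.2.1) (by fun_prop) hrun
  have hB : PTF (fun c : ℕ × List Edge =>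
      (runS mw (2 * (min c.1 (2 * c.2.length) / 2)) (Nat.size c.2.length) c.2
        (2 ^ Nat.size c.2.length)).2.2) := PTF.comp (g := fun s : St => s.2.2) (by fun_prop) hrun
  have hSdiv : PTU (fun c : ℕ × List Edge =>
      (runS mw (2 * (min c.1 (2 * c.2.length) / 2)) (Nat.size c.2.length) c.2
        (2 ^ Nat.size c.2.length)).2.1 / 2 ^ Nat.size c.2.length) := by
    refine PTF.toPTU (PTF.natDiv hS (PTU.toPTF hT)) ?_
    refine PB.mono hWpb fun c => ?_
    have h := run_bound mw (2 * (min c.1 (2 * c.2.length) / 2)) (Nat.size c.2.length) (sz c.2)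
      c.2 (fun e he => size_le_sz_edge he) (2 ^ Nat.size c.2.length)
    exact (Nat.div_le_self _ _).trans h.2.2
  have hexp := PTU.sub hSdiv (PTU.mul (PTU.const 8) hm)
  unfold outS
  refine PTF.ite (PTPred.natEq hn (PTF.const 0)) (PTF.const 1) ?_
  refine PTF.ite (PTPred.or (PTPred.natEq (PTF.natMod hn (PTF.const 2)) (PTF.const 1))
    (PTPred.natLt (PTU.toPTF h2k) hn)) (PTF.const 0) ?_
  exact PTF.cond hB (PTF.natTwoPow hexp) (PTF.const 0)

end Crest.Agent.R304.Ded316D
end

-- ▼ part R304/Ded316E
section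

/-!
R304 / S0467, file E: parser of `pairMultCode` and the reduction of S0467 to the interface `MW`.
-/

set_option autoImplicit false

namespace Crest.Agent.R304.Ded316E

open Crest.Agent.Lib.PT Crest.Agent.R304.Ded316A Crest.Agent.R304.Ded316B
  Crest.Agent.R304.Ded316C Crest.Agent.R304.Ded316D Crest.Agent.R304.MWTop
open Crest.Agent.R309.PTX Crest.Agent.R309.Parse Crest.Agent.R309.Feas Crest.Agent.R287
open Crest.Matchings Crest.Enc

/-- triples of a list of numbers -/
def triples (l : List ℕ) : List Edge :=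
  (List.range (l.length / 3)).map fun i =>
    ((l.getD (i * 3 + 0) 0, l.getD (i * 3 + 1) 0, l.getD (i * 3 + 2) 0) : Edge)

/-- parse a multigraph -/
def parseW (l : List Bool) : ℕ × List Edge :=
  ((readNat l).1,
    triples (readK (3 * (readNat (readNat l).2).1) (readNat (readNat l).2).2).1)

/-- the numbers of the edges -/
def nums (E : List Edge) : List ℕ := (E.map fun e => [e.1, e.2.1, e.2.2]).flatten

theorem length_nums (E : List Edge) : (nums E).length = 3 * E.length := by
  unfold nums
  induction E with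
  | nil => rfl
  | cons a E ih =>
    rw [List.map_cons, List.flatten_cons, List.length_append, ih, List.length_cons]
    simp only [List.length_cons, List.length_nil]
    ring

theorem triples_nums (E : List Edge) : triples (nums E) = E := by
  unfold triples
  rw [length_nums, Nat.mul_div_cancel_left _ (by norm_num : 0 < 3)]
  apply List.ext_getElem
  · simp
  · intro i h1 h2
    rw [List.getElem_map, List.getElem_range]
    have hL : ∀ l ∈ (E.map fun e : Edge => [e.1, e.2.1, e.2.2]), l.length = 3 := by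
      intro l hl
      obtain ⟨e, _, rfl⟩ := List.mem_map.1 hl
      rfl
    have hg : (E.map fun e : Edge => [e.1, e.2.1, e.2.2]).getD i []
        = [(E[i]).1, (E[i]).2.1, (E[i]).2.2] := by
      rw [List.getD_eq_getElem _ _ (by simpa using h2), List.getElem_map]
    unfold nums
    rw [getD_flatten_const _ hL i 0 (by norm_num), getD_flatten_const _ hL i 1 (by norm_num),
      getD_flatten_const _ hL i 2 (by norm_num), hg]
    rfl

theorem code_eq (n : ℕ) (w : Fin n → Fin n → ℕ) :
    pairMultCode n w = natCode n ++ (natCode (edgesOf n w).length ++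
      ((nums (edgesOf n w)).map natCode).flatten) := by
  unfold pairMultCode
  rw [length_edgesOf, List.append_assoc]
  congr 2
  unfold edgesOf nums
  rw [List.map_map, List.map_flatten, List.flatten_flatten, List.map_map, List.map_map]
  congr 1
  apply List.map_congr_left
  intro q _
  simp

theorem parseW_code (n : ℕ) (w : Fin n → Fin n → ℕ) :
    parseW (pairMultCode n w) = (n, edgesOf n w) := by
  unfold parseW
  rw [code_eq]
  simp only [readNat_natCode]
  have h := readK_code (nums (edgesOf n w)) []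
  rw [List.append_nil, length_nums] at h
  rw [h, triples_nums]

variable {γ : Type} [PTCode γ]

theorem ptf_triples {l : γ → List ℕ} (hl : PTF l) : PTF (fun a => triples (l a)) := by
  unfold triples
  have hlen : PTU (fun a => (l a).length / 3) := by
    refine PTF.toPTU (PTF.natDiv (PTU.toPTF (PTU.length hl)) (PTF.const 3)) ?_
    exact PB.mono (PTU.length hl).pb fun c => Nat.div_le_self _ _
  refine PTF.map (f := fun (a : γ) (i : ℕ) =>
    (((l a).getD (i * 3 + 0) 0, (l a).getD (i * 3 + 1) 0, (l a).getD (i * 3 + 2) 0) : Edge))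
    (PTF.range hlen) ?_
  have hf : PTF (fun p : γ × ℕ => p.1) := by fun_prop
  have hi : PTF (fun p : γ × ℕ => p.2) := by fun_prop
  have hg : ∀ j : ℕ, PTF (fun p : γ × ℕ => (l p.1).getD (p.2 * 3 + j) 0) := fun j =>
    ptf_getD' (PTF.natAdd (PTF.natMul hi (PTF.const 3)) (PTF.const j)) (hl.comp hf) (PTF.const 0)
  exact PTF.prodMk (hg 0) (PTF.prodMk (hg 1) (hg 2))

theorem ptf_parseW {l : γ → List Bool} (hl : PTF l) : PTF (fun a => parseW (l a)) := by
  unfold parseW
  have h1 := ptf_readNat hl
  have h11 := PTF.comp (g := fun p : ℕ × List Bool => p.1) (by fun_prop) h1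
  have h12 := PTF.comp (g := fun p : ℕ × List Bool => p.2) (by fun_prop) h1
  have h2 := ptf_readNat h12
  have h21 := PTF.comp (g := fun p : ℕ × List Bool => p.1) (by fun_prop) h2
  have h22 := PTF.comp (g := fun p : ℕ × List Bool => p.2) (by fun_prop) h2
  have h3 := ptf_readK (PTF.natMul (PTF.const 3) h21) h22
  have h31 := PTF.comp (g := fun p : List ℕ × List Bool => p.1) (by fun_prop) h3
  exact PTF.prodMk h11 (ptf_triples h31)

/-- S0467 from S0465 and the interface `MW` -/
theorem s0467_of (h65 : S0465stmt) (hMW : MW) :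
    ∃ f : List Bool → List Bool, Crest.Complexity.PolyTime f ∧
      ∀ (n : ℕ) (w : Fin n → Fin n → ℕ), (∀ i j, w i j = w j i) → (∀ i, w i i = 0) →
        ∃ A : ℕ, f (pairMultCode n w) = natCode A ∧
          multNumPerfectMatchings w ≤ 512 ^ n * A ∧ A ≤ multNumPerfectMatchings w := by
  obtain ⟨mw, hptf, hspec⟩ := hMW
  refine ⟨fun l => natCode (outS mw (parseW l).1 (parseW l).2), ?_, ?_⟩
  · have h1 : PTF (fun l : List Bool => natCode (outS mw (parseW l).1 (parseW l).2)) :=
      ptf_natCode ((ptf_outS hptf).comp (ptf_parseW PTF.id))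
    exact (PTF.toPT_list h1).polyTime
  · intro n w _ _
    refine ⟨outS mw n (edgesOf n w), ?_, outS_correct h65 hspec n w⟩
    simp only [parseW_code]

end Crest.Agent.R304.Ded316E
end

-- ▼ part R304/Pd292H
section

/-!
# Row 304, S0467: the primal-dual routine is polynomial time
-/

set_option autoImplicit false
set_option linter.dupNamespace false

namespace Crest.Agent.R304.Pd292H

open Crest.Agent.R304.Pd292A Crest.Agent.R304.Pd292C Crest.Agent.R304.Pd292D
  Crest.Agent.R304.Pd292E Crest.Agent.R304.Pd292F Crest.Agent.R304.Pd292G Crest.Agent.R304.Pd292O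
  Crest.Agent.R304.MWTop Crest.Agent.Lib.PT Crest.Agent.R309.PTX Crest.Agent.R309.Tape

variable {γ : Type} [PTCode γ]

macro_rules
  | `(tactic| pt_solve) => `(tactic| first
    | pt_app PTF.not ?_
    | pt_app PTF.and ?_ ?_
    | pt_app PTF.or ?_ ?_
    | pt_app PTF.fst
    | pt_app PTF.snd
    | pt_app PTF.takeWhile ?_ ?_
    | pt_app PTF.dropWhile ?_ ?_)

/-! ### classes -/

theorem ptf_cls {n : γ → ℕ} (hn : PTU n) {R : γ → ℕ → ℕ → Bool}
    (hR : PTF (fun q : (γ × ℕ) × ℕ => R q.1.1 q.1.2 q.2)) {v : γ → ℕ} (hv : PTF v) :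
    PTF (fun c => cls (n c) (R c) (v c)) := by
  unfold cls
  refine PTF.filter (PTF.range hn) ?_
  exact PTF.comp (g := fun q : (γ × ℕ) × ℕ => R q.1.1 q.1.2 q.2)
    (f := fun p : γ × ℕ => ((p.1, v p.1), p.2)) hR (by pt_solve)

theorem lead_eq (n : ℕ) (S : ℕ → Bool) (R : ℕ → ℕ → Bool) : lead n S R =
    (List.range n).filter (fun v => S v && (List.range (min v n)).all (fun u => !R u v)) := by
  unfold lead
  refine List.filter_congr fun v hv => ?_
  have : v < n := by simpa using hv
  rw [min_eq_left this.le]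

theorem ptf_lead {n : γ → ℕ} (hn : PTU n) {S : γ → ℕ → Bool} (hS : PTF (fun q : γ × ℕ => S q.1 q.2))
    {R : γ → ℕ → ℕ → Bool} (hR : PTF (fun q : (γ × ℕ) × ℕ => R q.1.1 q.1.2 q.2)) :
    PTF (fun c => lead (n c) (S c) (R c)) := by
  have h : PTF (fun c => (List.range (n c)).filter (fun v => S c v &&
      (List.range (min v (n c))).all (fun u => !R c u v))) := by
    refine PTF.filter (PTF.range hn) ?_
    have h1 : PTU (fun p : γ × ℕ => min p.2 (n p.1)) :=
      PTF.natMinUn (by fun_prop) (PTU.comp hn (by fun_prop))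
    have h2 : PTF (fun q : (γ × ℕ) × ℕ => R q.1.1 q.2 q.1.2) :=
      PTF.comp (g := fun q : (γ × ℕ) × ℕ => R q.1.1 q.1.2 q.2)
        (f := fun q : (γ × ℕ) × ℕ => ((q.1.1, q.2), q.1.2)) hR (by pt_solve)
    exact PTF.and hS (PTF.all (PTF.range h1) (PTF.not h2))
  exact h.of_eq fun c => (lead_eq _ _ _).symm

theorem ptf_classes {n : γ → ℕ} (hn : PTU n) {S : γ → ℕ → Bool}
    (hS : PTF (fun q : γ × ℕ => S q.1 q.2))
    {R : γ → ℕ → ℕ → Bool} (hR : PTF (fun q : (γ × ℕ) × ℕ => R q.1.1 q.1.2 q.2)) :
    PTF (fun c => classes (n c) (S c) (R c)) := by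
  unfold classes
  refine PTF.map (ptf_lead hn hS hR) ?_
  have hR' : PTF (fun q : ((γ × ℕ) × ℕ) × ℕ => R q.1.1.1 q.1.2 q.2) :=
    PTF.comp (g := fun q : (γ × ℕ) × ℕ => R q.1.1 q.1.2 q.2)
      (f := fun q : ((γ × ℕ) × ℕ) × ℕ => ((q.1.1.1, q.1.2), q.2)) hR (by pt_solve)
  exact ptf_cls (γ := γ × ℕ) (n := fun p => n p.1) (PTU.comp hn (by fun_prop))
    (R := fun p => R p.1) hR' (v := fun p => p.2) (by fun_prop)

/-! ### weights, slacks -/

/-- parameters -/
abbrev P := Un × List Ent

/-- the weights used by the routine -/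
def wP (p : P) (u v : ℕ) : ℕ := (p.1.val + 1) * cL p.2 u v

theorem ptf_cL {L : γ → List Ent} {u v : γ → ℕ} (hL : PTF L) (hu : PTF u) (hv : PTF v) :
    PTF (fun c => cL (L c) (u c) (v c)) := by
  unfold cL cLf Pd292G.mt
  refine PTF.natSum (PTF.map hL ?_)
  have h1 : PTF (fun p : γ × Ent => p.2.2.2.val + 1) := by
    have : PTU (fun p : γ × Ent => p.2.2.2.val) := PTU.val (by fun_prop)
    exact PTF.natAdd (PTU.toPTF this) (PTF.const 1)
  refine PTF.ite ?_ h1 (PTF.const 0)
  pt_solve

theorem ptf_wP {p : γ → P} {u v : γ → ℕ} (hp : PTF p) (hu : PTF u) (hv : PTF v) :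
    PTF (fun c => wP (p c) (u c) (v c)) := by
  unfold wP
  have : PTU (fun c => (p c).1.val) := PTU.val (by fun_prop)
  exact PTF.natMul (PTF.natAdd (PTU.toPTF this) (PTF.const 1)) (ptf_cL (by fun_prop) hu hv)

theorem ptf_cnt {F : γ → List (List ℕ)} {u v : γ → ℕ} (hF : PTF F) (hu : PTF u) (hv : PTF v) :
    PTF (fun c => cnt (F c) (u c) (v c)) := by
  unfold cnt
  pt_solve

theorem ptf_same {F : γ → List (List ℕ)} {u v : γ → ℕ} (hF : PTF F) (hu : PTF u) (hv : PTF v) :
    PTF (fun c => same (F c) (u c) (v c)) := by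
  unfold same
  pt_solve

theorem ptf_elig {p : γ → P} {yl : γ → List ℤ} {F : γ → List (List ℕ)} {u v : γ → ℕ} (hp : PTF p)
    (hy : PTF yl) (hF : PTF F) (hu : PTF u) (hv : PTF v) :
    PTF (fun c => elig (wP (p c)) (yf (yl c)) (F c) (u c) (v c)) := by
  have h1 := ptf_wP hp hu hv
  have h2 := ptf_cnt hF hu hv
  unfold elig slack yf
  pt_solve

/-! ### block graph -/

theorem ptf_blocks {n : γ → ℕ} (hn : PTU n) {F : γ → List (List ℕ)} (hF : PTF F) :
    PTF (fun c => Pd292F.blocks (n c) (F c)) := by
  unfold Pd292F.blocks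
  exact ptf_classes hn (PTF.const true) (ptf_same (by pt_solve) (by pt_solve) (by pt_solve))

theorem ptu_nod {bl : γ → List (List ℕ)} {v : γ → ℕ} (hb : PTF bl) (hv : PTF v) :
    PTU (fun c => nod (bl c) (v c)) := by
  unfold nod
  refine PTU.length (PTF.takeWhile hb ?_)
  pt_solve

theorem ptf_Qt {p : γ → P} {yl : γ → List ℤ} {F bl : γ → List (List ℕ)} (hp : PTF p)
    (hy : PTF yl) (hF : PTF F) (hb : PTF bl) :
    PTF (fun c => Qt (wP (p c)) (yf (yl c)) (F c) (bl c)) := by
  unfold Qt
  refine PTF.map hb (PTF.map (by pt_solve) (PTF.and (by pt_solve) ?_))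
  refine PTF.any (by pt_solve) (PTF.any (by pt_solve) ?_)
  exact ptf_elig (by pt_solve) (by pt_solve) (by pt_solve) (by pt_solve) (by pt_solve)

theorem ptf_inDf {bl : γ → List (List ℕ)} {Dl : γ → List Bool} {v : γ → ℕ} (hb : PTF bl)
    (hD : PTF Dl) (hv : PTF v) : PTF (fun c => inDf (bl c) (Dl c) (v c)) := by
  unfold inDf
  exact PTF.getD (ptu_nod hb hv) hD (PTF.const false)

theorem ptf_inAf {n : γ → ℕ} (hn : PTU n) {bl : γ → List (List ℕ)} {Q : γ → List (List Bool)}
    {Dl : γ → List Bool} {v : γ → ℕ} (hb : PTF bl) (hQ : PTF Q) (hD : PTF Dl) (hv : PTF v) :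
    PTF (fun c => inAf (n c) (bl c) (Q c) (Dl c) (v c)) := by
  unfold inAf
  refine PTF.and (PTF.not (ptf_inDf hb hD hv)) (PTF.any (PTF.range hn) (PTF.and ?_ ?_))
  · exact ptf_inDf (by pt_solve) (by pt_solve) (by pt_solve)
  · exact PTF.getD (ptu_nod (by pt_solve) (by pt_solve))
      (PTF.getD (ptu_nod (by pt_solve) (by pt_solve)) (by pt_solve) (PTF.const [])) (PTF.const false)

theorem ptf_rel {p : γ → P} {yl : γ → List ℤ} {F bl : γ → List (List ℕ)} {Dl : γ → List Bool}
    {u v : γ → ℕ} (hp : PTF p) (hy : PTF yl) (hF : PTF F) (hb : PTF bl) (hD : PTF Dl)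
    (hu : PTF u) (hv : PTF v) :
    PTF (fun c => rel (wP (p c)) (yf (yl c)) (F c) (bl c) (Dl c) (u c) (v c)) := by
  unfold rel
  exact PTF.and (ptf_inDf hb hD hv) (PTF.or (ptf_same hF hu hv) (ptf_elig hp hy hF hu hv))

/-! ### closure -/

theorem sz_filter_range (n : ℕ) (p : ℕ → Bool) :
    sz ((List.range n).filter p) ≤ n * (2 * n + 1) := by
  have h : ∀ l : List ℕ, sz (l.filter p) ≤ sz l := by
    intro l
    induction l with
    | nil => simp
    | cons a l ih =>
      by_cases h : p a = true
      · rw [List.filter_cons_of_pos h]; simp only [sz_cons]; omega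
      · rw [List.filter_cons_of_neg h]; simp only [sz_cons]; omega
  exact (h _).trans (sz_range_le n)

theorem ptf_clo {n : γ → ℕ} (hn : PTU n) {r : γ → ℕ → ℕ → Bool}
    (hr : PTF (fun q : (γ × ℕ) × ℕ => r q.1.1 q.1.2 q.2)) {u : γ → ℕ} (hu : PTF u) :
    PTF (fun c => clo (n c) (r c) (u c)) := by
  unfold clo
  refine PTF.iterate' (B := fun c => n c * (2 * n c + 1)) hn ?_ ?_ ?_ ?_
  · show PTF (fun p : γ × List ℕ => cloStep (n p.1) (r p.1) p.2)
    unfold cloStep
    refine PTF.filter (PTF.range (PTU.comp hn (by fun_prop))) ?_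
    have h1 : PTF (fun q : ((γ × List ℕ) × ℕ) × ℕ => r q.1.1.1 q.2 q.1.2) :=
      PTF.comp (g := fun q : (γ × ℕ) × ℕ => r q.1.1 q.1.2 q.2)
        (f := fun q : ((γ × List ℕ) × ℕ) × ℕ => ((q.1.1.1, q.2), q.1.2)) hr (by pt_solve)
    refine PTF.or (by pt_solve) (PTF.any (by pt_solve) h1)
  · refine PTF.filter (PTF.range hn) (by pt_solve)
  · have := hn.pb
    fun_prop
  · intro c i _
    cases i with
    | zero => exact sz_filter_range _ _
    | succ i =>
      rw [Function.iterate_succ_apply']
      exact sz_filter_range _ _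

theorem ptf_cpf {p : γ → P} {yl : γ → List ℤ} {F bl : γ → List (List ℕ)} {Dl : γ → List Bool}
    {u v : γ → ℕ} (hp : PTF p) (hy : PTF yl) (hF : PTF F) (hb : PTF bl) (hD : PTF Dl)
    (hu : PTF u) (hv : PTF v) :
    PTF (fun c => cpf (p c).1.val (wP (p c)) (yf (yl c)) (F c) (bl c) (Dl c) (u c) (v c)) := by
  unfold cpf
  have hn : PTU (fun c => (p c).1.val) := PTU.val (by fun_prop)
  have h1 : PTF (fun c => clo (p c).1.val (rel (wP (p c)) (yf (yl c)) (F c) (bl c) (Dl c)) (u c)) := by
    refine ptf_clo hn ?_ hu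
    exact ptf_rel (by pt_solve) (by pt_solve) (by pt_solve) (by pt_solve) (by pt_solve)
      (by pt_solve) (by pt_solve)
  exact PTF.and (ptf_inDf hb hD hu) (PTPred.toPTF (PTPred.mem hv h1))

/-! ### one phase -/

theorem ptf_Abl {n : γ → ℕ} (hn : PTU n) {F bl : γ → List (List ℕ)} {Q : γ → List (List Bool)}
    {Dl : γ → List Bool} (hF : PTF F) (hb : PTF bl) (hQ : PTF Q) (hD : PTF Dl) :
    PTF (fun c => Abl (n c) (F c) (inAf (n c) (bl c) (Q c) (Dl c))) := by
  unfold Abl
  refine PTF.filter (ptf_classes hn ?_ ?_) (by pt_solve)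
  · exact ptf_inAf (PTU.comp hn (by fun_prop)) (by pt_solve) (by pt_solve) (by pt_solve)
      (by pt_solve)
  · unfold sameA
    exact PTF.and (ptf_inAf (PTU.comp hn (by fun_prop)) (by pt_solve) (by pt_solve) (by pt_solve)
      (by pt_solve)) (ptf_same (by pt_solve) (by pt_solve) (by pt_solve))

theorem sz_er_le (l : List (List ℕ)) (a : List ℕ) : sz (er l a) ≤ sz l := by
  induction l with
  | nil => simp [er]
  | cons b l ih =>
    unfold er at ih ⊢
    by_cases h : b = a
    · subst h
      simp
    · have h1 : (!decide (b = a)) = true := by simp [h]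
      rw [List.takeWhile_cons, List.dropWhile_cons, if_pos h1, if_pos h1, List.cons_append]
      simp only [sz_cons]
      omega

theorem ptf_foldl_er {F M : γ → List (List ℕ)} (hF : PTF F) (hM : PTF M) :
    PTF (fun c => (M c).foldl er (F c)) := by
  refine PTF.foldl_add (f := fun _ => er) hM ?_ hF (G := fun _ => 0) (PB.const 0) ?_
  · unfold er
    refine PTF.append (PTF.takeWhile (by pt_solve) (by pt_solve))
      (PTF.tail (PTF.dropWhile (by pt_solve) (by pt_solve)))
  · intro c b a _
    exact sz_er_le b a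

/-- one update of the state, in all arguments -/
theorem ptf_upd {p : γ → P} {st : γ → St} {bl : γ → List (List ℕ)} {Q : γ → List (List Bool)}
    {Dl : γ → List Bool} (hp : PTF p) (hs : PTF st) (hb : PTF bl) (hQ : PTF Q) (hD : PTF Dl) :
    PTF (fun c => upd (p c).1.val (wP (p c)) (st c) (bl c) (Q c) (Dl c)) := by
  have hn : PTU (fun c => (p c).1.val) := PTU.val (by fun_prop)
  unfold upd
  refine PTF.prodMk ?_ (PTF.append ?_ ?_)
  · refine PTF.map (PTF.range hn) ?_
    have h1 := ptf_inDf (γ := γ × ℕ) (bl := fun q => bl q.1) (Dl := fun q => Dl q.1)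
      (v := fun q => q.2) (by pt_solve) (by pt_solve) (by pt_solve)
    have h2 := ptf_inAf (γ := γ × ℕ) (n := fun q => (p q.1).1.val)
      (PTU.comp (n := fun c => (p c).1.val) (f := fun q : γ × ℕ => q.1) hn (by fun_prop))
      (bl := fun q => bl q.1) (Q := fun q => Q q.1) (Dl := fun q => Dl q.1)
      (v := fun q => q.2) (by pt_solve) (by pt_solve) (by pt_solve) (by pt_solve)
    unfold yf sig
    refine PTF.intAdd (by pt_solve) (PTF.ite (PTF.toPTPred h1) (PTF.const _)
      (PTF.ite (PTF.toPTPred h2) (PTF.const _) (PTF.const _)))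
  · refine ptf_classes hn ?_ ?_
    · exact ptf_inDf (by pt_solve) (by pt_solve) (by pt_solve)
    · exact ptf_cpf (p := fun q : (γ × ℕ) × ℕ => p q.1.1) (yl := fun q => (st q.1.1).1)
        (F := fun q => (st q.1.1).2) (bl := fun q => bl q.1.1) (Dl := fun q => Dl q.1.1)
        (u := fun q => q.1.2) (v := fun q => q.2) (by pt_solve) (by pt_solve) (by pt_solve)
        (by pt_solve) (by pt_solve) (by pt_solve) (by pt_solve)
  · exact ptf_foldl_er (by pt_solve) (ptf_Abl hn (by pt_solve) hb hQ hD)

theorem ptf_orc {g : Un × List (List Bool) → List Bool} (hg : PTF g) {p : γ → P} {st : γ → St} (hp : PTF p) (hs : PTF st) :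
    PTF (fun c => orc (p c).1.val (wP (p c)) g (st c)) := by
  have hn : PTU (fun c => (p c).1.val) := PTU.val (by fun_prop)
  have hb := ptf_blocks hn (F := fun c => (st c).2) (by pt_solve)
  unfold orc
  refine PTF.comp (g := g) hg (PTF.prodMk (PTU.length hb) ?_)
  exact ptf_Qt hp (by pt_solve) (by pt_solve) hb

theorem ptf_stop {g : Un × List (List Bool) → List Bool} (hg : PTF g) {p : γ → P} {st : γ → St} (hp : PTF p) (hs : PTF st) :
    PTF (fun c => stop (p c).1.val (wP (p c)) g (st c)) := by
  have hn : PTU (fun c => (p c).1.val) := PTU.val (by fun_prop)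
  have hb := ptf_blocks hn (F := fun c => (st c).2) (by pt_solve)
  have ho := ptf_orc hg hp hs
  unfold stop
  refine PTF.all (PTF.range (PTU.length hb)) (PTF.not ?_)
  exact ptf_getD' (PTF.snd) (PTF.comp (g := fun c => orc (p c).1.val (wP (p c)) g (st c))
    (f := fun q : γ × ℕ => q.1) ho PTF.fst) (PTF.const false)

theorem ptf_stepSt {g : Un × List (List Bool) → List Bool} (hg : PTF g) {p : γ → P} {st : γ → St} (hp : PTF p) (hs : PTF st) :
    PTF (fun c => stepSt (p c).1.val (wP (p c)) g (st c)) := by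
  have hn : PTU (fun c => (p c).1.val) := PTU.val (by fun_prop)
  have hb := ptf_blocks hn (F := fun c => (st c).2) (by pt_solve)
  unfold stepSt
  refine PTF.ite (PTF.toPTPred (ptf_stop hg hp hs)) hs ?_
  exact ptf_upd hp hs hb (ptf_Qt hp (by pt_solve) (by pt_solve) hb) (ptf_orc hg hp hs)

/-! ### all phases -/

/-- size invariant -/
structure SI (n W j : ℕ) (st : St) : Prop where
  len : st.1.length = n
  abs : ∀ z ∈ st.1, z.natAbs ≤ W + j
  fam : st.2.length ≤ n * j
  mem : ∀ B ∈ st.2, sz B ≤ n * (2 * n + 1)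

theorem si_init (n W : ℕ) : SI n W 0 (List.replicate n (W : ℤ), []) where
  len := by simp
  abs z hz := by
    have := List.eq_of_mem_replicate hz
    subst this
    simp
  fam := by simp
  mem := by simp

theorem length_classes_le (n : ℕ) (S : ℕ → Bool) (R : ℕ → ℕ → Bool) :
    (classes n S R).length ≤ n := by
  unfold classes lead
  rw [List.length_map]
  exact (List.length_filter_le _ _).trans (by simp)

theorem length_foldl_er (M F : List (List ℕ)) : (M.foldl er F).length ≤ F.length := by
  rw [foldl_er]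
  exact (List.diff_sublist _ _).length_le

theorem mem_foldl_er {M F : List (List ℕ)} {B : List ℕ} (h : B ∈ M.foldl er F) : B ∈ F := by
  rw [foldl_er] at h
  exact (List.diff_sublist _ _).subset h

theorem sig_abs (a b : ℕ → Bool) (v : ℕ) : (sig a b v).natAbs ≤ 1 := by
  unfold sig
  split_ifs <;> simp

theorem si_upd {n W j : ℕ} {w : ℕ → ℕ → ℕ} {st : St} (h : SI n W j st) (bl : List (List ℕ))
    (Q : List (List Bool)) (Dl : List Bool) : SI n W (j + 1) (upd n w st bl Q Dl) where
  len := by simp [upd]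
  abs z hz := by
    unfold upd at hz
    obtain ⟨v, hv, rfl⟩ := List.mem_map.1 hz
    have hvn : v < n := by simpa using hv
    have h1 : (yf st.1 v).natAbs ≤ W + j := by
      unfold yf
      have hl : v < st.1.length := by rw [h.len]; exact hvn
      rw [List.getD_eq_getElem _ _ hl]
      exact h.abs _ (List.getElem_mem hl)
    have h2 := sig_abs (inDf bl Dl) (inAf n bl Q Dl) v
    omega
  fam := by
    unfold upd
    rw [List.length_append]
    have h1 := length_classes_le n (inDf bl Dl) (cpf n w (yf st.1) st.2 bl Dl)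
    have h2 := length_foldl_er (Abl n st.2 (inAf n bl Q Dl)) st.2
    have h3 := h.fam
    have : n * (j + 1) = n * j + n := by ring
    omega
  mem B hB := by
    unfold upd at hB
    rcases List.mem_append.1 hB with hB | hB
    · unfold classes at hB
      obtain ⟨l, _, rfl⟩ := List.mem_map.1 hB
      exact sz_filter_range _ _
    · exact h.mem B (mem_foldl_er hB)

theorem si_mono {n W j j' : ℕ} {st : St} (h : SI n W j st) (hj : j ≤ j') : SI n W j' st where
  len := h.len
  abs z hz := (h.abs z hz).trans (by omega)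
  fam := h.fam.trans (Nat.mul_le_mul_left _ hj)
  mem := h.mem

theorem si_step {n W j : ℕ} {w : ℕ → ℕ → ℕ} {g : Orc} {st : St} (h : SI n W j st) :
    SI n W (j + 1) (stepSt n w g st) := by
  unfold stepSt
  split_ifs
  · exact si_mono h (by omega)
  · exact si_upd h _ _ _

theorem si_iter {n W : ℕ} {w : ℕ → ℕ → ℕ} {g : Orc} (j : ℕ) :
    SI n W j ((stepSt n w g)^[j] (List.replicate n (W : ℤ), [])) := by
  induction j with
  | zero => exact si_init n W
  | succ j ih => rw [Function.iterate_succ_apply']; exact si_step ih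

theorem sz_int_le {z : ℤ} {b : ℕ} (h : z.natAbs ≤ b) : sz z ≤ 3 + b := by
  rw [sz_int]
  have := sz_nat_le z.natAbs
  rw [sz_nat] at this
  omega

theorem SI.sz_le {n W j : ℕ} {st : St} (h : SI n W j st) :
    sz st ≤ 2 * (n * (2 * (3 + (W + j)) + 1)) + 1 + (n * j) * (2 * (n * (2 * n + 1)) + 1) := by
  rw [sz_prod]
  have h1 : sz st.1 ≤ n * (2 * (3 + (W + j)) + 1) := by
    have := sz_list_le (l := st.1) (m := 3 + (W + j)) fun z hz => sz_int_le (h.abs z hz)
    rw [h.len] at this
    exact this
  have h2 : sz st.2 ≤ (n * j) * (2 * (n * (2 * n + 1)) + 1) :=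
    (sz_list_le (l := st.2) (m := n * (2 * n + 1)) h.mem).trans (Nat.mul_le_mul_right _ h.fam)
  omega

theorem ptu_listSum {l : γ → List Un} (hl : PTF l) :
    PTU (fun c => ((l c).map (fun x => x.val)).sum) := by
  have h : PTU (fun c => ((l c).flatMap (fun x => List.replicate x.val true)).length) := by
    refine PTU.length (PTF.flatMap hl ?_)
    exact PTF.replicate (PTU.val (by fun_prop)) (PTF.const true)
  refine h.of_eq fun c => ?_
  rw [List.length_flatMap]
  simp

theorem ptu_WL {L : γ → List Ent} (hL : PTF L) : PTU (fun c => WL (L c)) := by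
  have h : PTU (fun c => (((L c).map (fun e => Un.mk (e.2.2.val + 1))).map (fun x => x.val)).sum) := by
    refine ptu_listSum (PTF.map hL ?_)
    have : PTU (fun p : γ × Ent => p.2.2.2.val + 1) := PTU.succ (PTU.val (by fun_prop))
    exact this
  refine h.of_eq fun c => ?_
  unfold WL
  rw [List.map_map]
  rfl

theorem ptf_run {g : Un × List (List Bool) → List Bool} (hg : PTF g) {p : γ → P} (hp : PTF p)
    {W : γ → ℕ} (hW : PTU W) :
    PTF (fun c => run (p c).1.val (wP (p c)) g (W c)) := by
  have hn : PTU (fun c => (p c).1.val) := PTU.val (by fun_prop)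
  have hf : PTU (fun c => (p c).1.val * W c + 1) := PTU.succ (PTU.mul hn hW)
  unfold run
  refine PTF.iterate' (B := fun c => 2 * ((p c).1.val * (2 * (3 + (W c +
    ((p c).1.val * W c + 1))) + 1)) + 1 + ((p c).1.val * ((p c).1.val * W c + 1)) *
    (2 * ((p c).1.val * (2 * (p c).1.val + 1)) + 1)) hf ?_ ?_ ?_ ?_
  · exact ptf_stepSt (γ := γ × St) hg (p := fun q => p q.1) (st := fun q => q.2)
      (PTF.comp (g := p) (f := fun q : γ × St => q.1) hp PTF.fst) PTF.snd
  · exact PTF.prodMk (PTF.replicate hn (PTF.intNatCast (PTU.toPTF hW))) (PTF.const [])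
  · have h1 := hn.pb
    have h2 := hW.pb
    fun_prop
  · intro c i hi
    exact (si_mono (si_iter i) hi).sz_le

theorem ptf_dualL {n : γ → ℕ} (hn : PTU n) {st : γ → St} (hs : PTF st) :
    PTF (fun c => dualL (n c) (st c)) := by
  unfold dualL yf
  refine PTF.intAdd (PTF.intListSum (PTF.map (PTF.range hn) (by pt_solve)))
    (PTF.intListSum (PTF.map (by pt_solve) (PTF.intSub ?_ (PTF.const 1))))
  exact PTF.intNatCast (PTU.toPTF (PTU.length (by pt_solve)))

theorem ptf_opt {g : Un × List (List Bool) → List Bool} (hg : PTF g) {p : γ → P} (hp : PTF p)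
    {W : γ → ℕ} (hW : PTU W) :
    PTF (fun c => opt (p c).1.val (wP (p c)) g (W c)) := by
  have hn : PTU (fun c => (p c).1.val) := PTU.val (by fun_prop)
  have hr := ptf_run hg hp hW
  unfold opt
  refine PTF.ite (PTF.toPTPred (ptf_stop hg hp hr)) ?_ (PTF.const none)
  exact PTF.optSome (ptf_dualL hn hr)

theorem ptf_valL {g : Un × List (List Bool) → List Bool} (hg : PTF g) {p : γ → P} (hp : PTF p) :
    PTF (fun c => valL (p c).1.val g (p c).2) := by
  have hn : PTU (fun c => (p c).1.val) := PTU.val (by fun_prop)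
  have hL : PTF (fun c => (p c).2) := by fun_prop
  have hW : PTU (fun c => ((p c).1.val + 1) * WL (p c).2) :=
    PTU.mul (PTU.succ hn) (ptu_WL hL)
  have ho := ptf_opt hg hp hW
  unfold valL val
  refine ptf_optionMap ho ?_
  show PTF (fun q : γ × ℤ => (2 * q.2 / (((p q.1).1.val + 1 : ℕ) : ℤ)).toNat)
  have h1 : PTF (fun q : γ × ℤ => (((p q.1).1.val + 1 : ℕ) : ℤ)) :=
    PTF.intNatCast (PTU.toPTF (PTU.comp (n := fun c => (p c).1.val + 1)
      (f := fun q : γ × ℤ => q.1) (PTU.succ hn) PTF.fst))
  exact PTF.intToNat (PTF.intEdiv (PTF.intMul (PTF.const 2) PTF.snd) h1)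

theorem sz_dl_le (R : List Ent) (e : Ent) : sz (dl R e) ≤ sz R := by
  unfold dl
  induction R with
  | nil => simp
  | cons a l ih =>
    rw [List.filter_cons]
    split_ifs
    · simp only [sz_cons]; omega
    · simp only [sz_cons]; omega

theorem ptf_mwg {g : Un × List (List Bool) → List Bool} (hg : PTF g) : PTF (mwg g) := by
  have hv := ptf_valL (γ := Un × List Ent) hg (p := fun c => c) PTF.id
  unfold mwg
  refine ptf_optionMap hv ?_
  have he : PTF (fun c : Un × List Ent => extract c.1.val g c.2) := by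
    unfold extract
    refine PTF.foldl_add (f := fun c : Un × List Ent => delStep c.1.val g (valL c.1.val g c.2))
      PTF.snd ?_ PTF.snd (G := fun _ => 0) (PB.const 0) ?_
    · show PTF (fun q : (Un × List Ent) × List Ent × Ent =>
        delStep q.1.1.val g (valL q.1.1.val g q.1.2) q.2.1 q.2.2)
      have hd : PTF (fun q : (Un × List Ent) × List Ent × Ent => dl q.2.1 q.2.2) := by
        unfold dl
        pt_solve
      have h1 := ptf_valL (γ := (Un × List Ent) × List Ent × Ent) hg
        (p := fun q => (q.1.1, dl q.2.1 q.2.2)) (PTF.prodMk (by fun_prop) hd)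
      have h2 := ptf_valL (γ := (Un × List Ent) × List Ent × Ent) hg
        (p := fun q => q.1) (by fun_prop)
      unfold delStep
      exact PTF.ite (PTPred.eq h1 h2) hd (by fun_prop)
    · intro c b a _
      unfold delStep
      split_ifs
      · exact sz_dl_le b a
      · exact le_rfl
  have he' : PTF (fun q : (Un × List Ent) × ℕ => extract q.1.1.val g q.1.2) :=
    PTF.comp (g := fun c : Un × List Ent => extract c.1.val g c.2)
      (f := fun q : (Un × List Ent) × ℕ => q.1) he PTF.fst
  show PTF (fun q : (Un × List Ent) × ℕ => prs (extract q.1.1.val g q.1.2))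
  unfold prs
  have h3 : PTF (fun q : ((Un × List Ent) × ℕ) × (ℕ × ℕ × Un) => (q.2.1, q.2.2.1)) := by fun_prop
  exact PTF.map he' h3

/-- **the matching routine from the oracle** -/
theorem mw_of_oracle (h : Oracle) : MW := by
  obtain ⟨g, hg, hs⟩ := h
  exact ⟨mwg g, ptf_mwg hg, mwSpec hs⟩

end Crest.Agent.R304.Pd292H
end

-- ▼ part R304/MWSkew
section

/-!
# R304 / S0467, block M1a: skew-symmetric matrices and matchings

Linear algebra behind the deterministic algebraic matching routine (local search over single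
entries of a skew-symmetric matrix supported on the edges of a graph).
-/

set_option autoImplicit false
set_option linter.dupNamespace false
set_option linter.unusedSectionVars false

namespace Crest.Agent.R304.MWSkew

open Finset Matrix

section general

variable {F : Type*} [Field F] {V : Type*} [Fintype V] [DecidableEq V]

/-- skew-symmetric with zero diagonal -/
structure Skew (T : Matrix V V F) : Prop where
  anti : ∀ u v, T u v = - T v u
  diag : ∀ v, T v v = 0

theorem Skew.dot {T : Matrix V V F} (hT : Skew T) (x y : V → F) :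
    x ⬝ᵥ (T *ᵥ y) = - ((T *ᵥ x) ⬝ᵥ y) := by
  simp only [dotProduct, mulVec, Finset.mul_sum, Finset.sum_mul]
  rw [Finset.sum_comm, ← Finset.sum_neg_distrib]
  refine Finset.sum_congr rfl fun u _ => ?_
  rw [← Finset.sum_neg_distrib]
  refine Finset.sum_congr rfl fun v _ => ?_
  rw [hT.anti v u]
  ring

theorem Skew.dot_self {T : Matrix V V F} (hT : Skew T) (x : V → F) :
    x ⬝ᵥ (T *ᵥ x) = 0 := by
  simp only [dotProduct, mulVec, Finset.mul_sum]
  rw [← Finset.sum_product']
  refine Finset.sum_involution (fun p _ => (p.2, p.1)) ?_ ?_ ?_ ?_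
  · intro p _
    rw [hT.anti p.2 p.1]
    simp only
    ring
  · intro p _ hp h
    apply hp
    have h1 : p.2 = p.1 := congrArg Prod.fst h
    simp [h1, hT.diag]
  · intro p _; simp
  · intro p _; rfl

/-- the null space -/
def nul (T : Matrix V V F) : Submodule F (V → F) := LinearMap.ker T.mulVecLin

theorem mem_nul {T : Matrix V V F} {x : V → F} : x ∈ nul T ↔ T *ᵥ x = 0 := by
  simp [nul]

/-- the functional `x ↦ h ⬝ᵥ x` -/
def dotF (h : V → F) : Module.Dual F (V → F) where
  toFun x := h ⬝ᵥ x
  map_add' := dotProduct_add h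
  map_smul' a x := by simp

theorem dotF_apply (h x : V → F) : dotF h x = h ⬝ᵥ x := rfl

/-- solvability criterion -/
theorem Skew.exists_solve {T : Matrix V V F} (hT : Skew T) (h : V → F)
    (hh : ∀ x, T *ᵥ x = 0 → h ⬝ᵥ x = 0) : ∃ y, T *ᵥ y = h := by
  classical
  have h1 : dotF h ∈ (LinearMap.ker T.mulVecLin).dualAnnihilator := by
    rw [Submodule.mem_dualAnnihilator]
    intro x hx
    rw [dotF_apply]
    exact hh x (by simpa using hx)
  rw [← LinearMap.range_dualMap_eq_dualAnnihilator_ker] at h1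
  obtain ⟨ψ, hψ⟩ := h1
  let c : V → F := fun v => ψ (Pi.single v 1)
  have hc : ∀ z : V → F, ψ z = c ⬝ᵥ z := by
    intro z
    have hz : z = ∑ v, z v • (Pi.single v (1 : F) : V → F) := by
      ext w
      simp [Finset.sum_apply, Pi.single_apply]
    conv_lhs => rw [hz]
    rw [map_sum]
    simp only [dotProduct]
    refine Finset.sum_congr rfl fun v _ => ?_
    rw [map_smul]
    simp [c, mul_comm]
  refine ⟨-c, ?_⟩
  have key : ∀ x : V → F, h ⬝ᵥ x = (T *ᵥ (-c)) ⬝ᵥ x := by
    intro x
    have h2 : (T.mulVecLin.dualMap ψ) x = dotF h x := by rw [hψ]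
    rw [LinearMap.dualMap_apply, dotF_apply, Matrix.mulVecLin_apply, hc, hT.dot] at h2
    rw [← h2, mulVec_neg, neg_dotProduct]
  funext v
  have := key (Pi.single v 1)
  simpa using this.symm

/-- restriction of a matrix to a set of indices -/
def restr (T : Matrix V V F) (S : Finset V) : Matrix V V F :=
  fun u v => if u ∈ S ∧ v ∈ S then T u v else 0

theorem Skew.restr {T : Matrix V V F} (hT : Skew T) (S : Finset V) : Skew (restr T S) where
  anti u v := by
    unfold MWSkew.restr
    by_cases hu : u ∈ S <;> by_cases hv : v ∈ S <;> simp [hu, hv, hT.anti u v]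
  diag v := by
    unfold MWSkew.restr
    simp [hT.diag]

/-- `T[S]` is nonsingular -/
def NonSing (T : Matrix V V F) (S : Finset V) : Prop :=
  ∀ x : V → F, (∀ v, v ∉ S → x v = 0) → (∀ v ∈ S, (T *ᵥ x) v = 0) → x = 0

theorem restr_mulVec {T : Matrix V V F} {S : Finset V} (x : V → F) {v : V} (hv : v ∈ S) :
    (restr T S *ᵥ x) v = (T *ᵥ (fun u => if u ∈ S then x u else 0)) v := by
  simp only [mulVec, dotProduct]
  refine Finset.sum_congr rfl fun u _ => ?_
  unfold restr
  by_cases hu : u ∈ S <;> simp [hu, hv]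

theorem NonSing.solve {T : Matrix V V F} (hT : Skew T) {S : Finset V} (hS : NonSing T S)
    {v : V} (hv : v ∈ S) : ∃ x : V → F, (∀ u, u ∉ S → x u = 0) ∧
      ∀ u ∈ S, (T *ᵥ x) u = if u = v then 1 else 0 := by
  classical
  obtain ⟨y, hy⟩ := (hT.restr S).exists_solve (Pi.single v 1) (by
    intro x hx
    have h0 : (fun u => if u ∈ S then x u else 0) = 0 := by
      apply hS
      · intro u hu; simp [hu]
      · intro u hu
        rw [← restr_mulVec x hu, hx]; rfl
    have := congrFun h0 v
    simpa [hv] using this)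
  refine ⟨fun u => if u ∈ S then y u else 0, fun u hu => by simp [hu], fun u hu => ?_⟩
  rw [← restr_mulVec y hu, hy]
  simp [Pi.single_apply]

/-- dot product against a vector supported on `S` only sees the values on `S` -/
theorem dot_supp {S : Finset V} {x z : V → F} (hx : ∀ u, u ∉ S → x u = 0) :
    x ⬝ᵥ z = ∑ u ∈ S, x u * z u := by
  simp only [dotProduct]
  symm
  apply Finset.sum_subset (Finset.subset_univ S)
  intro u _ hu
  simp [hx u hu]

/-- pairing with a solution of `T q = e_v` on `S` -/
theorem dot_solve {T : Matrix V V F} {S : Finset V} {p q : V → F} {v : V} (hv : v ∈ S)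
    (hp : ∀ u, u ∉ S → p u = 0) (hq : ∀ u ∈ S, (T *ᵥ q) u = if u = v then 1 else 0) :
    p ⬝ᵥ (T *ᵥ q) = p v := by
  rw [dot_supp hp]
  have : ∀ u ∈ S, p u * (T *ᵥ q) u = if u = v then p u else 0 := by
    intro u hu
    rw [hq u hu]
    split_ifs <;> simp
  rw [Finset.sum_congr rfl this]
  simp [hv]

/-- a nonsingular skew-symmetric matrix supported on the edges of a graph: the graph has a
perfect matching -/
theorem exists_pm_of_nonSing {T : Matrix V V F} (hT : Skew T) :
    ∀ (m : ℕ) (S : Finset V), S.card = m → NonSing T S →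
      ∃ f : V → V, ∀ v ∈ S, f v ∈ S ∧ f (f v) = v ∧ T v (f v) ≠ 0 := by
  classical
  intro m
  induction m using Nat.strong_induction_on with
  | _ m ih =>
  intro S hm hS
  rcases S.eq_empty_or_nonempty with rfl | ⟨v, hv⟩
  · exact ⟨id, by simp⟩
  obtain ⟨x, hx0, hx⟩ := hS.solve hT hv
  -- `x v = 0`
  have hxv : x v = 0 := by
    have h := hT.dot_self x
    rwa [dot_solve hv hx0 hx] at h
  -- a neighbour `u` of `v` with `x u ≠ 0`
  obtain ⟨u, hu⟩ : ∃ u, T v u * x u ≠ 0 := by
    by_contra hcon
    push Not at hcon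
    have h := hx v hv
    simp only [mulVec, dotProduct, if_true] at h
    rw [Finset.sum_eq_zero (fun u _ => hcon u)] at h
    exact zero_ne_one h
  have hTvu : T v u ≠ 0 := left_ne_zero_of_mul hu
  have hxu : x u ≠ 0 := right_ne_zero_of_mul hu
  have huS : u ∈ S := by
    by_contra h
    exact hxu (hx0 u h)
  have huv : u ≠ v := by
    rintro rfl
    exact hxu hxv
  obtain ⟨x', hx'0, hx'⟩ := hS.solve hT huS
  have hx'u : x' u = 0 := by
    have h := hT.dot_self x'
    rwa [dot_solve huS hx'0 hx'] at h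
  have hx'v : x' v = - x u := by
    have h := hT.dot x x'
    rw [dot_solve huS hx0 hx', dotProduct_comm, dot_solve hv hx'0 hx] at h
    rw [h]; ring
  -- the smaller set is nonsingular
  have hS' : NonSing T ((S.erase u).erase v) := by
    intro z hz0 hz
    have hz0' : ∀ w, w ∉ S → z w = 0 := fun w hw => hz0 w (by
      intro h; exact hw (Finset.mem_of_mem_erase (Finset.mem_of_mem_erase h)))
    have hzu : z u = 0 := hz0 u (by simp)
    have hzv : z v = 0 := hz0 v (by simp)
    have hTz : ∀ w ∈ S, w ≠ u → w ≠ v → (T *ᵥ z) w = 0 := fun w hw h1 h2 =>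
      hz w (Finset.mem_erase.2 ⟨h2, Finset.mem_erase.2 ⟨h1, hw⟩⟩)
    have pairing : ∀ p : V → F, (∀ w, w ∉ S → p w = 0) →
        p ⬝ᵥ (T *ᵥ z) = p u * (T *ᵥ z) u + p v * (T *ᵥ z) v := by
      intro p hp
      rw [dot_supp hp, ← Finset.add_sum_erase S _ huS,
        ← Finset.add_sum_erase (S.erase u) _ (Finset.mem_erase.2 ⟨huv.symm, hv⟩),
        Finset.sum_eq_zero, add_zero]
      intro w hw
      rw [hz w hw, mul_zero]
    have h1 : (T *ᵥ z) u = 0 := by
      have h := hT.dot x z
      rw [pairing x hx0, hxv, dotProduct_comm, dot_solve hv hz0' hx, hzv] at h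
      have h' : x u * (T *ᵥ z) u = 0 := by simpa using h
      exact (mul_eq_zero.1 h').resolve_left hxu
    have h2 : (T *ᵥ z) v = 0 := by
      have h := hT.dot x' z
      rw [pairing x' hx'0, hx'u, hx'v, dotProduct_comm, dot_solve huS hz0' hx', hzu] at h
      have h' : x u * (T *ᵥ z) v = 0 := by simpa using h
      exact (mul_eq_zero.1 h').resolve_left hxu
    apply hS z hz0'
    intro w hw
    by_cases hwu : w = u
    · rw [hwu, h1]
    by_cases hwv : w = v
    · rw [hwv, h2]
    exact hTz w hw hwu hwv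
  have hcard : ((S.erase u).erase v).card < m := by
    rw [← hm]
    exact (Finset.card_erase_le).trans_lt (Finset.card_erase_lt_of_mem huS)
  obtain ⟨f, hf⟩ := ih _ hcard _ rfl hS'
  refine ⟨fun w => if w = u then v else if w = v then u else f w, ?_⟩
  intro w hw
  by_cases hwu : w = u
  · subst hwu
    simp [hv, huv.symm]
    rw [hT.anti]; simpa using hTvu
  by_cases hwv : w = v
  · subst hwv
    simp [huS, hwu, hTvu]
  have hw' : w ∈ (S.erase u).erase v := Finset.mem_erase.2 ⟨hwv, Finset.mem_erase.2 ⟨hwu, hw⟩⟩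
  obtain ⟨h1, h2, h3⟩ := hf w hw'
  have hfu : f w ≠ u := by
    intro h; rw [h] at h1; simp at h1
  have hfv : f w ≠ v := by
    intro h; rw [h] at h1; simp at h1
  simp only [hwu, hwv, if_false, hfu, hfv]
  exact ⟨Finset.mem_of_mem_erase (Finset.mem_of_mem_erase h1), h2, h3⟩

end general

end Crest.Agent.R304.MWSkew
end

-- ▼ part R304/MWNull
section

/-!
# R304 / S0467, block M1b: null basis by elimination

Abstract elimination on lists of vectors over a field and its implementation on lists of natural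
numbers modulo a prime.
-/

set_option autoImplicit false
set_option linter.dupNamespace false
set_option linter.unusedSectionVars false

namespace Crest.Agent.R304.MWNull

open Matrix Crest.Agent.R304.MWSkew

section abs

variable {F : Type*} [Field F] [DecidableEq F] {V : Type*} [Fintype V] [DecidableEq V]

/-- span of the members of a list -/
def lspan (B : List (V → F)) : Submodule F (V → F) := Submodule.span F {x | x ∈ B}

/-- one elimination step -/
def stepA (r : V → F) (B : List (V → F)) : List (V → F) :=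
  match B.dropWhile (fun b => decide (r ⬝ᵥ b = 0)) with
  | [] => B
  | b0 :: post => B.takeWhile (fun b => decide (r ⬝ᵥ b = 0)) ++
      post.map (fun b => (r ⬝ᵥ b0) • b - (r ⬝ᵥ b) • b0)

/-- good lists: the members are a basis of their span (counted) -/
def Good (B : List (V → F)) : Prop := B.length = Module.finrank F (lspan B)

theorem mem_lspan_of_mem {B : List (V → F)} {b : V → F} (h : b ∈ B) : b ∈ lspan B :=
  Submodule.subset_span h

theorem stepA_spec (r : V → F) (B : List (V → F)) (hB : Good B) :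
    Good (stepA r B) ∧ ∀ x, x ∈ lspan (stepA r B) ↔ x ∈ lspan B ∧ r ⬝ᵥ x = 0 := by
  classical
  unfold stepA
  rcases hd : B.dropWhile (fun b => decide (r ⬝ᵥ b = 0)) with _ | ⟨b0, post⟩
  · -- all dot products vanish
    have hall : ∀ b ∈ B, r ⬝ᵥ b = 0 := by
      rw [List.dropWhile_eq_nil_iff] at hd
      intro b hb
      simpa using hd b hb
    refine ⟨hB, fun x => ⟨fun hx => ⟨hx, ?_⟩, fun hx => hx.1⟩⟩
    have : lspan B ≤ LinearMap.ker (dotF r) := by
      rw [lspan, Submodule.span_le]
      intro b hb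
      exact hall b hb
    exact this hx
  · simp only
    set pre := B.takeWhile (fun b => decide (r ⬝ᵥ b = 0)) with hpre
    have hsplit : B = pre ++ b0 :: post := by
      rw [hpre, ← hd, List.takeWhile_append_dropWhile]
    have hpre0 : ∀ b ∈ pre, r ⬝ᵥ b = 0 := by
      intro b hb
      have := List.mem_takeWhile_imp hb
      simpa using this
    have hb0 : r ⬝ᵥ b0 ≠ 0 := by
      have h1 := List.head?_dropWhile_not (fun b => decide (r ⬝ᵥ b = 0)) B
      rw [hd] at h1
      simpa using h1
    set N := lspan (pre ++ post.map (fun b => (r ⬝ᵥ b0) • b - (r ⬝ᵥ b) • b0)) with hN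
    have hpreB : ∀ b ∈ pre, b ∈ lspan B := fun b hb =>
      mem_lspan_of_mem (by rw [hsplit]; simp [hb])
    have hpostB : ∀ b ∈ post, b ∈ lspan B := fun b hb =>
      mem_lspan_of_mem (by rw [hsplit]; simp [hb])
    have hb0B : b0 ∈ lspan B := mem_lspan_of_mem (by rw [hsplit]; simp)
    have hNle : N ≤ lspan B ⊓ LinearMap.ker (dotF r) := by
      rw [hN, lspan, Submodule.span_le]
      intro x hx
      replace hx : x ∈ pre ++ post.map (fun b => (r ⬝ᵥ b0) • b - (r ⬝ᵥ b) • b0) := hx
      simp only [List.mem_append, List.mem_map] at hx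
      rcases hx with hx | ⟨b, hb, rfl⟩
      · exact ⟨hpreB x hx, hpre0 x hx⟩
      · refine ⟨Submodule.sub_mem _ (Submodule.smul_mem _ _ (hpostB b hb))
          (Submodule.smul_mem _ _ hb0B), ?_⟩
        show r ⬝ᵥ ((r ⬝ᵥ b0) • b - (r ⬝ᵥ b) • b0) = 0
        rw [dotProduct_sub, dotProduct_smul, dotProduct_smul, smul_eq_mul, smul_eq_mul]
        ring
    have hBle : lspan B ≤ N ⊔ Submodule.span F {b0} := by
      refine Submodule.span_le.2 ?_
      intro b hb
      replace hb : b ∈ B := hb
      rw [hsplit, List.mem_append, List.mem_cons] at hb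
      have hb0' : b0 ∈ N ⊔ Submodule.span F {b0} :=
        Submodule.mem_sup_right (Submodule.mem_span_singleton_self b0)
      rcases hb with hb | rfl | hb
      · exact Submodule.mem_sup_left (mem_lspan_of_mem (List.mem_append_left _ hb))
      · exact hb0'
      · have h1 : (r ⬝ᵥ b0) • b - (r ⬝ᵥ b) • b0 ∈ N ⊔ Submodule.span F {b0} :=
          Submodule.mem_sup_left (mem_lspan_of_mem (List.mem_append_right _
            (List.mem_map.2 ⟨b, hb, rfl⟩)))
        have h2 : b = (r ⬝ᵥ b0)⁻¹ • (((r ⬝ᵥ b0) • b - (r ⬝ᵥ b) • b0) + (r ⬝ᵥ b) • b0) := by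
          rw [sub_add_cancel, smul_smul, inv_mul_cancel₀ hb0, one_smul]
        rw [SetLike.mem_coe, h2]
        exact Submodule.smul_mem _ _ (Submodule.add_mem _ h1 (Submodule.smul_mem _ _ hb0'))
    have hmem : ∀ x, x ∈ N ↔ x ∈ lspan B ∧ r ⬝ᵥ x = 0 := by
      intro x
      refine ⟨fun hx => ⟨(hNle hx).1, (hNle hx).2⟩, fun ⟨hx, hrx⟩ => ?_⟩
      obtain ⟨y, hy, z, hz, rfl⟩ := Submodule.mem_sup.1 (hBle hx)
      obtain ⟨t, rfl⟩ := Submodule.mem_span_singleton.1 hz
      have hy0 : r ⬝ᵥ y = 0 := (hNle hy).2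
      rw [dotProduct_add, hy0, zero_add, dotProduct_smul, smul_eq_mul] at hrx
      have ht : t = 0 := (mul_eq_zero.1 hrx).resolve_right hb0
      rw [ht, zero_smul, add_zero]
      exact hy
    refine ⟨?_, hmem⟩
    have hBeq : lspan B = N ⊔ Submodule.span F {b0} := by
      apply le_antisymm hBle
      refine sup_le (fun x hx => (hNle hx).1) ?_
      rw [Submodule.span_singleton_le_iff_mem]
      exact hb0B
    have hinf : N ⊓ Submodule.span F {b0} = ⊥ := by
      rw [Submodule.eq_bot_iff]
      rintro x ⟨hx1, hx2⟩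
      obtain ⟨t, rfl⟩ := Submodule.mem_span_singleton.1 hx2
      have h0 : r ⬝ᵥ (t • b0) = 0 := (hNle hx1).2
      rw [dotProduct_smul, smul_eq_mul] at h0
      rw [(mul_eq_zero.1 h0).resolve_right hb0, zero_smul]
    have hdim := Submodule.finrank_sup_add_finrank_inf_eq N (Submodule.span F {b0})
    rw [hinf, finrank_bot, add_zero, ← hBeq, finrank_span_singleton (by
      rintro rfl
      exact hb0 (by simp))] at hdim
    have hlen : B.length = (pre ++ post.map
        (fun b => (r ⬝ᵥ b0) • b - (r ⬝ᵥ b) • b0)).length + 1 := by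
      conv_lhs => rw [hsplit]
      simp
      omega
    unfold Good at hB ⊢
    rw [← hN]
    omega

/-- elimination with a list of rows -/
theorem foldl_spec (R : List (V → F)) (B : List (V → F)) (hB : Good B) :
    Good (R.foldl (fun B r => stepA r B) B) ∧
      ∀ x, x ∈ lspan (R.foldl (fun B r => stepA r B) B) ↔ x ∈ lspan B ∧ ∀ r ∈ R, r ⬝ᵥ x = 0 := by
  induction R generalizing B with
  | nil => simp [hB]
  | cons r R ih =>
    obtain ⟨h1, h2⟩ := stepA_spec r B hB
    obtain ⟨h3, h4⟩ := ih (stepA r B) h1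
    refine ⟨h3, fun x => ?_⟩
    rw [List.foldl_cons, h4, h2]
    simp only [List.mem_cons, forall_eq_or_imp]
    tauto

theorem std_good {k : ℕ} : Good ((List.finRange k).map (fun i => (Pi.single i (1 : F) : Fin k → F)))
    ∧ ∀ x, x ∈ lspan ((List.finRange k).map (fun i => (Pi.single i (1 : F) : Fin k → F))) := by
  have h : lspan ((List.finRange k).map (fun i => (Pi.single i (1 : F) : Fin k → F))) = ⊤ := by
    rw [eq_top_iff]
    intro x _
    have hx : x = ∑ v, x v • (Pi.single v (1 : F) : Fin k → F) := by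
      ext w
      simp [Finset.sum_apply, Pi.single_apply]
    rw [hx]
    refine Submodule.sum_mem _ fun v _ => Submodule.smul_mem _ _ (mem_lspan_of_mem ?_)
    exact List.mem_map.2 ⟨v, List.mem_finRange v, rfl⟩
  refine ⟨?_, fun x => by rw [h]; trivial⟩
  unfold Good
  rw [h, finrank_top, Module.finrank_fintype_fun_eq_card, List.length_map, List.length_finRange,
    Fintype.card_fin]

/-- the rows of a matrix, eliminated from the standard basis: a basis of the null space -/
theorem null_spec {k : ℕ} (T : Matrix (Fin k) (Fin k) F) :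
    (((List.finRange k).map T).foldl (fun B r => stepA r B)
      ((List.finRange k).map (fun i => (Pi.single i (1 : F) : Fin k → F)))).length
        = Module.finrank F (nul T) ∧
    lspan (((List.finRange k).map T).foldl (fun B r => stepA r B)
      ((List.finRange k).map (fun i => (Pi.single i (1 : F) : Fin k → F)))) = nul T := by
  obtain ⟨h1, h2⟩ := foldl_spec ((List.finRange k).map T)
    ((List.finRange k).map (fun i => (Pi.single i (1 : F) : Fin k → F))) std_good.1
  have h3 : lspan (((List.finRange k).map T).foldl (fun B r => stepA r B)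
      ((List.finRange k).map (fun i => (Pi.single i (1 : F) : Fin k → F)))) = nul T := by
    ext x
    rw [h2, mem_nul]
    constructor
    · rintro ⟨_, h⟩
      funext i
      exact h (T i) (List.mem_map.2 ⟨i, List.mem_finRange i, rfl⟩)
    · intro h
      refine ⟨std_good.2 x, ?_⟩
      intro r hr
      obtain ⟨i, _, rfl⟩ := List.mem_map.1 hr
      exact congrFun h i
  exact ⟨by rw [← h3]; exact h1, h3⟩

/-- membership in the support of the span -/
theorem supp_iff (B : List (V → F)) (v : V) :
    (∃ x ∈ lspan B, x v ≠ 0) ↔ ∃ b ∈ B, b v ≠ 0 := by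
  constructor
  · rintro ⟨x, hx, hxv⟩
    by_contra hcon
    push Not at hcon
    have : lspan B ≤ LinearMap.ker (LinearMap.proj v : (V → F) →ₗ[F] F) := by
      rw [lspan, Submodule.span_le]
      intro b hb
      exact hcon b hb
    exact hxv (this hx)
  · rintro ⟨b, hb, h⟩
    exact ⟨b, mem_lspan_of_mem hb, h⟩

end abs

end Crest.Agent.R304.MWNull
end

-- ▼ part R304/MWOpt
section

/-!
# R304 / S0467, block M1a: locally optimal skew-symmetric matrices

If no change of a single entry increases (rank, support of the null space), the null space shows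
the Gallai--Edmonds structure of the graph.
-/

set_option autoImplicit false
set_option linter.dupNamespace false
set_option linter.unusedSectionVars false

namespace Crest.Agent.R304.MWOpt

open Finset Matrix Crest.Agent.R304.MWSkew

variable {F : Type*} [Field F] {V : Type*} [Fintype V] [DecidableEq V]

/-- change the entry `(i, j)` by `a` (skew-symmetrically) -/
def bump (T : Matrix V V F) (i j : V) (a : F) : Matrix V V F :=
  fun u v => T u v + (if u = i ∧ v = j then a else 0) - (if u = j ∧ v = i then a else 0)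

theorem bump_skew {T : Matrix V V F} (hT : Skew T) {i j : V} (hij : i ≠ j) (a : F) :
    Skew (bump T i j a) where
  anti u v := by
    unfold bump
    rw [hT.anti u v]
    by_cases h1 : u = i ∧ v = j <;> by_cases h2 : u = j ∧ v = i
    · exact absurd (h1.1.symm.trans h2.1) hij
    · rw [if_pos h1, if_neg h2, if_neg (fun h => h2 ⟨h.2, h.1⟩), if_pos ⟨h1.2, h1.1⟩]; ring
    · rw [if_neg h1, if_pos h2, if_pos ⟨h2.2, h2.1⟩, if_neg (fun h => h1 ⟨h.2, h.1⟩)]; ring
    · rw [if_neg h1, if_neg h2, if_neg (fun h => h2 ⟨h.2, h.1⟩),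
        if_neg (fun h => h1 ⟨h.2, h.1⟩)]; ring
  diag v := by
    unfold bump
    rw [hT.diag, if_neg (fun h => hij (h.1.symm.trans h.2)),
      if_neg (fun h => hij (h.2.symm.trans h.1))]; ring

theorem bump_mulVec (T : Matrix V V F) {i j : V} (a : F) (x : V → F) :
    bump T i j a *ᵥ x = T *ᵥ x + (a * x j) • (Pi.single i (1 : F) : V → F)
      - (a * x i) • (Pi.single j (1 : F) : V → F) := by
  ext u
  simp only [mulVec, dotProduct, bump, Pi.add_apply, Pi.sub_apply, Pi.smul_apply,
    Pi.single_apply, smul_eq_mul]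
  simp only [sub_mul, add_mul, Finset.sum_sub_distrib, Finset.sum_add_distrib]
  congr 1
  · congr 1
    by_cases hu : u = i
    · simp [hu]
    · simp [hu]
  · by_cases hu : u = j
    · simp [hu]
    · simp [hu]

/-- the support of the null space -/
def Dset (T : Matrix V V F) : Set V := {v | ∃ x ∈ nul T, x v ≠ 0}

/-- local optimality with respect to changes of single entries on edges -/
structure LocOpt (adj : V → V → Prop) (T : Matrix V V F) : Prop where
  rank : ∀ i j, adj i j → ∀ a : F,
    Module.finrank F (nul T) ≤ Module.finrank F (nul (bump T i j a))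
  supp : ∀ i j, adj i j → ∀ a : F,
    Module.finrank F (nul (bump T i j a)) = Module.finrank F (nul T) →
      ¬ (Dset T ⊂ Dset (bump T i j a))

/-- null vectors are orthogonal to the image -/
theorem nul_dot {T : Matrix V V F} (hT : Skew T) {n : V → F} (hn : n ∈ nul T) (x : V → F) :
    n ⬝ᵥ (T *ᵥ x) = 0 := by
  rw [hT.dot, mem_nul.1 hn, zero_dotProduct, neg_zero]

theorem bump_nul_rel {T : Matrix V V F} (hT : Skew T) {i j : V} {a : F} (ha : a ≠ 0)
    {x : V → F} (hx : x ∈ nul (bump T i j a)) {n : V → F} (hn : n ∈ nul T) :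
    x j * n i = x i * n j := by
  have h := mem_nul.1 hx
  rw [bump_mulVec] at h
  have h2 : n ⬝ᵥ (T *ᵥ x + (a * x j) • (Pi.single i (1 : F) : V → F)
      - (a * x i) • (Pi.single j (1 : F) : V → F)) = 0 := by rw [h, dotProduct_zero]
  rw [dotProduct_sub, dotProduct_add, nul_dot hT hn, dotProduct_smul, dotProduct_smul] at h2
  simp only [dotProduct_single, mul_one, smul_eq_mul, zero_add] at h2
  have h3 : a * (x j * n i - x i * n j) = 0 := by linear_combination h2
  exact sub_eq_zero.1 ((mul_eq_zero.1 h3).resolve_left ha)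

/-- (A) adjacent coordinates in the support are proportional on the null space -/
theorem LocOpt.prop {adj : V → V → Prop} {T : Matrix V V F} (hT : Skew T) (hL : LocOpt adj T)
    {i j : V} (hij : adj i j) (hj : j ∈ Dset T) :
    ∃ c : F, ∀ x ∈ nul T, x i = c * x j := by
  by_contra hcon
  push Not at hcon
  -- then the null space gets strictly smaller
  obtain ⟨nj, hnj, hnj0⟩ := hj
  have hi : ∃ x ∈ nul T, x i ≠ 0 := by
    obtain ⟨x, hx, hx0⟩ := hcon 0
    exact ⟨x, hx, by simpa using hx0⟩
  have key : ∀ x ∈ nul (bump T i j 1), x i = 0 ∧ x j = 0 := by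
    intro x hx
    have hrel := fun n hn => bump_nul_rel hT one_ne_zero hx (n := n) hn
    have hxj : x j = 0 := by
      by_contra hxj
      obtain ⟨n, hn, hn0⟩ := hcon (x i / x j)
      apply hn0
      have := hrel n hn
      field_simp
      linear_combination this
    refine ⟨?_, hxj⟩
    have := hrel nj hnj
    rw [hxj, zero_mul] at this
    exact (mul_eq_zero.1 this.symm).resolve_right hnj0
  have hlt : nul (bump T i j 1) < nul T := by
    refine lt_of_le_of_ne ?_ ?_
    · intro x hx
      obtain ⟨h1, h2⟩ := key x hx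
      have h := mem_nul.1 hx
      rw [bump_mulVec, h1, h2] at h
      rw [mem_nul]
      simpa using h
    · intro h
      obtain ⟨x, hx, hx0⟩ := hi
      rw [← h] at hx
      exact hx0 (key x hx).1
  exact absurd (hL.rank i j hij 1) (not_le.2 (Submodule.finrank_lt_finrank_of_lt hlt))

/-- the map between the null spaces -/
def shift (j : V) (y : V → F) (a : F) : (V → F) →ₗ[F] (V → F) where
  toFun x := x + (a * x j) • y
  map_add' x z := by
    ext u; simp; ring
  map_smul' b x := by
    ext u; simp; ring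

theorem finrank_le_of_inj {W₁ W₂ : Submodule F (V → F)} (φ : (V → F) →ₗ[F] (V → F))
    (h1 : ∀ x ∈ W₁, φ x ∈ W₂) (h2 : ∀ x ∈ W₁, φ x = 0 → x = 0) :
    Module.finrank F W₁ ≤ Module.finrank F W₂ := by
  let ψ : W₁ →ₗ[F] W₂ := (φ.domRestrict W₁).codRestrict W₂ (fun x => h1 x x.2)
  have hψ : Function.Injective ψ := by
    rw [← LinearMap.ker_eq_bot, LinearMap.ker_eq_bot']
    intro x hx
    apply Subtype.ext
    apply h2 x x.2
    exact congrArg Subtype.val hx
  exact LinearMap.finrank_le_finrank_of_injective hψ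

/-- (B) solutions of `T y = c e_j - e_i` are supported on `D` -/
theorem LocOpt.supported {adj : V → V → Prop} {T : Matrix V V F} [Fintype F] [DecidableEq F]
    (hcard : Fintype.card V < Fintype.card F)
    (hT : Skew T) (hL : LocOpt adj T)
    {i j : V} (hij : adj i j) (hj : j ∈ Dset T) {c : F} (hc : ∀ x ∈ nul T, x i = c * x j)
    {y : V → F} (hy : T *ᵥ y = c • (Pi.single j (1 : F) : V → F) - Pi.single i 1)
    {k : V} (hk : k ∉ Dset T) : y k = 0 := by
  classical
  by_contra hyk
  obtain ⟨n, hn, hnj⟩ := hj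
  have hk0 : ∀ x ∈ nul T, x k = 0 := by
    intro x hx
    by_contra h
    exact hk ⟨x, hx, h⟩
  -- normalise
  set z : V → F := y - (y j / n j) • n with hz
  have hzj : z j = 0 := by
    simp [hz, hnj]
  have hTz : T *ᵥ z = c • (Pi.single j (1 : F) : V → F) - Pi.single i 1 := by
    rw [hz, mulVec_sub, mulVec_smul, mem_nul.1 hn, smul_zero, sub_zero, hy]
  have hzk : z k ≠ 0 := by
    simp only [hz, Pi.sub_apply, Pi.smul_apply, hk0 n hn, smul_zero, sub_zero]
    exact hyk
  have hzi : z i = 0 := by
    have h := hT.dot_self z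
    rw [hTz, dotProduct_sub, dotProduct_smul] at h
    simp only [dotProduct_single, mul_one, hzj, smul_zero, zero_sub] at h
    simpa using h
  -- a good value `a`
  obtain ⟨a, ha0, ha⟩ : ∃ a : F, a ≠ 0 ∧ ∀ d, d ∈ Dset T → ∃ x ∈ nul T, x d + a * x j * z d ≠ 0 := by
    by_contra hcon
    push Not at hcon
    have : Nonempty V := ⟨k⟩
    choose! d hd1 hd2 using hcon
    have hinj : Set.InjOn d {a | a ≠ 0} := by
      intro a ha b hb hab
      by_contra hne
      have h1 := hd2 a ha
      have h2 := hd2 b hb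
      rw [← hab] at h2
      have h3 := h1 n hn
      have h4 := h2 n hn
      have h5 : (a - b) * (n j * z (d a)) = 0 := by linear_combination h3 - h4
      have h6 : n j * z (d a) = 0 := (mul_eq_zero.1 h5).resolve_left (sub_ne_zero.2 hne)
      have h7 : z (d a) = 0 := (mul_eq_zero.1 h6).resolve_left hnj
      obtain ⟨x, hx, hx0⟩ := hd1 a ha
      apply hx0
      have := h1 x hx
      rw [h7, mul_zero, add_zero] at this
      exact this
    have hsub : (Finset.univ.filter fun a : F => a ≠ 0).card ≤ (Finset.univ.erase k).card := by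
      apply Finset.card_le_card_of_injOn d
      · intro a ha
        have ha' : a ≠ 0 := by simpa using ha
        simp only [Finset.coe_erase, Finset.coe_univ, Set.mem_sdiff, Set.mem_univ, true_and,
          Set.mem_singleton_iff]
        intro h
        exact hk (h ▸ hd1 a ha')
      · intro a ha b hb hab
        exact hinj (by simpa using ha) (by simpa using hb) hab
    rw [Finset.filter_ne' Finset.univ (0 : F), Finset.card_erase_of_mem (Finset.mem_univ _),
      Finset.card_erase_of_mem (Finset.mem_univ _), Finset.card_univ, Finset.card_univ] at hsub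
    have : 0 < Fintype.card V := Fintype.card_pos_iff.2 ⟨k⟩
    omega
  -- the null space of the changed matrix
  have hfwd : ∀ x ∈ nul T, x + (a * x j) • z ∈ nul (bump T i j a) := by
    intro x hx
    rw [mem_nul, bump_mulVec, mulVec_add, mulVec_smul, mem_nul.1 hx, hTz]
    simp only [Pi.add_apply, Pi.smul_apply, hzj, hzi, smul_zero, add_zero, hc x hx]
    ext u
    simp only [Pi.add_apply, Pi.sub_apply, Pi.smul_apply, smul_eq_mul, Pi.zero_apply]
    ring
  have hbwd : ∀ x ∈ nul (bump T i j a), x - (a * x j) • z ∈ nul T := by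
    intro x hx
    have h1 := bump_nul_rel hT ha0 hx hn
    rw [hc n hn] at h1
    have h2 : x i = c * x j := by
      have : n j * (c * x j - x i) = 0 := by linear_combination h1
      exact (sub_eq_zero.1 ((mul_eq_zero.1 this).resolve_left hnj)).symm
    have h3 := mem_nul.1 hx
    rw [bump_mulVec] at h3
    rw [mem_nul, mulVec_sub, mulVec_smul, hTz]
    have h4 : T *ᵥ x = (a * x i) • (Pi.single j (1 : F) : V → F)
        - (a * x j) • (Pi.single i (1 : F) : V → F) := by
      have := h3
      ext u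
      have h5 := congrFun h3 u
      simp only [Pi.add_apply, Pi.sub_apply, Pi.zero_apply] at h5 ⊢
      linear_combination h5
    rw [h4, h2]
    ext u
    simp only [Pi.sub_apply, Pi.smul_apply, smul_eq_mul, Pi.zero_apply]
    ring
  have hrank : Module.finrank F (nul (bump T i j a)) = Module.finrank F (nul T) := by
    apply le_antisymm
    · refine finrank_le_of_inj (shift j z (-a)) ?_ ?_
      · intro x hx
        have := hbwd x hx
        convert this using 1
        ext u
        simp [shift]
        ring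
      · intro x hx h
        have hj' := congrFun h j
        simp [shift, hzj] at hj'
        ext u
        have := congrFun h u
        simpa [shift, hj'] using this
    · refine finrank_le_of_inj (shift j z a) ?_ ?_
      · intro x hx
        exact hfwd x hx
      · intro x hx h
        have hj' := congrFun h j
        simp [shift, hzj] at hj'
        ext u
        have := congrFun h u
        simpa [shift, hj'] using this
  apply hL.supp i j hij a hrank
  rw [Set.ssubset_iff_exists]
  refine ⟨fun d hd => ?_, k, ?_, hk⟩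
  · obtain ⟨x, hx, hx0⟩ := ha d hd
    exact ⟨_, hfwd x hx, by simpa using hx0⟩
  · refine ⟨_, hfwd n hn, ?_⟩
    simp only [Pi.add_apply, Pi.smul_apply, hk0 n hn, zero_add, smul_eq_mul]
    exact mul_ne_zero (mul_ne_zero ha0 hnj) hzk

end Crest.Agent.R304.MWOpt
end

-- ▼ part R304/MWStruct
section

/-!
# R304 / S0467, block M1a: structure at a local optimum

`D` = support of the null space, `A` = outer neighbours of `D`. The number of components of `D`
is at least nullity + |A|, and every component is factor-critical.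
-/

set_option autoImplicit false
set_option linter.dupNamespace false
set_option linter.unusedSectionVars false

namespace Crest.Agent.R304.MWStruct

open Finset Matrix Crest.Agent.R304.MWSkew Crest.Agent.R304.MWOpt

variable {F : Type*} [Field F] {V : Type*} [Fintype V] [DecidableEq V]

/-- The hypotheses: a skew-symmetric matrix supported on the edges of a symmetric graph, locally
optimal, over a field with more than `|V|` elements. -/
structure Hyp (adj : V → V → Prop) (T : Matrix V V F) [Fintype F] : Prop where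
  card : Fintype.card V < Fintype.card F
  symm : ∀ i j, adj i j → adj j i
  edge : ∀ i j, T i j ≠ 0 → adj i j
  skew : Skew T
  opt : LocOpt adj T

/-- outer neighbours of the support of the null space -/
def Aset (adj : V → V → Prop) (T : Matrix V V F) : Set V :=
  {j | j ∉ Dset T ∧ ∃ i ∈ Dset T, adj i j}

/-- vectors whose image is supported on `A` -/
def Wsp (adj : V → V → Prop) (T : Matrix V V F) : Submodule F (V → F) where
  carrier := {z | ∀ w, w ∉ Aset adj T → (T *ᵥ z) w = 0}
  add_mem' := by
    intro a b ha hb w hw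
    rw [mulVec_add, Pi.add_apply, ha w hw, hb w hw, add_zero]
  zero_mem' := by
    intro w _
    rw [mulVec_zero]; rfl
  smul_mem' := by
    intro c a ha w hw
    rw [mulVec_smul, Pi.smul_apply, ha w hw, smul_zero]


theorem notD {T : Matrix V V F} {k : V} (hk : k ∉ Dset T) {x : V → F} (hx : x ∈ nul T) :
    x k = 0 := by
  by_contra h
  exact hk ⟨x, hx, h⟩

theorem exists_y {T : Matrix V V F} (hT : Skew T) {j : V} (hj : j ∉ Dset T) :
    ∃ y, T *ᵥ y = Pi.single j (1 : F) := by
  apply hT.exists_solve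
  intro x hx
  have := notD hj (mem_nul.2 hx)
  simp [this]

variable [Fintype F]

theorem Hyp.y_supp {adj : V → V → Prop} {T : Matrix V V F} (H : Hyp adj T) {j : V}
    (hj : j ∈ Aset adj T) {y : V → F} (hy : T *ᵥ y = Pi.single j (1 : F)) {k : V}
    (hk : k ∉ Dset T) : y k = 0 := by
  classical
  obtain ⟨hjD, i, hi, hij⟩ := hj
  have := H.opt.supported H.card H.skew (H.symm i j hij) hi (c := 0)
    (fun x hx => by rw [notD hjD hx, zero_mul]) (y := -y)
    (by rw [mulVec_neg, hy, zero_smul, zero_sub]) hk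
  simpa using this

/-- (W1) -/
theorem Hyp.W_supp {adj : V → V → Prop} {T : Matrix V V F} (H : Hyp adj T) {z : V → F}
    (hz : z ∈ Wsp adj T) {k : V} (hk : k ∉ Dset T) : z k = 0 := by
  obtain ⟨y, hy⟩ := exists_y H.skew hk
  have h := H.skew.dot z y
  rw [hy, dotProduct_single, mul_one] at h
  rw [h, neg_eq_zero]
  simp only [dotProduct]
  refine Finset.sum_eq_zero fun w _ => ?_
  by_cases hw : w ∈ Aset adj T
  · obtain ⟨yw, hyw⟩ := exists_y H.skew hw.1
    have h1 := H.skew.dot yw y
    rw [hy, hyw, dotProduct_single, mul_one, single_dotProduct, one_mul,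
      H.y_supp hw hyw hk] at h1
    rw [neg_eq_zero.1 h1.symm, mul_zero]
  · rw [hz w hw, zero_mul]

/-- (W2) -/
theorem Hyp.W_prop {adj : V → V → Prop} {T : Matrix V V F} (H : Hyp adj T) {i j : V}
    (hij : adj i j) (hi : i ∈ Dset T) (hj : j ∈ Dset T) :
    ∃ c : F, c ≠ 0 ∧ ∀ z ∈ Wsp adj T, z i = c * z j := by
  classical
  obtain ⟨c, hc⟩ := H.opt.prop H.skew hij hj
  have hc0 : c ≠ 0 := by
    rintro rfl
    obtain ⟨x, hx, hx0⟩ := hi
    exact hx0 (by rw [hc x hx, zero_mul])
  refine ⟨c, hc0, ?_⟩
  obtain ⟨y, hy⟩ := H.skew.exists_solve (c • (Pi.single j (1 : F) : V → F) - Pi.single i 1) (by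
    intro x hx
    rw [sub_dotProduct, smul_dotProduct, single_dotProduct, single_dotProduct, one_mul, one_mul,
      smul_eq_mul, hc x (mem_nul.2 hx), sub_self])
  have hyD : ∀ k, k ∉ Dset T → y k = 0 := fun k hk =>
    H.opt.supported H.card H.skew hij hj hc hy hk
  intro z hz
  have h := H.skew.dot z y
  rw [hy, dotProduct_sub, dotProduct_smul, dotProduct_single, dotProduct_single, mul_one,
    mul_one, smul_eq_mul] at h
  have h2 : (T *ᵥ z) ⬝ᵥ y = 0 := by
    simp only [dotProduct]
    refine Finset.sum_eq_zero fun w _ => ?_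
    by_cases hw : w ∈ Aset adj T
    · rw [hyD w hw.1, mul_zero]
    · rw [hz w hw, zero_mul]
  rw [h2, neg_zero] at h
  linear_combination -h

/-- (W3) -/
theorem Hyp.W_dim {adj : V → V → Prop} {T : Matrix V V F} (H : Hyp adj T) :
    Module.finrank F (nul T) + (Set.toFinite (Aset adj T)).toFinset.card
      ≤ Module.finrank F (Wsp adj T) := by
  classical
  set A := (Set.toFinite (Aset adj T)).toFinset with hA
  have hmemA : ∀ w, w ∈ A ↔ w ∈ Aset adj T := fun w => Set.Finite.mem_toFinset _
  -- restriction of the image to `A`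
  let φ : (Wsp adj T) →ₗ[F] (A → F) :=
    { toFun := fun z w => (T *ᵥ z.1) w.1
      map_add' := fun a b => by
        ext w; simp [mulVec_add]
      map_smul' := fun c a => by
        ext w; simp [mulVec_smul] }
  have hsurj : Function.Surjective φ := by
    intro g
    have hex : ∀ w : A, ∃ y, T *ᵥ y = Pi.single w.1 (1 : F) := fun w =>
      exists_y H.skew ((hmemA w.1).1 w.2).1
    choose y hy using hex
    have hT : T *ᵥ (∑ w : A, g w • y w) = ∑ w : A, g w • (Pi.single w.1 (1 : F) : V → F) := by
      have := map_sum T.mulVecLin (fun w : A => g w • y w) Finset.univ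
      simp only [Matrix.mulVecLin_apply] at this
      rw [this]
      refine Finset.sum_congr rfl fun w _ => ?_
      rw [mulVec_smul, hy]
    refine ⟨⟨∑ w : A, g w • y w, ?_⟩, ?_⟩
    · intro u hu
      rw [hT, Finset.sum_apply]
      refine Finset.sum_eq_zero fun w _ => ?_
      have : u ≠ w.1 := fun h => hu (h ▸ (hmemA w.1).1 w.2)
      simp [this]
    · ext u
      show (T *ᵥ (∑ w : A, g w • y w)) u.1 = g u
      rw [hT, Finset.sum_apply, Finset.sum_eq_single u]
      · simp
      · intro w _ hw
        have : u.1 ≠ w.1 := fun h => hw (Subtype.ext h.symm)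
        simp [this]
      · simp
  have hker : Module.finrank F (nul T) ≤ Module.finrank F (LinearMap.ker φ) := by
    let ψ : nul T →ₗ[F] LinearMap.ker φ :=
      { toFun := fun x => ⟨⟨x.1, fun w _ => by rw [mem_nul.1 x.2]; rfl⟩, by
          rw [LinearMap.mem_ker]
          ext w
          show (T *ᵥ x.1) w.1 = 0
          rw [mem_nul.1 x.2]; rfl⟩
        map_add' := fun a b => rfl
        map_smul' := fun c a => rfl }
    refine LinearMap.finrank_le_finrank_of_injective (f := ψ) ?_
    intro a b hab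
    have := congrArg (fun z => z.1.1) hab
    exact Subtype.ext this
  have hrn := LinearMap.finrank_range_add_finrank_ker φ
  rw [LinearMap.range_eq_top.2 hsurj, finrank_top, Module.finrank_fintype_fun_eq_card,
    Fintype.card_coe] at hrn
  omega

/-- labels of the components of `D` -/
structure Labels (adj : V → V → Prop) (T : Matrix V V F) {ι : Type*} (lab : V → ι) : Prop where
  adj_eq : ∀ i j, i ∈ Dset T → j ∈ Dset T → adj i j → lab i = lab j
  conn : ∀ i j, i ∈ Dset T → j ∈ Dset T → lab i = lab j →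
    Relation.ReflTransGen (fun a b => a ∈ Dset T ∧ b ∈ Dset T ∧ adj a b) i j

theorem Hyp.conn_zero {adj : V → V → Prop} {T : Matrix V V F} (H : Hyp adj T) {i j : V}
    (h : Relation.ReflTransGen (fun a b => a ∈ Dset T ∧ b ∈ Dset T ∧ adj a b) i j)
    {z : V → F} (hz : z ∈ Wsp adj T) (hi : z i = 0) : z j = 0 := by
  induction h with
  | refl => exact hi
  | tail _ hbc ih =>
    obtain ⟨c, hc, hcz⟩ := H.W_prop hbc.2.2 hbc.1 hbc.2.1
    have := hcz z hz
    rw [ih] at this
    exact (mul_eq_zero.1 this.symm).resolve_left hc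

/-- (W4) the number of components -/
theorem Hyp.count {adj : V → V → Prop} {T : Matrix V V F} (H : Hyp adj T) {ι : Type*}
    [DecidableEq ι] {lab : V → ι} (hlab : Labels adj T lab) (D A : Finset V)
    (hD : ∀ v, v ∈ D ↔ v ∈ Dset T) (hA : ∀ v, v ∈ A ↔ v ∈ Aset adj T) :
    Module.finrank F (nul T) + A.card ≤ (D.image lab).card := by
  classical
  have hAA : A = (Set.toFinite (Aset adj T)).toFinset := by
    ext v; rw [hA, Set.Finite.mem_toFinset]
  rw [hAA]
  refine H.W_dim.trans ?_
  -- representatives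
  have hex : ∀ l : D.image lab, ∃ v ∈ D, lab v = l.1 := fun l => Finset.mem_image.1 l.2
  choose r hr hrl using hex
  let φ : (Wsp adj T) →ₗ[F] ((D.image lab) → F) :=
    { toFun := fun z l => z.1 (r l)
      map_add' := fun a b => rfl
      map_smul' := fun c a => rfl }
  have hinj : Function.Injective φ := by
    rw [← LinearMap.ker_eq_bot, LinearMap.ker_eq_bot']
    intro z hz
    apply Subtype.ext
    funext v
    show z.1 v = 0
    by_cases hv : v ∈ Dset T
    · have hvD : v ∈ D := (hD v).2 hv
      have hl : lab v ∈ D.image lab := Finset.mem_image_of_mem _ hvD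
      have h0 : z.1 (r ⟨lab v, hl⟩) = 0 := congrFun hz ⟨lab v, hl⟩
      exact H.conn_zero (hlab.conn _ _ ((hD _).1 (hr _)) hv (hrl ⟨lab v, hl⟩)) z.2 h0
    · exact H.W_supp z.2 hv
  have := LinearMap.finrank_le_finrank_of_injective hinj
  rwa [Module.finrank_fintype_fun_eq_card, Fintype.card_coe] at this

/-- (W5) components are factor-critical -/
theorem Hyp.factorCritical {adj : V → V → Prop} {T : Matrix V V F} (H : Hyp adj T) {ι : Type*}
    {lab : V → ι} (hlab : Labels adj T lab) {v : V} (hv : v ∈ Dset T) (S : Finset V)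
    (hS : ∀ u, u ∈ S ↔ u ∈ Dset T ∧ lab u = lab v ∧ u ≠ v) :
    ∃ f : V → V, ∀ u ∈ S, f u ∈ S ∧ f (f u) = u ∧ adj u (f u) := by
  classical
  have hns : NonSing T S := by
    intro z hz0 hz
    have hzv : z v = 0 := hz0 v (fun h => ((hS v).1 h).2.2 rfl)
    -- a coordinate of `T z` outside the component vanishes off `A`
    have hfar : ∀ w, w ∉ Aset adj T → ¬ (w ∈ Dset T ∧ lab w = lab v) → (T *ᵥ z) w = 0 := by
      intro w hwA hw
      simp only [mulVec, dotProduct]
      refine Finset.sum_eq_zero fun u _ => ?_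
      by_cases hu : u ∈ S
      · obtain ⟨huD, hul, huv⟩ := (hS u).1 hu
        by_cases hT0 : T w u = 0
        · rw [hT0, zero_mul]
        · exfalso
          have hadj := H.edge w u hT0
          by_cases hwD : w ∈ Dset T
          · exact hw ⟨hwD, (hlab.adj_eq w u hwD huD hadj).trans hul⟩
          · exact hwA ⟨hwD, u, huD, H.symm w u hadj⟩
      · rw [hz0 u hu, mul_zero]
    -- the coordinate `v`
    have hTv : (T *ᵥ z) v = 0 := by
      obtain ⟨n, hn, hnv⟩ := hv
      have h := nul_dot H.skew hn z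
      simp only [dotProduct] at h
      rw [Finset.sum_eq_single v] at h
      · exact (mul_eq_zero.1 h).resolve_left hnv
      · intro w _ hwv
        by_cases hwD : w ∈ Dset T
        · by_cases hwl : lab w = lab v
          · rw [hz w ((hS w).2 ⟨hwD, hwl, hwv⟩), mul_zero]
          · rw [hfar w (fun h => h.1 hwD) (fun h => hwl h.2), mul_zero]
        · rw [notD hwD hn, zero_mul]
      · simp
    have hzW : z ∈ Wsp adj T := by
      intro w hwA
      by_cases hw : w ∈ Dset T ∧ lab w = lab v
      · by_cases hwv : w = v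
        · rw [hwv, hTv]
        · exact hz w ((hS w).2 ⟨hw.1, hw.2, hwv⟩)
      · exact hfar w hwA hw
    funext u
    show z u = 0
    by_cases hu : u ∈ S
    · obtain ⟨huD, hul, huv⟩ := (hS u).1 hu
      exact H.conn_zero (hlab.conn v u hv huD hul.symm) hzW hzv
    · exact hz0 u hu
  obtain ⟨f, hf⟩ := exists_pm_of_nonSing H.skew _ S rfl hns
  exact ⟨f, fun u hu => ⟨(hf u hu).1, (hf u hu).2.1, H.edge _ _ (hf u hu).2.2⟩⟩

/-- nullity zero: a perfect matching -/
theorem pm_of_nul_zero {adj : V → V → Prop} {T : Matrix V V F} (hT : Skew T)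
    (he : ∀ i j, T i j ≠ 0 → adj i j) (h0 : Module.finrank F (nul T) = 0) :
    ∃ f : V → V, ∀ u, f (f u) = u ∧ adj u (f u) := by
  classical
  have hns : NonSing T Finset.univ := by
    intro z _ hz
    have : z ∈ nul T := by
      rw [mem_nul]
      funext w
      exact hz w (Finset.mem_univ w)
    rw [Submodule.finrank_eq_zero.1 h0] at this
    exact (Submodule.mem_bot F).1 this
  obtain ⟨f, hf⟩ := exists_pm_of_nonSing hT _ _ rfl hns
  exact ⟨f, fun u => ⟨(hf u (Finset.mem_univ u)).2.1, he _ _ (hf u (Finset.mem_univ u)).2.2⟩⟩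

end Crest.Agent.R304.MWStruct
end

-- ▼ part R304/MWList
section

/-!
# R304 / S0467, block M1b: the matching oracle on lists

The null basis modulo a prime on lists of natural numbers, and the local search.
-/

set_option autoImplicit false
set_option linter.dupNamespace false
set_option linter.unusedSectionVars false

namespace Crest.Agent.R304.MWList

open Matrix Crest.Agent.R304.MWSkew Crest.Agent.R304.MWNull Crest.Agent.R304.MWOpt
  Crest.Agent.R304.MWStruct

/-! ### the program -/

/-- dot product modulo `p` -/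
def dotp (k p : ℕ) (r b : List ℕ) : ℕ :=
  ((List.range k).map (fun i => r.getD i 0 * b.getD i 0)).sum % p

/-- `c0 b - c b0` modulo `p` -/
def combp (k p c0 c : ℕ) (b b0 : List ℕ) : List ℕ :=
  (List.range k).map (fun i => (c0 * b.getD i 0 + (p - c) * b0.getD i 0) % p)

/-- one elimination step -/
def stepL (k p : ℕ) (r : List ℕ) (B : List (List ℕ)) : List (List ℕ) :=
  match B.dropWhile (fun b => decide (dotp k p r b = 0)) with
  | [] => B
  | b0 :: post => B.takeWhile (fun b => decide (dotp k p r b = 0)) ++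
      post.map (fun b => combp k p (dotp k p r b0) (dotp k p r b) b b0)

/-- the standard basis -/
def stdL (k : ℕ) : List (List ℕ) :=
  (List.range k).map (fun i => (List.range k).map (fun j => if j = i then 1 else 0))

/-- the rows of a table -/
def rowsL (k : ℕ) (T : List (List ℕ)) : List (List ℕ) :=
  (List.range k).map (fun i => T.getD i [])

/-- a basis of the null space -/
def nullL (k p : ℕ) (T : List (List ℕ)) : List (List ℕ) :=
  (rowsL k T).foldl (fun B r => stepL k p r B) (stdL k)

/-- indicator list of the support of the span of a list of vectors -/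
def suppL (k p : ℕ) (B : List (List ℕ)) : List Bool :=
  (List.range k).map (fun i => B.any (fun b => decide (b.getD i 0 % p ≠ 0)))

/-- change of the entry `(i, j)` by `a` -/
def bumpL (k p : ℕ) (T : List (List ℕ)) (i j a : ℕ) : List (List ℕ) :=
  (List.range k).map (fun u => (List.range k).map (fun v =>
    ((T.getD u []).getD v 0 + (if u = i ∧ v = j then a else 0)
      + (if u = j ∧ v = i then p - a else 0)) % p))

/-- the potential -/
def potL (k p : ℕ) (T : List (List ℕ)) : ℕ :=
  (k - (nullL k p T).length) * (k + 1) + (suppL k p (nullL k p T)).countP id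

/-- adjacency read off a table -/
def adjL (Q : List (List Bool)) (i j : ℕ) : Bool := (Q.getD i []).getD j false

/-- candidates for a change -/
def cands (k p : ℕ) (Q : List (List Bool)) : List (ℕ × ℕ × ℕ) :=
  (List.range k).flatMap (fun i => ((List.range k).filter (fun j => adjL Q i j)).flatMap
    (fun j => (List.range p).map (fun a => (i, j, a))))

/-- one step of the local search -/
def searchStep (k p : ℕ) (Q : List (List Bool)) (T : List (List ℕ)) : List (List ℕ) :=
  match (cands k p Q).find? (fun c => decide (potL k p T < potL k p (bumpL k p T c.1 c.2.1 c.2.2))) with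
  | none => T
  | some c => bumpL k p T c.1 c.2.1 c.2.2

/-- the local search -/
def search (k p : ℕ) (Q : List (List Bool)) : List (List ℕ) :=
  (searchStep k p Q)^[(k + 1) * (k + 1)] []

/-- the oracle -/
def oracle (k p : ℕ) (Q : List (List Bool)) : List Bool :=
  suppL k p (nullL k p (search k p Q))

/-! ### correctness of the null basis -/

section null

variable {k p : ℕ} [hp : Fact p.Prime]

/-- a list as a vector -/
def vec (k p : ℕ) (b : List ℕ) : Fin k → ZMod p := fun i => ((b.getD i 0 : ℕ) : ZMod p)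

/-- a table as a matrix -/
def matL (k p : ℕ) (T : List (List ℕ)) : Matrix (Fin k) (Fin k) (ZMod p) :=
  fun i j => (((T.getD i []).getD j 0 : ℕ) : ZMod p)

theorem getD_range_map {α : Type*} (f : ℕ → α) {k i : ℕ} (hi : i < k) (d : α) :
    ((List.range k).map f).getD i d = f i := by
  rw [List.getD_eq_getElem?_getD, List.getElem?_map, List.getElem?_range hi]
  rfl

theorem range_map_eq {α : Type*} (f : ℕ → α) (k : ℕ) :
    (List.range k).map f = (List.finRange k).map (fun i : Fin k => f i) := by
  rw [← List.map_coe_finRange_eq_range, List.map_map]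
  rfl

theorem dotp_cast (r b : List ℕ) :
    ((dotp k p r b : ℕ) : ZMod p) = vec k p r ⬝ᵥ vec k p b := by
  unfold dotp
  rw [ZMod.natCast_mod, Nat.cast_list_sum, List.map_map, range_map_eq, ← Fin.sum_univ_def]
  simp [dotProduct, vec]

theorem dotp_eq_zero (r b : List ℕ) : dotp k p r b = 0 ↔ vec k p r ⬝ᵥ vec k p b = 0 := by
  rw [← dotp_cast, ZMod.natCast_eq_zero_iff]
  have h : dotp k p r b < p := Nat.mod_lt _ hp.out.pos
  constructor
  · intro h0; rw [h0]; exact dvd_zero _
  · intro h0; exact Nat.eq_zero_of_dvd_of_lt h0 h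

theorem vec_combp {r b b0 : List ℕ} :
    vec k p (combp k p (dotp k p r b0) (dotp k p r b) b b0) =
      (vec k p r ⬝ᵥ vec k p b0) • vec k p b - (vec k p r ⬝ᵥ vec k p b) • vec k p b0 := by
  funext i
  have hlt : dotp k p r b < p := Nat.mod_lt _ hp.out.pos
  simp only [Pi.sub_apply, Pi.smul_apply, smul_eq_mul]
  rw [← dotp_cast, ← dotp_cast]
  show (((combp k p (dotp k p r b0) (dotp k p r b) b b0).getD i 0 : ℕ) : ZMod p) =
    _ * ((b.getD i 0 : ℕ) : ZMod p) - _ * ((b0.getD i 0 : ℕ) : ZMod p)
  unfold combp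
  rw [getD_range_map _ i.2, ZMod.natCast_mod, Nat.cast_add, Nat.cast_mul, Nat.cast_mul,
    Nat.cast_sub hlt.le, ZMod.natCast_self]
  ring

theorem map_stepL (r : List ℕ) (B : List (List ℕ)) :
    (stepL k p r B).map (vec k p) = stepA (vec k p r) (B.map (vec k p)) := by
  have hfun : (fun b => decide (vec k p r ⬝ᵥ b = 0)) ∘ vec k p =
      fun b => decide (dotp k p r b = 0) := by
    funext b
    simp only [Function.comp]
    congr 1
    exact propext (dotp_eq_zero r b).symm
  unfold stepL stepA
  rw [List.dropWhile_map, List.takeWhile_map, hfun]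
  rcases B.dropWhile (fun b => decide (dotp k p r b = 0)) with _ | ⟨b0, post⟩
  · simp
  · simp only [List.map_cons, List.map_append, List.map_map]
    congr 1
    refine List.map_congr_left fun b _ => ?_
    exact vec_combp

theorem map_stdL : (stdL k).map (vec k p) =
    (List.finRange k).map (fun i => (Pi.single i (1 : ZMod p) : Fin k → ZMod p)) := by
  unfold stdL
  rw [range_map_eq, List.map_map]
  refine List.map_congr_left fun i _ => ?_
  funext j
  simp only [Function.comp, vec]
  rw [getD_range_map _ j.2, Pi.single_apply]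
  by_cases h : j = i
  · simp [h]
  · have : (j : ℕ) ≠ i := fun h' => h (Fin.ext h')
    simp [h, this]

theorem map_foldl (R : List (List ℕ)) (B : List (List ℕ)) :
    (R.foldl (fun B r => stepL k p r B) B).map (vec k p) =
      (R.map (vec k p)).foldl (fun B r => stepA r B) (B.map (vec k p)) := by
  induction R generalizing B with
  | nil => rfl
  | cons r R ih => rw [List.foldl_cons, ih, map_stepL]; rfl

theorem map_rowsL (T : List (List ℕ)) :
    (rowsL k T).map (vec k p) = (List.finRange k).map (matL k p T) := by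
  unfold rowsL
  rw [range_map_eq, List.map_map]
  rfl

theorem nullL_length (T : List (List ℕ)) :
    (nullL k p T).length = Module.finrank (ZMod p) (nul (matL k p T)) := by
  rw [← (null_spec (matL k p T)).1, ← map_rowsL, ← map_stdL, ← map_foldl, List.length_map]
  rfl

theorem nullL_span (T : List (List ℕ)) :
    lspan ((nullL k p T).map (vec k p)) = nul (matL k p T) := by
  rw [← (null_spec (matL k p T)).2, ← map_rowsL, ← map_stdL, ← map_foldl]
  rfl

theorem mem_Dset_iff (T : List (List ℕ)) (v : Fin k) :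
    v ∈ Dset (matL k p T) ↔ ∃ b ∈ nullL k p T, b.getD v 0 % p ≠ 0 := by
  have h := supp_iff ((nullL k p T).map (vec k p)) v
  rw [nullL_span] at h
  show (∃ x ∈ nul (matL k p T), x v ≠ 0) ↔ _
  rw [h]
  constructor
  · rintro ⟨b', hb', hbv⟩
    obtain ⟨b, hb, rfl⟩ := List.mem_map.1 hb'
    refine ⟨b, hb, fun h0 => hbv ?_⟩
    unfold vec
    rw [ZMod.natCast_eq_zero_iff]
    exact Nat.dvd_of_mod_eq_zero h0
  · rintro ⟨b, hb, hbv⟩
    refine ⟨vec k p b, List.mem_map.2 ⟨b, hb, rfl⟩, fun h0 => hbv ?_⟩
    unfold vec at h0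
    rw [ZMod.natCast_eq_zero_iff] at h0
    exact Nat.mod_eq_zero_of_dvd h0

theorem suppL_getD (T : List (List ℕ)) (v : Fin k) :
    (suppL k p (nullL k p T)).getD v false = true ↔ v ∈ Dset (matL k p T) := by
  rw [mem_Dset_iff]
  unfold suppL
  rw [getD_range_map _ v.2]
  simp

end null

end Crest.Agent.R304.MWList
end

-- ▼ part R304/MWSearch
section

/-!
# R304 / S0467, block M1b: correctness of the local search and the oracle
-/

set_option autoImplicit false
set_option linter.dupNamespace false
set_option linter.unusedSectionVars false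

namespace Crest.Agent.R304.MWSearch

open Matrix Crest.Agent.R304.MWSkew Crest.Agent.R304.MWNull Crest.Agent.R304.MWOpt
  Crest.Agent.R304.MWStruct Crest.Agent.R304.MWList

/-- a bounded potential forces a fixed point -/
theorem iterate_fixed {α : Type*} (f : α → α) (pot : α → ℕ) (M : ℕ)
    (h1 : ∀ x, f x ≠ x → pot x < pot (f x)) (h2 : ∀ x, pot x ≤ M) (x : α) :
    f (f^[M + 1] x) = f^[M + 1] x := by
  by_contra hne
  have hall : ∀ i, i ≤ M + 1 → f (f^[i] x) ≠ f^[i] x := by
    intro i hi h
    apply hne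
    obtain ⟨d, hd⟩ : ∃ d, M + 1 = d + i := ⟨M + 1 - i, by omega⟩
    rw [hd, Function.iterate_add_apply, Function.iterate_fixed h]
    exact h
  have hpot : ∀ i, i ≤ M + 1 → i ≤ pot (f^[i] x) := by
    intro i
    induction i with
    | zero => intro _; exact Nat.zero_le _
    | succ i ih =>
      intro hi
      have := ih (by omega)
      have h3 := h1 _ (hall i (by omega))
      rw [Function.iterate_succ_apply']
      omega
  have := hpot (M + 1) le_rfl
  have := h2 (f^[M + 1] x)
  omega

section

variable {k p : ℕ} [hp : Fact p.Prime]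

theorem matL_bumpL (T : List (List ℕ)) (i j : Fin k) {a : ℕ} (ha : a < p) :
    matL k p (bumpL k p T i j a) = bump (matL k p T) i j (a : ZMod p) := by
  funext u v
  unfold matL bumpL bump
  rw [getD_range_map _ u.2, getD_range_map _ v.2, ZMod.natCast_mod, Nat.cast_add, Nat.cast_add]
  have e1 : ((u : ℕ) = i ∧ (v : ℕ) = j) ↔ (u = i ∧ v = j) := by
    rw [Fin.ext_iff, Fin.ext_iff]
  have e2 : ((u : ℕ) = j ∧ (v : ℕ) = i) ↔ (u = j ∧ v = i) := by
    rw [Fin.ext_iff, Fin.ext_iff]
  simp only [e1, e2]
  rw [sub_eq_add_neg]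
  congr 1
  · congr 1
    split_ifs <;> simp
  · split_ifs
    · rw [Nat.cast_sub ha.le, ZMod.natCast_self, zero_sub]
    · simp

/-- the support as a finset -/
noncomputable def Dfin (T : List (List ℕ)) : Finset (Fin k) :=
  (Set.toFinite (Dset (matL k p T))).toFinset

theorem mem_Dfin (T : List (List ℕ)) (v : Fin k) :
    v ∈ Dfin (p := p) T ↔ v ∈ Dset (matL k p T) := Set.Finite.mem_toFinset _

theorem countP_suppL (T : List (List ℕ)) :
    (suppL k p (nullL k p T)).countP id = (Dfin (k := k) (p := p) T).card := by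
  classical
  have h1 : (suppL k p (nullL k p T)).countP id =
      ((List.finRange k).filter (fun v => decide (v ∈ Dset (matL k p T)))).length := by
    unfold suppL
    rw [range_map_eq, List.countP_map, List.countP_eq_length_filter]
    congr 2
    funext v
    have := suppL_getD (k := k) (p := p) T v
    unfold suppL at this
    rw [getD_range_map _ v.2] at this
    simp only [Function.comp, id]
    by_cases h : v ∈ Dset (matL k p T)
    · rw [this.2 h, decide_eq_true h]
    · rw [decide_eq_false h]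
      by_contra h'
      exact h (this.1 (by simpa using h'))
  rw [h1]
  have h2 : Dfin (k := k) (p := p) T =
      ((List.finRange k).filter (fun v => decide (v ∈ Dset (matL k p T)))).toFinset := by
    ext v
    rw [mem_Dfin]
    simp
  rw [h2, List.toFinset_card_of_nodup ((List.nodup_finRange k).filter _)]

theorem potL_eq (T : List (List ℕ)) :
    potL k p T = (k - Module.finrank (ZMod p) (nul (matL k p T))) * (k + 1)
      + (Dfin (k := k) (p := p) T).card := by
  unfold potL
  rw [nullL_length, countP_suppL]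

theorem finrank_le (T : Matrix (Fin k) (Fin k) (ZMod p)) :
    Module.finrank (ZMod p) (nul T) ≤ k := by
  have := Submodule.finrank_le (nul T)
  rwa [Module.finrank_fintype_fun_eq_card, Fintype.card_fin] at this

theorem Dfin_card_le (T : List (List ℕ)) : (Dfin (k := k) (p := p) T).card ≤ k := by
  have := Finset.card_le_univ (Dfin (k := k) (p := p) T)
  rwa [Fintype.card_fin] at this

theorem potL_le (T : List (List ℕ)) : potL k p T ≤ k * (k + 1) + k := by
  rw [potL_eq]
  have h1 := Dfin_card_le (k := k) (p := p) T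
  have h2 : (k - Module.finrank (ZMod p) (nul (matL k p T))) * (k + 1) ≤ k * (k + 1) :=
    Nat.mul_le_mul_right _ (Nat.sub_le _ _)
  omega

theorem mem_cands {Q : List (List Bool)} {c : ℕ × ℕ × ℕ} :
    c ∈ cands k p Q ↔ c.1 < k ∧ c.2.1 < k ∧ adjL Q c.1 c.2.1 = true ∧ c.2.2 < p := by
  obtain ⟨i, j, a⟩ := c
  unfold cands
  simp only [List.mem_flatMap, List.mem_filter, List.mem_map, List.mem_range, Prod.mk.injEq]
  constructor
  · rintro ⟨i', hi', j', ⟨hj', hadj⟩, a', ha', rfl, rfl, rfl⟩
    exact ⟨hi', hj', hadj, ha'⟩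
  · rintro ⟨hi, hj, hadj, ha⟩
    exact ⟨i, hi, j, ⟨hj, hadj⟩, a, ha, rfl, rfl, rfl⟩

theorem searchStep_cases (Q : List (List Bool)) (T : List (List ℕ)) :
    (searchStep k p Q T = T ∧ ∀ c ∈ cands k p Q,
      ¬ potL k p T < potL k p (bumpL k p T c.1 c.2.1 c.2.2)) ∨
    (∃ c ∈ cands k p Q, searchStep k p Q T = bumpL k p T c.1 c.2.1 c.2.2 ∧
      potL k p T < potL k p (searchStep k p Q T)) := by
  unfold searchStep
  rcases h : (cands k p Q).find? (fun c => decide (potL k p T <
      potL k p (bumpL k p T c.1 c.2.1 c.2.2))) with _ | c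
  · left
    simp only [h]
    refine ⟨trivial, fun c hc => ?_⟩
    rw [List.find?_eq_none] at h
    simpa using h c hc
  · right
    have h1 := List.mem_of_find?_eq_some h
    have h2 := List.find?_some h
    simp only [h]
    exact ⟨c, h1, rfl, by simpa using h2⟩

theorem search_fixed (Q : List (List Bool)) :
    ∀ c ∈ cands k p Q, ¬ potL k p (search k p Q) <
      potL k p (bumpL k p (search k p Q) c.1 c.2.1 c.2.2) := by
  have h := iterate_fixed (searchStep k p Q) (potL k p) (k * (k + 1) + k)
    (fun T hT => by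
      rcases searchStep_cases (k := k) (p := p) Q T with h | ⟨c, _, _, h⟩
      · exact absurd h.1 hT
      · exact h) potL_le []
  have e : (k + 1) * (k + 1) = k * (k + 1) + k + 1 := by ring
  rw [← e] at h
  rcases searchStep_cases (k := k) (p := p) Q (search k p Q) with h' | ⟨c, _, _, h'⟩
  · exact h'.2
  · exfalso
    have : searchStep k p Q (search k p Q) = search k p Q := h
    rw [this] at h'
    exact lt_irrefl _ h'

/-- invariant of the search -/
structure Inv (Q : List (List Bool)) (T : List (List ℕ)) : Prop where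
  skew : Skew (matL k p T)
  edge : ∀ i j : Fin k, matL k p T i j ≠ 0 → adjL Q i j = true

theorem inv_nil (Q : List (List Bool)) : Inv (k := k) (p := p) Q [] where
  skew := ⟨fun u v => by simp [matL], fun v => by simp [matL]⟩
  edge i j h := absurd (by simp [matL]) h

theorem inv_bump {Q : List (List Bool)} (hs : ∀ i j : Fin k, adjL Q i j = true → adjL Q j i = true)
    (hi : ∀ i : Fin k, adjL Q i i = false) {T : List (List ℕ)} (hT : Inv (k := k) (p := p) Q T)
    {c : ℕ × ℕ × ℕ} (hc : c ∈ cands k p Q) :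
    Inv (k := k) (p := p) Q (bumpL k p T c.1 c.2.1 c.2.2) := by
  obtain ⟨h1, h2, h3, h4⟩ := mem_cands.1 hc
  have hne : (⟨c.1, h1⟩ : Fin k) ≠ ⟨c.2.1, h2⟩ := by
    intro h
    have h' : c.1 = c.2.1 := congrArg Fin.val h
    have := hi ⟨c.1, h1⟩
    simp only at this
    rw [← h', this] at h3
    exact absurd h3 (by simp)
  have hm := matL_bumpL (k := k) (p := p) T ⟨c.1, h1⟩ ⟨c.2.1, h2⟩ h4
  simp only at hm
  constructor
  · rw [hm]
    exact bump_skew hT.skew hne _
  · intro i j hij
    rw [hm] at hij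
    unfold bump at hij
    by_cases h5 : i = ⟨c.1, h1⟩ ∧ j = ⟨c.2.1, h2⟩
    · rw [h5.1, h5.2]; exact h3
    by_cases h6 : i = ⟨c.2.1, h2⟩ ∧ j = ⟨c.1, h1⟩
    · rw [h6.1, h6.2]; exact hs ⟨c.1, h1⟩ ⟨c.2.1, h2⟩ h3
    rw [if_neg h5, if_neg h6, add_zero, sub_zero] at hij
    exact hT.edge i j hij

theorem inv_search {Q : List (List Bool)}
    (hs : ∀ i j : Fin k, adjL Q i j = true → adjL Q j i = true)
    (hi : ∀ i : Fin k, adjL Q i i = false) : Inv (k := k) (p := p) Q (search k p Q) := by
  unfold search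
  generalize (k + 1) * (k + 1) = n
  induction n with
  | zero => exact inv_nil Q
  | succ n ih =>
    rw [Function.iterate_succ_apply']
    rcases searchStep_cases (k := k) (p := p) Q ((searchStep k p Q)^[n] []) with h | ⟨c, hc, h, _⟩
    · rw [h.1]; exact ih
    · rw [h]; exact inv_bump hs hi ih hc

theorem locOpt_search {Q : List (List Bool)} :
    LocOpt (fun i j : Fin k => adjL Q i j = true) (matL k p (search k p Q)) := by
  have key : ∀ i j : Fin k, adjL Q i j = true → ∀ a : ZMod p,
      ¬ potL k p (search k p Q) < potL k p (bumpL k p (search k p Q) i j a.val) ∧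
      matL k p (bumpL k p (search k p Q) i j a.val) = bump (matL k p (search k p Q)) i j a := by
    intro i j hij a
    have ha : a.val < p := ZMod.val_lt a
    refine ⟨search_fixed Q (i, j, a.val) (mem_cands.2 ⟨i.2, j.2, hij, ha⟩), ?_⟩
    rw [matL_bumpL _ _ _ ha, ZMod.natCast_zmod_val]
  set T := search k p Q with hTdef
  constructor
  · intro i j hij a
    obtain ⟨h1, h2⟩ := key i j hij a
    by_contra hlt
    push Not at hlt
    apply h1
    rw [potL_eq, potL_eq, h2]
    have h3 := finrank_le (matL k p T)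
    have h4 := Dfin_card_le (k := k) (p := p) T
    set x := Module.finrank (ZMod p) (nul (bump (matL k p T) i j a))
    set y := Module.finrank (ZMod p) (nul (matL k p T))
    have h5 : (k - y) * (k + 1) + (k + 1) ≤ (k - x) * (k + 1) := by
      have : k - y + 1 ≤ k - x := by omega
      calc (k - y) * (k + 1) + (k + 1) = (k - y + 1) * (k + 1) := by ring
        _ ≤ (k - x) * (k + 1) := Nat.mul_le_mul_right _ this
    omega
  · intro i j hij a heq hss
    obtain ⟨h1, h2⟩ := key i j hij a
    apply h1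
    rw [potL_eq, potL_eq, h2, heq]
    have h3 : Dfin (k := k) (p := p) T ⊂ Dfin (k := k) (p := p) (bumpL k p T i j a.val) := by
      rw [Finset.ssubset_iff_of_subset]
      · obtain ⟨v, hv1, hv2⟩ := Set.exists_of_ssubset hss
        refine ⟨v, ?_, ?_⟩
        · rw [mem_Dfin, h2]; exact hv1
        · rw [mem_Dfin]; exact hv2
      · intro v hv
        rw [mem_Dfin] at hv ⊢
        rw [h2]
        exact hss.1 hv
    have := Finset.card_lt_card h3
    omega

theorem hyp_search {Q : List (List Bool)} (hkp : k < p)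
    (hs : ∀ i j : Fin k, adjL Q i j = true → adjL Q j i = true)
    (hi : ∀ i : Fin k, adjL Q i i = false) :
    Hyp (fun i j : Fin k => adjL Q i j = true) (matL k p (search k p Q)) where
  card := by rw [Fintype.card_fin, ZMod.card]; exact hkp
  symm := hs
  edge := (inv_search hs hi).edge
  skew := (inv_search hs hi).skew
  opt := locOpt_search

end

/-! ### the specification used by the primal-dual part -/

/-- the component of `v`: what is reachable from `v` by adjacency steps into `D` -/
def Reach {k : ℕ} (adj : Fin k → Fin k → Prop) (D : Finset (Fin k)) (v u : Fin k) : Prop :=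
  Relation.ReflTransGen (fun a b => adj a b ∧ b ∈ D) v u

/-- what the oracle delivers -/
structure OracleSpec (k : ℕ) (adj : Fin k → Fin k → Prop) (D : Finset (Fin k)) : Prop where
  crit : ∀ v ∈ D, ∃ s : Fin k → Fin k, ∀ u, Reach adj D v u → u ≠ v →
    Reach adj D v (s u) ∧ s u ≠ v ∧ s u ≠ u ∧ s (s u) = u ∧ adj u (s u)
  pm : D = ∅ → ∃ s : Fin k → Fin k, ∀ u, s u ≠ u ∧ s (s u) = u ∧ adj u (s u)
  cnt : D.Nonempty → ∃ I : Finset (Fin k), I ⊆ D ∧
    (∀ a ∈ I, ∀ b ∈ I, Reach adj D a b → a = b) ∧
    ∀ A : Finset (Fin k), (∀ a ∈ A, a ∉ D ∧ ∃ d ∈ D, adj a d) → A.card + 1 ≤ I.card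

theorem oracle_spec {k p : ℕ} (hp : p.Prime) (hkp : k < p) {Q : List (List Bool)}
    (hs : ∀ i j : Fin k, adjL Q i j = true → adjL Q j i = true)
    (hi : ∀ i : Fin k, adjL Q i i = false) :
    OracleSpec k (fun i j : Fin k => adjL Q i j = true)
      (Finset.univ.filter fun v : Fin k => (oracle k p Q).getD v false = true) := by
  classical
  have : Fact p.Prime := ⟨hp⟩
  set adj : Fin k → Fin k → Prop := fun i j => adjL Q i j = true with hadj
  set T := matL k p (search k p Q) with hT
  have H : Hyp adj T := hyp_search hkp hs hi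
  set D := Finset.univ.filter fun v : Fin k => (oracle k p Q).getD v false = true with hDdef
  have hD : ∀ v, v ∈ D ↔ v ∈ Dset T := by
    intro v
    rw [hDdef, Finset.mem_filter]
    unfold oracle
    rw [suppL_getD]
    simp [hT]
  have hirr : ∀ i j, adj i j → i ≠ j := by
    rintro i j hij rfl
    have h1 : adjL Q i i = true := hij
    rw [hi i] at h1
    exact absurd h1 (by simp)
  have hreachD : ∀ v u, v ∈ D → Reach adj D v u → u ∈ D := by
    intro v u hv h
    induction h with
    | refl => exact hv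
    | tail _ h _ => exact h.2
  have hreach_conv : ∀ v u, v ∈ D → Reach adj D v u →
      Relation.ReflTransGen (fun a b => a ∈ Dset T ∧ b ∈ Dset T ∧ adj a b) v u := by
    intro v u hv h
    induction h with
    | refl => exact Relation.ReflTransGen.refl
    | tail h1 h2 ih =>
      refine ih.tail ⟨?_, (hD _).1 h2.2, h2.1⟩
      exact (hD _).1 (hreachD _ _ hv h1)
  have hreach_symm : ∀ v u, v ∈ D → Reach adj D v u → Reach adj D u v := by
    intro v u hv h
    induction h with
    | refl => exact Relation.ReflTransGen.refl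
    | tail h1 h2 ih =>
      exact Relation.ReflTransGen.head ⟨hs _ _ h2.1, hreachD _ _ hv h1⟩ ih
  -- labels: the set of reachable vertices
  let lab : Fin k → Set (Fin k) := fun v => {u | Reach adj D v u}
  have hlab_eq : ∀ v u, v ∈ D → Reach adj D v u → lab u = lab v := by
    intro v u hv h
    ext w
    exact ⟨fun hw => h.trans hw, fun hw => (hreach_symm v u hv h).trans hw⟩
  have hlab : Labels adj T lab := by
    constructor
    · intro i j hi' hj' hij
      exact (hlab_eq i j ((hD i).2 hi') (Relation.ReflTransGen.single ⟨hij, (hD j).2 hj'⟩)).symm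
    · intro i j hi' hj' hij
      have : Reach adj D i j := by
        have h1 : j ∈ lab j := Relation.ReflTransGen.refl
        rw [← hij] at h1
        exact h1
      exact hreach_conv i j ((hD i).2 hi') this
  refine ⟨?_, ?_, ?_⟩
  · intro v hv
    have hvD := (hD v).1 hv
    obtain ⟨s, hs'⟩ := H.factorCritical hlab hvD
      (Finset.univ.filter fun u => u ∈ Dset T ∧ lab u = lab v ∧ u ≠ v) (fun u => by simp)
    refine ⟨s, fun u hu huv => ?_⟩
    have huD := hreachD v u hv hu
    have hu' : u ∈ Finset.univ.filter fun u => u ∈ Dset T ∧ lab u = lab v ∧ u ≠ v := by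
      rw [Finset.mem_filter]
      exact ⟨Finset.mem_univ _, (hD u).1 huD, hlab_eq v u hv hu, huv⟩
    obtain ⟨h1, h2, h3⟩ := hs' u hu'
    rw [Finset.mem_filter] at h1
    obtain ⟨_, h4, h5, h6⟩ := h1
    refine ⟨?_, h6, (hirr _ _ h3).symm, h2, h3⟩
    have h7 : s u ∈ lab (s u) := Relation.ReflTransGen.refl
    rw [h5] at h7
    exact h7
  · intro hD0
    have h0 : Module.finrank (ZMod p) (nul T) = 0 := by
      rw [Submodule.finrank_eq_zero, Submodule.eq_bot_iff]
      intro x hx
      funext v
      by_contra hxv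
      have : v ∈ D := (hD v).2 ⟨x, hx, hxv⟩
      rw [hD0] at this
      exact absurd this (Finset.notMem_empty v)
    obtain ⟨s, hs'⟩ := pm_of_nul_zero H.skew H.edge h0
    exact ⟨s, fun u => ⟨(hirr _ _ (hs' u).2).symm, (hs' u).1, (hs' u).2⟩⟩
  · intro hne
    obtain ⟨v0, hv0⟩ := hne
    have hnul : 1 ≤ Module.finrank (ZMod p) (nul T) := by
      rw [Nat.one_le_iff_ne_zero]
      intro h0
      rw [Submodule.finrank_eq_zero] at h0
      obtain ⟨x, hx, hxv⟩ := (hD v0).1 hv0
      rw [h0] at hx
      exact hxv (by rw [(Submodule.mem_bot _).1 hx]; rfl)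
    let A0 : Finset (Fin k) := Finset.univ.filter fun v => v ∈ Aset adj T
    have hcount := H.count hlab D A0 hD (fun v => by simp [A0])
    -- representatives
    have hex : ∀ l ∈ D.image lab, ∃ v ∈ D, lab v = l := fun l hl => by
      simpa using hl
    have : Nonempty (Fin k) := ⟨v0⟩
    choose! r hr hrl using hex
    refine ⟨(D.image lab).image r, ?_, ?_, ?_⟩
    · intro v hv
      obtain ⟨l, hl, rfl⟩ := Finset.mem_image.1 hv
      exact hr l hl
    · intro a ha b hb hab
      obtain ⟨l, hl, rfl⟩ := Finset.mem_image.1 ha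
      obtain ⟨l', hl', rfl⟩ := Finset.mem_image.1 hb
      have := hlab_eq _ _ (hr l hl) hab
      rw [hrl l hl, hrl l' hl'] at this
      rw [this]
    · intro A hA
      have h1 : A ⊆ A0 := by
        intro a ha
        obtain ⟨h2, d, hd, had⟩ := hA a ha
        simp only [A0, Finset.mem_filter, Finset.mem_univ, true_and]
        refine ⟨fun h => h2 ((hD a).2 h), d, (hD d).1 hd, hs _ _ had⟩
      have h2 : ((D.image lab).image r).card = (D.image lab).card := by
        apply Finset.card_image_of_injOn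
        intro l hl l' hl' h
        have h3 := congrArg lab h
        rwa [hrl l hl, hrl l' hl'] at h3
      have h3 := Finset.card_le_card h1
      omega

end Crest.Agent.R304.MWSearch
end

-- ▼ part R304/MWPrime
section

/-!
# R304 / S0467: a prime above a unary bound, in polynomial time
-/

set_option autoImplicit false
set_option linter.dupNamespace false

namespace Crest.Agent.R304.MWPrime

open Crest.Agent.Lib.PT Crest.Agent.R309.PTX

/-- trial division with a bound `B` on the tested divisors -/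
def isP (B p : ℕ) : Prop := 2 ≤ p ∧ ∀ d < B, (2 ≤ d ∧ d < p) → p % d ≠ 0

instance (B p : ℕ) : Decidable (isP B p) := by unfold isP; infer_instance

theorem isP_iff {B p : ℕ} (h : p ≤ B) : isP B p ↔ p.Prime := by
  rw [Nat.prime_def_lt', isP]
  refine and_congr_right (fun _ => ⟨fun hd m h2 hm hdvd => ?_, fun hd d hdB hd2 hmod => ?_⟩)
  · exact hd m (by omega) ⟨h2, hm⟩ (Nat.mod_eq_zero_of_dvd hdvd)
  · exact hd d hd2.1 hd2.2 (Nat.dvd_of_mod_eq_zero hmod)

/-- the least prime above `n` -/
def nextPrime (n : ℕ) : ℕ :=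
  min (((List.range (2 * n + 5)).find? (fun p => decide (n < p ∧ isP (2 * n + 5) p))).getD 2)
    (2 * n + 5)

theorem nextPrime_spec (n : ℕ) :
    n < nextPrime n ∧ (nextPrime n).Prime ∧ nextPrime n ≤ 2 * n + 4 := by
  obtain ⟨q, hq, hnq, hq2⟩ : ∃ q : ℕ, q.Prime ∧ n < q ∧ q ≤ 2 * n + 4 := by
    rcases Nat.eq_zero_or_pos n with rfl | hn
    · exact ⟨2, Nat.prime_two, by norm_num, by norm_num⟩
    · obtain ⟨q, hq, h1, h2⟩ := Nat.exists_prime_lt_and_le_two_mul n (by omega)
      exact ⟨q, hq, h1, by omega⟩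
  have hs : ((List.range (2 * n + 5)).find?
      (fun p => decide (n < p ∧ isP (2 * n + 5) p))).isSome := by
    rw [List.find?_isSome]
    refine ⟨q, by rw [List.mem_range]; omega, ?_⟩
    rw [decide_eq_true_iff]
    exact ⟨hnq, (isP_iff (by omega)).2 hq⟩
  obtain ⟨p, hp⟩ := Option.isSome_iff_exists.1 hs
  have h1 := List.find?_some hp
  have h2 := List.mem_of_find?_eq_some hp
  rw [List.mem_range] at h2
  rw [decide_eq_true_iff] at h1
  have e : nextPrime n = p := by
    unfold nextPrime
    rw [hp, Option.getD_some]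
    exact min_eq_left (by omega)
  rw [e]
  exact ⟨h1.1, (isP_iff (by omega)).1 h1.2, by omega⟩

theorem lt_nextPrime (n : ℕ) : n < nextPrime n := (nextPrime_spec n).1

theorem prime_nextPrime (n : ℕ) : (nextPrime n).Prime := (nextPrime_spec n).2.1


variable {γ : Type} [PTCode γ]

theorem ptu_nextPrime {n : γ → ℕ} (hn : PTU n) : PTU (fun c => nextPrime (n c)) := by
  have hb : PTU (fun c => 2 * n c + 5) := by fun_prop
  have hnF : PTF n := PTU.toPTF hn
  have hp : PTF (fun c => ((List.range (2 * n c + 5)).find?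
      (fun p => decide (n c < p ∧ isP (2 * n c + 5) p))).getD 2) := by
    refine PTF.optionGetD (PTF.find? (PTF.range hb) ?_) (PTF.const 2)
    refine PTPred.toPTF (α := γ × ℕ) (p := fun x => n x.1 < x.2 ∧ isP (2 * n x.1 + 5) x.2) ?_
    refine PTPred.and ?_ (PTPred.and ?_ ?_)
    · exact PTPred.natLt (PTF.comp hnF PTF.fst) PTF.snd
    · exact PTPred.natLe (PTF.const 2) PTF.snd
    · refine PTPred.forall_lt (n := fun x : γ × ℕ => 2 * n x.1 + 5)
        (p := fun x d => (2 ≤ d ∧ d < x.2) → x.2 % d ≠ 0) (PTU.comp (n := fun c => 2 * n c + 5) (f := fun x : γ × ℕ => x.1) hb PTF.fst) ?_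
      show PTPred (fun y : (γ × ℕ) × ℕ => (2 ≤ y.2 ∧ y.2 < y.1.2) → y.1.2 % y.2 ≠ 0)
      have h1 : PTF (fun y : (γ × ℕ) × ℕ => y.2) := PTF.snd
      have h2 : PTF (fun y : (γ × ℕ) × ℕ => y.1.2) := PTF.comp PTF.snd PTF.fst
      exact PTPred.imp (PTPred.and (PTPred.natLe (PTF.const 2) h1) (PTPred.natLt h1 h2))
        (PTPred.not (PTPred.natEq (PTF.natMod h2 h1) (PTF.const 0)))
  exact PTF.natMinUn hp hb


end Crest.Agent.R304.MWPrime
end

-- ▼ part R304/MWPT

/-!
# R304 / S0467, block M1c: the matching oracle is poly-time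
-/

set_option autoImplicit false
set_option linter.dupNamespace false
set_option linter.unusedSectionVars false

namespace Crest.Agent.R304.MWPT

open Crest.Agent.Lib.PT Crest.Agent.R309.PTX Crest.Agent.R304.MWList

variable {γ : Type} [PTCode γ]

theorem ptf_dotp {k p : γ → ℕ} {r b : γ → List ℕ} (hk : PTU k) (hp : PTF p) (hr : PTF r)
    (hb : PTF b) : PTF (fun c => dotp (k c) (p c) (r c) (b c)) := by
  have h : PTF (fun x : (Un × ℕ) × List ℕ × List ℕ => dotp x.1.1.val x.1.2 x.2.1 x.2.2) := by
    unfold dotp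
    pt_solve
  exact PTF.comp (g := fun x : (Un × ℕ) × List ℕ × List ℕ => dotp x.1.1.val x.1.2 x.2.1 x.2.2)
    (f := fun c => ((⟨k c⟩, p c), r c, b c)) h
    (PTF.prodMk (PTF.prodMk hk hp) (PTF.prodMk hr hb))

theorem ptf_combp {k p c0 c1 : γ → ℕ} {b b0 : γ → List ℕ} (hk : PTU k) (hp : PTF p)
    (hc0 : PTF c0) (hc1 : PTF c1) (hb : PTF b) (hb0 : PTF b0) :
    PTF (fun c => combp (k c) (p c) (c0 c) (c1 c) (b c) (b0 c)) := by
  have h : PTF (fun x : (Un × ℕ) × (ℕ × ℕ) × List ℕ × List ℕ =>
      combp x.1.1.val x.1.2 x.2.1.1 x.2.1.2 x.2.2.1 x.2.2.2) := by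
    unfold combp
    pt_solve
  exact PTF.comp (g := fun x : (Un × ℕ) × (ℕ × ℕ) × List ℕ × List ℕ =>
      combp x.1.1.val x.1.2 x.2.1.1 x.2.1.2 x.2.2.1 x.2.2.2)
    (f := fun c => ((⟨k c⟩, p c), (c0 c, c1 c), b c, b0 c)) h
    (PTF.prodMk (PTF.prodMk hk hp) (PTF.prodMk (PTF.prodMk hc0 hc1) (PTF.prodMk hb hb0)))

/-- the elimination step -/
theorem ptf_stepL : PTF (fun x : (Un × ℕ) × List (List ℕ) × List ℕ =>
    stepL x.1.1.val x.1.2 x.2.2 x.2.1) := by
  have hpred : PTF₂ (fun (x : (Un × ℕ) × List (List ℕ) × List ℕ) (b : List ℕ) =>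
      decide (dotp x.1.1.val x.1.2 x.2.2 b = 0)) := by
    refine PTPred.toPTF (PTPred.natEq (ptf_dotp ?_ ?_ ?_ ?_) (PTF.const 0)) <;> fun_prop
  have hd : PTF (fun x : (Un × ℕ) × List (List ℕ) × List ℕ =>
      x.2.1.dropWhile (fun b => decide (dotp x.1.1.val x.1.2 x.2.2 b = 0))) :=
    PTF.dropWhile (by fun_prop) hpred
  have ht : PTF (fun x : (Un × ℕ) × List (List ℕ) × List ℕ =>
      x.2.1.takeWhile (fun b => decide (dotp x.1.1.val x.1.2 x.2.2 b = 0))) :=
    PTF.takeWhile (by fun_prop) hpred
  refine PTF.of_eq (PTF.listCasesOn hd (f := fun x => x.2.1) (g := fun x b0 post =>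
    x.2.1.takeWhile (fun b => decide (dotp x.1.1.val x.1.2 x.2.2 b = 0)) ++
      post.map (fun b => combp x.1.1.val x.1.2 (dotp x.1.1.val x.1.2 x.2.2 b0)
        (dotp x.1.1.val x.1.2 x.2.2 b) b b0)) (by fun_prop) ?_) (fun x => by
          unfold stepL
          rcases x.2.1.dropWhile (fun b => decide (dotp x.1.1.val x.1.2 x.2.2 b = 0)) with
            _ | ⟨b0, post⟩ <;> rfl)
  refine PTF.append (PTF.comp (g := fun x : (Un × ℕ) × List (List ℕ) × List ℕ =>
      x.2.1.takeWhile (fun b => decide (dotp x.1.1.val x.1.2 x.2.2 b = 0))) ht PTF.fst)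
    (PTF.map (by fun_prop) ?_)
  refine ptf_combp ?_ ?_ (ptf_dotp ?_ ?_ ?_ ?_) (ptf_dotp ?_ ?_ ?_ ?_) ?_ ?_ <;> fun_prop

/-- size invariant of the elimination -/
def BInv (k p : ℕ) (B : List (List ℕ)) : Prop :=
  B.length ≤ k ∧ ∀ b ∈ B, sz b ≤ k * (2 * (p + 1) + 1)

theorem sz_combp {k p c0 c1 : ℕ} {b b0 : List ℕ} (hp : 0 < p) :
    sz (combp k p c0 c1 b b0) ≤ k * (2 * (p + 1) + 1) := by
  have h := sz_list_le (l := combp k p c0 c1 b b0) (m := p + 1) (by
    intro x hx
    unfold combp at hx
    obtain ⟨i, _, rfl⟩ := List.mem_map.1 hx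
    have := Nat.mod_lt (c0 * b.getD i 0 + (p - c1) * b0.getD i 0) hp
    have := sz_nat_le ((c0 * b.getD i 0 + (p - c1) * b0.getD i 0) % p)
    omega)
  have hlen : (combp k p c0 c1 b b0).length = k := by simp [combp]
  rwa [hlen] at h

theorem binv_step {k p : ℕ} (hp : 0 < p) {B : List (List ℕ)} (hB : BInv k p B) (r : List ℕ) :
    BInv k p (stepL k p r B) := by
  unfold stepL
  rcases hd : B.dropWhile (fun b => decide (dotp k p r b = 0)) with _ | ⟨b0, post⟩
  · simpa using hB
  · simp only
    have hsplit : B = B.takeWhile (fun b => decide (dotp k p r b = 0)) ++ b0 :: post := by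
      rw [← hd, List.takeWhile_append_dropWhile]
    have hlen := congrArg List.length hsplit
    rw [List.length_append, List.length_cons] at hlen
    refine ⟨?_, ?_⟩
    · rw [List.length_append, List.length_map]
      have := hB.1
      omega
    · intro b hb
      rw [List.mem_append, List.mem_map] at hb
      rcases hb with hb | ⟨b', _, rfl⟩
      · exact hB.2 b ((List.takeWhile_sublist _).subset hb)
      · exact sz_combp hp

theorem binv_foldl {k p : ℕ} (hp : 0 < p) (R : List (List ℕ)) {B : List (List ℕ)}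
    (hB : BInv k p B) : BInv k p (R.foldl (fun B r => stepL k p r B) B) := by
  induction R generalizing B with
  | nil => exact hB
  | cons r R ih => rw [List.foldl_cons]; exact ih (binv_step hp hB r)

theorem binv_std {k p : ℕ} : BInv k p (stdL k) := by
  refine ⟨by simp [stdL], ?_⟩
  intro b hb
  unfold stdL at hb
  obtain ⟨i, _, rfl⟩ := List.mem_map.1 hb
  have h := sz_list_le (l := (List.range k).map (fun j => if j = i then 1 else 0)) (m := p + 1) (by
    intro x hx
    obtain ⟨j, _, rfl⟩ := List.mem_map.1 hx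
    have := sz_nat_le (if j = i then 1 else 0)
    split_ifs at this ⊢ <;> omega)
  have hlen : ((List.range k).map (fun j => if j = i then 1 else 0)).length = k := by simp
  rwa [hlen] at h

theorem BInv.sz_le {k p : ℕ} {B : List (List ℕ)} (hB : BInv k p B) :
    sz B ≤ k * (2 * (k * (2 * (p + 1) + 1)) + 1) :=
  (sz_list_le hB.2).trans (Nat.mul_le_mul_right _ hB.1)

theorem ptf_stdL {k : γ → ℕ} (hk : PTU k) : PTF (fun c => stdL (k c)) := by
  have h : PTF (fun x : Un => stdL x.val) := by
    unfold stdL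
    pt_solve
  exact PTF.comp (g := fun x : Un => stdL x.val) (f := fun c => ⟨k c⟩) h hk

theorem ptf_rowsL : PTF (fun x : Un × List (List ℕ) => rowsL x.1.val x.2) := by
  unfold rowsL
  pt_solve

/-- the null basis -/
theorem ptf_nullL : PTF (fun x : (Un × Un) × List (List ℕ) =>
    nullL x.1.1.val (x.1.2.val + 1) x.2) := by
  unfold nullL
  refine PTF.foldl (f := fun (x : (Un × Un) × List (List ℕ)) B r =>
      stepL x.1.1.val (x.1.2.val + 1) r B)
    (PTF.comp (g := fun x : Un × List (List ℕ) => rowsL x.1.val x.2)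
      (f := fun x : (Un × Un) × List (List ℕ) => (x.1.1, x.2)) ptf_rowsL (by fun_prop))
    ?_ (ptf_stdL (by fun_prop))
    (B := fun x => x.1.1.val * (2 * (x.1.1.val * (2 * (x.1.2.val + 1 + 1) + 1)) + 1)) ?_ ?_
  · refine PTF.comp (g := fun x : (Un × ℕ) × List (List ℕ) × List ℕ =>
      stepL x.1.1.val x.1.2 x.2.2 x.2.1)
      (f := fun y : ((Un × Un) × List (List ℕ)) × List (List ℕ) × List ℕ =>
        ((y.1.1.1, y.1.1.2.val + 1), y.2.1, y.2.2)) ptf_stepL ?_
    pt_solve
  · have h1 : PTU (fun x : (Un × Un) × List (List ℕ) =>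
      x.1.1.val * (2 * (x.1.1.val * (2 * (x.1.2.val + 1 + 1) + 1)) + 1)) := by fun_prop
    exact h1.pb
  · intro x i _
    exact (binv_foldl (Nat.succ_pos _) _ binv_std).sz_le

theorem ptf_suppL : PTF (fun x : (Un × ℕ) × List (List ℕ) => suppL x.1.1.val x.1.2 x.2) := by
  unfold suppL
  pt_solve

theorem ptf_bumpL : PTF (fun x : (Un × ℕ) × List (List ℕ) × ℕ × ℕ × ℕ =>
    bumpL x.1.1.val x.1.2 x.2.1 x.2.2.1 x.2.2.2.1 x.2.2.2.2) := by
  unfold bumpL
  pt_solve

theorem ptf_bumpL' {k p i j a : γ → ℕ} {T : γ → List (List ℕ)} (hk : PTU k) (hp : PTF p)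
    (hT : PTF T) (hi : PTF i) (hj : PTF j) (ha : PTF a) :
    PTF (fun c => bumpL (k c) (p c) (T c) (i c) (j c) (a c)) :=
  PTF.comp (g := fun x : (Un × ℕ) × List (List ℕ) × ℕ × ℕ × ℕ =>
    bumpL x.1.1.val x.1.2 x.2.1 x.2.2.1 x.2.2.2.1 x.2.2.2.2)
    (f := fun c => ((⟨k c⟩, p c), T c, i c, j c, a c)) ptf_bumpL
    (PTF.prodMk (PTF.prodMk hk hp) (PTF.prodMk hT (PTF.prodMk hi (PTF.prodMk hj ha))))

theorem ptu_potL : PTU (fun x : (Un × Un) × List (List ℕ) =>
    potL x.1.1.val (x.1.2.val + 1) x.2) := by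
  unfold potL
  have h1 := ptf_nullL
  have h2 : PTF (fun x : (Un × Un) × List (List ℕ) =>
      suppL x.1.1.val (x.1.2.val + 1) (nullL x.1.1.val (x.1.2.val + 1) x.2)) := by
    refine PTF.comp (g := fun x : (Un × ℕ) × List (List ℕ) => suppL x.1.1.val x.1.2 x.2)
      (f := fun x : (Un × Un) × List (List ℕ) => ((x.1.1, x.1.2.val + 1),
        nullL x.1.1.val (x.1.2.val + 1) x.2)) ptf_suppL ?_
    refine PTF.prodMk (by pt_solve) h1
  refine PTU.add (PTU.mul (PTU.sub (by fun_prop) (PTU.length h1)) (by fun_prop))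
    (PTU.countP (p := fun _ b => id b) h2 ?_)
  show PTF (fun q : ((Un × Un) × List (List ℕ)) × Bool => q.2)
  fun_prop

theorem ptu_potL' {k q : γ → ℕ} {T : γ → List (List ℕ)} (hk : PTU k) (hq : PTU q)
    (hT : PTF T) : PTU (fun c => potL (k c) (q c + 1) (T c)) :=
  PTU.comp (n := fun x : (Un × Un) × List (List ℕ) => potL x.1.1.val (x.1.2.val + 1) x.2)
    (f := fun c => ((⟨k c⟩, ⟨q c⟩), T c)) ptu_potL
    (PTF.prodMk (PTF.prodMk hk hq) hT)

theorem ptf_nullL' {k q : γ → ℕ} {T : γ → List (List ℕ)} (hk : PTU k) (hq : PTU q)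
    (hT : PTF T) : PTF (fun c => nullL (k c) (q c + 1) (T c)) :=
  PTF.comp (g := fun x : (Un × Un) × List (List ℕ) => nullL x.1.1.val (x.1.2.val + 1) x.2)
    (f := fun c => ((⟨k c⟩, ⟨q c⟩), T c)) ptf_nullL
    (PTF.prodMk (PTF.prodMk hk hq) hT)

theorem ptf_suppL' {k p : γ → ℕ} {B : γ → List (List ℕ)} (hk : PTU k) (hp : PTF p)
    (hB : PTF B) : PTF (fun c => suppL (k c) (p c) (B c)) :=
  PTF.comp (g := fun x : (Un × ℕ) × List (List ℕ) => suppL x.1.1.val x.1.2 x.2)
    (f := fun c => ((⟨k c⟩, p c), B c)) ptf_suppL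
    (PTF.prodMk (PTF.prodMk hk hp) hB)

theorem ptf_cands : PTF (fun x : (Un × Un) × List (List Bool) =>
    cands x.1.1.val (x.1.2.val + 1) x.2) := by
  unfold cands adjL
  pt_solve

theorem ptf_cands' {k q : γ → ℕ} {Q : γ → List (List Bool)} (hk : PTU k) (hq : PTU q)
    (hQ : PTF Q) : PTF (fun c => cands (k c) (q c + 1) (Q c)) :=
  PTF.comp (g := fun x : (Un × Un) × List (List Bool) => cands x.1.1.val (x.1.2.val + 1) x.2)
    (f := fun c => ((⟨k c⟩, ⟨q c⟩), Q c)) ptf_cands
    (PTF.prodMk (PTF.prodMk hk hq) hQ)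

theorem ptf_searchStep {k q : γ → ℕ} {Q : γ → List (List Bool)} {T : γ → List (List ℕ)}
    (hk : PTU k) (hq : PTU q) (hQ : PTF Q) (hT : PTF T) :
    PTF (fun c => searchStep (k c) (q c + 1) (Q c) (T c)) := by
  have hk' : PTU (fun y : γ × (ℕ × ℕ × ℕ) => k y.1) := PTU.comp hk PTF.fst
  have hq' : PTU (fun y : γ × (ℕ × ℕ × ℕ) => q y.1) := PTU.comp hq PTF.fst
  have hT' : PTF (fun y : γ × (ℕ × ℕ × ℕ) => T y.1) := PTF.comp hT PTF.fst
  have hq1 : PTF (fun y : γ × (ℕ × ℕ × ℕ) => q y.1 + 1) :=
    PTU.toPTF (PTU.add hq' (PTU.const 1))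
  have h1 : PTF (fun y : γ × (ℕ × ℕ × ℕ) => y.2.1) := by fun_prop
  have h2 : PTF (fun y : γ × (ℕ × ℕ × ℕ) => y.2.2.1) := by fun_prop
  have h3 : PTF (fun y : γ × (ℕ × ℕ × ℕ) => y.2.2.2) := by fun_prop
  have hbump : PTF (fun y : γ × (ℕ × ℕ × ℕ) =>
      bumpL (k y.1) (q y.1 + 1) (T y.1) y.2.1 y.2.2.1 y.2.2.2) :=
    ptf_bumpL' hk' hq1 hT' h1 h2 h3
  have hfind : PTF (fun c => (cands (k c) (q c + 1) (Q c)).find? (fun a =>
        decide (potL (k c) (q c + 1) (T c) <
          potL (k c) (q c + 1) (bumpL (k c) (q c + 1) (T c) a.1 a.2.1 a.2.2)))) := by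
    refine PTF.find? (ptf_cands' hk hq hQ) ?_
    exact PTPred.toPTF (α := γ × (ℕ × ℕ × ℕ)) (p := fun y =>
      potL (k y.1) (q y.1 + 1) (T y.1) <
          potL (k y.1) (q y.1 + 1) (bumpL (k y.1) (q y.1 + 1) (T y.1) y.2.1 y.2.2.1 y.2.2.2))
      (PTU.lt (ptu_potL' hk' hq' hT') (ptu_potL' hk' hq' hbump))
  refine PTF.of_eq (PTF.optionCasesOn hfind (f := fun c => T c)
    (g := fun c a => bumpL (k c) (q c + 1) (T c) a.1 a.2.1 a.2.2) hT hbump) (fun c => ?_)
  unfold searchStep
  generalize (cands (k c) (q c + 1) (Q c)).find? (fun a =>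
        decide (potL (k c) (q c + 1) (T c) <
          potL (k c) (q c + 1) (bumpL (k c) (q c + 1) (T c) a.1 a.2.1 a.2.2))) = o
  cases o <;> rfl

theorem sz_bumpL {k p : ℕ} (hp : 0 < p) (T : List (List ℕ)) (i j a : ℕ) :
    sz (bumpL k p T i j a) ≤ k * (2 * (k * (2 * (p + 1) + 1)) + 1) := by
  have h := sz_list_le (l := bumpL k p T i j a) (m := k * (2 * (p + 1) + 1)) (by
    intro r hr
    unfold bumpL at hr
    obtain ⟨u, _, rfl⟩ := List.mem_map.1 hr
    have h := sz_list_le (l := (List.range k).map (fun v =>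
      ((T.getD u []).getD v 0 + (if u = i ∧ v = j then a else 0)
      + (if u = j ∧ v = i then p - a else 0)) % p)) (m := p + 1) (by
        intro x hx
        obtain ⟨v, _, rfl⟩ := List.mem_map.1 hx
        have h1 := Nat.mod_lt ((T.getD u []).getD v 0 + (if u = i ∧ v = j then a else 0)
          + (if u = j ∧ v = i then p - a else 0)) hp
        have h2 := sz_nat_le (((T.getD u []).getD v 0 + (if u = i ∧ v = j then a else 0)
          + (if u = j ∧ v = i then p - a else 0)) % p)
        omega)
    rwa [List.length_map, List.length_range] at h)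
  have hlen : (bumpL k p T i j a).length = k := by simp [bumpL]
  rwa [hlen] at h

theorem searchStep_or (k p : ℕ) (Q : List (List Bool)) (T : List (List ℕ)) :
    searchStep k p Q T = T ∨ ∃ c : ℕ × ℕ × ℕ, searchStep k p Q T = bumpL k p T c.1 c.2.1 c.2.2 := by
  unfold searchStep
  split
  · exact Or.inl rfl
  · exact Or.inr ⟨_, rfl⟩

theorem ptf_search {k q : γ → ℕ} {Q : γ → List (List Bool)} (hk : PTU k) (hq : PTU q)
    (hQ : PTF Q) : PTF (fun c => search (k c) (q c + 1) (Q c)) := by
  unfold search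
  have hn : PTU (fun c => (k c + 1) * (k c + 1)) := by fun_prop
  refine PTF.iterate' (n := fun c => (k c + 1) * (k c + 1))
    (f := fun c T => searchStep (k c) (q c + 1) (Q c) T) (a := fun _ => [])
    hn (ptf_searchStep (k := fun y : γ × List (List ℕ) => k y.1) (q := fun y => q y.1)
      (Q := fun y => Q y.1) (T := fun y => y.2) (PTU.comp hk PTF.fst) (PTU.comp hq PTF.fst)
      (PTF.comp hQ PTF.fst) PTF.snd) (PTF.const _)
    (B := fun c => k c * (2 * (k c * (2 * (q c + 1 + 1) + 1)) + 1)) ?_ ?_
  · have h1 : PTU (fun c => k c * (2 * (k c * (2 * (q c + 1 + 1) + 1)) + 1)) := by fun_prop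
    exact h1.pb
  · intro x i _
    induction i with
    | zero => simp
    | succ i ih =>
      rw [Function.iterate_succ_apply']
      rcases searchStep_or (k x) (q x + 1) (Q x)
        ((fun T => searchStep (k x) (q x + 1) (Q x) T)^[i] []) with h | ⟨c, h⟩
      · rw [h]
        exact ih (by omega)
      · rw [h]
        exact sz_bumpL (Nat.succ_pos _) _ _ _ _

/-- the oracle as a poly-time function -/
def orc (x : Un × List (List Bool)) : List Bool :=
  oracle x.1.val (MWPrime.nextPrime x.1.val - 1 + 1) x.2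

theorem ptf_orc : PTF orc := by
  unfold orc oracle
  have hk : PTU (fun x : Un × List (List Bool) => x.1.val) := by fun_prop
  have hq : PTU (fun x : Un × List (List Bool) => MWPrime.nextPrime x.1.val - 1) :=
    PTU.sub (MWPrime.ptu_nextPrime hk) (PTU.const 1)
  have hq1 : PTF (fun x : Un × List (List Bool) => MWPrime.nextPrime x.1.val - 1 + 1) :=
    PTU.toPTF (PTU.add hq (PTU.const 1))
  exact ptf_suppL' hk hq1 (ptf_nullL' hk hq (ptf_search hk hq PTF.snd))


/-- the oracle exists -/
theorem oracle_exists : Pd292O.Oracle := by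
  refine ⟨orc, ptf_orc, fun k Q hQ => ?_⟩
  have hp := MWPrime.prime_nextPrime k
  have hlt := MWPrime.lt_nextPrime k
  have he : MWPrime.nextPrime k - 1 + 1 = MWPrime.nextPrime k := by omega
  have h := MWSearch.oracle_spec (k := k) (p := MWPrime.nextPrime k) hp hlt (Q := Q)
    (fun i j hij => hQ.symm i j i.2 j.2 hij)
    (fun i => by
      have := hQ.irr i i.2
      unfold Pd292O.tadj at this
      unfold adjL
      simpa using this)
  have horc : orc (⟨k⟩, Q) = oracle k (MWPrime.nextPrime k) Q := by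
    unfold orc
    rw [he]
  rw [horc]
  exact ⟨h.crit, h.pm, h.cnt⟩

end Crest.Agent.R304.MWPT
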