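import Mathlib

-- ▼ part R304/Poly484A
section

set_option autoImplicit false
set_option linter.unusedSectionVars false

open Finset

namespace Crest.Agent.R304.Poly484

variable {V E : Type} [DecidableEq V] [Fintype E] [DecidableEq E]

/-- edges with exactly one end in `S` -/
def cut (a b : E → V) (S : Finset V) : Finset E :=
  univ.filter fun e => ¬ (a e ∈ S ↔ b e ∈ S)

/-- `M` is a perfect matching of the multigraph with vertex set `A` and ends `a, b`. -/
structure IsPM (A : Finset V) (a b : E → V) (M : Finset E) : Prop where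
  nl : ∀ e ∈ M, a e ≠ b e
  one : ∀ v ∈ A, (M ∩ cut a b {v}).card = 1

/-- the polytope described by Edmonds' inequalities -/
structure InQ (A : Finset V) (a b : E → V) (x : E → ℝ) : Prop where
  nonneg : ∀ e, 0 ≤ x e
  loop : ∀ e, a e = b e → x e = 0
  deg : ∀ v ∈ A, ∑ e ∈ cut a b {v}, x e = 1
  odd : ∀ S ⊆ A, Odd S.card → 1 ≤ ∑ e ∈ cut a b S, x e

/-- indicator vector -/
def ind (M : Finset E) : E → ℝ := fun e => if e ∈ M then 1 else 0

/-- the perfect matching polytope -/
def PP (A : Finset V) (a b : E → V) : Set (E → ℝ) :=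
  convexHull ℝ (ind '' {M : Finset E | IsPM A a b M})

omit [DecidableEq E] in
theorem mem_cut {a b : E → V} {S : Finset V} {e : E} :
    e ∈ cut a b S ↔ ¬ (a e ∈ S ↔ b e ∈ S) := by
  simp [cut]

omit [DecidableEq E] in
theorem cut_compl {A : Finset V} {a b : E → V} (ha : ∀ e, a e ∈ A) (hb : ∀ e, b e ∈ A)
    (S : Finset V) : cut a b (A \ S) = cut a b S := by
  ext e
  simp only [mem_cut, mem_sdiff, ha e, hb e, true_and]
  tauto

/-- parity of a perfect matching on a cut -/
theorem odd_cut {A : Finset V} {a b : E → V} {M : Finset E} (hM : IsPM A a b M)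
    {S : Finset V} (hS : S ⊆ A) (hodd : Odd S.card) : Odd (M ∩ cut a b S).card := by
  classical
  have h1 : ∑ v ∈ S, (M ∩ cut a b {v}).card = S.card := by
    rw [Finset.sum_congr rfl (fun v hv => hM.one v (hS hv))]
    simp
  have h2 : ∑ v ∈ S, (M ∩ cut a b {v}).card
      = ∑ e ∈ M, ((if a e ∈ S then 1 else 0) + (if b e ∈ S then 1 else 0)) := by
    have h3 : ∀ v ∈ S, (M ∩ cut a b {v}).card = ∑ e ∈ M, (if e ∈ cut a b {v} then 1 else 0) := by
      intro v _
      rw [← Finset.filter_mem_eq_inter, Finset.card_filter]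
    rw [Finset.sum_congr rfl h3, Finset.sum_comm]
    refine Finset.sum_congr rfl fun e he => ?_
    have hne := hM.nl e he
    have h4 : ∀ v ∈ S, (if e ∈ cut a b {v} then 1 else 0)
        = (if v = a e then 1 else 0) + (if v = b e then 1 else 0) := by
      intro v _
      simp only [mem_cut, mem_singleton]
      by_cases h5 : v = a e
      · have h6 : ¬ v = b e := fun h => hne (h5.symm.trans h)
        have h5' : a e = v := h5.symm
        have h6' : ¬ b e = v := fun h => h6 h.symm
        simp [h5', h6']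
        exact h6
      · by_cases h6 : v = b e
        · have h5' : ¬ a e = v := fun h => h5 h.symm
          have h6' : b e = v := h6.symm
          simp [h5', h6', h5]
        · have h5' : ¬ a e = v := fun h => h5 h.symm
          have h6' : ¬ b e = v := fun h => h6 h.symm
          simp [h5', h6', h5, h6]
    rw [Finset.sum_congr rfl h4, Finset.sum_add_distrib]
    simp
  have h7 : (∑ e ∈ M, ((if a e ∈ S then 1 else 0) + (if b e ∈ S then 1 else 0)) : ℕ)
      = (M ∩ cut a b S).card + 2 * (M.filter fun e => a e ∈ S ∧ b e ∈ S).card := by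
    rw [← Finset.filter_mem_eq_inter, Finset.card_filter, Finset.card_filter, Finset.mul_sum,
      ← Finset.sum_add_distrib]
    refine Finset.sum_congr rfl fun e _ => ?_
    by_cases h5 : a e ∈ S <;> by_cases h6 : b e ∈ S <;> simp [mem_cut, h5, h6]
  have h8 : (M ∩ cut a b S).card + 2 * (M.filter fun e => a e ∈ S ∧ b e ∈ S).card = S.card := by
    rw [← h7, ← h2, h1]
  rw [← h8] at hodd
  rcases Nat.even_or_odd (M ∩ cut a b S).card with h | h
  · exact absurd hodd (by
      rw [Nat.not_odd_iff_even]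
      exact h.add (even_two_mul _))
  · exact h

omit [DecidableEq V] in
theorem sum_ind (M T : Finset E) : ∑ e ∈ T, ind M e = ((M ∩ T).card : ℝ) := by
  unfold ind
  rw [Finset.sum_ite_mem, Finset.inter_comm]
  simp

theorem ind_mem_Q {A : Finset V} {a b : E → V} {M : Finset E} (hM : IsPM A a b M) :
    InQ A a b (ind M) where
  nonneg e := by unfold ind; split_ifs <;> norm_num
  loop e he := by
    unfold ind
    rw [if_neg]
    intro h
    exact hM.nl e h he
  deg v hv := by
    rw [sum_ind, hM.one v hv]; simp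
  odd S hS ho := by
    rw [sum_ind]
    have := (odd_cut hM hS ho).pos
    exact_mod_cast this

omit [DecidableEq E] in
theorem convex_Q (A : Finset V) (a b : E → V) : Convex ℝ {x : E → ℝ | InQ A a b x} := by
  intro x hx y hy s t hs ht hst
  simp only [Set.mem_ofPred_eq] at hx hy ⊢
  have hsum : ∀ T : Finset E, ∑ e ∈ T, (s • x + t • y) e = s * ∑ e ∈ T, x e + t * ∑ e ∈ T, y e := by
    intro T
    simp [Finset.sum_add_distrib, Finset.mul_sum]
  refine ⟨fun e => ?_, fun e he => ?_, fun v hv => ?_, fun S hS ho => ?_⟩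
  · have := hx.nonneg e
    have := hy.nonneg e
    simp only [Pi.add_apply, Pi.smul_apply, smul_eq_mul]
    positivity
  · simp [hx.loop e he, hy.loop e he]
  · rw [hsum, hx.deg v hv, hy.deg v hv]; linarith
  · rw [hsum]
    have h1 := hx.odd S hS ho
    have h2 := hy.odd S hS ho
    nlinarith

theorem PP_sub_Q {A : Finset V} {a b : E → V} {x : E → ℝ} (hx : x ∈ PP A a b) : InQ A a b x := by
  have h : PP A a b ⊆ {x : E → ℝ | InQ A a b x} := by
    refine convexHull_min ?_ (convex_Q A a b)
    rintro _ ⟨M, hM, rfl⟩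
    exact ind_mem_Q hM
  exact h hx

theorem closed_Q (A : Finset V) (a b : E → V) : IsClosed {x : E → ℝ | InQ A a b x} := by
  have h : {x : E → ℝ | InQ A a b x}
      = (⋂ e, {x : E → ℝ | 0 ≤ x e}) ∩ (⋂ e, ⋂ (_ : a e = b e), {x : E → ℝ | x e = 0})
        ∩ (⋂ v, ⋂ (_ : v ∈ A), {x : E → ℝ | ∑ e ∈ cut a b {v}, x e = 1})
        ∩ (⋂ S, ⋂ (_ : S ⊆ A), ⋂ (_ : Odd S.card), {x : E → ℝ | 1 ≤ ∑ e ∈ cut a b S, x e}) := by
    ext x
    simp only [Set.mem_ofPred_eq, Set.mem_inter_iff, Set.mem_iInter]
    constructor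
    · intro h
      exact ⟨⟨⟨h.nonneg, h.loop⟩, h.deg⟩, h.odd⟩
    · rintro ⟨⟨⟨h1, h2⟩, h3⟩, h4⟩
      exact ⟨h1, h2, h3, h4⟩
  rw [h]
  refine (((isClosed_iInter fun e => ?_).inter (isClosed_iInter fun e => isClosed_iInter fun _ => ?_)).inter
    (isClosed_iInter fun v => isClosed_iInter fun _ => ?_)).inter
    (isClosed_iInter fun S => isClosed_iInter fun _ => isClosed_iInter fun _ => ?_)
  · exact isClosed_le continuous_const (continuous_apply e)
  · exact isClosed_eq (continuous_apply e) continuous_const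
  · exact isClosed_eq (by fun_prop) continuous_const
  · exact isClosed_le continuous_const (by fun_prop)

theorem InQ.le_one {A : Finset V} {a b : E → V} (ha : ∀ e, a e ∈ A) {x : E → ℝ}
    (hx : InQ A a b x) (e : E) : x e ≤ 1 := by
  by_cases hab : a e = b e
  · rw [hx.loop e hab]; norm_num
  · rw [← hx.deg (a e) (ha e)]
    refine Finset.single_le_sum (f := x) (fun i _ => hx.nonneg i) ?_
    rw [mem_cut]
    simp only [mem_singleton, true_iff]
    exact fun h => hab h.symm

theorem compact_Q (A : Finset V) (a b : E → V) (ha : ∀ e, a e ∈ A) :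
    IsCompact {x : E → ℝ | InQ A a b x} := by
  refine IsCompact.of_isClosed_subset (isCompact_univ_pi (s := fun _ : E => Set.Icc (0:ℝ) 1)
    fun _ => isCompact_Icc) (closed_Q A a b) ?_
  intro x hx
  simp only [Set.mem_pi, Set.mem_univ, forall_true_left, Set.mem_Icc]
  exact fun e => ⟨hx.nonneg e, hx.le_one ha e⟩

/-- a nontrivial tight odd set -/
def Tight (A : Finset V) (a b : E → V) (x : E → ℝ) (U : Finset V) : Prop :=
  U ⊆ A ∧ Odd U.card ∧ 1 < U.card ∧ 1 < (A \ U).card ∧ ∑ e ∈ cut a b U, x e = 1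

/-- small moves stay in `Q` when there is no nontrivial tight odd set -/
theorem small_move {A : Finset V} {a b : E → V} (ha : ∀ e, a e ∈ A) (hb : ∀ e, b e ∈ A)
    (hev : Even A.card) {x : E → ℝ} (hx : InQ A a b x)
    (hno : ∀ U, ¬ Tight A a b x U) {h : E → ℝ} (hsupp : ∀ e, x e = 0 → h e = 0)
    (hdeg : ∀ v ∈ A, ∑ e ∈ cut a b {v}, h e = 0) :
    ∃ ε : ℝ, 0 < ε ∧ ∀ t : ℝ, |t| < ε → InQ A a b (x + t • h) := by
  have hsum : ∀ (T : Finset E) (t : ℝ),
      ∑ e ∈ T, (x + t • h) e = ∑ e ∈ T, x e + t * ∑ e ∈ T, h e := by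
    intro T t
    simp [Finset.sum_add_distrib, Finset.mul_sum]
  have h1 : ∀ e : E, ∀ᶠ t : ℝ in nhds 0, 0 ≤ x e + t * h e := by
    intro e
    rcases eq_or_lt_of_le (hx.nonneg e) with h0 | h0
    · refine Filter.Eventually.of_forall fun t => ?_
      rw [hsupp e h0.symm, ← h0]; simp
    · have hc : Filter.Tendsto (fun t : ℝ => x e + t * h e) (nhds 0) (nhds (x e + 0 * h e)) := by
        apply Continuous.tendsto (f := fun t : ℝ => x e + t * h e)
        fun_prop
      have := hc.eventually (lt_mem_nhds (a := 0) (by simpa using h0))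
      exact this.mono fun t ht => ht.le
  have h2 : ∀ S ∈ A.powerset, ∀ᶠ t : ℝ in nhds 0,
      (Odd S.card → 1 ≤ ∑ e ∈ cut a b S, x e + t * ∑ e ∈ cut a b S, h e) := by
    intro S hS
    rw [Finset.mem_powerset] at hS
    by_cases ho : Odd S.card
    swap
    · exact Filter.Eventually.of_forall fun t h => absurd h ho
    by_cases hS1 : S.card = 1
    · obtain ⟨v, rfl⟩ := Finset.card_eq_one.mp hS1
      have hv : v ∈ A := hS (mem_singleton_self v)
      refine Filter.Eventually.of_forall fun t _ => ?_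
      rw [hx.deg v hv, hdeg v hv]; simp
    by_cases hS2 : (A \ S).card ≤ 1
    · have hcard : (A \ S).card + S.card = A.card := Finset.card_sdiff_add_card_eq_card hS
      have hS3 : (A \ S).card = 1 := by
        have : Odd (A \ S).card := by
          rcases Nat.even_or_odd (A \ S).card with h | h
          · exfalso
            rw [← hcard] at hev
            have := h.add_odd ho
            exact (Nat.not_odd_iff_even.mpr hev) this
          · exact h
        have := this.pos
        omega
      obtain ⟨v, hv⟩ := Finset.card_eq_one.mp hS3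
      have hvA : v ∈ A := by
        have : v ∈ A \ S := by rw [hv]; exact mem_singleton_self v
        exact (mem_sdiff.mp this).1
      refine Filter.Eventually.of_forall fun t _ => ?_
      rw [← cut_compl ha hb S, hv, hx.deg v hvA, hdeg v hvA]; simp
    · have hpos := ho.pos
      have hlt : 1 < ∑ e ∈ cut a b S, x e := by
        refine lt_of_le_of_ne (hx.odd S hS ho) fun hh => ?_
        exact hno S ⟨hS, ho, by omega, by omega, hh.symm⟩
      have hc : Filter.Tendsto (fun t : ℝ => ∑ e ∈ cut a b S, x e + t * ∑ e ∈ cut a b S, h e)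
          (nhds 0) (nhds (∑ e ∈ cut a b S, x e + 0 * ∑ e ∈ cut a b S, h e)) := by
        apply Continuous.tendsto (f := fun t : ℝ => ∑ e ∈ cut a b S, x e + t * ∑ e ∈ cut a b S, h e)
        fun_prop
      have := hc.eventually (lt_mem_nhds (a := 1) (by simpa using hlt))
      exact this.mono fun t ht _ => ht.le
  have h3 : ∀ᶠ t : ℝ in nhds 0, (∀ e, 0 ≤ x e + t * h e) ∧
      ∀ S ∈ A.powerset, (Odd S.card → 1 ≤ ∑ e ∈ cut a b S, x e + t * ∑ e ∈ cut a b S, h e) :=
    (Filter.eventually_all.mpr h1).and ((Filter.eventually_all_finset _).mpr h2)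
  rw [Metric.eventually_nhds_iff] at h3
  obtain ⟨ε, hε, h4⟩ := h3
  refine ⟨ε, hε, fun t ht => ?_⟩
  obtain ⟨h5, h6⟩ := h4 (by simpa [Real.dist_eq] using ht)
  refine ⟨fun e => ?_, fun e he => ?_, fun v hv => ?_, fun S hS ho => ?_⟩
  · simpa using h5 e
  · simp [hx.loop e he, hsupp e (hx.loop e he)]
  · rw [hsum, hx.deg v hv, hdeg v hv]; simp
  · rw [hsum]
    exact h6 S (Finset.mem_powerset.mpr hS) ho

end Crest.Agent.R304.Poly484
end

-- ▼ part R304/Poly484B
section

set_option autoImplicit false
set_option linter.unusedSectionVars false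

open Finset

namespace Crest.Agent.R304.Poly484

variable {V E : Type} [DecidableEq V] [Fintype E] [DecidableEq E]

/-- support graph -/
def supG (A : Finset V) (a b : E → V) (x : E → ℝ) : SimpleGraph {v // v ∈ A} where
  Adj u v := u ≠ v ∧ ∃ e, 0 < x e ∧ ((a e = u.1 ∧ b e = v.1) ∨ (a e = v.1 ∧ b e = u.1))
  symm := ⟨fun _ _ h => ⟨h.1.symm, h.2.imp fun _ he => ⟨he.1, he.2.symm⟩⟩⟩
  loopless := ⟨fun _ h => h.1 rfl⟩

theorem no_violator {A : Finset V} {a b : E → V} (ha : ∀ e, a e ∈ A) (hb : ∀ e, b e ∈ A)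
    {x : E → ℝ} (hx : InQ A a b x) (u : Set {v // v ∈ A}) :
    ¬ (supG A a b x).IsTutteViolator u := by
  classical
  intro hviol
  unfold SimpleGraph.IsTutteViolator at hviol
  set D := ((⊤ : (supG A a b x).Subgraph).deleteVerts u) with hD
  set K := D.coe with hK
  have hverts : ∀ w : {v // v ∈ A}, w ∈ D.verts ↔ w ∉ u := by
    intro w; simp [hD]
  have hDadj : ∀ p q : {v // v ∈ A}, p ∉ u → q ∉ u → (supG A a b x).Adj p q → D.Adj p q := by
    intro p q hp hq hadj
    rw [hD, SimpleGraph.Subgraph.deleteVerts_adj]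
    exact ⟨by simp, hp, by simp, hq, by rw [SimpleGraph.Subgraph.top_adj]; exact hadj⟩
  -- vertex sets of components
  let S : K.ConnectedComponent → Finset V := fun c =>
    (univ.filter (fun w : D.verts => K.connectedComponentMk w = c)).image (fun w => (w.1.1 : V))
  have hSmem : ∀ c v, v ∈ S c ↔ ∃ w : D.verts, K.connectedComponentMk w = c ∧ (w.1.1 : V) = v := by
    intro c v
    simp [S]
  have hSA : ∀ c, S c ⊆ A := by
    intro c v hv
    obtain ⟨w, _, rfl⟩ := (hSmem c v).mp hv
    exact w.1.2
  have hScard : ∀ c, (S c).card = c.supp.ncard := by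
    intro c
    have hinj : Function.Injective (fun w : D.verts => (w.1.1 : V)) := by
      intro w w' h
      exact Subtype.ext (Subtype.ext h)
    rw [Finset.card_image_of_injective _ hinj, Set.ncard_eq_toFinset_card']
    congr 1
    ext w
    simp [SimpleGraph.ConnectedComponent.mem_supp_iff]
  -- disjointness
  have hSdisj : ∀ c c' v, v ∈ S c → v ∈ S c' → c = c' := by
    intro c c' v h h'
    obtain ⟨w, hw, hwv⟩ := (hSmem c v).mp h
    obtain ⟨w', hw', hwv'⟩ := (hSmem c' v).mp h'
    have : w = w' := Subtype.ext (Subtype.ext (hwv.trans hwv'.symm))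
    rw [← hw, ← hw', this]
  have hSu : ∀ c v (hv : v ∈ A), v ∈ S c → (⟨v, hv⟩ : {v // v ∈ A}) ∉ u := by
    intro c v hv h
    obtain ⟨w, hw, hwv⟩ := (hSmem c v).mp h
    have h1 := (hverts w.1).mp w.2
    have h2 : w.1 = ⟨v, hv⟩ := Subtype.ext hwv
    rwa [h2] at h1
  -- neighbours
  have hnbr : ∀ c e, 0 < x e → (a e ∈ S c → b e ∉ S c → (⟨b e, hb e⟩ : {v // v ∈ A}) ∈ u) ∧
      (b e ∈ S c → a e ∉ S c → (⟨a e, ha e⟩ : {v // v ∈ A}) ∈ u) := by
    intro c e he
    have key : ∀ p q : {v // v ∈ A}, (supG A a b x).Adj p q → p.1 ∈ S c → q ∉ u → q.1 ∈ S c := by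
      intro p q hadj hp hq
      obtain ⟨w, hw, hwp⟩ := (hSmem c p.1).mp hp
      have hwp' : w.1 = p := Subtype.ext hwp
      have hqD : q ∈ D.verts := (hverts q).mpr hq
      refine (hSmem c q.1).mpr ⟨⟨q, hqD⟩, ?_, rfl⟩
      rw [← hw]
      apply SimpleGraph.ConnectedComponent.sound
      apply SimpleGraph.Adj.reachable
      rw [hK, SimpleGraph.Subgraph.coe_adj]
      have h1 : w.1 ∈ D.verts := w.2
      refine hDadj _ _ hq ((hverts w.1).mp h1) ?_
      rw [hwp']
      exact hadj.symm
    constructor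
    · intro h1 h2
      by_contra h3
      refine h2 (key ⟨a e, ha e⟩ ⟨b e, hb e⟩ ⟨?_, e, he, Or.inl ⟨rfl, rfl⟩⟩ h1 h3)
      intro h4
      have : a e = b e := congrArg Subtype.val h4
      exact h2 (this ▸ h1)
    · intro h1 h2
      by_contra h3
      refine h2 (key ⟨b e, hb e⟩ ⟨a e, ha e⟩ ⟨?_, e, he, Or.inr ⟨rfl, rfl⟩⟩ h1 h3)
      intro h4
      have : b e = a e := congrArg Subtype.val h4
      exact h2 (this ▸ h1)
  -- the double count
  let O : Finset K.ConnectedComponent := univ.filter fun c => Odd c.supp.ncard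
  have hO : (K.oddComponents).ncard = O.card := by
    rw [Set.ncard_eq_toFinset_card']
    congr 1
    ext c
    simp [O, SimpleGraph.oddComponents]
  let U : Finset {v // v ∈ A} := univ.filter fun w => w ∈ u
  have hU : u.ncard = U.card := by
    rw [Set.ncard_eq_toFinset_card']
    congr 1
    ext c
    simp [U]
  have h1 : (O.card : ℝ) ≤ ∑ c ∈ O, ∑ e ∈ cut a b (S c), x e := by
    have : (O.card : ℝ) = ∑ c ∈ O, (1 : ℝ) := by simp
    rw [this]
    refine Finset.sum_le_sum fun c hc => ?_
    refine hx.odd (S c) (hSA c) ?_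
    rw [hScard]
    exact (Finset.mem_filter.mp hc).2
  have h2 : ∑ w ∈ U, ∑ e ∈ cut a b {w.1}, x e = (U.card : ℝ) := by
    rw [Finset.sum_congr rfl (fun w _ => hx.deg w.1 w.2)]
    simp
  have h3 : ∑ c ∈ O, ∑ e ∈ cut a b (S c), x e ≤ ∑ w ∈ U, ∑ e ∈ cut a b {w.1}, x e := by
    have e1 : ∀ T : Finset E, ∑ e ∈ T, x e = ∑ e, if e ∈ T then x e else 0 := by
      intro T; simp
    rw [Finset.sum_congr rfl (fun c _ => e1 (cut a b (S c))),
      Finset.sum_congr rfl (fun (w : {v // v ∈ A}) _ => e1 (cut a b {w.1})),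
      Finset.sum_comm, Finset.sum_comm (s := U)]
    refine Finset.sum_le_sum fun e _ => ?_
    rcases eq_or_lt_of_le (hx.nonneg e) with h0 | h0
    · simp [← h0]
    rw [← Finset.sum_filter, ← Finset.sum_filter, Finset.sum_const, Finset.sum_const,
      nsmul_eq_mul, nsmul_eq_mul]
    refine mul_le_mul_of_nonneg_right ?_ h0.le
    norm_cast
    have hle1 : (O.filter fun c => e ∈ cut a b (S c)).card ≤ 1 := by
      rw [Finset.card_le_one]
      intro c hc c' hc'
      rw [Finset.mem_filter, mem_cut] at hc hc'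
      obtain ⟨hn1, hn2⟩ := hnbr c e h0
      obtain ⟨hn1', hn2'⟩ := hnbr c' e h0
      by_cases hac : a e ∈ S c
      · have hbc : b e ∉ S c := fun h => hc.2 ⟨fun _ => h, fun _ => hac⟩
        have hbu := hn1 hac hbc
        have hbc' : b e ∉ S c' := fun h => hSu c' _ (hb e) h hbu
        have hac' : a e ∈ S c' := by
          by_contra h
          exact hc'.2 ⟨fun h' => absurd h' h, fun h' => absurd h' hbc'⟩
        exact hSdisj c c' _ hac hac'
      · have hbc : b e ∈ S c := by
          by_contra h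
          exact hc.2 ⟨fun h' => absurd h' hac, fun h' => absurd h' h⟩
        have hau := hn2 hbc hac
        have hac' : a e ∉ S c' := fun h => hSu c' _ (ha e) h hau
        have hbc' : b e ∈ S c' := by
          by_contra h
          exact hc'.2 ⟨fun h' => absurd h' hac', fun h' => absurd h' h⟩
        exact hSdisj c c' _ hbc hbc'
    rcases Nat.eq_zero_or_pos (O.filter fun c => e ∈ cut a b (S c)).card with h4 | h4
    · rw [h4]; exact Nat.zero_le _
    · refine hle1.trans ?_
      obtain ⟨c, hc⟩ := Finset.card_pos.mp h4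
      rw [Finset.mem_filter, mem_cut] at hc
      obtain ⟨hn1, hn2⟩ := hnbr c e h0
      rw [Nat.one_le_iff_ne_zero, ← Nat.pos_iff_ne_zero, Finset.card_pos]
      by_cases hac : a e ∈ S c
      · have hbc : b e ∉ S c := fun h => hc.2 ⟨fun _ => h, fun _ => hac⟩
        have hbu := hn1 hac hbc
        refine ⟨⟨b e, hb e⟩, ?_⟩
        rw [Finset.mem_filter, mem_cut]
        refine ⟨by simp [U, hbu], ?_⟩
        simp only [mem_singleton, iff_true]
        intro h
        exact hbc (h ▸ hac)
      · have hbc : b e ∈ S c := by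
          by_contra h
          exact hc.2 ⟨fun h' => absurd h' hac, fun h' => absurd h' h⟩
        have hau := hn2 hbc hac
        refine ⟨⟨a e, ha e⟩, ?_⟩
        rw [Finset.mem_filter, mem_cut]
        refine ⟨by simp [U, hau], ?_⟩
        simp only [mem_singleton, true_iff]
        intro h
        exact hac (h ▸ hbc)
  rw [hO, hU] at hviol
  have : (O.card : ℝ) ≤ U.card := h1.trans (h3.trans h2.le)
  have : O.card ≤ U.card := by exact_mod_cast this
  omega

/-- the support of a point of `Q` contains a perfect matching -/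
theorem exists_pm {A : Finset V} {a b : E → V} (ha : ∀ e, a e ∈ A) (hb : ∀ e, b e ∈ A)
    {x : E → ℝ} (hx : InQ A a b x) : ∃ M, IsPM A a b M ∧ ∀ e ∈ M, 0 < x e := by
  classical
  obtain ⟨M', hM'⟩ := SimpleGraph.tutte.mpr (no_violator ha hb hx)
  obtain ⟨hmatch, hspan⟩ := hM'
  by_cases hA : A.Nonempty
  swap
  · rw [Finset.not_nonempty_iff_eq_empty] at hA
    subst hA
    refine ⟨∅, ⟨by simp, by simp⟩, by simp⟩
  -- E nonempty
  let sym : E → Sym2 {v // v ∈ A} := fun e => s(⟨a e, ha e⟩, ⟨b e, hb e⟩)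
  have hex : ∀ s : Sym2 {v // v ∈ A}, s ∈ (supG A a b x).edgeSet → ∃ e, sym e = s ∧ 0 < x e := by
    intro s
    induction s with
    | _ p q =>
      intro h
      rw [SimpleGraph.mem_edgeSet] at h
      obtain ⟨hne, e, he, h1 | h1⟩ := h
      · refine ⟨e, ?_, he⟩
        have : (⟨a e, ha e⟩ : {v // v ∈ A}) = p := Subtype.ext h1.1
        have h' : (⟨b e, hb e⟩ : {v // v ∈ A}) = q := Subtype.ext h1.2
        simp only [sym, this, h']
      · refine ⟨e, ?_, he⟩
        have : (⟨a e, ha e⟩ : {v // v ∈ A}) = q := Subtype.ext h1.1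
        have h' : (⟨b e, hb e⟩ : {v // v ∈ A}) = p := Subtype.ext h1.2
        simp only [sym, this, h']
        exact Sym2.eq_swap
  let M : Finset E := univ.filter fun e => ∃ h : sym e ∈ (supG A a b x).edgeSet,
    sym e ∈ M'.edgeSet ∧ (hex (sym e) h).choose = e
  have hchoose : ∀ (s : Sym2 {v // v ∈ A}) (h : s ∈ (supG A a b x).edgeSet),
      sym (hex s h).choose = s ∧ 0 < x (hex s h).choose := fun s h => (hex s h).choose_spec
  have hMmem : ∀ e, e ∈ M ↔ ∃ h : sym e ∈ (supG A a b x).edgeSet,
    sym e ∈ M'.edgeSet ∧ (hex (sym e) h).choose = e := by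
    intro e; simp [M]
  refine ⟨M, ⟨?_, ?_⟩, ?_⟩
  · intro e he heq
    obtain ⟨h, h1, h2⟩ := (hMmem e).mp he
    have h3 : (supG A a b x).Adj ⟨a e, ha e⟩ ⟨b e, hb e⟩ := (SimpleGraph.mem_edgeSet _).mp h
    exact h3.1 (Subtype.ext heq)
  · intro v hv
    obtain ⟨w, hw, hwu⟩ := hmatch (hspan ⟨v, hv⟩)
    simp only at hw hwu
    have hGadj : (supG A a b x).Adj ⟨v, hv⟩ w := M'.adj_sub hw
    have hedge : s(⟨v, hv⟩, w) ∈ (supG A a b x).edgeSet := (SimpleGraph.mem_edgeSet _).mpr hGadj
    obtain ⟨hs1, hs2⟩ := hchoose _ hedge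
    rw [Finset.card_eq_one]
    refine ⟨(hex _ hedge).choose, ?_⟩
    ext e
    rw [mem_inter, mem_singleton, mem_cut]
    constructor
    · rintro ⟨he, hcut⟩
      obtain ⟨h, h1, h2⟩ := (hMmem e).mp he
      simp only [mem_singleton] at hcut
      -- v is an end of e
      have h3 : (M').Adj ⟨a e, ha e⟩ ⟨b e, hb e⟩ := h1
      have h4 : sym e = s(⟨v, hv⟩, w) := by
        by_cases hav : a e = v
        · have e1 : (⟨a e, ha e⟩ : {v // v ∈ A}) = ⟨v, hv⟩ := Subtype.ext hav
          have e2 : (⟨b e, hb e⟩ : {v // v ∈ A}) = w := hwu _ (by rw [← e1]; exact h3)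
          simp only [sym, e1, e2]
        · have hbv : b e = v := by
            by_contra hbv
            exact hcut ⟨fun h => absurd h hav, fun h => absurd h hbv⟩
          have e1 : (⟨b e, hb e⟩ : {v // v ∈ A}) = ⟨v, hv⟩ := Subtype.ext hbv
          have e2 : (⟨a e, ha e⟩ : {v // v ∈ A}) = w := hwu _ (by rw [← e1]; exact h3.symm)
          simp only [sym, e1, e2]
          exact Sym2.eq_swap
      rw [← h2]
      congr 1
      simp only [h4]
    · rintro rfl
      constructor
      · rw [hMmem]
        refine ⟨by rw [hs1]; exact hedge, by rw [hs1]; exact hw, ?_⟩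
        congr 1
        simp only [hs1]
      · simp only [mem_singleton]
        set e := (hex _ hedge).choose
        have h5 : s((⟨a e, ha e⟩ : {v // v ∈ A}), ⟨b e, hb e⟩) = s(⟨v, hv⟩, w) := hs1
        rw [Sym2.eq_iff] at h5
        have hvw : v ≠ w.1 := fun h => hGadj.1 (Subtype.ext h)
        rcases h5 with ⟨h6, h7⟩ | ⟨h6, h7⟩
        · have h6' : a e = v := congrArg Subtype.val h6
          have h7' : b e = w.1 := congrArg Subtype.val h7
          rw [h6', h7']
          simp [hvw.symm]
        · have h6' : a e = w.1 := congrArg Subtype.val h6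
          have h7' : b e = v := congrArg Subtype.val h7
          rw [h6', h7']
          simp [hvw.symm]
  · intro e he
    obtain ⟨h, h1, h2⟩ := (hMmem e).mp he
    have := (hchoose _ h).2
    rwa [h2] at this

end Crest.Agent.R304.Poly484
end

-- ▼ part R304/Poly484C
section

set_option autoImplicit false
set_option linter.unusedSectionVars false

open Finset

namespace Crest.Agent.R304.Poly484

variable {V E : Type} [DecidableEq V] [Fintype E] [DecidableEq E]

/-- contraction of `U` to the vertex `u0` -/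
def con (U : Finset V) (u0 : V) (v : V) : V := if v ∈ U then u0 else v

theorem con_eq {U : Finset V} {u0 : V} (hu0 : u0 ∈ U) {p q : V} :
    con U u0 p = con U u0 q ↔ (p ∈ U ∧ q ∈ U) ∨ p = q := by
  unfold con
  by_cases hp : p ∈ U <;> by_cases hq : q ∈ U
  · simp [hp, hq]
  · simp only [hp, hq, if_true, if_false, and_false, false_or]
    constructor
    · rintro rfl; exact absurd hu0 hq
    · rintro rfl; exact absurd hp hq
  · simp only [hp, hq, if_true, if_false, false_and, false_or]
    constructor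
    · rintro rfl; exact absurd hu0 hp
    · rintro rfl; exact absurd hq hp
  · simp [hp, hq]

theorem con_mem_singleton_out {U : Finset V} {u0 : V} (hu0 : u0 ∈ U) {v : V} (hv : v ∉ U) (p : V) :
    con U u0 p ∈ ({v} : Finset V) ↔ p ∈ ({v} : Finset V) := by
  simp only [mem_singleton]
  unfold con
  by_cases hp : p ∈ U
  · simp only [hp, if_true]
    constructor
    · rintro rfl; exact absurd hu0 hv
    · rintro rfl; exact absurd hp hv
  · simp [hp]

theorem con_mem_singleton_u0 {U : Finset V} {u0 : V} (hu0 : u0 ∈ U) (p : V) :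
    con U u0 p ∈ ({u0} : Finset V) ↔ p ∈ U := by
  simp only [mem_singleton]
  unfold con
  by_cases hp : p ∈ U
  · simp [hp]
  · simp only [hp, if_false, iff_false]
    rintro rfl
    exact hp hu0

theorem cut1_out {U : Finset V} {u0 : V} (hu0 : u0 ∈ U) {v : V} (hv : v ∉ U) (a b : E → V) :
    cut (fun e => con U u0 (a e)) (fun e => con U u0 (b e)) {v} = cut a b {v} := by
  ext e
  rw [mem_cut, mem_cut, con_mem_singleton_out hu0 hv, con_mem_singleton_out hu0 hv]

theorem cut1_u0 {U : Finset V} {u0 : V} (hu0 : u0 ∈ U) (a b : E → V) :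
    cut (fun e => con U u0 (a e)) (fun e => con U u0 (b e)) {u0} = cut a b U := by
  ext e
  rw [mem_cut, mem_cut, con_mem_singleton_u0 hu0, con_mem_singleton_u0 hu0]

theorem cut1_gen {A U : Finset V} {u0 : V} {a b : E → V} (ha : ∀ e, a e ∈ A)
    (hb : ∀ e, b e ∈ A) (S : Finset V) :
    cut (fun e => con U u0 (a e)) (fun e => con U u0 (b e)) S
      = cut a b (A.filter fun v => con U u0 v ∈ S) := by
  ext e
  rw [mem_cut, mem_cut, mem_filter, mem_filter]
  simp [ha e, hb e]

theorem con_mem {A U : Finset V} {u0 : V} {v : V} (hv : v ∈ A) :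
    con U u0 v ∈ insert u0 (A \ U) := by
  unfold con
  split_ifs with h
  · exact mem_insert_self _ _
  · exact mem_insert_of_mem (mem_sdiff.mpr ⟨hv, h⟩)

/-- the law of a point of the polytope -/
theorem exists_law {A : Finset V} {a b : E → V} {x : E → ℝ} (hx : x ∈ PP A a b) :
    ∃ p : Finset E → ℝ, (∀ M, 0 ≤ p M) ∧ ∑ M, p M = 1 ∧ (∀ M, p M ≠ 0 → IsPM A a b M) ∧
      ∀ e, x e = ∑ M, p M * ind M e := by
  have hsub : PP A a b ⊆ {x | ∃ p : Finset E → ℝ, (∀ M, 0 ≤ p M) ∧ ∑ M, p M = 1 ∧
      (∀ M, p M ≠ 0 → IsPM A a b M) ∧ ∀ e, x e = ∑ M, p M * ind M e} := by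
    refine convexHull_min ?_ ?_
    · rintro _ ⟨M, hM, rfl⟩
      refine ⟨fun N => if N = M then 1 else 0, fun N => ?_, ?_, fun N hN => ?_, fun e => ?_⟩
      · show (0:ℝ) ≤ if N = M then 1 else 0
        split_ifs <;> norm_num
      · simp
      · have : N = M := by
          by_contra h
          simp [h] at hN
        rw [this]; exact hM
      · simp
    · rintro x ⟨p, hp0, hp1, hpM, hpx⟩ y ⟨q, hq0, hq1, hqM, hqy⟩ s t hs ht hst
      refine ⟨fun M => s * p M + t * q M, fun M => ?_, ?_, fun M hM => ?_, fun e => ?_⟩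
      · have := hp0 M
        have := hq0 M
        positivity
      · rw [Finset.sum_add_distrib, ← Finset.mul_sum, ← Finset.mul_sum, hp1, hq1]; linarith
      · by_contra h
        have h1 : p M = 0 := by
          by_contra h'; exact h (hpM M h')
        have h2 : q M = 0 := by
          by_contra h'; exact h (hqM M h')
        simp [h1, h2] at hM
      · simp only [Pi.add_apply, Pi.smul_apply, smul_eq_mul]
        rw [hpx e, hqy e, Finset.mul_sum, Finset.mul_sum, ← Finset.sum_add_distrib]
        refine Finset.sum_congr rfl fun M _ => ?_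
        ring
  exact hsub hx

/-- the union of two matchings sharing an edge of the cut -/
theorem union_pm {A U : Finset V} (hU : U ⊆ A) {u0 w0 : V} (hu0 : u0 ∈ U) (hw0 : w0 ∈ A \ U)
    {a b : E → V} (ha : ∀ e, a e ∈ A) (hb : ∀ e, b e ∈ A) {M1 M2 : Finset E}
    (h1 : IsPM (insert u0 (A \ U)) (fun e => con U u0 (a e)) (fun e => con U u0 (b e)) M1)
    (h2 : IsPM (insert w0 U) (fun e => con (A \ U) w0 (a e)) (fun e => con (A \ U) w0 (b e)) M2)
    {e0 : E} (he0 : e0 ∈ cut a b U) (he1 : e0 ∈ M1) (he2 : e0 ∈ M2) :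
    (∀ e ∈ M2, ¬ (a e ∈ U ∧ b e ∈ U) → e ∈ M1) ∧ (∀ e ∈ M1, (a e ∈ U ∨ b e ∈ U) → e ∈ M2) ∧
      IsPM A a b (M1 ∪ M2) := by
  have hc1 : (M1 ∩ cut a b U).card = 1 := by
    have := h1.one u0 (mem_insert_self _ _)
    rwa [cut1_u0 hu0] at this
  have hc2 : (M2 ∩ cut a b U).card = 1 := by
    have := h2.one w0 (mem_insert_self _ _)
    rwa [cut1_u0 hw0, cut_compl ha hb] at this
  have cl1 : ∀ e ∈ M2, ¬ (a e ∈ U ∧ b e ∈ U) → e ∈ M1 := by
    intro e he hne
    by_cases hcut : e ∈ cut a b U
    · have : e = e0 := Finset.card_le_one.mp hc2.le e (mem_inter.mpr ⟨he, hcut⟩) e0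
        (mem_inter.mpr ⟨he2, he0⟩)
      rw [this]; exact he1
    · exfalso
      have hnl := h2.nl e he
      apply hnl
      rw [mem_cut] at hcut
      rw [con_eq hw0]
      left
      have haU : a e ∉ U := fun h => hcut (by simp only [h, true_iff]; exact fun h' => hne ⟨h, h'⟩)
      have hbU : b e ∉ U := fun h => hcut (by simp only [h, iff_true]; exact haU)
      exact ⟨mem_sdiff.mpr ⟨ha e, haU⟩, mem_sdiff.mpr ⟨hb e, hbU⟩⟩
  have cl2 : ∀ e ∈ M1, (a e ∈ U ∨ b e ∈ U) → e ∈ M2 := by
    intro e he hne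
    by_cases hcut : e ∈ cut a b U
    · have : e = e0 := Finset.card_le_one.mp hc1.le e (mem_inter.mpr ⟨he, hcut⟩) e0
        (mem_inter.mpr ⟨he1, he0⟩)
      rw [this]; exact he2
    · exfalso
      have hnl := h1.nl e he
      apply hnl
      rw [mem_cut, not_not] at hcut
      rw [con_eq hu0]
      left
      rcases hne with h | h
      · exact ⟨h, hcut.mp h⟩
      · exact ⟨hcut.mpr h, h⟩
  refine ⟨cl1, cl2, ?_, ?_⟩
  · intro e he heq
    rcases mem_union.mp he with h | h
    · exact h1.nl e h (by simp only [heq])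
    · exact h2.nl e h (by simp only [heq])
  · intro v hv
    by_cases hvU : v ∈ U
    · have hcard := h2.one v (mem_insert_of_mem hvU)
      rw [cut1_out hw0 (by simp [hvU])] at hcard
      rw [← hcard]
      congr 1
      ext e
      simp only [mem_inter, mem_union]
      constructor
      · rintro ⟨h | h, hc⟩
        · refine ⟨cl2 e h ?_, hc⟩
          rw [mem_cut] at hc
          simp only [mem_singleton] at hc
          by_contra hcon
          apply hc
          rw [not_or] at hcon
          constructor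
          · rintro h'; exact absurd (h' ▸ hvU) hcon.1
          · rintro h'; exact absurd (h' ▸ hvU) hcon.2
        · exact ⟨h, hc⟩
      · rintro ⟨h, hc⟩
        exact ⟨Or.inr h, hc⟩
    · have hcard := h1.one v (mem_insert_of_mem (mem_sdiff.mpr ⟨hv, hvU⟩))
      rw [cut1_out hu0 hvU] at hcard
      rw [← hcard]
      congr 1
      ext e
      simp only [mem_inter, mem_union]
      constructor
      · rintro ⟨h | h, hc⟩
        · exact ⟨h, hc⟩
        · refine ⟨cl1 e h ?_, hc⟩
          rw [mem_cut] at hc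
          simp only [mem_singleton] at hc
          rintro ⟨hcon1, hcon2⟩
          apply hc
          constructor
          · rintro h'; exact absurd (h' ▸ hcon1) hvU
          · rintro h'; exact absurd (h' ▸ hcon2) hvU
      · rintro ⟨h, hc⟩
        exact ⟨Or.inl h, hc⟩

/-- gluing -/
theorem glue {A U : Finset V} (hU : U ⊆ A) {u0 w0 : V} (hu0 : u0 ∈ U) (hw0 : w0 ∈ A \ U)
    {a b : E → V} (ha : ∀ e, a e ∈ A) (hb : ∀ e, b e ∈ A) {x x1 x2 : E → ℝ}
    (h1 : x1 ∈ PP (insert u0 (A \ U)) (fun e => con U u0 (a e)) (fun e => con U u0 (b e)))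
    (h2 : x2 ∈ PP (insert w0 U) (fun e => con (A \ U) w0 (a e)) (fun e => con (A \ U) w0 (b e)))
    (e1 : ∀ e, ¬ (a e ∈ U ∧ b e ∈ U) → x e = x1 e)
    (e2 : ∀ e, (a e ∈ U ∨ b e ∈ U) → x e = x2 e) : x ∈ PP A a b := by
  classical
  obtain ⟨p1, p10, p11, p1M, hp1⟩ := exists_law h1
  obtain ⟨p2, p20, p21, p2M, hp2⟩ := exists_law h2
  set D := cut a b U with hD
  have hDx1 : ∀ e ∈ D, x e = x1 e := by
    intro e he
    refine e1 e fun h => ?_
    rw [hD, mem_cut] at he
    exact he ⟨fun _ => h.2, fun _ => h.1⟩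
  have hDx2 : ∀ e ∈ D, x e = x2 e := by
    intro e he
    refine e2 e ?_
    rw [hD, mem_cut] at he
    by_contra h
    rw [not_or] at h
    exact he ⟨fun h' => absurd h' h.1, fun h' => absurd h' h.2⟩
  have hx10 : ∀ e, 0 ≤ x1 e := (PP_sub_Q h1).nonneg
  let w : Finset E → Finset E → ℝ := fun M1 M2 =>
    ∑ e ∈ D, if e ∈ M1 ∧ e ∈ M2 then p1 M1 * p2 M2 / x e else 0
  have hw0' : ∀ M1 M2, 0 ≤ w M1 M2 := by
    intro M1 M2
    refine Finset.sum_nonneg fun e he => ?_
    split_ifs
    · rw [hDx1 e he]
      exact div_nonneg (mul_nonneg (p10 _) (p20 _)) (hx10 e)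
    · exact le_rfl
  have hone1 : ∀ M1, p1 M1 ≠ 0 → (M1 ∩ D).card = 1 := by
    intro M1 h
    have := (p1M M1 h).one u0 (mem_insert_self _ _)
    rwa [cut1_u0 hu0] at this
  have hone2 : ∀ M2, p2 M2 ≠ 0 → (M2 ∩ D).card = 1 := by
    intro M2 h
    have := (p2M M2 h).one w0 (mem_insert_self _ _)
    rwa [cut1_u0 hw0, cut_compl ha hb] at this
  have key1 : ∀ M1, ∑ M2, w M1 M2 = p1 M1 := by
    intro M1
    have s1 : ∑ M2, w M1 M2 = ∑ e ∈ D, if e ∈ M1 then p1 M1 * (x e / x e) else 0 := by
      simp only [w]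
      rw [Finset.sum_comm]
      refine Finset.sum_congr rfl fun e he => ?_
      split_ifs with hM
      · simp only [hM, true_and]
        have : ∀ M2 : Finset E, (if e ∈ M2 then p1 M1 * p2 M2 / x e else 0)
            = p1 M1 / x e * (p2 M2 * ind M2 e) := by
          intro M2
          unfold ind
          split_ifs <;> ring
        rw [Finset.sum_congr rfl (fun M2 _ => this M2), ← Finset.mul_sum, ← hp2 e, ← hDx2 e he]
        ring
      · simp [hM]
    rw [s1]
    by_cases hz : p1 M1 = 0
    · simp [hz]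
    · have hc := hone1 M1 hz
      have s2 : ∀ e ∈ D, (if e ∈ M1 then p1 M1 * (x e / x e) else 0)
          = if e ∈ M1 then p1 M1 else 0 := by
        intro e he
        split_ifs with hM
        · have : 0 < x e := by
            rw [hDx1 e he, hp1 e]
            refine lt_of_lt_of_le (lt_of_le_of_ne (p10 M1) (Ne.symm hz)) ?_
            have h3 : p1 M1 = p1 M1 * ind M1 e := by unfold ind; simp [hM]
            rw [h3]
            refine Finset.single_le_sum (f := fun M => p1 M * ind M e) (fun M _ => ?_) (mem_univ M1)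
            refine mul_nonneg (p10 M) ?_
            unfold ind; split_ifs <;> norm_num
          rw [div_self this.ne', mul_one]
        · rfl
      rw [Finset.sum_congr rfl s2, Finset.sum_ite_mem, Finset.inter_comm, Finset.sum_const, hc]
      simp
  have key2 : ∀ M2, ∑ M1, w M1 M2 = p2 M2 := by
    intro M2
    have s1 : ∑ M1, w M1 M2 = ∑ e ∈ D, if e ∈ M2 then p2 M2 * (x e / x e) else 0 := by
      simp only [w]
      rw [Finset.sum_comm]
      refine Finset.sum_congr rfl fun e he => ?_
      split_ifs with hM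
      · simp only [hM, and_true]
        have : ∀ M1 : Finset E, (if e ∈ M1 then p1 M1 * p2 M2 / x e else 0)
            = p2 M2 / x e * (p1 M1 * ind M1 e) := by
          intro M1
          unfold ind
          split_ifs <;> ring
        rw [Finset.sum_congr rfl (fun M1 _ => this M1), ← Finset.mul_sum, ← hp1 e, ← hDx1 e he]
        ring
      · simp [hM]
    rw [s1]
    by_cases hz : p2 M2 = 0
    · simp [hz]
    · have hc := hone2 M2 hz
      have s2 : ∀ e ∈ D, (if e ∈ M2 then p2 M2 * (x e / x e) else 0)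
          = if e ∈ M2 then p2 M2 else 0 := by
        intro e he
        split_ifs with hM
        · have : 0 < x e := by
            rw [hDx2 e he, hp2 e]
            refine lt_of_lt_of_le (lt_of_le_of_ne (p20 M2) (Ne.symm hz)) ?_
            have h3 : p2 M2 = p2 M2 * ind M2 e := by unfold ind; simp [hM]
            rw [h3]
            refine Finset.single_le_sum (f := fun M => p2 M * ind M e) (fun M _ => ?_) (mem_univ M2)
            refine mul_nonneg (p20 M) ?_
            unfold ind; split_ifs <;> norm_num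
          rw [div_self this.ne', mul_one]
        · rfl
      rw [Finset.sum_congr rfl s2, Finset.sum_ite_mem, Finset.inter_comm, Finset.sum_const, hc]
      simp
  have key3 : ∀ M1 M2, w M1 M2 ≠ 0 →
      (∀ e ∈ M2, ¬ (a e ∈ U ∧ b e ∈ U) → e ∈ M1) ∧ (∀ e ∈ M1, (a e ∈ U ∨ b e ∈ U) → e ∈ M2) ∧
      IsPM A a b (M1 ∪ M2) := by
    intro M1 M2 hw
    obtain ⟨e, heD, he⟩ := Finset.exists_ne_zero_of_sum_ne_zero hw
    have hmem : e ∈ M1 ∧ e ∈ M2 := by
      by_contra h
      simp [h] at he
    rw [if_pos hmem] at he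
    have hq1 : p1 M1 ≠ 0 := by
      intro h; simp [h] at he
    have hq2 : p2 M2 ≠ 0 := by
      intro h; simp [h] at he
    exact union_pm hU hu0 hw0 ha hb (p1M M1 hq1) (p2M M2 hq2) heD hmem.1 hmem.2
  have hind1 : ∀ e, ∑ M1, ∑ M2, w M1 M2 * ind M1 e = x1 e := by
    intro e
    rw [hp1 e]
    refine Finset.sum_congr rfl fun M1 _ => ?_
    rw [← Finset.sum_mul, key1]
  have hind2 : ∀ e, ∑ M1, ∑ M2, w M1 M2 * ind M2 e = x2 e := by
    intro e
    rw [hp2 e, Finset.sum_comm]
    refine Finset.sum_congr rfl fun M2 _ => ?_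
    rw [← Finset.sum_mul, key2]
  have hx : x = ∑ M1, ∑ M2, w M1 M2 • ind (M1 ∪ M2) := by
    funext e
    rw [Finset.sum_apply]
    simp only [Finset.sum_apply, Pi.smul_apply, smul_eq_mul]
    by_cases hUU : a e ∈ U ∧ b e ∈ U
    · rw [e2 e (Or.inl hUU.1), ← hind2 e]
      refine Finset.sum_congr rfl fun M1 _ => Finset.sum_congr rfl fun M2 _ => ?_
      by_cases hw : w M1 M2 = 0
      · simp [hw]
      · obtain ⟨c1, c2, c3⟩ := key3 M1 M2 hw
        congr 1
        unfold ind
        congr 1
        simp only [mem_union, eq_iff_iff]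
        exact ⟨fun h => Or.inr h, fun h => h.elim (fun h' => c2 e h' (Or.inl hUU.1)) id⟩
    · rw [e1 e hUU, ← hind1 e]
      refine Finset.sum_congr rfl fun M1 _ => Finset.sum_congr rfl fun M2 _ => ?_
      by_cases hw : w M1 M2 = 0
      · simp [hw]
      · obtain ⟨c1, c2, c3⟩ := key3 M1 M2 hw
        congr 1
        unfold ind
        congr 1
        simp only [mem_union, eq_iff_iff]
        exact ⟨fun h => Or.inl h, fun h => h.elim id (fun h' => c1 e h' hUU)⟩
  -- convex combination
  have hx' : x = ∑ P ∈ (univ : Finset (Finset E × Finset E)).filter (fun P => w P.1 P.2 ≠ 0),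
      w P.1 P.2 • ind (P.1 ∪ P.2) := by
    rw [hx, Finset.sum_filter_of_ne, ← Finset.univ_product_univ, Finset.sum_product]
    intro P _ hP h
    apply hP
    rw [h, zero_smul]
  have hsum1 : ∑ P ∈ (univ : Finset (Finset E × Finset E)).filter (fun P => w P.1 P.2 ≠ 0),
      w P.1 P.2 = 1 := by
    rw [Finset.sum_filter_of_ne (fun P _ hP => hP), ← Finset.univ_product_univ,
      Finset.sum_product, ← p11]
    exact Finset.sum_congr rfl fun M1 _ => key1 M1
  rw [hx']
  refine (convex_convexHull ℝ _).sum_mem (fun P _ => hw0' _ _) hsum1 fun P hP => ?_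
  refine subset_convexHull ℝ _ ⟨P.1 ∪ P.2, ?_, rfl⟩
  exact (key3 _ _ (Finset.mem_filter.mp hP).2).2.2

/-- restriction to the contracted graph -/
noncomputable def res (U : Finset V) (a b : E → V) (x : E → ℝ) : E → ℝ :=
  fun e => if a e ∈ U ∧ b e ∈ U then 0 else x e

/-- contraction preserves `Q` -/
theorem con_Q {A U : Finset V} (hU : U ⊆ A) {u0 : V} (hu0 : u0 ∈ U)
    {a b : E → V} (ha : ∀ e, a e ∈ A) (hb : ∀ e, b e ∈ A) {x : E → ℝ} (hx : InQ A a b x)
    (hodd : Odd U.card) (ht : ∑ e ∈ cut a b U, x e = 1) :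
    InQ (insert u0 (A \ U)) (fun e => con U u0 (a e)) (fun e => con U u0 (b e)) (res U a b x) := by
  refine ⟨fun e => ?_, fun e he => ?_, fun v hv => ?_, fun S hS ho => ?_⟩
  · unfold res; split_ifs
    · exact le_rfl
    · exact hx.nonneg e
  · unfold res
    rcases (con_eq hu0).mp he with h | h
    · rw [if_pos h]
    · split_ifs
      · rfl
      · exact hx.loop e h
  · rcases mem_insert.mp hv with rfl | hv'
    · rw [cut1_u0 hu0, ← ht]
      refine Finset.sum_congr rfl fun e he => ?_
      rw [mem_cut] at he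
      unfold res
      rw [if_neg]
      exact fun h => he ⟨fun _ => h.2, fun _ => h.1⟩
    · obtain ⟨hvA, hvU⟩ := mem_sdiff.mp hv'
      rw [cut1_out hu0 hvU, ← hx.deg v hvA]
      refine Finset.sum_congr rfl fun e he => ?_
      rw [mem_cut] at he
      simp only [mem_singleton] at he
      unfold res
      rw [if_neg]
      rintro ⟨h1, h2⟩
      apply he
      constructor
      · rintro h'; exact absurd (h' ▸ h1) hvU
      · rintro h'; exact absurd (h' ▸ h2) hvU
  · have hsum : ∑ e ∈ cut (fun e => con U u0 (a e)) (fun e => con U u0 (b e)) S, res U a b x e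
        = ∑ e ∈ cut (fun e => con U u0 (a e)) (fun e => con U u0 (b e)) S, x e := by
      refine Finset.sum_congr rfl fun e he => ?_
      rw [mem_cut] at he
      unfold res
      rw [if_neg]
      intro h
      apply he
      rw [show con U u0 (a e) = con U u0 (b e) from (con_eq hu0).mpr (Or.inl h)]
    rw [hsum, cut1_gen ha hb]
    refine hx.odd _ (filter_subset _ _) ?_
    by_cases hu : u0 ∈ S
    · have hlift : (A.filter fun v => con U u0 v ∈ S) = (S.erase u0) ∪ U := by
        ext v
        simp only [mem_filter, mem_union, mem_erase]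
        constructor
        · rintro ⟨hvA, hv⟩
          by_cases hvU : v ∈ U
          · exact Or.inr hvU
          · left
            unfold con at hv
            rw [if_neg hvU] at hv
            exact ⟨fun h => hvU (h ▸ hu0), hv⟩
        · rintro (⟨hne, hv⟩ | hv)
          · have hvA : v ∈ A \ U := by
              rcases mem_insert.mp (hS hv) with h | h
              · exact absurd h hne
              · exact h
            refine ⟨(mem_sdiff.mp hvA).1, ?_⟩
            unfold con
            rw [if_neg (mem_sdiff.mp hvA).2]; exact hv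
          · refine ⟨hU hv, ?_⟩
            unfold con
            rw [if_pos hv]; exact hu
      have hdisj : Disjoint (S.erase u0) U := by
        rw [Finset.disjoint_left]
        intro v hv hvU
        rcases mem_insert.mp (hS (mem_of_mem_erase hv)) with h | h
        · exact (ne_of_mem_erase hv) h
        · exact (mem_sdiff.mp h).2 hvU
      rw [hlift, Finset.card_union_of_disjoint hdisj, Finset.card_erase_of_mem hu]
      obtain ⟨k, hk⟩ := ho
      obtain ⟨l, hl⟩ := hodd
      exact ⟨k + l, by omega⟩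
    · have hlift : (A.filter fun v => con U u0 v ∈ S) = S := by
        ext v
        simp only [mem_filter]
        constructor
        · rintro ⟨hvA, hv⟩
          unfold con at hv
          split_ifs at hv with hvU
          · exact absurd hv hu
          · exact hv
        · intro hv
          have hvA : v ∈ A \ U := by
            rcases mem_insert.mp (hS hv) with h | h
            · exact absurd (h ▸ hv) hu
            · exact h
          refine ⟨(mem_sdiff.mp hvA).1, ?_⟩
          unfold con
          rw [if_neg (mem_sdiff.mp hvA).2]; exact hv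
      rw [hlift]; exact ho

theorem even_card_of_Q {A : Finset V} {a b : E → V} (ha : ∀ e, a e ∈ A) (hb : ∀ e, b e ∈ A)
    {x : E → ℝ} (hx : InQ A a b x) : Even A.card := by
  rcases Nat.even_or_odd A.card with h | h
  · exact h
  · exfalso
    have h1 := hx.odd A (Finset.Subset.refl _) h
    have h2 : cut a b A = ∅ := by
      ext e
      rw [mem_cut]
      simp [ha e, hb e]
    rw [h2] at h1
    simp at h1
    linarith

theorem closed_PP (A : Finset V) (a b : E → V) : IsClosed (PP A a b) :=
  (Set.Finite.image _ (Set.toFinite _)).isClosed_convexHull ℝ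

/-- **Edmonds' perfect matching polytope theorem** -/
theorem edmonds : ∀ (n : ℕ) (A : Finset V) (a b : E → V), A.card = n → (∀ e, a e ∈ A) →
    (∀ e, b e ∈ A) → ∀ x : E → ℝ, InQ A a b x → x ∈ PP A a b := by
  intro n
  induction n using Nat.strong_induction_on with
  | _ n IH =>
  intro A a b hn ha hb x hx
  have hev := even_card_of_Q ha hb hx
  suffices h : {x : E → ℝ | InQ A a b x}.extremePoints ℝ ⊆ PP A a b by
    have h1 := closure_convexHull_extremePoints (compact_Q A a b ha) (convex_Q A a b)
    have h2 : x ∈ closure (convexHull ℝ ({x : E → ℝ | InQ A a b x}.extremePoints ℝ)) := by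
      rw [h1]; exact hx
    have h3 : closure (convexHull ℝ ({x : E → ℝ | InQ A a b x}.extremePoints ℝ)) ⊆ PP A a b :=
      closure_minimal (convexHull_min h (convex_convexHull ℝ _)) (closed_PP A a b)
    exact h3 h2
  clear hx x
  intro x hxe
  obtain ⟨hx, hext⟩ := mem_extremePoints_iff_left.mp hxe
  replace hx : InQ A a b x := hx
  by_cases hT : ∃ U, Tight A a b x U
  · obtain ⟨U, hUA, hodd, hU1, hU2, ht⟩ := hT
    obtain ⟨u0, hu0⟩ := Finset.card_pos.mp (lt_trans Nat.zero_lt_one hU1)
    obtain ⟨w0, hw0⟩ := Finset.card_pos.mp (lt_trans Nat.zero_lt_one hU2)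
    have hcard : (A \ U).card + U.card = A.card := Finset.card_sdiff_add_card_eq_card hUA
    have hq1 := con_Q hUA hu0 ha hb hx hodd ht
    have hodd2 : Odd (A \ U).card := by
      rcases Nat.even_or_odd (A \ U).card with h | h
      · exfalso
        rw [← hcard] at hev
        exact (Nat.not_odd_iff_even.mpr hev) (h.add_odd hodd)
      · exact h
    have hq2 := con_Q (sdiff_subset : A \ U ⊆ A) hw0 ha hb hx hodd2
      (by rw [cut_compl ha hb]; exact ht)
    rw [Finset.sdiff_sdiff_eq_self hUA] at hq2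
    have hc1 : (insert u0 (A \ U)).card = (A \ U).card + 1 :=
      Finset.card_insert_of_notMem (fun h => (mem_sdiff.mp h).2 hu0)
    have hc2 : (insert w0 U).card = U.card + 1 :=
      Finset.card_insert_of_notMem (fun h => (mem_sdiff.mp hw0).2 h)
    have hp1 := IH _ (by omega) (insert u0 (A \ U)) _ _ hc1 (fun e => con_mem (ha e))
      (fun e => con_mem (hb e)) _ hq1
    have hp2 := IH _ (by omega) (insert w0 U) _ _ hc2
      (fun e => by
        have := con_mem (U := A \ U) (u0 := w0) (ha e)
        rwa [Finset.sdiff_sdiff_eq_self hUA] at this)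
      (fun e => by
        have := con_mem (U := A \ U) (u0 := w0) (hb e)
        rwa [Finset.sdiff_sdiff_eq_self hUA] at this) _ hq2
    refine glue hUA hu0 hw0 ha hb hp1 hp2 (fun e he => ?_) (fun e he => ?_)
    · unfold res; rw [if_neg he]
    · unfold res; rw [if_neg]
      rintro ⟨h1, h2⟩
      rcases he with h | h
      · exact (mem_sdiff.mp h1).2 h
      · exact (mem_sdiff.mp h2).2 h
  · obtain ⟨M, hM, hMx⟩ := exists_pm ha hb hx
    have hMQ := ind_mem_Q hM
    obtain ⟨ε, hε, hmove⟩ := small_move (h := x - ind M) ha hb hev hx (fun U hU => hT ⟨U, hU⟩)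
      (fun e he => by
        have : e ∉ M := fun h => by
          have := hMx e h
          linarith
        simp [ind, this, he])
      (fun v hv => by
        simp only [Pi.sub_apply, Finset.sum_sub_distrib]
        rw [hx.deg v hv, hMQ.deg v hv]; ring)
    have hp := hmove (ε / 2) (by rw [abs_of_pos (by linarith)]; linarith)
    have hm := hmove (-(ε / 2)) (by rw [abs_neg, abs_of_pos (by linarith)]; linarith)
    have hseg : x ∈ openSegment ℝ (x + (ε / 2) • (x - ind M)) (x + (-(ε / 2)) • (x - ind M)) := by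
      refine ⟨1 / 2, 1 / 2, by norm_num, by norm_num, by norm_num, ?_⟩
      funext e
      simp only [Pi.add_apply, Pi.smul_apply, Pi.sub_apply, smul_eq_mul]
      ring
    have heq := hext _ hp _ hm hseg
    have hxM : x = ind M := by
      funext e
      have := congrFun heq e
      simp only [Pi.add_apply, Pi.smul_apply, Pi.sub_apply, smul_eq_mul] at this
      have h2 : (ε / 2) * (x e - ind M e) = 0 := by linarith
      rcases mul_eq_zero.mp h2 with h3 | h3
      · linarith
      · linarith
    rw [hxM]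
    exact subset_convexHull ℝ _ ⟨M, hM, rfl⟩

end Crest.Agent.R304.Poly484
end

-- ▼ part R304/Poly484D

set_option autoImplicit false
set_option linter.unusedSectionVars false

open Finset

namespace Crest.Agent.R304.Poly484

variable {V E : Type} [DecidableEq V] [Fintype E] [DecidableEq E]

/-- the space of two-sided feasible directions -/
def dirSub (A : Finset V) (a b : E → V) (x : E → ℝ) (hx : x ∈ PP A a b) :
    Submodule ℝ (E → ℝ) where
  carrier := {h | ∃ ε : ℝ, 0 < ε ∧ ∀ t : ℝ, |t| < ε → x + t • h ∈ PP A a b}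
  zero_mem' := ⟨1, one_pos, fun t _ => by simpa using hx⟩
  add_mem' := by
    rintro h1 h2 ⟨ε1, hε1, H1⟩ ⟨ε2, hε2, H2⟩
    refine ⟨min ε1 ε2 / 2, by positivity, fun t ht => ?_⟩
    have e1 : |2 * t| < ε1 := by
      rw [abs_mul, abs_two]
      have := min_le_left ε1 ε2
      linarith
    have e2 : |2 * t| < ε2 := by
      rw [abs_mul, abs_two]
      have := min_le_right ε1 ε2
      linarith
    have h3 := (convex_convexHull ℝ _) (H1 _ e1) (H2 _ e2) (a := 1 / 2) (b := 1 / 2)
      (by norm_num) (by norm_num) (by norm_num)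
    have h4 : x + t • (h1 + h2)
        = (1 / 2 : ℝ) • (x + (2 * t) • h1) + (1 / 2 : ℝ) • (x + (2 * t) • h2) := by
      funext e
      simp only [Pi.add_apply, Pi.smul_apply, smul_eq_mul]
      ring
    rw [h4]
    exact h3
  smul_mem' := by
    rintro c h ⟨ε, hε, H⟩
    refine ⟨ε / (|c| + 1), by positivity, fun t ht => ?_⟩
    rw [smul_smul]
    refine H _ ?_
    rw [abs_mul]
    have hc : 0 < |c| + 1 := by positivity
    rw [lt_div_iff₀ hc] at ht
    nlinarith [abs_nonneg t, abs_nonneg c]

theorem mem_dirSub {A : Finset V} {a b : E → V} {x : E → ℝ} {hx : x ∈ PP A a b} {h : E → ℝ} :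
    h ∈ dirSub A a b x hx ↔ ∃ ε : ℝ, 0 < ε ∧ ∀ t : ℝ, |t| < ε → x + t • h ∈ PP A a b := Iff.rfl

theorem dir_supp {A : Finset V} {a b : E → V} {x : E → ℝ} {hx : x ∈ PP A a b} {h : E → ℝ}
    (hh : h ∈ dirSub A a b x hx) {e : E} (he : x e = 0) : h e = 0 := by
  obtain ⟨ε, hε, H⟩ := hh
  have h1 := (PP_sub_Q (H (ε / 2) (by rw [abs_of_pos (by linarith)]; linarith))).nonneg e
  have h2 := (PP_sub_Q (H (-(ε / 2)) (by rw [abs_neg, abs_of_pos (by linarith)]; linarith))).nonneg e
  simp only [Pi.add_apply, Pi.smul_apply, smul_eq_mul, he] at h1 h2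
  have h3 : ε / 2 * h e = 0 := by linarith
  rcases mul_eq_zero.mp h3 with h4 | h4
  · linarith
  · exact h4

theorem dir_deg {A : Finset V} {a b : E → V} {x : E → ℝ} {hx : x ∈ PP A a b} {h : E → ℝ}
    (hh : h ∈ dirSub A a b x hx) {v : V} (hv : v ∈ A) : ∑ e ∈ cut a b {v}, h e = 0 := by
  obtain ⟨ε, hε, H⟩ := hh
  have h1 := (PP_sub_Q (H (ε / 2) (by rw [abs_of_pos (by linarith)]; linarith))).deg v hv
  have h0 := (PP_sub_Q hx).deg v hv
  simp only [Pi.add_apply, Pi.smul_apply, smul_eq_mul, Finset.sum_add_distrib,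
    ← Finset.mul_sum] at h1
  rw [h0] at h1
  have h3 : ε / 2 * ∑ e ∈ cut a b {v}, h e = 0 := by linarith
  rcases mul_eq_zero.mp h3 with h4 | h4
  · linarith
  · exact h4

/-- support -/
noncomputable def supp (x : E → ℝ) : Finset E := by
  classical exact univ.filter fun e => x e ≠ 0

omit [DecidableEq E] in
theorem mem_supp {x : E → ℝ} {e : E} : e ∈ supp x ↔ x e ≠ 0 := by
  classical
  simp [supp]

theorem ker_bound {X Y : Type} [AddCommGroup X] [Module ℝ X] [FiniteDimensional ℝ X]
    [AddCommGroup Y] [Module ℝ Y] [FiniteDimensional ℝ Y] (L : X →ₗ[ℝ] Y) :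
    Module.finrank ℝ X ≤ Module.finrank ℝ (LinearMap.ker L) + Module.finrank ℝ Y := by
  have h1 := LinearMap.finrank_range_add_finrank_ker L
  have h2 := Submodule.finrank_le (LinearMap.range L)
  omega

/-- if a subspace maps injectively into `W` its dimension is at most that of `W` -/
theorem finrank_le_of_map {X Z : Type} [AddCommGroup X] [Module ℝ X]
    [AddCommGroup Z] [Module ℝ Z] [FiniteDimensional ℝ Z] (K : Submodule ℝ X) (W : Submodule ℝ Z)
    (f : X →ₗ[ℝ] Z) (hmap : ∀ k ∈ K, f k ∈ W) (hinj : ∀ k ∈ K, f k = 0 → k = 0) :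
    Module.finrank ℝ K ≤ Module.finrank ℝ W := by
  refine LinearMap.finrank_le_finrank_of_injective
    (f := (f.domRestrict K).codRestrict W (fun k => hmap k.1 k.2)) ?_
  rw [← LinearMap.ker_eq_bot, LinearMap.ker_eq_bot']
  intro k hk
  have : f k.1 = 0 := congrArg Subtype.val hk
  exact Subtype.ext (hinj k.1 k.2 this)

/-- extension by zero -/
noncomputable def ext0 (T : Finset E) : ({e // e ∈ T} → ℝ) →ₗ[ℝ] (E → ℝ) where
  toFun h := fun e => if he : e ∈ T then h ⟨e, he⟩ else 0
  map_add' h k := by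
    funext e
    by_cases he : e ∈ T <;> simp [he]
  map_smul' c h := by
    funext e
    by_cases he : e ∈ T <;> simp [he]

theorem ext0_apply (T : Finset E) (h : {e // e ∈ T} → ℝ) (e : E) :
    ext0 T h e = if he : e ∈ T then h ⟨e, he⟩ else 0 := rfl

theorem ext0_inj (T : Finset E) (h : {e // e ∈ T} → ℝ) (hh : ext0 T h = 0) : h = 0 := by
  funext e
  have := congrFun hh e.1
  rw [ext0_apply, dif_pos e.2] at this
  exact this

/-- base case of the dimension bound -/
theorem dim_base {A : Finset V} {a b : E → V} (ha : ∀ e, a e ∈ A) (hb : ∀ e, b e ∈ A)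
    {x : E → ℝ} (hx : x ∈ PP A a b) (hno : ∀ U, ¬ Tight A a b x U) {m : ℕ} (hm : 1 ≤ m)
    (hA : A.card = 2 * m) :
    (supp x).card + 2 ≤ Module.finrank ℝ (dirSub A a b x hx) + 3 * m := by
  have hQ := PP_sub_Q hx
  have hev := even_card_of_Q ha hb hQ
  have hmem : ∀ h : E → ℝ, (∀ e, x e = 0 → h e = 0) → (∀ v ∈ A, ∑ e ∈ cut a b {v}, h e = 0) →
      h ∈ dirSub A a b x hx := by
    intro h h1 h2
    obtain ⟨ε, hε, H⟩ := small_move ha hb hev hQ hno h1 h2
    exact ⟨ε, hε, fun t ht => edmonds _ A a b rfl ha hb _ (H t ht)⟩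
  have hext : ∀ (h : {e // e ∈ supp x} → ℝ) (e : E), x e = 0 → ext0 (supp x) h e = 0 := by
    intro h e he
    rw [ext0_apply, dif_neg]
    rw [mem_supp]; exact fun h => h he
  by_cases hm1 : m = 1
  · subst hm1
    -- one star constraint suffices
    obtain ⟨v, w, hvw, hAvw⟩ := Finset.card_eq_two.mp hA
    let L : ({e // e ∈ supp x} → ℝ) →ₗ[ℝ] ℝ :=
      { toFun := fun h => ∑ e ∈ cut a b {v}, ext0 (supp x) h e
        map_add' := fun h k => by
          simp only [map_add, Pi.add_apply, Finset.sum_add_distrib]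
        map_smul' := fun c h => by
          simp only [map_smul, Pi.smul_apply, smul_eq_mul, Finset.mul_sum, RingHom.id_apply] }
    have h1 := ker_bound L
    rw [Module.finrank_fintype_fun_eq_card, Module.finrank_self, Fintype.card_coe] at h1
    have h2 : Module.finrank ℝ (LinearMap.ker L) ≤ Module.finrank ℝ (dirSub A a b x hx) := by
      refine finrank_le_of_map _ _ (ext0 (supp x)) (fun h hh => ?_) (fun h _ h0 => ext0_inj _ h h0)
      refine hmem _ (hext h) fun u hu => ?_
      have hv0 : ∑ e ∈ cut a b {v}, ext0 (supp x) h e = 0 := hh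
      have hcut : cut a b {w} = cut a b {v} := by
        have : ({w} : Finset V) = A \ {v} := by
          rw [hAvw]
          ext z
          simp only [mem_singleton, mem_sdiff, mem_insert]
          constructor
          · rintro rfl; exact ⟨Or.inr rfl, fun h => hvw h.symm⟩
          · rintro ⟨h | h, h'⟩
            · exact absurd h h'
            · exact h
        rw [this, cut_compl ha hb]
      rw [hAvw] at hu
      rcases mem_insert.mp hu with rfl | hu
      · exact hv0
      · rw [mem_singleton] at hu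
        rw [hu, hcut]; exact hv0
    omega
  · let L : ({e // e ∈ supp x} → ℝ) →ₗ[ℝ] ({v // v ∈ A} → ℝ) :=
      { toFun := fun h v => ∑ e ∈ cut a b {v.1}, ext0 (supp x) h e
        map_add' := fun h k => by
          funext v
          simp only [map_add, Pi.add_apply, Finset.sum_add_distrib]
        map_smul' := fun c h => by
          funext v
          simp only [map_smul, Pi.smul_apply, smul_eq_mul, Finset.mul_sum, RingHom.id_apply] }
    have h1 := ker_bound L
    rw [Module.finrank_fintype_fun_eq_card, Module.finrank_fintype_fun_eq_card,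
      Fintype.card_coe, Fintype.card_coe, hA] at h1
    have h2 : Module.finrank ℝ (LinearMap.ker L) ≤ Module.finrank ℝ (dirSub A a b x hx) := by
      refine finrank_le_of_map _ _ (ext0 (supp x)) (fun h hh => ?_) (fun h _ h0 => ext0_inj _ h h0)
      refine hmem _ (hext h) fun u hu => ?_
      exact congrFun hh ⟨u, hu⟩
    omega

theorem res_supp (U : Finset V) (a b : E → V) (x : E → ℝ) :
    (supp (res U a b x)) = (supp x).filter fun e => ¬ (a e ∈ U ∧ b e ∈ U) := by
  ext e
  rw [mem_filter, mem_supp, mem_supp]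
  unfold res
  by_cases h : a e ∈ U ∧ b e ∈ U <;> simp [h]

/-- **the dimension bound** -/
theorem dim_bound : ∀ (m : ℕ) (A : Finset V) (a b : E → V), 1 ≤ m → A.card = 2 * m →
    (∀ e, a e ∈ A) → (∀ e, b e ∈ A) → ∀ (x : E → ℝ) (hx : x ∈ PP A a b),
    (supp x).card + 2 ≤ Module.finrank ℝ (dirSub A a b x hx) + 3 * m := by
  intro m
  induction m using Nat.strong_induction_on with
  | _ m IH =>
  intro A a b hm hA ha hb x hx
  by_cases hT : ∃ U, Tight A a b x U
  swap
  · exact dim_base ha hb hx (fun U hU => hT ⟨U, hU⟩) hm hA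
  have hQ := PP_sub_Q hx
  have hev := even_card_of_Q ha hb hQ
  obtain ⟨U, hUA, hodd, hU1, hU2, ht⟩ := hT
  obtain ⟨u0, hu0⟩ := Finset.card_pos.mp (lt_trans Nat.zero_lt_one hU1)
  obtain ⟨w0, hw0⟩ := Finset.card_pos.mp (lt_trans Nat.zero_lt_one hU2)
  have hcard : (A \ U).card + U.card = A.card := Finset.card_sdiff_add_card_eq_card hUA
  have hq1 := con_Q hUA hu0 ha hb hQ hodd ht
  have hodd2 : Odd (A \ U).card := by
    rcases Nat.even_or_odd (A \ U).card with h | h
    · exfalso
      rw [← hcard] at hev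
      exact (Nat.not_odd_iff_even.mpr hev) (h.add_odd hodd)
    · exact h
  have hq2 := con_Q (sdiff_subset : A \ U ⊆ A) hw0 ha hb hQ hodd2
    (by rw [cut_compl ha hb]; exact ht)
  rw [Finset.sdiff_sdiff_eq_self hUA] at hq2
  have hc1 : (insert u0 (A \ U)).card = (A \ U).card + 1 :=
    Finset.card_insert_of_notMem (fun h => (mem_sdiff.mp h).2 hu0)
  have hc2 : (insert w0 U).card = U.card + 1 :=
    Finset.card_insert_of_notMem (fun h => (mem_sdiff.mp hw0).2 h)
  have ha1 : ∀ e, con U u0 (a e) ∈ insert u0 (A \ U) := fun e => con_mem (ha e)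
  have hb1 : ∀ e, con U u0 (b e) ∈ insert u0 (A \ U) := fun e => con_mem (hb e)
  have ha2 : ∀ e, con (A \ U) w0 (a e) ∈ insert w0 U := fun e => by
    have := con_mem (U := A \ U) (u0 := w0) (ha e)
    rwa [Finset.sdiff_sdiff_eq_self hUA] at this
  have hb2 : ∀ e, con (A \ U) w0 (b e) ∈ insert w0 U := fun e => by
    have := con_mem (U := A \ U) (u0 := w0) (hb e)
    rwa [Finset.sdiff_sdiff_eq_self hUA] at this
  have hx1 := edmonds _ _ _ _ rfl ha1 hb1 _ hq1
  have hx2 := edmonds _ _ _ _ rfl ha2 hb2 _ hq2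
  obtain ⟨k1, hk1⟩ := hodd
  obtain ⟨k2, hk2⟩ := hodd2
  have hd1 := IH (k2 + 1) (by omega) _ _ _ (by omega) (by rw [hc1]; omega) ha1 hb1 _ hx1
  have hd2 := IH (k1 + 1) (by omega) _ _ _ (by omega) (by rw [hc2]; omega) ha2 hb2 _ hx2
  set x1 := res U a b x with hx1def
  set x2 := res (A \ U) a b x with hx2def
  set W1 := dirSub (insert u0 (A \ U)) (fun e => con U u0 (a e)) (fun e => con U u0 (b e)) x1 hx1
    with hW1
  set W2 := dirSub (insert w0 U) (fun e => con (A \ U) w0 (a e)) (fun e => con (A \ U) w0 (b e)) x2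
    hx2 with hW2
  -- the common support on the cut
  let TD : Finset E := (cut a b U).filter fun e => x e ≠ 0
  have hTDne : TD.Nonempty := by
    by_contra h
    rw [Finset.not_nonempty_iff_eq_empty, Finset.filter_eq_empty_iff] at h
    have : ∑ e ∈ cut a b U, x e = 0 := Finset.sum_eq_zero fun e he => by
      have := h he
      simpa using this
    rw [this] at ht
    norm_num at ht
  obtain ⟨es, hes⟩ := hTDne
  -- counting
  have hcount : (supp x1).card + (supp x2).card = (supp x).card + TD.card := by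
    rw [hx1def, hx2def, res_supp, res_supp]
    have e1 : TD = (supp x).filter (fun e => ¬ (a e ∈ U ∧ b e ∈ U) ∧
        ¬ (a e ∈ A \ U ∧ b e ∈ A \ U)) := by
      ext e
      simp only [TD, mem_filter, mem_cut, mem_supp, mem_sdiff, ha e, hb e, true_and]
      tauto
    have e2 : supp x = (supp x).filter (fun e => ¬ (a e ∈ U ∧ b e ∈ U)) ∪
        (supp x).filter (fun e => ¬ (a e ∈ A \ U ∧ b e ∈ A \ U)) := by
      ext e
      simp only [mem_union, mem_filter, mem_sdiff, ha e, hb e, true_and]
      tauto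
    have e3 : (supp x).card = ((supp x).filter (fun e => ¬ (a e ∈ U ∧ b e ∈ U)) ∪
        (supp x).filter (fun e => ¬ (a e ∈ A \ U ∧ b e ∈ A \ U))).card := congrArg Finset.card e2
    rw [e1, Finset.filter_and, e3, Finset.card_union_add_card_inter]
  -- linear algebra
  have hcutU1 : ∀ h ∈ W1, ∑ e ∈ cut a b U, h e = 0 := by
    intro h hh
    have := dir_deg hh (mem_insert_self u0 (A \ U))
    rwa [cut1_u0 hu0] at this
  have hcutU2 : ∀ h ∈ W2, ∑ e ∈ cut a b U, h e = 0 := by
    intro h hh
    have := dir_deg hh (mem_insert_self w0 U)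
    rwa [cut1_u0 hw0, cut_compl ha hb] at this
  have hx1D : ∀ e ∈ cut a b U, x1 e = x e := by
    intro e he
    rw [mem_cut] at he
    rw [hx1def]; unfold res
    rw [if_neg]
    exact fun h => he ⟨fun _ => h.2, fun _ => h.1⟩
  have hx2D : ∀ e ∈ cut a b U, x2 e = x e := by
    intro e he
    rw [mem_cut] at he
    rw [hx2def]; unfold res
    rw [if_neg]
    rintro ⟨h1, h2⟩
    exact he ⟨fun h => absurd h (mem_sdiff.mp h1).2, fun h => absurd h (mem_sdiff.mp h2).2⟩
  let L : (W1 × W2) →ₗ[ℝ] ({e // e ∈ TD.erase es} → ℝ) :=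
    { toFun := fun h e => h.1.1 e.1 - h.2.1 e.1
      map_add' := fun h k => by
        funext e
        simp only [Prod.fst_add, Prod.snd_add, Submodule.coe_add, Pi.add_apply]
        ring
      map_smul' := fun c h => by
        funext e
        simp only [Prod.smul_fst, Prod.smul_snd, Submodule.coe_smul, Pi.smul_apply, smul_eq_mul,
          RingHom.id_apply]
        ring }
  have hL := ker_bound L
  rw [Module.finrank_fintype_fun_eq_card, Fintype.card_coe, Finset.card_erase_of_mem hes,
    Module.finrank_prod] at hL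
  have hagree : ∀ h ∈ LinearMap.ker L, ∀ e ∈ cut a b U, h.1.1 e = h.2.1 e := by
    intro h hh
    have h1 : ∀ e ∈ cut a b U, e ≠ es → h.1.1 e = h.2.1 e := by
      intro e he hne
      by_cases hxe : x e = 0
      · rw [dir_supp h.1.2 (by rw [hx1D e he]; exact hxe),
          dir_supp h.2.2 (by rw [hx2D e he]; exact hxe)]
      · have hmemT : e ∈ TD.erase es := mem_erase.mpr ⟨hne, mem_filter.mpr ⟨he, hxe⟩⟩
        have := congrFun (hh : L h = 0) ⟨e, hmemT⟩
        have h' : h.1.1 e - h.2.1 e = 0 := this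
        linarith
    intro e he
    by_cases hne : e = es
    · subst hne
      have s1 := hcutU1 h.1.1 h.1.2
      have s2 := hcutU2 h.2.1 h.2.2
      rw [← Finset.add_sum_erase _ _ he] at s1 s2
      have s3 : ∑ e' ∈ (cut a b U).erase e, h.1.1 e' = ∑ e' ∈ (cut a b U).erase e, h.2.1 e' :=
        Finset.sum_congr rfl fun e' he' => h1 e' (mem_of_mem_erase he') (ne_of_mem_erase he')
      linarith
    · exact h1 e he hne
  let Φ : (W1 × W2) →ₗ[ℝ] (E → ℝ) :=
    { toFun := fun h e => if (a e ∈ U ∨ b e ∈ U) then h.2.1 e else h.1.1 e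
      map_add' := fun h k => by
        funext e
        simp only [Prod.fst_add, Prod.snd_add, Submodule.coe_add, Pi.add_apply]
        split_ifs <;> rfl
      map_smul' := fun c h => by
        funext e
        simp only [Prod.smul_fst, Prod.smul_snd, Submodule.coe_smul, Pi.smul_apply, smul_eq_mul,
          RingHom.id_apply]
        split_ifs <;> rfl }
  have hΦ : ∀ h e, Φ h e = if (a e ∈ U ∨ b e ∈ U) then h.2.1 e else h.1.1 e := fun _ _ => rfl
  have hfin : Module.finrank ℝ (LinearMap.ker L) ≤ Module.finrank ℝ (dirSub A a b x hx) := by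
    refine finrank_le_of_map _ _ Φ (fun h hh => ?_) (fun h hh h0 => ?_)
    · obtain ⟨ε1, hε1, H1⟩ := h.1.2
      obtain ⟨ε2, hε2, H2⟩ := h.2.2
      refine ⟨min ε1 ε2, by positivity, fun t ht' => ?_⟩
      refine glue hUA hu0 hw0 ha hb (H1 t (lt_of_lt_of_le ht' (min_le_left _ _)))
        (H2 t (lt_of_lt_of_le ht' (min_le_right _ _))) (fun e he => ?_) (fun e he => ?_)
      · simp only [Pi.add_apply, Pi.smul_apply, smul_eq_mul, hΦ]
        have e1 : x1 e = x e := by
          rw [hx1def]; unfold res; rw [if_neg he]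
        rw [e1]
        split_ifs with h1
        · rw [hagree h hh e]
          rw [mem_cut]
          intro h2
          apply he
          rcases h1 with h3 | h3
          · exact ⟨h3, h2.mp h3⟩
          · exact ⟨h2.mpr h3, h3⟩
        · rfl
      · simp only [Pi.add_apply, Pi.smul_apply, smul_eq_mul, hΦ]
        have e1 : x2 e = x e := by
          rw [hx2def]; unfold res; rw [if_neg]
          rintro ⟨h1, h2⟩
          rcases he with h3 | h3
          · exact (mem_sdiff.mp h1).2 h3
          · exact (mem_sdiff.mp h2).2 h3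
        rw [e1, if_pos he]
    · have h2 : h.2.1 = 0 := by
        funext e
        by_cases he : a e ∈ U ∨ b e ∈ U
        · have := congrFun h0 e
          rw [hΦ, if_pos he] at this
          exact this
        · refine dir_supp h.2.2 ?_
          rw [hx2def]; unfold res
          rw [if_pos]
          rw [not_or] at he
          exact ⟨mem_sdiff.mpr ⟨ha e, he.1⟩, mem_sdiff.mpr ⟨hb e, he.2⟩⟩
      have h1 : h.1.1 = 0 := by
        funext e
        by_cases he : a e ∈ U ∨ b e ∈ U
        · by_cases he' : a e ∈ U ∧ b e ∈ U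
          · refine dir_supp h.1.2 ?_
            rw [hx1def]; unfold res
            rw [if_pos he']
          · have hc : e ∈ cut a b U := by
              rw [mem_cut]
              intro h3
              apply he'
              rcases he with h4 | h4
              · exact ⟨h4, h3.mp h4⟩
              · exact ⟨h3.mpr h4, h4⟩
            rw [hagree h hh e hc, h2]
        · have := congrFun h0 e
          rw [hΦ, if_neg he] at this
          exact this
      exact Prod.ext (Subtype.ext h1) (Subtype.ext h2)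
  have hTDpos : 0 < TD.card := Finset.card_pos.mpr ⟨es, hes⟩
  have hd1' : (supp x1).card + 2 ≤ Module.finrank ℝ W1 + 3 * (k2 + 1) := hd1
  have hd2' : (supp x2).card + 2 ≤ Module.finrank ℝ W2 + 3 * (k1 + 1) := hd2
  omega

end Crest.Agent.R304.Poly484
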