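import Crest.Agent.R309.PTSolve
import Crest.Agent.R304.Moves
import Crest.Agent.R304.L6Step

-- ▼ part R304/LMoves
section

/-!
# R304 / S0464: the guarded moves on lists, and their polynomial-time proofs

Everything mirrors `Crest/Agent/R304/Moves.lean`: a matching is the list of the partners of
`0, …, n-1`.
-/

set_option autoImplicit false
set_option linter.dupNamespace false

namespace Crest.Agent.R304.LM

open Crest.Agent.Lib.PT Crest.Agent.R309.Tape Crest.Agent.R309.PTX

variable {γ : Type} [PTCode γ]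

/-- apply a table -/
def ap (s : List ℕ) (v : ℕ) : ℕ := s.getD v 0

theorem ptf_ap {s : γ → List ℕ} {v : γ → ℕ} (hs : PTF s) (hv : PTF v) :
    PTF (fun c => ap (s c) (v c)) := by
  unfold ap
  exact ptf_getD' hv hs (PTF.const 0)

theorem sz_ap_le (s : List ℕ) (v : ℕ) : sz (ap s v) ≤ sz s := by
  unfold ap
  rw [List.getD_eq_getElem?_getD]
  rcases h : s[v]? with _ | a
  · simp [sz_nat]
  · simp only [Option.getD_some]
    exact sz_mem_le (List.mem_of_getElem? h)

/-- tabulate a function on `0, …, n-1` -/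
def tab (n : ℕ) (f : ℕ → ℕ) : List ℕ := (List.range n).map f

theorem ptf_tab {n : γ → ℕ} {f : γ → ℕ → ℕ} (hn : PTU n) (hf : PTF₂ f) :
    PTF (fun c => tab (n c) (f c)) := PTF.tabulate hn hf

@[simp] theorem length_tab (n : ℕ) (f : ℕ → ℕ) : (tab n f).length = n := by simp [tab]


/-- one step of the walk along a component -/
def rho (s t : List ℕ) (x : ℕ) : ℕ := ap t (ap s x)

/-- the walk: current point and list of points met so far -/
def orb (n : ℕ) (s t : List ℕ) (a : ℕ) : ℕ × List ℕ :=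
  (fun p : ℕ × List ℕ => (rho s t p.1, p.1 :: ap s p.1 :: p.2))^[n] (a, [])

theorem orb_zero (s t : List ℕ) (a : ℕ) : orb 0 s t a = (a, []) := rfl

theorem orb_succ (n : ℕ) (s t : List ℕ) (a : ℕ) :
    orb (n + 1) s t a = (rho s t (orb n s t a).1, (orb n s t a).1 :: ap s (orb n s t a).1 ::
      (orb n s t a).2) := by
  unfold orb
  rw [Function.iterate_succ_apply']

theorem orb_fst (n : ℕ) (s t : List ℕ) (a : ℕ) : (orb n s t a).1 = (rho s t)^[n] a := by
  induction n with
  | zero => rfl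
  | succ n ih => rw [orb_succ, Function.iterate_succ_apply', ih]

/-- the list of the vertices of the component of `a` -/
def compL (n : ℕ) (s t : List ℕ) (a : ℕ) : List ℕ := (orb n s t a).2

theorem mem_compL {n : ℕ} {s t : List ℕ} {a v : ℕ} :
    v ∈ compL n s t a ↔ ∃ k < n, v = (rho s t)^[k] a ∨ v = ap s ((rho s t)^[k] a) := by
  unfold compL
  induction n with
  | zero => simp [orb_zero]
  | succ n ih =>
    rw [orb_succ]
    simp only [List.mem_cons, ih, orb_fst]
    constructor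
    · rintro (h | h | ⟨k, hk, h⟩)
      · exact ⟨n, by omega, Or.inl h⟩
      · exact ⟨n, by omega, Or.inr h⟩
      · exact ⟨k, by omega, h⟩
    · rintro ⟨k, hk, h⟩
      rcases Nat.lt_succ_iff_lt_or_eq.1 hk with h' | rfl
      · exact Or.inr (Or.inr ⟨k, h', h⟩)
      · rcases h with h | h
        · exact Or.inl h
        · exact Or.inr (Or.inl h)

theorem sz_orb_le (n : ℕ) (s t : List ℕ) (a : ℕ) :
    sz (orb n s t a).1 ≤ sz a + sz s + sz t ∧
      sz (orb n s t a).2 ≤ n * (4 * (sz a + sz s + sz t) + 2) := by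
  induction n with
  | zero => simp [orb_zero]; omega
  | succ n ih =>
    rw [orb_succ]
    have h1 := sz_ap_le s (orb n s t a).1
    have h2 := sz_ap_le t (ap s (orb n s t a).1)
    refine ⟨?_, ?_⟩
    · simp only [rho]; omega
    · simp only [sz_cons]
      have e : (n + 1) * (4 * (sz a + sz s + sz t) + 2) =
        n * (4 * (sz a + sz s + sz t) + 2) + (4 * (sz a + sz s + sz t) + 2) := by ring
      rw [e]
      omega

theorem ptf_compL {n : γ → ℕ} {s t : γ → List ℕ} {a : γ → ℕ} (hn : PTU n) (hs : PTF s)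
    (ht : PTF t) (ha : PTF a) : PTF (fun c => compL (n c) (s c) (t c) (a c)) := by
  have hstep : PTF₂ (fun (c : γ) (p : ℕ × List ℕ) =>
      (rho (s c) (t c) p.1, p.1 :: ap (s c) p.1 :: p.2)) := by
    have h1 : PTF (fun q : γ × ℕ × List ℕ => ap (s q.1) q.2.1) :=
      ptf_ap (PTF.comp hs PTF.fst) (by fun_prop)
    have h2 : PTF (fun q : γ × ℕ × List ℕ => ap (t q.1) (ap (s q.1) q.2.1)) :=
      ptf_ap (PTF.comp ht PTF.fst) h1
    exact PTF.prodMk h2 (PTF.listCons (by fun_prop) (PTF.listCons h1 (by fun_prop)))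
  have h := PTF.iterate' (n := n)
    (f := fun (c : γ) (p : ℕ × List ℕ) => (rho (s c) (t c) p.1, p.1 :: ap (s c) p.1 :: p.2))
    (a := fun c => (a c, [])) hn hstep (PTF.prodMk ha (PTF.const []))
    (B := fun c => 2 * (sz (a c) + sz (s c) + sz (t c)) + 1 +
      n c * (4 * (sz (a c) + sz (s c) + sz (t c)) + 2)) (by
        have := hn.pb
        have := ha.sz
        have := hs.sz
        have := ht.sz
        fun_prop) (fun c i hi => by
      have h3 := sz_orb_le i (s c) (t c) (a c)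
      simp only [orb] at h3
      rw [sz_prod]
      have h4 : i * (4 * (sz (a c) + sz (s c) + sz (t c)) + 2) ≤
        n c * (4 * (sz (a c) + sz (s c) + sz (t c)) + 2) := Nat.mul_le_mul_right _ hi
      omega)
  exact PTF.comp (g := fun p : ℕ × List ℕ => p.2) (by fun_prop) h

/-- `mix` on lists -/
def mixL (n : ℕ) (C s t : List ℕ) : List ℕ :=
  tab n (fun v => if v ∈ C then ap t v else ap s v)

theorem ptf_mixL {n : γ → ℕ} {C s t : γ → List ℕ} (hn : PTU n) (hC : PTF C) (hs : PTF s)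
    (ht : PTF t) : PTF (fun c => mixL (n c) (C c) (s c) (t c)) := by
  unfold mixL
  refine ptf_tab hn ?_
  refine PTF.ite ?_ ?_ ?_
  · exact PTPred.mem (by fun_prop) (PTF.comp hC PTF.fst)
  · exact ptf_ap (PTF.comp ht PTF.fst) (by fun_prop)
  · exact ptf_ap (PTF.comp hs PTF.fst) (by fun_prop)

/-- `cut` on lists -/
def cutL (n : ℕ) (s : List ℕ) (u v : ℕ) : List ℕ :=
  tab n (fun w => if w = u ∨ w = v then w else ap s w)

theorem ptf_cutL {n : γ → ℕ} {s : γ → List ℕ} {u v : γ → ℕ} (hn : PTU n) (hs : PTF s)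
    (hu : PTF u) (hv : PTF v) : PTF (fun c => cutL (n c) (s c) (u c) (v c)) := by
  unfold cutL
  refine ptf_tab hn ?_
  refine PTF.ite (PTPred.or (PTPred.natEq (by fun_prop) (by fun_prop))
    (PTPred.natEq (by fun_prop) (by fun_prop))) (by fun_prop) ?_
  exact ptf_ap (PTF.comp hs PTF.fst) (by fun_prop)

/-- `join` on lists -/
def joinL (n : ℕ) (s : List ℕ) (u v : ℕ) : List ℕ :=
  tab n (fun w => if w = u then v else if w = v then u else ap s w)

theorem ptf_joinL {n : γ → ℕ} {s : γ → List ℕ} {u v : γ → ℕ} (hn : PTU n) (hs : PTF s)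
    (hu : PTF u) (hv : PTF v) : PTF (fun c => joinL (n c) (s c) (u c) (v c)) := by
  unfold joinL
  refine ptf_tab hn ?_
  refine PTF.ite (PTPred.natEq (by fun_prop) (by fun_prop)) (by fun_prop)
    (PTF.ite (PTPred.natEq (by fun_prop) (by fun_prop)) (by fun_prop) ?_)
  exact ptf_ap (PTF.comp hs PTF.fst) (by fun_prop)

/-- perfect matching test -/
def pmL (n : ℕ) (s : List ℕ) : Bool :=
  (List.range n).all (fun v => decide (ap s v < n) && decide (ap s (ap s v) = v) &&
    decide (ap s v ≠ v))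

theorem ptf_pmL {n : γ → ℕ} {s : γ → List ℕ} (hn : PTU n) (hs : PTF s) :
    PTF (fun c => pmL (n c) (s c)) := by
  unfold pmL
  have h1 : PTF (fun q : γ × ℕ => ap (s q.1) q.2) := ptf_ap (PTF.comp hs PTF.fst) (by fun_prop)
  have h2 : PTF (fun q : γ × ℕ => ap (s q.1) (ap (s q.1) q.2)) :=
    ptf_ap (PTF.comp hs PTF.fst) h1
  have h3 : PTF (fun q : γ × ℕ => n q.1) := PTU.toPTF (PTU.comp hn PTF.fst)
  refine PTF.all (PTF.range hn) ?_
  refine PTF.and (PTF.and ?_ ?_) ?_
  · exact PTPred.toPTF (PTPred.natLt h1 h3)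
  · exact PTPred.toPTF (PTPred.natEq h2 (by fun_prop))
  · exact PTPred.toPTF (PTPred.not (PTPred.natEq h1 (by fun_prop)))

/-! ### candidates -/

/-- exchange of the component of `u` -/
def exL (n u : ℕ) (p : List ℕ × List ℕ) : List ℕ × List ℕ :=
  (mixL n (compL n p.1 p.2 u) p.1 p.2, mixL n (compL n p.1 p.2 u) p.2 p.1)

/-- switch -/
def swL (n u v x y : ℕ) (s : List ℕ) : List ℕ :=
  if ap s u = v ∧ ap s x = y then joinL n (joinL n s u x) v y
  else if ap s u = x ∧ ap s v = y then joinL n (joinL n s u v) x y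
  else s

/-- double switch, one direction: cut `uv` in `s`, `xy` in `t`; swap; join `xv`, `uy` -/
def twoHalf (n u v x y : ℕ) (s t : List ℕ) : List ℕ × List ℕ :=
  (joinL n (mixL n (compL n (cutL n s u v) (cutL n t x y) u) (cutL n s u v) (cutL n t x y)) x v,
    joinL n (mixL n (compL n (cutL n s u v) (cutL n t x y) u) (cutL n t x y) (cutL n s u v)) u y)

/-- double switch -/
def twoL (n u v x y : ℕ) (p : List ℕ × List ℕ) : List ℕ × List ℕ :=
  if ap p.1 u = v ∧ ap p.2 x = y then twoHalf n u v x y p.1 p.2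
  else if ap p.1 x = v ∧ ap p.2 u = y then twoHalf n x v u y p.1 p.2
  else p

/-- labels: kind and four vertices -/
abbrev LabL := ℕ × ℕ × ℕ × ℕ × ℕ

/-- the candidate of a label -/
def candL (n : ℕ) (l : LabL) (p : List ℕ × List ℕ) : List ℕ × List ℕ :=
  if l.1 = 0 then exL n l.2.1 p
  else if l.1 = 1 then (swL n l.2.1 l.2.2.1 l.2.2.2.1 l.2.2.2.2 p.1, p.2)
  else if l.1 = 2 then (p.1, swL n l.2.1 l.2.2.1 l.2.2.2.1 l.2.2.2.2 p.2)
  else twoL n l.2.1 l.2.2.1 l.2.2.2.1 l.2.2.2.2 p

theorem ptf_exL {n u : γ → ℕ} {p : γ → List ℕ × List ℕ} (hn : PTU n) (hu : PTF u) (hp : PTF p) :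
    PTF (fun c => exL (n c) (u c) (p c)) := by
  unfold exL
  have hC : PTF (fun c => compL (n c) (p c).1 (p c).2 (u c)) :=
    ptf_compL hn (by fun_prop) (by fun_prop) hu
  exact PTF.prodMk (ptf_mixL hn hC (by fun_prop) (by fun_prop))
    (ptf_mixL hn hC (by fun_prop) (by fun_prop))

theorem ptf_swL {n u v x y : γ → ℕ} {s : γ → List ℕ} (hn : PTU n) (hu : PTF u) (hv : PTF v)
    (hx : PTF x) (hy : PTF y) (hs : PTF s) :
    PTF (fun c => swL (n c) (u c) (v c) (x c) (y c) (s c)) := by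
  unfold swL
  refine PTF.ite (PTPred.and ?_ ?_) ?_ (PTF.ite (PTPred.and ?_ ?_) ?_ hs)
  · exact PTPred.natEq (ptf_ap hs hu) hv
  · exact PTPred.natEq (ptf_ap hs hx) hy
  · exact ptf_joinL hn (ptf_joinL hn hs hu hx) hv hy
  · exact PTPred.natEq (ptf_ap hs hu) hx
  · exact PTPred.natEq (ptf_ap hs hv) hy
  · exact ptf_joinL hn (ptf_joinL hn hs hu hv) hx hy

theorem ptf_twoHalf {n u v x y : γ → ℕ} {s t : γ → List ℕ} (hn : PTU n) (hu : PTF u) (hv : PTF v)
    (hx : PTF x) (hy : PTF y) (hs : PTF s) (ht : PTF t) :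
    PTF (fun c => twoHalf (n c) (u c) (v c) (x c) (y c) (s c) (t c)) := by
  unfold twoHalf
  have h1 := ptf_cutL hn hs hu hv
  have h2 := ptf_cutL hn ht hx hy
  have h3 := ptf_compL hn h1 h2 hu
  exact PTF.prodMk (ptf_joinL hn (ptf_mixL hn h3 h1 h2) hx hv)
    (ptf_joinL hn (ptf_mixL hn h3 h2 h1) hu hy)

theorem ptf_twoL {n u v x y : γ → ℕ} {p : γ → List ℕ × List ℕ} (hn : PTU n) (hu : PTF u)
    (hv : PTF v) (hx : PTF x) (hy : PTF y) (hp : PTF p) :
    PTF (fun c => twoL (n c) (u c) (v c) (x c) (y c) (p c)) := by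
  unfold twoL
  have h1 : PTF (fun c => (p c).1) := by fun_prop
  have h2 : PTF (fun c => (p c).2) := by fun_prop
  refine PTF.ite (PTPred.and ?_ ?_) ?_ (PTF.ite (PTPred.and ?_ ?_) ?_ hp)
  · exact PTPred.natEq (ptf_ap h1 hu) hv
  · exact PTPred.natEq (ptf_ap h2 hx) hy
  · exact ptf_twoHalf hn hu hv hx hy h1 h2
  · exact PTPred.natEq (ptf_ap h1 hx) hv
  · exact PTPred.natEq (ptf_ap h2 hu) hy
  · exact ptf_twoHalf hn hx hv hu hy h1 h2

theorem ptf_candL {n : γ → ℕ} {l : γ → LabL} {p : γ → List ℕ × List ℕ} (hn : PTU n)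
    (hl : PTF l) (hp : PTF p) : PTF (fun c => candL (n c) (l c) (p c)) := by
  unfold candL
  have hk : PTF (fun c => (l c).1) := by fun_prop
  have hu : PTF (fun c => (l c).2.1) := by fun_prop
  have hv : PTF (fun c => (l c).2.2.1) := by fun_prop
  have hx : PTF (fun c => (l c).2.2.2.1) := by fun_prop
  have hy : PTF (fun c => (l c).2.2.2.2) := by fun_prop
  have h1 : PTF (fun c => (p c).1) := by fun_prop
  have h2 : PTF (fun c => (p c).2) := by fun_prop
  refine PTF.ite (PTPred.natEq hk (by fun_prop)) (ptf_exL hn hu hp)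
    (PTF.ite (PTPred.natEq hk (by fun_prop)) (PTF.prodMk (ptf_swL hn hu hv hx hy h1) h2)
      (PTF.ite (PTPred.natEq hk (by fun_prop)) (PTF.prodMk h1 (ptf_swL hn hu hv hx hy h2))
        (ptf_twoL hn hu hv hx hy hp)))

/-- the guard -/
def okL (n : ℕ) (l : LabL) (p : List ℕ × List ℕ) : Bool :=
  pmL n (candL n l p).1 && pmL n (candL n l p).2 && decide (candL n l (candL n l p) = p)

theorem ptf_okL {n : γ → ℕ} {l : γ → LabL} {p : γ → List ℕ × List ℕ} (hn : PTU n)
    (hl : PTF l) (hp : PTF p) : PTF (fun c => okL (n c) (l c) (p c)) := by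
  unfold okL
  have h := ptf_candL hn hl hp
  refine PTF.and (PTF.and ?_ ?_) (PTPred.toPTF (PTPred.eq ?_ hp))
  · exact ptf_pmL hn (by fun_prop)
  · exact ptf_pmL hn (by fun_prop)
  · exact ptf_candL hn hl h

/-- weight of a matching (natural-number tables) -/
def wtL (n : ℕ) (lam : ℕ → ℕ → ℕ) (s : List ℕ) : ℕ :=
  ∏ v ∈ Finset.range n, if v < ap s v then lam v (ap s v) else 1

theorem ptf_wtL {n : γ → ℕ} {lam : γ → ℕ → ℕ → ℕ} {s : γ → List ℕ} (hn : PTU n)
    (hlam : PTF (fun q : γ × ℕ × ℕ => lam q.1 q.2.1 q.2.2)) (hs : PTF s) :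
    PTF (fun c => wtL (n c) (lam c) (s c)) := by
  unfold wtL
  have h1 : PTF (fun q : γ × ℕ => ap (s q.1) q.2) := ptf_ap (PTF.comp hs PTF.fst) (by fun_prop)
  refine PTF.natProdRange hn ?_
  refine PTF.ite (PTPred.natLt (by fun_prop) h1) ?_ (PTF.const 1)
  exact PTF.comp (g := fun q : γ × ℕ × ℕ => lam q.1 q.2.1 q.2.2)
    (f := fun q : γ × ℕ => (q.1, q.2, ap (s q.1) q.2)) hlam
    (PTF.prodMk (by fun_prop) (PTF.prodMk (by fun_prop) h1))

/-- the guarded move on lists -/
def tauL (n : ℕ) (l : LabL) (p : List ℕ × List ℕ) : List ℕ × List ℕ :=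
  if okL n l p = true then candL n l p else p

theorem ptf_tauL {n : γ → ℕ} {l : γ → LabL} {p : γ → List ℕ × List ℕ} (hn : PTU n)
    (hl : PTF l) (hp : PTF p) : PTF (fun c => tauL (n c) (l c) (p c)) := by
  unfold tauL
  exact PTF.ite (PTF.toPTPred (ptf_okL hn hl hp)) (ptf_candL hn hl hp) hp

/-! ### decoding of a move index -/

/-- first replica -/
def pIdx (k i : ℕ) : ℕ := i % k

/-- second replica -/
def qIdx (k i : ℕ) : ℕ := (i % k + 1 + (i / k) % (k - 1)) % k

/-- label -/
def lIdx (n k i : ℕ) : LabL :=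
  ((i / k / (k - 1)) % 4, (i / k / (k - 1) / 4) % n, (i / k / (k - 1) / 4 / n) % n,
    (i / k / (k - 1) / 4 / n / n) % n, (i / k / (k - 1) / 4 / n / n / n) % n)

/-- number of indices -/
def nIdx (n k : ℕ) : ℕ := k * (k - 1) * (4 * n ^ 4)

/-- the new pair produced by move `i` -/
def newL (n k i : ℕ) (pop : List (List ℕ)) : List ℕ × List ℕ :=
  tauL n (lIdx n k i) (pop.getD (pIdx k i) [], pop.getD (qIdx k i) [])

/-- move `i` on a population -/
def mvL (n k : ℕ) (i : ℕ) (pop : List (List ℕ)) : List (List ℕ) :=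
  (pop.set (pIdx k i) (newL n k i pop).1).set (qIdx k i) (newL n k i pop).2

/-- old weight of the pair touched by move `i` -/
def aL (n k : ℕ) (lam : ℕ → ℕ → ℕ) (i : ℕ) (pop : List (List ℕ)) : ℕ :=
  wtL n lam (pop.getD (pIdx k i) []) * wtL n lam (pop.getD (qIdx k i) [])

/-- new weight of the pair touched by move `i` -/
def bL (n k : ℕ) (lam : ℕ → ℕ → ℕ) (i : ℕ) (pop : List (List ℕ)) : ℕ :=
  wtL n lam (newL n k i pop).1 * wtL n lam (newL n k i pop).2

theorem ptf_pIdx {k i : γ → ℕ} (hk : PTF k) (hi : PTF i) : PTF (fun c => pIdx (k c) (i c)) :=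
  PTF.natMod hi hk

theorem ptf_qIdx {k i : γ → ℕ} (hk : PTF k) (hi : PTF i) : PTF (fun c => qIdx (k c) (i c)) := by
  unfold qIdx
  exact PTF.natMod (PTF.natAdd (PTF.natAdd (PTF.natMod hi hk) (PTF.const 1))
    (PTF.natMod (PTF.natDiv hi hk) (PTF.natSub hk (PTF.const 1)))) hk

theorem ptf_lIdx {n k i : γ → ℕ} (hn : PTF n) (hk : PTF k) (hi : PTF i) :
    PTF (fun c => lIdx (n c) (k c) (i c)) := by
  unfold lIdx
  have h1 : PTF (fun c => i c / k c / (k c - 1)) :=
    PTF.natDiv (PTF.natDiv hi hk) (PTF.natSub hk (PTF.const 1))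
  have h2 := PTF.natDiv h1 (PTF.const 4)
  have h3 := PTF.natDiv h2 hn
  have h4 := PTF.natDiv h3 hn
  have h5 := PTF.natDiv h4 hn
  exact PTF.prodMk (PTF.natMod h1 (PTF.const 4)) (PTF.prodMk (PTF.natMod h2 hn)
    (PTF.prodMk (PTF.natMod h3 hn) (PTF.prodMk (PTF.natMod h4 hn) (PTF.natMod h5 hn))))

theorem ptf_newL {n k i : γ → ℕ} {pop : γ → List (List ℕ)} (hn : PTU n) (hk : PTF k)
    (hi : PTF i) (hpop : PTF pop) : PTF (fun c => newL (n c) (k c) (i c) (pop c)) := by
  unfold newL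
  exact ptf_tauL hn (ptf_lIdx (PTU.toPTF hn) hk hi)
    (PTF.prodMk (ptf_getD' (ptf_pIdx hk hi) hpop (PTF.const []))
      (ptf_getD' (ptf_qIdx hk hi) hpop (PTF.const [])))

theorem ptf_mvL {n k i : γ → ℕ} {pop : γ → List (List ℕ)} (hn : PTU n) (hk : PTF k)
    (hi : PTF i) (hpop : PTF pop) : PTF (fun c => mvL (n c) (k c) (i c) (pop c)) := by
  unfold mvL
  have h := ptf_newL hn hk hi hpop
  exact ptf_set' (ptf_set' hpop (ptf_pIdx hk hi) (by fun_prop)) (ptf_qIdx hk hi) (by fun_prop)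

theorem ptf_aL {n k i : γ → ℕ} {lam : γ → ℕ → ℕ → ℕ} {pop : γ → List (List ℕ)} (hn : PTU n)
    (hk : PTF k) (hlam : PTF (fun q : γ × ℕ × ℕ => lam q.1 q.2.1 q.2.2)) (hi : PTF i)
    (hpop : PTF pop) : PTF (fun c => aL (n c) (k c) (lam c) (i c) (pop c)) := by
  unfold aL
  exact PTF.natMul
    (ptf_wtL hn hlam (ptf_getD' (ptf_pIdx hk hi) hpop (PTF.const [])))
    (ptf_wtL hn hlam (ptf_getD' (ptf_qIdx hk hi) hpop (PTF.const [])))

theorem ptf_bL {n k i : γ → ℕ} {lam : γ → ℕ → ℕ → ℕ} {pop : γ → List (List ℕ)} (hn : PTU n)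
    (hk : PTF k) (hlam : PTF (fun q : γ × ℕ × ℕ => lam q.1 q.2.1 q.2.2)) (hi : PTF i)
    (hpop : PTF pop) : PTF (fun c => bL (n c) (k c) (lam c) (i c) (pop c)) := by
  unfold bL
  have h := ptf_newL hn hk hi hpop
  exact PTF.natMul (ptf_wtL hn hlam (by fun_prop)) (ptf_wtL hn hlam (by fun_prop))

end Crest.Agent.R304.LM
end

-- ▼ part R304/Sampler

/-!
# R304 / S0464: the population sampler as a program on the tape

* the pair move is `L6.hbStep (nIdx n k) B0 B (mvL n k) (aL n k lam) (bL n k lam)` on lists of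
  tables (`B0` index bits, `B` acceptance bits);
* `pmInit`, `initL`: `k` sequentially sampled uniform perfect matchings of `K_n`;
* `sampL`: initial population, then the pair moves of a list `ts` of stages, the weights of stage
  `t` being `lam t : ℕ → ℕ → ℕ`;
* `ptf_sampL`: the sampler is polynomial-time.
-/

set_option autoImplicit false
set_option linter.dupNamespace false

namespace Crest.Agent.R304.Samp

open Crest.Agent.Lib.PT Crest.Agent.R309.Tape Crest.Agent.R309.PTX Crest.Agent.R304.LM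
open Crest.Agent.Lib.PT.Arith (msb)
open Crest.Agent.R304.L6

variable {γ : Type} [PTCode γ]

/-- one pair move -/
def stepL (n k B0 B : ℕ) (lam : ℕ → ℕ → ℕ) (pop : List (List ℕ)) (l : List Bool) :
    List (List ℕ) :=
  hbStep (nIdx n k) B0 B (mvL n k) (aL n k lam) (bL n k lam) pop l

/-- one step of the sequential construction of a uniform perfect matching: state is
(free vertices, table), the number `l` chooses the partner of the first free vertex -/
def matchStep (n : ℕ) (s : List ℕ × List ℕ) (l : List Bool) : List ℕ × List ℕ :=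
  (s.1.tail.eraseIdx (msb l % s.1.tail.length),
    joinL n s.2 (s.1.headD 0) (s.1.tail.getD (msb l % s.1.tail.length) 0))

/-- a sequentially sampled perfect matching; uses `(n / 2) * B` bits -/
def pmInit (n B : ℕ) (t : List Bool) : List ℕ :=
  (runSteps (matchStep n) B (n / 2) (List.range n, List.range n) t).2

/-- initial population; uses `k * (n / 2 * B)` bits -/
def initL (n k B : ℕ) (t : List Bool) : List (List ℕ) :=
  (blocks (n / 2 * B) k t).map (pmInit n B)

/-- number of tape bits of the sampler with `T` pair moves -/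
def sampLen (n k B0 B T : ℕ) : ℕ := k * (n / 2 * B) + T * (B0 + B)

/-- the sampler: `ts` is the list of the stage numbers of the pair moves -/
def sampL (n k B0 B : ℕ) (lam : ℕ → ℕ → ℕ → ℕ) (ts : List ℕ) (t : List Bool) : List (List ℕ) :=
  runL (fun s => stepL n k B0 B (lam s)) (B0 + B) ts (initL n k B (t.take (k * (n / 2 * B))))
    (t.drop (k * (n / 2 * B)))

/-- `reps T τ`: stages `0, …, T-1`, each repeated `τ` times -/
def reps (T τ : ℕ) : List ℕ := (List.range T).flatMap (fun s => List.replicate τ s)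

@[simp] theorem length_reps (T τ : ℕ) : (reps T τ).length = T * τ := by
  simp [reps, List.length_flatMap]

/-! ### polynomial time -/

theorem ptf_reps {T τ : γ → ℕ} (hT : PTU T) (hτ : PTU τ) : PTF (fun c => reps (T c) (τ c)) := by
  unfold reps
  refine PTF.flatMap (PTF.range hT) ?_
  exact PTF.replicate (PTU.comp hτ PTF.fst) (by fun_prop)

theorem ptf_nIdx {n k : γ → ℕ} (hn : PTF n) (hk : PTF k) : PTF (fun c => nIdx (n c) (k c)) := by
  unfold nIdx
  exact PTF.natMul (PTF.natMul hk (PTF.natSub hk (PTF.const 1)))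
    (PTF.natMul (PTF.const 4) (PTF.natPowConst hn 4))

theorem ptf_stepL {n k B0 B : γ → ℕ} {lam : γ → ℕ → ℕ → ℕ} {pop : γ → List (List ℕ)}
    {l : γ → List Bool} (hn : PTU n) (hk : PTF k) (hB0 : PTF B0) (hB : PTU B)
    (hlam : PTF (fun q : γ × ℕ × ℕ => lam q.1 q.2.1 q.2.2)) (hpop : PTF pop) (hl : PTF l) :
    PTF (fun c => stepL (n c) (k c) (B0 c) (B c) (lam c) (pop c) (l c)) := by
  unfold stepL hbStep
  have h1 : PTF (fun c => msb ((l c).drop (B0 c))) :=
    PTF.comp (g := fun l : List Bool => msb l) Arith.ptf_msb (ptf_drop' hB0 hl)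
  have h2 : PTF (fun c => msb ((l c).take (B0 c))) :=
    PTF.comp (g := fun l : List Bool => msb l) Arith.ptf_msb (ptf_take' hB0 hl)
  have h3 : PTF (fun c => msb ((l c).take (B0 c)) % nIdx (n c) (k c)) :=
    PTF.natMod h2 (ptf_nIdx (PTU.toPTF hn) hk)
  have h4 := ptf_aL hn hk hlam h3 hpop
  have h5 := ptf_bL hn hk hlam h3 hpop
  have h6 := ptf_mvL hn hk h3 hpop
  exact PTF.ite (PTPred.natLt (PTF.natMul h1 (PTF.natAdd h4 h5))
    (PTF.natMul h5 (PTF.natTwoPow hB))) h6 hpop

/-- `runL` over a list of stages is poly-time if the sizes of all intermediate states are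
bounded -/
theorem ptf_runL {σ T : Type} [PTCode σ] [PTCode T] {f : γ → T → σ → List Bool → σ}
    {r : γ → ℕ} {ts : γ → List T} {s : γ → σ} {t : γ → List Bool}
    (hf : PTF (fun p : γ × T × σ × List Bool => f p.1 p.2.1 p.2.2.1 p.2.2.2)) (hr : PTF r)
    (hts : PTF ts) (hs : PTF s) (ht : PTF t) {B : γ → ℕ} (hB : PB B)
    (hb : ∀ c, ∀ i ≤ (ts c).length, sz (runL (f c) (r c) ((ts c).take i) (s c) (t c)) ≤ B c) :
    PTF (fun c => runL (f c) (r c) (ts c) (s c) (t c)) := by
  have key : ∀ (c : γ) (l : List T) (x : σ) (w : List Bool),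
      l.foldl (fun (p : σ × List Bool) a => (f c a p.1 (p.2.take (r c)), p.2.drop (r c))) (x, w) =
        (runL (f c) (r c) l x w, w.drop (l.length * r c)) := by
    intro c l
    induction l with
    | nil => intro x w; simp [runL]
    | cons a l ih =>
      intro x w
      rw [List.foldl_cons, ih]
      simp only [runL, List.length_cons, List.drop_drop]
      congr 2
      ring
  have h := PTF.foldl (l := ts)
    (f := fun (c : γ) (p : σ × List Bool) (a : T) => (f c a p.1 (p.2.take (r c)), p.2.drop (r c)))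
    (b := fun c => (s c, t c)) hts (by
      refine PTF.prodMk ?_ ?_
      · exact PTF.comp (g := fun p : γ × T × σ × List Bool => f p.1 p.2.1 p.2.2.1 p.2.2.2)
          (f := fun q : γ × (σ × List Bool) × T => (q.1, q.2.2, q.2.1.1, q.2.1.2.take (r q.1))) hf
          (PTF.prodMk (by fun_prop) (PTF.prodMk (by fun_prop) (PTF.prodMk (by fun_prop)
            (ptf_take' (PTF.comp hr PTF.fst) (by fun_prop)))))
      · exact ptf_drop' (PTF.comp hr PTF.fst) (by fun_prop)) (PTF.prodMk hs ht)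
    (B := fun c => 2 * B c + 1 + sz (t c)) (by fun_prop) (fun c i hi => by
      rw [key]
      simp only [sz_prod]
      have h1 := hb c i hi
      have h2 := sz_drop_le (t c) (((ts c).take i).length * r c)
      omega)
  refine PTF.of_eq (PTF.comp (g := fun p : σ × List Bool => p.1) (by fun_prop) h) (fun c => ?_)
  rw [key]

/-! sizes -/

theorem sz_of_pmL {n : ℕ} {s : List ℕ} (h : pmL n s = true) (hl : s.length = n) :
    sz s ≤ n * (2 * n + 1) := by
  have h1 : ∀ a ∈ s, sz a ≤ n := by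
    intro a ha
    obtain ⟨v, hv, rfl⟩ := List.mem_iff_getElem.1 ha
    have h2 : ap s v < n := by
      unfold pmL at h
      rw [List.all_eq_true] at h
      have := h v (List.mem_range.2 (by omega))
      simp only [Bool.and_eq_true, decide_eq_true_eq] at this
      exact this.1.1
    have h3 : ap s v = s[v] := by simp [ap, List.getD_eq_getElem?_getD, hv]
    rw [← h3]
    exact (sz_nat_le _).trans h2.le
  have := sz_list_le h1
  rw [hl] at this
  exact this

/-- size invariant of a population: all tables have codes of length at most `M` -/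
def SzInv (K M : ℕ) (pop : List (List ℕ)) : Prop := pop.length ≤ K ∧ ∀ s ∈ pop, sz s ≤ M

theorem SzInv.sz_le {K M : ℕ} {pop : List (List ℕ)} (h : SzInv K M pop) :
    sz pop ≤ K * (2 * M + 1) :=
  (sz_list_le h.2).trans (Nat.mul_le_mul_right _ h.1)

theorem SzInv.set {K M : ℕ} {pop : List (List ℕ)} (h : SzInv K M pop) {i : ℕ} {a : List ℕ}
    (ha : sz a ≤ M) : SzInv K M (pop.set i a) := by
  refine ⟨by simpa using h.1, fun s hs => ?_⟩
  rcases List.mem_or_eq_of_mem_set hs with h1 | h1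
  · exact h.2 s h1
  · rw [h1]; exact ha

theorem SzInv.getD {K M : ℕ} {pop : List (List ℕ)} (h : SzInv K M pop) (i : ℕ) :
    sz (pop.getD i []) ≤ M := by
  rw [List.getD_eq_getElem?_getD]
  rcases h1 : pop[i]? with _ | a
  · simp
  · simp only [Option.getD_some]
    exact h.2 _ (List.mem_of_getElem? h1)

theorem length_joinL (n : ℕ) (s : List ℕ) (u v : ℕ) : (joinL n s u v).length = n := by
  simp [joinL]

theorem length_mixL (n : ℕ) (C s t : List ℕ) : (mixL n C s t).length = n := by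
  simp [mixL]

/-- the candidate is either the old table or a table of length `n` -/
theorem candL_length (n : ℕ) (l : LabL) (p : List ℕ × List ℕ) :
    ((candL n l p).1 = p.1 ∨ (candL n l p).1.length = n) ∧
      ((candL n l p).2 = p.2 ∨ (candL n l p).2.length = n) := by
  have hsw : ∀ (u v x y : ℕ) (s : List ℕ), swL n u v x y s = s ∨ (swL n u v x y s).length = n := by
    intro u v x y s
    unfold swL
    split_ifs
    · exact Or.inr (length_joinL _ _ _ _)
    · exact Or.inr (length_joinL _ _ _ _)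
    · exact Or.inl rfl
  unfold candL
  split_ifs
  · exact ⟨Or.inr (length_mixL _ _ _ _), Or.inr (length_mixL _ _ _ _)⟩
  · exact ⟨hsw _ _ _ _ _, Or.inl rfl⟩
  · exact ⟨Or.inl rfl, hsw _ _ _ _ _⟩
  · unfold twoL twoHalf
    split_ifs
    · exact ⟨Or.inr (length_joinL _ _ _ _), Or.inr (length_joinL _ _ _ _)⟩
    · exact ⟨Or.inr (length_joinL _ _ _ _), Or.inr (length_joinL _ _ _ _)⟩
    · exact ⟨Or.inl rfl, Or.inl rfl⟩

theorem sz_tauL (n : ℕ) (l : LabL) (p : List ℕ × List ℕ) (M : ℕ)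
    (hM : n * (2 * n + 1) ≤ M) (h1 : sz p.1 ≤ M) (h2 : sz p.2 ≤ M) :
    sz (tauL n l p).1 ≤ M ∧ sz (tauL n l p).2 ≤ M := by
  unfold tauL
  split_ifs with hok
  · unfold okL at hok
    simp only [Bool.and_eq_true] at hok
    obtain ⟨c1, c2⟩ := candL_length n l p
    constructor
    · rcases c1 with c1 | c1
      · rw [c1]; exact h1
      · exact (sz_of_pmL hok.1.1 c1).trans hM
    · rcases c2 with c2 | c2
      · rw [c2]; exact h2
      · exact (sz_of_pmL hok.1.2 c2).trans hM
  · exact ⟨h1, h2⟩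

theorem SzInv.mvL {K M n k : ℕ} (i : ℕ) {pop : List (List ℕ)} (hM : n * (2 * n + 1) ≤ M)
    (h : SzInv K M pop) : SzInv K M (mvL n k i pop) := by
  unfold LM.mvL newL
  have h1 := sz_tauL n (lIdx n k i) (pop.getD (pIdx k i) [], pop.getD (qIdx k i) []) M hM
    (h.getD _) (h.getD _)
  exact (h.set h1.1).set h1.2

theorem SzInv.stepL {K M n k B0 B : ℕ} (lam : ℕ → ℕ → ℕ) (l : List Bool)
    {pop : List (List ℕ)} (hM : n * (2 * n + 1) ≤ M) (h : SzInv K M pop) :
    SzInv K M (stepL n k B0 B lam pop l) := by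
  unfold Samp.stepL hbStep
  split_ifs
  · exact h.mvL _ hM
  · exact h


theorem ptf_eraseIdx {α : Type} [PTCode α] {l : γ → List α} {i : γ → ℕ} (hl : PTF l)
    (hi : PTF i) : PTF (fun c => (l c).eraseIdx (i c)) := by
  have h : PTF (fun c => (l c).take (i c) ++ (l c).drop (i c + 1)) :=
    PTF.append (ptf_take' hi hl) (ptf_drop' (PTF.natAdd hi (PTF.const 1)) hl)
  refine PTF.of_eq h (fun c => ?_)
  rw [List.eraseIdx_eq_take_drop_succ]

theorem ptf_matchStep {n : γ → ℕ} (hn : PTU n) :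
    PTF (fun p : γ × (List ℕ × List ℕ) × List Bool => matchStep (n p.1) p.2.1 p.2.2) := by
  unfold matchStep
  have h1 : PTF (fun p : γ × (List ℕ × List ℕ) × List Bool => p.2.1.1.tail) := by fun_prop
  have h2 : PTF (fun p : γ × (List ℕ × List ℕ) × List Bool => msb p.2.2) :=
    PTF.comp (g := fun l : List Bool => msb l) Arith.ptf_msb (by fun_prop)
  have h3 : PTF (fun p : γ × (List ℕ × List ℕ) × List Bool =>
      msb p.2.2 % p.2.1.1.tail.length) := PTF.natMod h2 (PTU.toPTF (PTU.length h1))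
  have h4 : PTF (fun p : γ × (List ℕ × List ℕ) × List Bool => p.2.1.1.headD 0) := by
    refine PTF.of_eq (ptf_head?D (l := fun p : γ × (List ℕ × List ℕ) × List Bool => p.2.1.1)
      (d := fun _ => 0) (by fun_prop) (PTF.const 0)) (fun c => ?_)
    rw [List.headD_eq_head?_getD]
  refine PTF.prodMk (ptf_eraseIdx h1 h3) ?_
  exact ptf_joinL (PTU.comp hn PTF.fst) (by fun_prop) h4 (ptf_getD' h3 h1 (PTF.const 0))

theorem mem_joinL_le {n : ℕ} {s : List ℕ} {u v M : ℕ} (hs : ∀ a ∈ s, a ≤ M) (hu : u ≤ M)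
    (hv : v ≤ M) : ∀ a ∈ joinL n s u v, a ≤ M := by
  intro a ha
  unfold joinL tab at ha
  obtain ⟨w, _, rfl⟩ := List.mem_map.1 ha
  split_ifs
  · exact hv
  · exact hu
  · unfold ap
    rw [List.getD_eq_getElem?_getD]
    rcases h : s[w]? with _ | b
    · simp
    · simp only [Option.getD_some]
      exact hs _ (List.mem_of_getElem? h)

/-- invariant of the sequential construction -/
def MInv (n : ℕ) (s : List ℕ × List ℕ) : Prop :=
  s.1.length ≤ n ∧ (∀ a ∈ s.1, a ≤ n) ∧ s.2.length = n ∧ ∀ a ∈ s.2, a ≤ n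

theorem MInv.step {n : ℕ} {s : List ℕ × List ℕ} (h : MInv n s) (l : List Bool) :
    MInv n (matchStep n s l) := by
  obtain ⟨h1, h2, h3, h4⟩ := h
  have hd : ∀ i, s.1.tail.getD i 0 ≤ n := by
    intro i
    rw [List.getD_eq_getElem?_getD]
    rcases h : s.1.tail[i]? with _ | b
    · simp
    · simp only [Option.getD_some]
      exact h2 _ (List.mem_of_mem_tail (List.mem_of_getElem? h))
  refine ⟨?_, ?_, length_joinL _ _ _ _, ?_⟩
  · refine (List.length_eraseIdx_le _ _).trans ?_
    simp only [List.length_tail]; omega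
  · intro a ha
    exact h2 a (List.mem_of_mem_tail (List.mem_of_mem_eraseIdx ha))
  · refine mem_joinL_le h4 ?_ (hd _)
    cases hs : s.1 with
    | nil => simp
    | cons a t => simp only [List.headD_cons]; exact h2 a (by rw [hs]; simp)

theorem MInv.init (n : ℕ) : MInv n (List.range n, List.range n) := by
  refine ⟨by simp, fun a ha => (List.mem_range.1 ha).le, by simp,
    fun a ha => (List.mem_range.1 ha).le⟩

theorem MInv.sz {n : ℕ} {s : List ℕ × List ℕ} (h : MInv n s) :
    sz s ≤ 3 * (n * (2 * n + 1)) + 1 := by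
  have h1 : Crest.Agent.Lib.PT.sz s.1 ≤ s.1.length * (2 * n + 1) :=
    sz_list_le (fun a ha => (sz_nat_le a).trans (h.2.1 a ha))
  have h2 : Crest.Agent.Lib.PT.sz s.2 ≤ s.2.length * (2 * n + 1) :=
    sz_list_le (fun a ha => (sz_nat_le a).trans (h.2.2.2 a ha))
  have h3 := Nat.mul_le_mul_right (2 * n + 1) h.1
  rw [h.2.2.1] at h2
  rw [sz_prod]
  omega

theorem MInv.run {n : ℕ} (B k : ℕ) (t : List Bool) :
    MInv n (runSteps (matchStep n) B k (List.range n, List.range n) t) := by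
  induction k with
  | zero => exact MInv.init n
  | succ k ih => rw [runSteps_succ']; exact ih.step _

theorem ptf_pmInit {n B : γ → ℕ} {t : γ → List Bool} (hn : PTU n) (hB : PTF B) (ht : PTF t) :
    PTF (fun c => pmInit (n c) (B c) (t c)) := by
  unfold pmInit
  have hn2 : PTU (fun c => n c / 2) := by
    refine PTF.toPTU (PTF.natDiv (PTU.toPTF hn) (PTF.const 2)) ?_
    exact PB.mono hn.pb (fun c => Nat.div_le_self _ _)
  have hr : PTF (fun c => List.range (n c)) := PTF.range hn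
  have h := ptf_runSteps_inv (f := fun c => matchStep (n c)) (r := B) (k := fun c => n c / 2)
    (s := fun c => (List.range (n c), List.range (n c))) (t := t) (ptf_matchStep hn) hB hn2
    (PTF.prodMk hr hr) ht (B := fun c => 3 * (n c * (2 * n c + 1)) + 1)
    (by have := hn.pb; fun_prop) (fun c => MInv (n c)) (fun c => MInv.init _)
    (fun c x l hx => hx.step l) (fun c x hx => hx.sz)
  exact PTF.comp (g := fun p : List ℕ × List ℕ => p.2) (by fun_prop) h

theorem ptf_initL {n k B : γ → ℕ} {t : γ → List Bool} (hn : PTU n)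
    (hk : PTU k) (hB : PTF B) (ht : PTF t) :
    PTF (fun c => initL (n c) (k c) (B c) (t c)) := by
  unfold initL
  refine PTF.map (ptf_blocks (PTF.natMul (PTF.natDiv (PTU.toPTF hn) (PTF.const 2)) hB) hk ht) ?_
  exact ptf_pmInit (PTU.comp hn PTF.fst) (PTF.comp hB PTF.fst) (by fun_prop)

theorem SzInv.initL (n k B : ℕ) (t : List Bool) :
    SzInv k (3 * (n * (2 * n + 1)) + 1) (initL n k B t) := by
  unfold Samp.initL
  refine ⟨by simp, fun s hs => ?_⟩
  obtain ⟨b, _, rfl⟩ := List.mem_map.1 hs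
  have h := (MInv.run (n := n) B (n / 2) b).sz
  rw [sz_prod] at h
  unfold pmInit
  omega

/-- **The sampler is polynomial-time.** -/
theorem ptf_sampL {n k B0 B : γ → ℕ} {lam : γ → ℕ → ℕ → ℕ → ℕ} {ts : γ → List ℕ}
    {t : γ → List Bool} (hn : PTU n) (hk : PTU k) (hB0 : PTF B0) (hB : PTU B)
    (hlam : PTF (fun q : γ × ℕ × ℕ × ℕ => lam q.1 q.2.1 q.2.2.1 q.2.2.2)) (hts : PTF ts)
    (ht : PTF t) :
    PTF (fun c => sampL (n c) (k c) (B0 c) (B c) (lam c) (ts c) (t c)) := by
  unfold sampL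
  have hn' : PTF n := PTU.toPTF hn
  have hB' : PTF B := PTU.toPTF hB
  have hL : PTF (fun c => k c * (n c / 2 * B c)) :=
    PTF.natMul (PTU.toPTF hk) (PTF.natMul (PTF.natDiv hn' (PTF.const 2)) hB')
  have hinit : PTF (fun c => initL (n c) (k c) (B c) ((t c).take (k c * (n c / 2 * B c)))) :=
    ptf_initL hn hk hB' (ptf_take' hL ht)
  have hstep : PTF (fun p : γ × ℕ × List (List ℕ) × List Bool =>
      stepL (n p.1) (k p.1) (B0 p.1) (B p.1) (lam p.1 p.2.1) p.2.2.1 p.2.2.2) := by
    refine ptf_stepL (n := fun p : γ × ℕ × List (List ℕ) × List Bool => n p.1)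
      (k := fun p => k p.1) (B0 := fun p => B0 p.1) (B := fun p => B p.1)
      (lam := fun p => lam p.1 p.2.1) (pop := fun p => p.2.2.1) (l := fun p => p.2.2.2)
      (PTU.comp hn PTF.fst) (PTF.comp (PTU.toPTF hk) PTF.fst) (PTF.comp hB0 PTF.fst)
      (PTU.comp hB PTF.fst) ?_ (by fun_prop) (by fun_prop)
    exact PTF.comp (g := fun q : γ × ℕ × ℕ × ℕ => lam q.1 q.2.1 q.2.2.1 q.2.2.2)
      (f := fun q : (γ × ℕ × List (List ℕ) × List Bool) × ℕ × ℕ =>
        (q.1.1, q.1.2.1, q.2.1, q.2.2)) hlam (by fun_prop)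
  refine ptf_runL (f := fun c s => stepL (n c) (k c) (B0 c) (B c) (lam c s))
    (r := fun c => B0 c + B c) (ts := ts)
    (s := fun c => initL (n c) (k c) (B c) ((t c).take (k c * (n c / 2 * B c))))
    (t := fun c => (t c).drop (k c * (n c / 2 * B c))) hstep (PTF.natAdd hB0 hB') hts hinit
    (ptf_drop' hL ht) (B := fun c => k c * (2 * (3 * (n c * (2 * n c + 1)) + 1) + 1))
    (by
      have h1 := hn.pb
      have h2 := hk.pb
      fun_prop) (fun c i _ => ?_)
  have key : ∀ (l : List ℕ) (x : List (List ℕ)) (w : List Bool),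
      SzInv (k c) (3 * (n c * (2 * n c + 1)) + 1) x →
      SzInv (k c) (3 * (n c * (2 * n c + 1)) + 1)
        (runL (fun s => stepL (n c) (k c) (B0 c) (B c) (lam c s)) (B0 c + B c) l x w) := by
    intro l
    induction l with
    | nil => intro x w hx; exact hx
    | cons a l ih =>
      intro x w hx
      exact ih _ _ (SzInv.stepL _ _ (by omega) hx)
  exact (key _ _ _ (SzInv.initL _ _ _ _)).sz_le

end Crest.Agent.R304.Samp
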